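import Crest.Agent.X212.Cyl58.Cov

/-!
# X212/Cyl58/HB: capping a region along half bands

`HB W X β` : an open set `U ⊆ X` with finitely many disjoint half bands.  `Capd H C Z` : `Z` is `U`
with the caps `C a` glued in.  Existence `HB.exists_capd`, uniqueness `Capd.exists_diffeo`,
compactness `Capd.compactSpace`, connectedness `Capd.preconnectedSpace`.
-/

set_option autoImplicit false
set_option linter.unusedSectionVars false
noncomputable section
open Set Filter Topology Function Metric TopologicalSpace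
open scoped ContDiff Manifold

namespace Crest.Agent.X212.Cyl58

open Glue52

variable {V V' V'' W : Type} [NormedAddCommGroup V] [NormedSpace ℝ V] [NormedAddCommGroup V']
  [NormedSpace ℝ V'] [NormedAddCommGroup V''] [NormedSpace ℝ V''] [NormedAddCommGroup W]
  [NormedSpace ℝ W]

variable (W) in
/-- an open set with half bands: the side `b a` of the band `n a` lies in `U`, its core does not -/
structure HB (X : Pc V) (β : Type) : Type 1 where
  U : Opens X.M
  Y : β → Pc W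
  [cY : ∀ a, CompactSpace (Y a).M]
  n : ∀ a, (Y a).M × ℝ → X.M
  oe : ∀ a, IsOE ((Y a).I.prod 𝓘(ℝ, ℝ)) X.I (n a)
  b : β → Bool
  mem : ∀ a y r, 0 < r → n a (y, sg (b a) * r) ∈ U
  out : ∀ a y, n a (y, 0) ∉ U
  disj : ∀ a a' y y' r r', 0 < r → 0 < r' → n a (y, sg (b a) * r) = n a' (y', sg (b a') * r') → a = a'

attribute [instance] HB.cY

/-- `Z` is `H.U` with the caps glued in -/
structure Capd {X : Pc V} {β : Type} (H : HB W X β) (C : ∀ a, Cap V (H.Y a)) (Z : Pc V') where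
  φ : PartialDiffeomorph X.I Z.I X.M Z.M ∞
  cap : ∀ a, (C a).P.M → Z.M
  oe : ∀ a, IsOE (C a).P.I Z.I (cap a)
  src : φ.source = H.U
  tgt : φ.target = (⋃ a, cap a '' (range (C a).c)ᶜ)ᶜ
  eq : ∀ a y r, 0 < r → φ (H.n a (y, sg (H.b a) * r)) = cap a ((C a).c (y, Real.log r))
  disj : ∀ a a' z w, cap a z = cap a' w → a = a'

namespace HB

variable {X : Pc V} {β : Type} (H : HB W X β)

/-- the end of `U` along the half band `a` -/
def j (a : β) (p : (H.Y a).M × ℝ) : H.U := ⟨H.n a (p.1, hx (H.b a) p.2), H.mem a _ _ (Real.exp_pos _)⟩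

theorem isOE_j (a : β) : IsOE ((H.Y a).I.prod 𝓘(ℝ, ℝ)) X.I (H.j a) :=
  (isOE_val H.U).of_comp_left ((H.oe a).comp (IsOE.id.prodMap (isOE_hx (H.b a))))

theorem j_log (a : β) (y : (H.Y a).M) {r : ℝ} (hr : 0 < r) :
    (H.j a (y, -Real.log r) : X.M) = H.n a (y, sg (H.b a) * r) := by
  simp only [j, hx_log _ hr]

/-- the part `r ∈ s` of the half band `a` -/
def half (a : β) (s : Set ℝ) : Set X.M := H.n a '' (univ ×ˢ ((fun r => sg (H.b a) * r) '' s))

theorem mem_half {a : β} {s : Set ℝ} {x : X.M} :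
    x ∈ H.half a s ↔ ∃ y, ∃ r ∈ s, H.n a (y, sg (H.b a) * r) = x :=
  ⟨fun ⟨⟨y, _⟩, ⟨_, r, hr, rfl⟩, e⟩ => ⟨y, r, hr, e⟩,
    fun ⟨y, r, hr, e⟩ => ⟨(y, _), ⟨mem_univ _, r, hr, rfl⟩, e⟩⟩

theorem isCompact_half (a : β) {s : Set ℝ} (hs : IsCompact s) : IsCompact (H.half a s) :=
  (isCompact_univ.prod (hs.image (continuous_const.mul continuous_id))).image (H.oe a).continuous

theorem isOpen_half (a : β) {s : Set ℝ} (hs : IsOpen s) : IsOpen (H.half a s) :=
  (H.oe a).isOpen_image (isOpen_univ.prod ((isOE_sg _).isOpen_image hs))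

theorem isEnd_j [T2Space X.M] (a : β) : IsEnd (H.Y a).I X.I (H.j a) := by
  refine ⟨H.isOE_j a, ?_⟩
  have : H.j a '' (univ ×ˢ Ici 0) = Subtype.val ⁻¹' H.half a (Icc 0 1) := by
    ext x
    constructor
    · rintro ⟨p, hp, rfl⟩
      exact H.mem_half.2 ⟨p.1, Real.exp (-p.2), ⟨(Real.exp_pos _).le,
        Real.exp_le_one_iff.2 (neg_nonpos.2 hp.2)⟩, rfl⟩
    · intro hx
      obtain ⟨y, r, hr, e⟩ := H.mem_half.1 hx
      have h0 : 0 < r := hr.1.lt_of_ne fun h => H.out a y (by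
        rw [← h, mul_zero] at e; exact e ▸ x.2)
      exact ⟨(y, -Real.log r), ⟨mem_univ _, show 0 ≤ -Real.log r from
        neg_nonneg.2 (Real.log_nonpos hr.1 hr.2)⟩, Subtype.ext ((H.j_log a y h0).trans e)⟩
  rw [this]
  exact (H.isCompact_half a isCompact_Icc).isClosed.preimage continuous_subtype_val

variable [Finite β] [T2Space X.M] (C : ∀ a, Cap V (H.Y a))

/-- the graph of manifolds of the capped region -/
def gr : Gr V (W × ℝ) (Option β) β where
  P i := match i with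
    | none => Pc.of X.I H.U X.L
    | some a => (C a).P
  A a := cyl (H.Y a)
  s _ := none
  t a := some a
  j0 := H.j
  j1 a p := (C a).c (p.1, -p.2)
  o0 := H.isOE_j
  o1 a := (C a).isEnd.oe.comp (IsOE.id.prodMap isOE_neg)
  d00 a a' p q h := H.disj a a' _ _ _ _ (Real.exp_pos _) (Real.exp_pos _)
    (congrArg Subtype.val (eq_of_heq (Sigma.mk.inj h).2 : H.j a p = H.j a' q))
  d11 _ _ _ _ h := Option.some.inj (congrArg Sigma.fst h)
  d01 _ _ _ _ h := by cases congrArg Sigma.fst h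
  cl a := by
    refine isClosed_graph (H.isOE_j a).isOpenEmbedding.isEmbedding
      ((C a).isEnd.oe.comp (IsOE.id.prodMap isOE_neg)).isOpenEmbedding.isEmbedding
      (s := univ ×ˢ Ici 0) (t := univ ×ˢ Iic 0) ?_ (H.isEnd_j a).cl ?_
    · rw [← prod_union, union_comm, Iic_union_Ici, univ_prod_univ]
    · convert (C a).isEnd.cl using 1
      ext x
      constructor
      · rintro ⟨p, hp, rfl⟩
        exact ⟨(p.1, -p.2), ⟨mem_univ _, show 0 ≤ -p.2 from neg_nonneg.2 hp.2⟩, rfl⟩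
      · rintro ⟨p, hp, rfl⟩
        exact ⟨(p.1, -p.2), ⟨mem_univ _, show -p.2 ≤ 0 from neg_nonpos.2 hp.2⟩, by simp⟩
  fin _ := toFinite _

/-- the capped region -/
abbrev Z : Pc V := Pc.of 𝓘(ℝ, V) (H.gr C).M (ContinuousLinearEquiv.refl ℝ V)

instance : T2Space (H.gr C).M :=
  have : ∀ i, T2Space ((H.gr C).P i).M := fun i => match i with
    | none => inferInstanceAs (T2Space H.U)
    | some a => (C a).t2
  inferInstance

instance [SecondCountableTopology X.M] : SecondCountableTopology (H.gr C).M :=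
  have : ∀ i, SecondCountableTopology ((H.gr C).P i).M := fun i => match i with
    | none => inferInstanceAs (SecondCountableTopology H.U)
    | some a => (C a).sc
  inferInstance

/-- `U` in the capped region -/
def i0 (x : H.U) : (H.gr C).M := (H.gr C).inc none x

/-- a cap in the capped region -/
def ic (a : β) (z : (C a).P.M) : (H.gr C).M := (H.gr C).inc (some a) z

theorem isOE_none : IsOE X.I 𝓘(ℝ, V) (H.i0 C) :=
  (H.gr C).isOE_inc (i := none) fun _ _ h => by cases h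

theorem isOE_some (a : β) : IsOE (C a).P.I 𝓘(ℝ, V) (H.ic C a) :=
  (H.gr C).isOE_inc (i := some a) fun _ h => by cases h

theorem some_eq_neck {a e : β} {z : (C a).P.M} {p : (H.Y e).M × ℝ}
    (h : (H.gr C).inc (some a) z = (H.gr C).neck e p) : a = e ∧ z ∈ range (C a).c := by
  rcases (H.gr C).inc_eq_neck.1 h with h2 | h2
  · cases congrArg Sigma.fst h2
  obtain rfl : a = e := Option.some.inj (congrArg Sigma.fst h2)
  exact ⟨rfl, _, (eq_of_heq (Sigma.mk.inj h2).2).symm⟩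

/-- EXISTENCE of the capped region -/
def capd [Nonempty H.U] : Capd H C (H.Z C) where
  φ := (isOE_val H.U).span (H.isOE_none C)
  cap := H.ic C
  oe := H.isOE_some C
  src := (IsOE.span_source _ _).trans Subtype.range_coe
  tgt := by
    refine (IsOE.span_target _ _).trans (Subset.antisymm ?_ fun x hx => ?_)
    · rintro _ ⟨y, rfl⟩ h
      obtain ⟨a, z, hz, e⟩ := mem_iUnion.1 h
      cases congrArg Sigma.fst ((H.gr C).eq_of_inc_eq e fun e p h => hz (H.some_eq_neck C h).2)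
    · obtain ⟨_ | a, z, rfl⟩ := (H.gr C).surj x
      · exact ⟨z, rfl⟩
      · by_cases hz : z ∈ range (C a).c
        · obtain ⟨p, rfl⟩ := hz
          refine ⟨H.j a (p.1, -p.2), ((H.gr C).inc_j1 a (p.1, -p.2)).symm.trans ?_⟩
          exact congrArg (fun t => (H.gr C).inc (some a) ((C a).c (p.1, t))) (neg_neg p.2)
        · exact (hx (mem_iUnion.2 ⟨a, z, hz, rfl⟩)).elim
  eq a y r hr := by
    rw [← H.j_log a y hr, IsOE.span_apply]
    refine ((H.gr C).inc_j1 a (y, -Real.log r)).symm.trans ?_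
    exact congrArg (fun t => (H.gr C).inc (some a) ((C a).c (y, t))) (neg_neg _)
  disj a a' z w h := by
    by_cases h1 : ∀ e p, (H.gr C).inc (some a) z ≠ (H.gr C).neck e p
    · exact Option.some.inj (congrArg Sigma.fst ((H.gr C).eq_of_inc_eq h h1))
    push Not at h1
    obtain ⟨e, p, h1⟩ := h1
    rw [(H.some_eq_neck C h1).1, (H.some_eq_neck C (h.symm.trans h1)).1]

theorem exists_capd [Nonempty H.U] [SecondCountableTopology X.M] :
    ∃ Z : Pc V, T2Space Z.M ∧ SecondCountableTopology Z.M ∧ Nonempty (Capd H C Z) :=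
  ⟨H.Z C, inferInstance, inferInstance, ⟨H.capd C⟩⟩

end HB

namespace Capd

variable {X : Pc V} {β : Type} {H : HB W X β} {C : ∀ a, Cap V (H.Y a)} {Z : Pc V'} {Z' : Pc V''}
  (D : Capd H C Z)

theorem mem_src {x : X.M} (hx : x ∈ H.U) : x ∈ D.φ.source := D.src ▸ hx

theorem eq' (a : β) (p : (H.Y a).M × ℝ) :
    D.cap a ((C a).c p) = D.φ (H.n a (p.1, sg (H.b a) * Real.exp p.2)) := by
  rw [D.eq a _ _ (Real.exp_pos _), Real.log_exp]

theorem ne_cap {x : X.M} (hx : x ∈ H.U) {a : β} {z : (C a).P.M} (hz : z ∉ range (C a).c) :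
    D.φ x ≠ D.cap a z := fun e => by
  have h := D.φ.map_source (D.mem_src hx)
  rw [D.tgt] at h
  exact h (mem_iUnion.2 ⟨a, z, hz, e.symm⟩)

theorem surj (z : Z.M) : (∃ x ∈ H.U, D.φ x = z) ∨ ∃ a w, w ∉ range (C a).c ∧ D.cap a w = z := by
  by_cases h : z ∈ D.φ.target
  · exact .inl ⟨D.φ.symm z, D.src.subset (D.φ.map_target h), D.φ.right_inv h⟩
  · rw [D.tgt, notMem_compl_iff] at h
    obtain ⟨a, w, hw, e⟩ := mem_iUnion.1 h
    exact .inr ⟨a, w, hw, e⟩

theorem φ_eq_cap {x : X.M} (hx : x ∈ H.U) {a : β} {z : (C a).P.M} :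
    D.φ x = D.cap a z ↔ ∃ p, (C a).c p = z ∧ H.n a (p.1, sg (H.b a) * Real.exp p.2) = x := by
  refine ⟨fun e => ?_, ?_⟩
  · obtain ⟨p, rfl⟩ : z ∈ range (C a).c := by_contra fun hz => D.ne_cap hx hz e
    exact ⟨p, rfl, D.φ.injOn (D.mem_src (H.mem a _ _ (Real.exp_pos _))) (D.mem_src hx)
      ((D.eq' a p).symm.trans e.symm)⟩
  · rintro ⟨p, rfl, rfl⟩
    exact (D.eq' a p).symm

theorem isOE_φ : IsOE X.I Z.I fun x : H.U => D.φ x :=
  IsOE.of_pd D.φ (isOE_val H.U) fun x => D.mem_src x.2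

/-- the pieces covering a capped region -/
def pc (_D : Capd H C Z) : Option β → Pc V
  | none => Pc.of X.I H.U X.L
  | some a => (C a).P

/-- the maps of the pieces -/
def mp (D' : Capd H C Z') : ∀ i, (D.pc i).M → Z'.M
  | none => fun x : H.U => D'.φ x
  | some a => D'.cap a

/-- UNIQUENESS of the capped region -/
theorem exists_diffeo (D' : Capd H C Z') : ∃ Φ : Z.M ≃ₘ^∞⟮Z.I, Z'.I⟯ Z'.M,
    (∀ x ∈ H.U, Φ (D.φ x) = D'.φ x) ∧ ∀ a z, Φ (D.cap a z) = D'.cap a z := by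
  have key : ∀ {V₁ V₂ : Type} [NormedAddCommGroup V₁] [NormedSpace ℝ V₁] [NormedAddCommGroup V₂]
      [NormedSpace ℝ V₂] {Z₁ : Pc V₁} {Z₂ : Pc V₂} (D₁ : Capd H C Z₁) (D₂ : Capd H C Z₂) i k p q,
      D.mp D₁ i p = D.mp D₁ k q → D.mp D₂ i p = D.mp D₂ k q := by
    intro _ _ _ _ _ _ _ _ D₁ D₂ i k p q e
    rcases i with _ | a <;> rcases k with _ | a'
    · rw [D₁.isOE_φ.inj e]
    · exact (D₂.φ_eq_cap p.2).2 ((D₁.φ_eq_cap p.2).1 e)
    · exact ((D₂.φ_eq_cap q.2).2 ((D₁.φ_eq_cap q.2).1 e.symm)).symm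
    · obtain rfl := D₁.disj a a' p q e
      rw [(D₁.oe a).inj e]
  have sj : ∀ {V₁ : Type} [NormedAddCommGroup V₁] [NormedSpace ℝ V₁] {Z₁ : Pc V₁} (D₁ : Capd H C Z₁)
      (z : Z₁.M), ∃ i p, D.mp D₁ i p = z := by
    intro _ _ _ _ D₁ z
    rcases D₁.surj z with ⟨x, hx, e⟩ | ⟨a, w, -, e⟩
    exacts [⟨none, ⟨x, hx⟩, e⟩, ⟨some a, w, e⟩]
  obtain ⟨Φ, hΦ⟩ := exists_diffeo_of_cover (IA := fun i => (D.pc i).I) (f := D.mp D) (g := D.mp D')
    (Option.forall.2 ⟨D.isOE_φ.loc, fun a => (D.oe a).loc⟩)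
    (Option.forall.2 ⟨D'.isOE_φ.loc, fun a => (D'.oe a).loc⟩)
    (fun i k p q => ⟨key D D' i k p q, key D' D i k p q⟩) (sj D) (sj D')
  exact ⟨Φ, fun x hx => hΦ none ⟨x, hx⟩, fun a z => hΦ (some a) z⟩

/-- transport along a diffeomorphism of the capped region -/
def map (Φ : Z.M ≃ₘ^∞⟮Z.I, Z'.I⟯ Z'.M) : Capd H C Z' where
  φ := D.φ.trans Φ.toPartialDiffeomorph
  cap a := Φ ∘ D.cap a
  oe a := (IsOE.of_diffeo Φ).comp (D.oe a)
  src := (inter_univ _).trans D.src
  tgt := by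
    ext z
    change z ∈ univ ∧ Φ.symm z ∈ D.φ.target ↔ _
    simp only [D.tgt, mem_univ, true_and, mem_compl_iff, mem_iUnion]
    refine not_congr (exists_congr fun a => ⟨?_, ?_⟩)
    · rintro ⟨w, hw, e⟩
      exact ⟨w, hw, by rw [comp_apply, e, Φ.apply_symm_apply]⟩
    · rintro ⟨w, hw, rfl⟩
      exact ⟨w, hw, (Φ.symm_apply_apply _).symm⟩
  eq a y r hr := congrArg Φ (D.eq a y r hr)
  disj a a' z w e := D.disj a a' z w (Φ.injective e)

variable {EN HN : Type*} [NormedAddCommGroup EN] [NormedSpace ℝ EN] [TopologicalSpace HN]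
  {IN : ModelWithCorners ℝ EN HN} {N : Type*} [TopologicalSpace N] [ChartedSpace HN N]

/-- smoothness is tested on `U` and on the caps -/
theorem contMDiff_of {F : Z.M → N} (h0 : ∀ x ∈ H.U, ContMDiffAt X.I IN ∞ (F ∘ D.φ) x)
    (h : ∀ a, ∀ z ∉ range (C a).c, ContMDiffAt (C a).P.I IN ∞ (F ∘ D.cap a) z) :
    ContMDiff Z.I IN ∞ F := by
  intro z
  rcases D.surj z with ⟨x, hx, rfl⟩ | ⟨a, w, hw, rfl⟩
  · exact contMDiffAt_of_comp (D.φ.isLocalDiffeomorphAt _ _ _ (D.mem_src hx)) (h0 x hx)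
  · exact (D.oe a).contMDiffAt_iff.1 (h a w hw)

/-- embeddings into `U` are transported -/
theorem isOE {j : N → X.M} (hj : IsOE IN X.I j) (h : ∀ a, j a ∈ H.U) : IsOE IN Z.I (D.φ ∘ j) :=
  IsOE.of_pd D.φ hj fun a => D.mem_src (h a)

include D in
/-- the capped region is closed when `U` minus the thin halves is compact -/
theorem compactSpace [Finite β] (hK : IsCompact ((H.U : Set X.M) \ ⋃ a, H.half a (Ioo 0 1))) :
    CompactSpace Z.M := by
  refine ⟨((hK.image_of_continuousOn (D.φ.contMDiffOn.continuousOn.mono fun x hx =>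
    D.mem_src hx.1)).union (isCompact_iUnion fun a => (C a).cpt.image
      (D.oe a).continuous)).of_isClosed_subset isClosed_univ fun z _ => ?_⟩
  rcases D.surj z with ⟨x, hx, rfl⟩ | ⟨a, w, hw, rfl⟩
  · by_cases h : x ∈ ⋃ a, H.half a (Ioo 0 1)
    · obtain ⟨a, ha⟩ := mem_iUnion.1 h
      obtain ⟨y, r, hr, rfl⟩ := H.mem_half.1 ha
      refine .inr (mem_iUnion.2 ⟨a, _, ?_, (D.eq a y r hr.1).symm⟩)
      rintro ⟨p, hp, e⟩
      rw [(C a).isEnd.oe.inj e] at hp
      exact (Real.log_neg hr.1 hr.2).not_gt hp.2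
    · exact .inl ⟨x, ⟨hx, h⟩, rfl⟩
  · exact .inr (mem_iUnion.2 ⟨a, w, fun h => hw (image_subset_range _ _ h), rfl⟩)

include D in
/-- the capped region is connected when `U` and the caps are -/
theorem preconnectedSpace (hU : IsPreconnected (H.U : Set X.M))
    [∀ a, PreconnectedSpace (C a).P.M] [∀ a, Nonempty (H.Y a).M] : PreconnectedSpace Z.M := by
  have h0 : IsPreconnected (D.φ '' H.U) :=
    hU.image _ (D.φ.contMDiffOn.continuousOn.mono fun x hx => D.mem_src hx)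
  have h1 : ∀ a, IsPreconnected (D.φ '' H.U ∪ range (D.cap a)) := fun a =>
    h0.union (D.cap a ((C a).c (Classical.arbitrary _, 0)))
      ⟨_, H.mem a _ _ (Real.exp_pos _), (D.eq' a _).symm⟩ ⟨_, rfl⟩
      (isPreconnected_range (D.oe a).continuous)
  refine ⟨fun u v hu hv huv ⟨z, _, hz⟩ ⟨z', _, hz'⟩ => ?_⟩
  by_contra hn
  have hd : Disjoint u v := disjoint_iff_inter_eq_empty.2 (by
    rw [not_nonempty_iff_eq_empty, univ_inter] at hn; exact hn)
  have key : ∀ {u v : Set Z.M}, IsOpen u → IsOpen v → univ ⊆ u ∪ v → Disjoint u v →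
      D.φ '' H.U ⊆ u → ∀ z ∈ v, False := by
    intro u v hu hv huv hd h z hz
    rcases D.surj z with ⟨x, hx, rfl⟩ | ⟨a, w, -, rfl⟩
    · exact disjoint_left.1 hd (h ⟨x, hx, rfl⟩) hz
    · exact disjoint_left.1 hd ((h1 a).subset_left_of_subset_union hu hv hd
        ((subset_univ _).trans huv) ⟨_, .inl ⟨_, H.mem a (Classical.arbitrary _) 1 one_pos, rfl⟩,
          h ⟨_, H.mem a _ 1 one_pos, rfl⟩⟩ (.inr ⟨w, rfl⟩)) hz
  rcases h0.subset_or_subset hu hv hd ((subset_univ _).trans huv) with h | h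
  · exact key hu hv huv hd h z' hz'
  · exact key hv hu (by rwa [union_comm]) hd.symm h z hz

end Capd

end Crest.Agent.X212.Cyl58
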