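import Crest.Agent.X212.Cyl58.Cap
import Crest.Agent.X212.Glue52.More

/-!
# X212/Cyl58/Int: increasing reparametrisations of the line

`Up f s` : `f` is smooth with positive derivative at the points of `s`.  Interpolation
`exists_interp` (germ `α` at `a`, germ `β` at `b`, `α a < β b`), global versions `exists_up`,
`exists_diffeo_shift`, images, inverses.
-/

set_option autoImplicit false
set_option linter.unusedSectionVars false
noncomputable section
open Set Filter Topology Function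
open scoped ContDiff Manifold

namespace Crest.Agent.X212.Cyl58

/-- smooth with positive derivative at the points of `s` -/
def Up (f : ℝ → ℝ) (s : Set ℝ) : Prop := ∀ x ∈ s, ContDiffAt ℝ ∞ f x ∧ 0 < deriv f x

namespace Up

variable {f g : ℝ → ℝ} {s t : Set ℝ}

theorem mono (h : Up f s) (ht : t ⊆ s) : Up f t := fun x hx => h x (ht hx)

theorem union (h : Up f s) (h' : Up f t) : Up f (s ∪ t) := fun x hx => hx.elim (h x) (h' x)

theorem congr (h : Up f s) (e : ∀ x ∈ s, g =ᶠ[𝓝 x] f) : Up g s := fun x hx =>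
  ⟨(h x hx).1.congr_of_eventuallyEq (e x hx), (e x hx).deriv_eq ▸ (h x hx).2⟩

theorem hasDerivAt (h : Up f s) {x : ℝ} (hx : x ∈ s) : HasDerivAt f (deriv f x) x :=
  ((h x hx).1.differentiableAt (by simp)).hasDerivAt

theorem continuousAt (h : Up f s) {x : ℝ} (hx : x ∈ s) : ContinuousAt f x := (h x hx).1.continuousAt

theorem continuousOn (h : Up f s) : ContinuousOn f s := fun _ hx =>
  (h.continuousAt hx).continuousWithinAt

theorem contDiffOn (h : Up f s) : ContDiffOn ℝ ∞ f s := fun x hx => (h x hx).1.contDiffWithinAt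

theorem contDiff (h : Up f univ) : ContDiff ℝ ∞ f := contDiff_iff_contDiffAt.2 fun x => (h x trivial).1

theorem continuous (h : Up f univ) : Continuous f := h.contDiff.continuous

theorem strictMonoOn (h : Up f s) (hs : OrdConnected s) : StrictMonoOn f s :=
  strictMonoOn_of_deriv_pos hs.convex h.continuousOn fun x hx => (h x (interior_subset hx)).2

theorem strictMono (h : Up f univ) : StrictMono f :=
  strictMonoOn_univ.1 (h.strictMonoOn ordConnected_univ)

theorem ld (h : Up f s) (hs : IsOpen s) {x : ℝ} (hx : x ∈ s) :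
    IsLocalDiffeomorphAt 𝓘(ℝ, ℝ) 𝓘(ℝ, ℝ) ∞ f x :=
  Glue52.ld_of_fderiv hs hx h.contDiffOn _ ((h.hasDerivAt hx).hasFDerivAt_equiv (h x hx).2.ne')

theorem isOE (h : Up f univ) : IsOE 𝓘(ℝ, ℝ) 𝓘(ℝ, ℝ) f :=
  ⟨h.strictMono.injective, fun x => h.ld isOpen_univ (mem_univ x)⟩

theorem isOpen_image (h : Up f s) (hs : IsOpen s) : IsOpen (f '' s) := by
  refine isOpen_iff_mem_nhds.2 ?_
  rintro _ ⟨x, hx, rfl⟩
  rw [← (((h x hx).1.hasStrictDerivAt (by simp)).map_nhds_eq (h x hx).2.ne')]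
  exact image_mem_map (hs.mem_nhds hx)

theorem of_hasDerivAt {f' : ℝ → ℝ} (h : ∀ x ∈ s, ContDiffAt ℝ ∞ f x)
    (hd : ∀ x ∈ s, HasDerivAt f (f' x) x) (hp : ∀ x ∈ s, 0 < f' x) : Up f s := fun x hx =>
  ⟨h x hx, (hd x hx).deriv ▸ hp x hx⟩

/-- a monotone local diffeomorphism -/
theorem of_ld (hs : IsOpen s) (h : ∀ x ∈ s, IsLocalDiffeomorphAt 𝓘(ℝ, ℝ) 𝓘(ℝ, ℝ) ∞ f x)
    (hm : MonotoneOn f s) : Up f s := fun x hx => by
  have h1 : ContDiffAt ℝ ∞ f x := contMDiffAt_iff_contDiffAt.1 (h x hx).contMDiffAt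
  refine ⟨h1, lt_of_le_of_ne ((derivWithin_of_isOpen hs hx : _ = deriv f x) ▸
    hm.derivWithin_nonneg) fun e => ?_⟩
  have h2 : Injective (mfderiv 𝓘(ℝ, ℝ) 𝓘(ℝ, ℝ) f x) :=
    ((h x hx).mfderivToContinuousLinearEquiv (by simp)).injective
  rw [mfderiv_eq_fderiv] at h2
  have h3 : fderiv ℝ f x (1 : ℝ) = fderiv ℝ f x (0 : ℝ) := e.symm.trans (map_zero _).symm
  exact one_ne_zero (α := ℝ) (h2 h3)

theorem of_isOE (h : IsOE 𝓘(ℝ, ℝ) 𝓘(ℝ, ℝ) f) (hm : Monotone f) : Up f univ :=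
  of_ld isOpen_univ (fun x _ => h.loc x) (hm.monotoneOn _)

theorem comp (hg : Up g t) (h : Up f s) (hm : MapsTo f s t) : Up (g ∘ f) s :=
  of_hasDerivAt (fun x hx => (hg _ (hm hx)).1.comp x (h x hx).1)
    (fun _ hx => (hg.hasDerivAt (hm hx)).comp _ (h.hasDerivAt hx))
    fun x hx => mul_pos (hg _ (hm hx)).2 (h x hx).2

theorem aff (c : ℝ) {d : ℝ} (hd : 0 < d) (s : Set ℝ) : Up (fun x => c + d * x) s :=
  of_hasDerivAt (f' := fun _ => d) (fun _ _ => by fun_prop)
    (fun x _ => by simpa using ((hasDerivAt_id x).const_mul d).const_add c) fun _ _ => hd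

theorem add_const (c : ℝ) (s : Set ℝ) : Up (fun x => x + c) s :=
  of_hasDerivAt (f' := fun _ => 1) (fun _ _ => by fun_prop)
    (fun x _ => (hasDerivAt_id x).add_const c) fun _ _ => one_pos

theorem id (s : Set ℝ) : Up (fun x => x) s :=
  of_hasDerivAt (f' := fun _ => 1) (fun _ _ => contDiffAt_id) (fun x _ => hasDerivAt_id x)
    fun _ _ => one_pos

theorem exp (s : Set ℝ) : Up Real.exp s :=
  of_hasDerivAt (fun _ _ => Real.contDiff_exp.contDiffAt) (fun x _ => Real.hasDerivAt_exp x)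
    fun x _ => Real.exp_pos x

theorem log : Up Real.log (Ioi 0) :=
  of_hasDerivAt (fun _ hx => Real.contDiffAt_log.2 (ne_of_gt hx))
    (fun _ hx => Real.hasDerivAt_log (ne_of_gt hx)) fun _ hx => inv_pos.2 hx

/-- conjugation by the reflection -/
theorem neg (h : Up f s) : Up (fun x => -f (-x)) {x | -x ∈ s} :=
  of_hasDerivAt (f' := fun x => deriv f (-x))
    (fun x hx => ((h _ hx).1.comp x contDiffAt_id.neg).neg)
    (fun x hx => (((h.hasDerivAt hx).comp x (hasDerivAt_neg x)).neg).congr_deriv (by simp))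
    fun _ hx => (h _ hx).2

/-- the inverse function -/
theorem inv (h : Up f s) (hs : IsOpen s) (hc : OrdConnected s) :
    Up (invFunOn f s) (f '' s) := by
  have hi := (h.strictMonoOn hc).injOn
  have hl : ∀ x ∈ s, invFunOn f s (f x) = x := fun x hx => hi.leftInvOn_invFunOn hx
  refine of_ld (h.isOpen_image hs) ?_ ?_
  · rintro _ ⟨x, hx, rfl⟩
    refine ld_of_comp (h.ld hs hx) (ld_congr (ld_id x) ?_)
    filter_upwards [hs.mem_nhds hx] with y hy using hl y hy
  · rintro _ ⟨x, hx, rfl⟩ _ ⟨y, hy, rfl⟩ e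
    rw [hl x hx, hl y hy]
    exact ((h.strictMonoOn hc).le_iff_le hx hy).1 e

/-- a surjective one is a diffeomorphism -/
def diffeo (h : Up f univ) (hs : Surjective f) : ℝ ≃ₘ^∞⟮𝓘(ℝ, ℝ), 𝓘(ℝ, ℝ)⟯ ℝ := h.isOE.diffeo hs

@[simp] theorem diffeo_apply (h : Up f univ) (hs : Surjective f) (x : ℝ) : h.diffeo hs x = f x := rfl

theorem image_Icc (h : Up f s) {a b : ℝ} (hab : a ≤ b) (hs : Icc a b ⊆ s) :
    f '' Icc a b = Icc (f a) (f b) :=
  (h.mono hs).continuousOn.image_Icc_of_monotoneOn hab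
    ((h.mono hs).strictMonoOn ordConnected_Icc).monotoneOn

end Up

/-- the smooth step from `0` (left of `a`) to `1` (right of `b`) -/
def stp (a b x : ℝ) : ℝ := Real.smoothTransition ((x - a) / (b - a))

theorem contDiff_stp (a b : ℝ) : ContDiff ℝ ∞ (stp a b) :=
  Real.smoothTransition.contDiff.comp (by fun_prop)

theorem stp_nonneg (a b x : ℝ) : 0 ≤ stp a b x := Real.smoothTransition.nonneg _
theorem stp_le_one (a b x : ℝ) : stp a b x ≤ 1 := Real.smoothTransition.le_one _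

theorem stp_zero {a b x : ℝ} (h : a < b) (hx : x ≤ a) : stp a b x = 0 :=
  Real.smoothTransition.zero_of_nonpos (div_nonpos_of_nonpos_of_nonneg (sub_nonpos.2 hx) (sub_pos.2 h).le)

theorem stp_one {a b x : ℝ} (h : a < b) (hx : b ≤ x) : stp a b x = 1 :=
  Real.smoothTransition.one_of_one_le ((one_le_div (sub_pos.2 h)).2 (sub_le_sub_right hx a))

theorem monotone_stp {a b : ℝ} (h : a < b) : Monotone (stp a b) := fun _ _ e =>
  Real.smoothTransition.monotone (div_le_div_of_nonneg_right (sub_le_sub_right e a) (sub_pos.2 h).le)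

/-- `α` left of `a`, `β` right of `b` -/
def bld (a b : ℝ) (α β : ℝ → ℝ) (x : ℝ) : ℝ := α x + stp a b x * (β x - α x)

theorem bld_left {a b x : ℝ} (h : a < b) (α β : ℝ → ℝ) (hx : x ≤ a) : bld a b α β x = α x := by
  rw [bld, stp_zero h hx, zero_mul, add_zero]

theorem bld_right {a b x : ℝ} (h : a < b) (α β : ℝ → ℝ) (hx : b ≤ x) : bld a b α β x = β x := by
  rw [bld, stp_one h hx, one_mul, add_sub_cancel]

theorem up_bld {a b : ℝ} (h : a < b) {α β : ℝ → ℝ} {s : Set ℝ} (hα : Up α s) (hβ : Up β s)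
    (hle : ∀ x ∈ s, α x ≤ β x) : Up (bld a b α β) s := by
  have hd : ∀ x, HasDerivAt (stp a b) (deriv (stp a b) x) x := fun x =>
    ((contDiff_stp a b).differentiable (by simp) x).hasDerivAt
  refine Up.of_hasDerivAt
    (fun x hx => (hα x hx).1.add ((contDiff_stp a b).contDiffAt.mul ((hβ x hx).1.sub (hα x hx).1)))
    (fun x hx => (hα.hasDerivAt hx).add ((hd x).mul ((hβ.hasDerivAt hx).sub (hα.hasDerivAt hx))))
    fun x hx => ?_
  have h1 := mul_nonneg ((monotone_stp h).deriv_nonneg (x := x)) (sub_nonneg.2 (hle x hx))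
  have h2 := (hα x hx).2
  have h3 := (hβ x hx).2
  have h4 := stp_nonneg a b x
  have h5 := sub_nonneg.2 (stp_le_one a b x)
  rcases le_total (deriv α x) (deriv β x) with k | k
  · nlinarith [mul_nonneg h4 (sub_nonneg.2 k)]
  · nlinarith [mul_nonneg h5 (sub_nonneg.2 k)]

/-- INTERPOLATION between an increasing germ at `a` and an increasing germ at `b` -/
theorem exists_interp {α β : ℝ → ℝ} {a b : ℝ} {s t : Set ℝ} (hab : a < b) (hα : Up α s)
    (hs : s ∈ 𝓝 a) (hβ : Up β t) (ht : t ∈ 𝓝 b) (h : α a < β b) :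
    ∃ l : ℝ → ℝ, Up l (Icc a b) ∧ (∀ x ≤ a, l x = α x) ∧ ∀ x, b ≤ x → l x = β x := by
  obtain ⟨m, hm1, hm2⟩ := exists_between h
  obtain ⟨n, hn1, hn2⟩ := exists_between hm2
  obtain ⟨c, hc1, hc2⟩ := exists_between hab
  obtain ⟨a', ha1, ha2⟩ := (nhdsGE_basis_Icc (a := a)).mem_iff.1 (mem_nhdsWithin_of_mem_nhds
    (inter_mem hs (inter_mem ((hα.continuousAt (mem_of_mem_nhds hs)).preimage_mem_nhds
      (Iio_mem_nhds hm1)) (Iio_mem_nhds hc1))))
  obtain ⟨b', hb1, hb2⟩ := (nhdsLE_basis_Icc (a := b)).mem_iff.1 (mem_nhdsWithin_of_mem_nhds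
    (inter_mem ht (inter_mem ((hβ.continuousAt (mem_of_mem_nhds ht)).preimage_mem_nhds
      (Ioi_mem_nhds hn2)) (Ioi_mem_nhds hc2))))
  have h1 : a' < c := (ha2 ⟨ha1.le, le_rfl⟩).2.2
  have h2 : c < b' := (hb2 ⟨le_rfl, hb1.le⟩).2.2
  have hd : 0 < (n - m) / (b - a) := div_pos (sub_pos.2 hn1) (sub_pos.2 hab)
  set d := (n - m) / (b - a) with hdd
  have he : d * (b - a) = n - m := div_mul_cancel₀ _ (sub_pos.2 hab).ne'
  set γ : ℝ → ℝ := fun x => (m - d * a) + d * x
  have hγ : ∀ u, Up γ u := Up.aff _ hd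
  have k1 : Up (bld a a' α γ) (Icc a b) := by
    refine Up.mono (Up.union (s := Icc a a') (t := Ioi a') (up_bld ha1 (hα.mono fun x hx => (ha2 hx).1)
      (hγ _) fun x hx => ?_) ((hγ _).congr fun x hx => ?_)) fun x hx => ?_
    · have : α x < m := (ha2 hx).2.1
      have := mul_nonneg hd.le (sub_nonneg.2 hx.1)
      simp only [γ]
      linarith
    · filter_upwards [Ioi_mem_nhds hx] with y hy using bld_right ha1 _ _ (le_of_lt hy)
    · exact (le_or_gt x a').imp (fun e => ⟨hx.1, e⟩) fun e => e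
  refine ⟨bld b' b (bld a a' α γ) β, ?_, fun x hx => ?_, fun x hx => bld_right hb1 _ _ hx⟩
  · refine Up.mono (Up.union (s := Icc b' b) (t := Ico a b') (up_bld hb1
      (k1.mono (Icc_subset_Icc_left (by linarith))) (hβ.mono fun x hx => (hb2 hx).1) fun x hx => ?_)
      ((k1.mono fun x hx => ⟨hx.1, hx.2.le.trans hb1.le⟩).congr fun x hx => ?_)) fun x hx => ?_
    · rw [bld_right ha1 _ _ (by linarith [hx.1])]
      have : n < β x := (hb2 hx).2.1
      have := mul_nonneg hd.le (sub_nonneg.2 hx.2)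
      simp only [γ]
      linarith
    · filter_upwards [Iio_mem_nhds hx.2] with y hy using bld_left hb1 _ _ (le_of_lt hy)
    · exact (le_or_gt b' x).imp (fun e => ⟨e, hx.2⟩) fun e => ⟨hx.1, e⟩
  · rw [bld_left hb1 _ _ (by linarith), bld_left ha1 _ _ hx]

/-- interpolation, with the domains of `α` and `β` -/
theorem exists_up {α β : ℝ → ℝ} {a b : ℝ} {s t : Set ℝ} (hab : a < b) (hα : Up α s)
    (hs : s ∈ 𝓝 a) (hβ : Up β t) (ht : t ∈ 𝓝 b) (h : α a < β b) :
    ∃ l : ℝ → ℝ, Up l (s ∩ Iio a ∪ Icc a b ∪ t ∩ Ioi b) ∧ (∀ x ≤ a, l x = α x) ∧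
      ∀ x, b ≤ x → l x = β x := by
  obtain ⟨l, h1, h2, h3⟩ := exists_interp hab hα hs hβ ht h
  refine ⟨l, (((hα.mono inter_subset_left).congr fun x hx => ?_).union h1).union
    ((hβ.mono inter_subset_left).congr fun x hx => ?_), h2, h3⟩
  · filter_upwards [Iio_mem_nhds hx.2] with y hy using h2 y (le_of_lt hy)
  · filter_upwards [Ioi_mem_nhds hx.2] with y hy using h3 y (le_of_lt hy)

/-- interpolation on the whole line -/
theorem exists_up_univ {α β : ℝ → ℝ} {a b : ℝ} {s t : Set ℝ} (hab : a < b) (hα : Up α s)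
    (hs : s ∈ 𝓝 a) (hs' : Iio a ⊆ s) (hβ : Up β t) (ht : t ∈ 𝓝 b) (ht' : Ioi b ⊆ t) (h : α a < β b) :
    ∃ l : ℝ → ℝ, Up l univ ∧ (∀ x ≤ a, l x = α x) ∧ (∀ x, b ≤ x → l x = β x) ∧
      range l = α '' Iio a ∪ Icc (α a) (β b) ∪ β '' Ioi b := by
  obtain ⟨l, h1, h2, h3⟩ := exists_up hab hα hs hβ ht h
  have hu : (univ : Set ℝ) = Iio a ∪ Icc a b ∪ Ioi b := by
    rw [Iio_union_Icc_eq_Iic hab.le, Iic_union_Ioi]
  rw [inter_eq_right.2 hs', inter_eq_right.2 ht', ← hu] at h1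
  refine ⟨l, h1, h2, h3, ?_⟩
  rw [← image_univ, hu, image_union, image_union, h1.image_Icc hab.le (subset_univ _), h2 a le_rfl,
    h3 b le_rfl, image_congr fun x (hx : x ∈ Iio a) => h2 x (le_of_lt hx),
    image_congr fun x (hx : x ∈ Ioi b) => h3 x (le_of_lt hx)]

/-- a diffeomorphism of the line that is a translation near each end -/
theorem exists_diffeo_shift {a b c d : ℝ} (hab : a < b) (h : a + c < b + d) :
    ∃ l : ℝ ≃ₘ^∞⟮𝓘(ℝ, ℝ), 𝓘(ℝ, ℝ)⟯ ℝ, Up l univ ∧ (∀ x ≤ a, l x = x + c) ∧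
      ∀ x, b ≤ x → l x = x + d := by
  obtain ⟨l, h1, h2, h3, -⟩ := exists_up_univ hab (Up.add_const c univ) univ_mem (subset_univ _)
    (Up.add_const d univ) univ_mem (subset_univ _) h
  refine ⟨h1.diffeo (h1.continuous.surjective ?_ ?_), h1, h2, h3⟩
  · refine (tendsto_atTop_add_const_right _ d tendsto_id).congr' ?_
    filter_upwards [eventually_ge_atTop b] with x hx using (h3 x hx).symm
  · refine (tendsto_atBot_add_const_right _ c tendsto_id).congr' ?_
    filter_upwards [eventually_le_atBot a] with x hx using (h2 x hx).symm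

/-- `(-∞, b)` is the image of an increasing map that is the identity left of `a < b` -/
theorem exists_up_Iio {a b : ℝ} (hab : a < b) :
    ∃ l : ℝ → ℝ, Up l univ ∧ (∀ x ≤ a, l x = x) ∧ range l = Iio b := by
  obtain ⟨c, h1, h2⟩ := exists_between hab
  have hβ : Up (fun x => b - (b - c) * Real.exp (c - x)) univ :=
    Up.of_hasDerivAt (f' := fun x => (b - c) * Real.exp (c - x)) (fun _ _ => by fun_prop)
      (fun x _ => by
        simpa using (((hasDerivAt_id x).const_sub c).exp.const_mul (b - c)).const_sub b)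
      fun x _ => mul_pos (sub_pos.2 h2) (Real.exp_pos _)
  obtain ⟨l, k1, k2, -, k4⟩ := exists_up_univ h1 (Up.id univ) univ_mem (subset_univ _) hβ univ_mem
    (subset_univ _) (by simpa using h1)
  refine ⟨l, k1, k2, k4.trans (Subset.antisymm ?_ fun x hx => ?_)⟩
  · rintro x ((⟨y, hy, rfl⟩ | hx) | ⟨y, -, rfl⟩)
    · exact lt_trans hy hab
    · exact lt_of_le_of_lt (by simpa using hx.2) h2
    · exact sub_lt_self _ (mul_pos (sub_pos.2 h2) (Real.exp_pos _))
  · rcases lt_or_ge x a with e | e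
    · exact .inl (.inl ⟨x, e, rfl⟩)
    rcases le_or_gt x c with e' | e'
    · exact .inl (.inr ⟨e, by simpa using e'⟩)
    have h3 : 0 < (b - x) / (b - c) := div_pos (sub_pos.2 hx) (sub_pos.2 h2)
    refine .inr ⟨c - Real.log ((b - x) / (b - c)), ?_, ?_⟩
    · exact lt_sub_iff_add_lt.2 (add_lt_iff_neg_left.2
        (Real.log_neg h3 ((div_lt_one (sub_pos.2 h2)).2 (sub_lt_sub_left e' b))))
    · simp only [sub_sub_cancel, Real.exp_log h3, mul_div_cancel₀ _ (sub_pos.2 h2).ne']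

end Crest.Agent.X212.Cyl58
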