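import Crest.Agent.X212.Cyl58.Chn
import Crest.Agent.X212.M.Band

/-!
# X212/Cyl58/Bnd: bands of layer M from timed pieces

`pcMf`, `TP.mf` : bundling.  `ofSd` : a band from its two sides; `ofTime` : vertical necks;
`bpush` : a band with one compact side is transported along a partial diffeomorphism;
`toSep` : the separating neck of a band.
-/

set_option autoImplicit false
set_option linter.unusedSectionVars false
noncomputable section
open Set Filter Topology Function Metric TopologicalSpace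
open scoped ContDiff Manifold

namespace Crest.Agent.X212.Cyl58

open Glue52 M Cyf70

theorem pc_fin {n : ℕ} (P : Pc (EuclideanSpace ℝ (Fin n))) : FiniteDimensional ℝ P.E :=
  P.L.symm.toLinearEquiv.finiteDimensional

theorem pc_dim {n : ℕ} (P : Pc (EuclideanSpace ℝ (Fin n))) : Module.finrank ℝ P.E = n :=
  P.L.toLinearEquiv.finrank_eq.trans finrank_euclideanSpace_fin

/-- a piece as a bundled manifold of layer M -/
abbrev pcMf {n : ℕ} (P : Pc (EuclideanSpace ℝ (Fin n))) [T2Space P.M]
    [SecondCountableTopology P.M] : Mf n :=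
  haveI := pc_fin P
  Mf.ofB n P.I P.M (pc_dim P)

/-- a timed piece as a bundled manifold of layer M -/
abbrev TP.mf (X : TP V4) : Mf 4 := pcMf X.P

/-- a bundled manifold with a proper time function -/
abbrev mfTP (X : Mf 4) [Nonempty X.M] (τ : X.M → ℝ) (h : Continuous τ)
    (hp : ∀ a b, IsCompact (τ ⁻¹' Icc a b)) : TP V4 :=
  { P := X.pc, τ := τ, cont := h, prop := hp }

section Sd

variable {X : Mf 4} (Y : Mf 3) [CompactSpace Y.M] [ConnectedSpace Y.M] {j : Y.M × ℝ → X.M}

/-- the two sides of a neck -/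
structure Sides (j : Y.M × ℝ → X.M) (S : Bool → Set X.M) : Prop where
  oe : IsOE (IC Y.I) X.I j
  op : ∀ b, IsOpen (S b)
  dj : Disjoint (S true) (S false)
  cov : ∀ x ∉ range j, ∃ b, x ∈ S b
  mem : ∀ b p, 0 < pm b * p.2 → j p ∈ S b

variable {Y} {S : Bool → Set X.M}

open Classical in
/-- the height function of the two sides -/
def sdHt (j : Y.M × ℝ → X.M) (S : Bool → Set X.M) : X.M → ℝ :=
  extend j (fun p => max (-1) (min 1 p.2)) fun x => if x ∈ S true then 1 else -1

namespace Sides

variable (h : Sides Y j S)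
include h

theorem ht_j (p : Y.M × ℝ) : sdHt j S (j p) = max (-1) (min 1 p.2) := h.oe.extend_apply _ _ p

theorem not_mem {b : Bool} {x : X.M} (hx : x ∈ S b) : x ∉ S (!b) := by
  cases b
  · exact fun h' => disjoint_left.1 h.dj h' hx
  · exact fun h' => disjoint_left.1 h.dj hx h'

theorem ht_off {b : Bool} {x : X.M} (hx : x ∉ range j) (hb : x ∈ S b) : sdHt j S x = pm b := by
  rw [sdHt, extend_apply' _ _ _ hx]
  cases b
  · exact if_neg (h.not_mem hb)
  · exact if_pos hb

theorem continuous : Continuous (sdHt j S) := by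
  classical
  rw [continuous_iff_continuousAt]
  intro x
  by_cases hx : x ∈ range j
  · obtain ⟨a, rfl⟩ := hx
    refine h.oe.isOpenEmbedding.continuousAt_iff.1 ?_
    rw [sdHt, h.oe.extend_comp]
    fun_prop
  · have h1 := extend_eventuallyEq h.oe.inj (g := fun p => max (-1) (min 1 p.2))
      (h := fun x => if x ∈ S true then (1 : ℝ) else -1) (h.oe.isCompact_slab (-1) 1).isClosed
      (fun p hp => by
        by_cases h0 : 0 < p.2
        · have h2 : 1 < p.2 := by_contra fun e => hp ⟨trivial, by linarith, not_lt.1 e⟩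
          rw [if_pos (h.mem true p (by simpa [pm] using h0)), min_eq_left h2.le, max_eq_right (by norm_num)]
        · have h2 : p.2 < -1 := by_contra fun e => hp ⟨trivial, not_lt.1 e, by linarith⟩
          rw [if_neg (show j p ∉ S true from h.not_mem (h.mem false p (by simp only [pm]; norm_num; linarith))),
            min_eq_right (by linarith), max_eq_left h2.le])
      (x := x) fun e => hx (image_subset_range _ _ e)
    refine ContinuousAt.congr ?_ h1.symm
    obtain ⟨b, hb⟩ := h.cov x hx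
    refine (continuousAt_const (y := pm b)).congr ?_
    filter_upwards [(h.op b).mem_nhds hb] with y hy
    cases b
    · exact (if_neg (h.not_mem hy)).symm
    · exact (if_pos hy).symm

theorem j_mem {b : Bool} {p : Y.M × ℝ} : j p ∈ S b ↔ 0 < pm b * p.2 := by
  refine ⟨fun hp => by_contra fun e => ?_, h.mem b p⟩
  have h1 : Continuous fun t : ℝ => j (p.1, p.2 - pm b * t) := h.oe.continuous.comp (by fun_prop)
  have h2 : ∀ᶠ t in 𝓝 (0 : ℝ), j (p.1, p.2 - pm b * t) ∈ S b :=
    h1.continuousAt.preimage_mem_nhds ((h.op b).mem_nhds (by simpa using hp))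
  obtain ⟨t, h3, h4⟩ := ((h2.filter_mono nhdsWithin_le_nhds).and
    (self_mem_nhdsWithin (s := Ioi (0 : ℝ)))).exists
  refine h.not_mem h3 (h.mem _ _ ?_)
  have h5 : 0 < t := h4
  rw [pm_not, neg_mul, mul_sub, ← mul_assoc, pm_mul_pm]
  linarith

end Sides

/-- the band with prescribed sides -/
def ofSd (h : Sides Y j S) : Band X where
  Y := Y
  j := j
  oe := h.oe
  ht := sdHt j S
  cont := h.continuous
  pos p := by rw [h.ht_j, lt_max_iff, lt_min_iff]; norm_num
  neg p := by rw [h.ht_j, max_lt_iff, min_lt_iff]; norm_num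
  off x hx := by
    obtain ⟨b, hb⟩ := h.cov x hx
    rw [h.ht_off hx hb]
    exact sg_ne b

@[simp] theorem ofSd_j (h : Sides Y j S) : (ofSd h).j = j := rfl

theorem ofSd_sd (h : Sides Y j S) (b : Bool) : (ofSd h).wall.sd b = S b := by
  ext x
  by_cases hx : x ∈ range j
  · obtain ⟨p, rfl⟩ := hx
    exact ((ofSd h).j_mem_sd (p := p)).trans h.j_mem.symm
  · obtain ⟨b', hb⟩ := h.cov x hx
    change 0 < pm b * sdHt j S x ↔ _
    rw [h.ht_off hx hb]
    by_cases e : b = b'
    · subst e
      simp [pm_mul_pm, hb]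
    · obtain rfl : b = !b' := by cases b <;> cases b' <;> simp_all
      simp [pm_not, pm_mul_pm, h.not_mem hb]

/-- the sides given by the closed side `K` opposite to the side `b` -/
theorem sides_of_closed {K : Set X.M} (b : Bool) (oe : IsOE (IC Y.I) X.I j) (hK : IsClosed K)
    (ho : IsOpen (K \ j '' (univ ×ˢ {0}))) (hj : ∀ p, j p ∈ K ↔ pm b * p.2 ≤ 0) :
    Sides Y j fun b' => if b' = b then Kᶜ else K \ j '' (univ ×ˢ {0}) where
  oe := oe
  op b' := by split_ifs; exacts [hK.isOpen_compl, ho]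
  dj := by cases b <;> simp [disjoint_left] <;> tauto
  cov x hx := by
    by_cases h : x ∈ K
    · exact ⟨!b, by rw [if_neg (Bool.not_ne_self b)]; exact ⟨h, fun e => hx (image_subset_range _ _ e)⟩⟩
    · exact ⟨b, by simpa using h⟩
  mem b' p hp := by
    split_ifs with e
    · subst e
      exact fun k => ((hj p).1 k).not_gt hp
    · obtain rfl : b' = !b := by cases b <;> cases b' <;> simp_all
      rw [pm_not] at hp
      refine ⟨(hj p).2 (by linarith), fun k => ?_⟩
      have : p.2 = 0 := (oe.inj.mem_set_image.1 k).2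
      simp [this] at hp

end Sd

/-- the sides of a band -/
theorem sides_band {X : Mf 4} (N : Band X) : Sides N.Y N.j N.wall.sd :=
  ⟨N.oe, N.wall.op_sd, N.wall.dj, N.wall.cov, fun _ _ => N.j_mem_sd.2⟩

/-- the separating neck of a band -/
def toSep {X : Mf 4} (N : Band X) : Sep X.pc N.Y.pc where
  n := N.j
  oe := N.oe
  L := N.wall.sd false
  R := N.wall.sd true
  oL := N.wall.op_sd _
  oR := N.wall.op_sd _
  dj := N.wall.dj.symm
  cov x hx := by
    obtain ⟨b, hb⟩ := N.wall.cov x hx
    cases b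
    exacts [.inl hb, .inr hb]
  nL p hp := N.j_mem_sd.2 (by simpa [pm] using hp)
  nR p hp := N.j_mem_sd.2 (by simpa [pm] using hp)

theorem compl_sd {X : Mf 4} (N : Band X) (b : Bool) :
    (N.wall.sd b)ᶜ = N.wall.sd (!b) ∪ N.wall.core := by
  ext x
  refine ⟨fun h => ?_, ?_⟩
  · rcases N.wall.mem_cases b x with k | k | k
    exacts [(h k).elim, .inr k, .inl k]
  · rintro (h | h) k
    exacts [N.wall.not_mem_sd k h, h b k]

/-! ### transport -/

section Push

variable {A X : Mf 4} (N : Band A) (k : PartialDiffeomorph A.I X.I A.M X.M ∞) (b : Bool)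

/-- the closed side opposite to `b` is compact, and lies with the band in the domain of `k` -/
structure Pushable : Prop where
  cpt : IsCompact (N.wall.sd b)ᶜ
  sub : (N.wall.sd b)ᶜ ⊆ k.source
  src : ∀ p, N.j p ∈ k.source

variable {N k b}

theorem Pushable.sides (h : Pushable N k b) : Sides N.Y (k ∘ N.j) fun b' =>
    if b' = b then (k '' (N.wall.sd b)ᶜ)ᶜ else k '' N.wall.sd (!b) := by
  have h1 : N.wall.sd (!b) ⊆ (N.wall.sd b)ᶜ := fun x hx e => N.wall.not_mem_sd e hx
  refine ⟨IsOE.of_pd k N.oe h.src, fun b' => ?_, ?_, fun x hx => ?_, fun b' p hp => ?_⟩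
  · split_ifs
    · exact (h.cpt.image_of_continuousOn (k.contMDiffOn.continuousOn.mono h.sub)).isClosed.isOpen_compl
    · exact k.toOpenPartialHomeomorph.isOpen_image_of_subset_source (N.wall.op_sd _) (h1.trans h.sub)
  · have := disjoint_compl_left.mono_right (image_mono (f := k) h1)
    cases b
    exacts [this.symm, this]
  · by_cases e : x ∈ k '' (N.wall.sd b)ᶜ
    · obtain ⟨z, hz, rfl⟩ := e
      rcases (compl_sd N b).subset hz with e | e
      · exact ⟨!b, by simpa using mem_image_of_mem k e⟩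
      · obtain ⟨y, rfl⟩ := N.mem_core.1 e
        exact (hx ⟨_, rfl⟩).elim
    · exact ⟨b, by simpa using e⟩
  · split_ifs with e
    · subst e
      rintro ⟨z, hz, e⟩
      exact hz (k.injOn (h.sub hz) (h.src p) e ▸ N.j_mem_sd.2 hp)
    · obtain rfl : b' = !b := by cases b <;> cases b' <;> simp_all
      exact mem_image_of_mem k (N.j_mem_sd.2 hp)

/-- the transported band -/
def bpush (h : Pushable N k b) : Band X := ofSd h.sides

@[simp] theorem bpush_j (h : Pushable N k b) (p : N.Y.M × ℝ) : (bpush h).j p = k (N.j p) := rfl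

theorem bpush_out (h : Pushable N k b) : (bpush h).wall.sd b = (k '' (N.wall.sd b)ᶜ)ᶜ :=
  (ofSd_sd h.sides b).trans (if_pos rfl)

theorem bpush_in (h : Pushable N k b) : (bpush h).wall.sd (!b) = k '' N.wall.sd (!b) :=
  (ofSd_sd h.sides _).trans (if_neg (Bool.not_ne_self b))

theorem bpush_band (h : Pushable N k b) : (bpush h).wall.band = k '' N.wall.band := range_comp k N.j

theorem bpush_slab (h : Pushable N k b) (s : Set ℝ) : (bpush h).slab s = k '' N.slab s :=
  image_comp k N.j _

theorem bpush_mem_sd (h : Pushable N k b) {x : A.M} (hx : x ∈ k.source) {b' : Bool} :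
    k x ∈ (bpush h).wall.sd b' ↔ x ∈ N.wall.sd b' := by
  by_cases e : b' = b
  · subst e
    rw [bpush_out, mem_compl_iff, k.injOn.mem_image_iff h.sub hx, notMem_compl_iff]
  · obtain rfl : b' = !b := by cases b <;> cases b' <;> simp_all
    rw [bpush_in, k.injOn.mem_image_iff (fun x hx => h.sub fun e => N.wall.not_mem_sd e hx) hx]

theorem bpush_of_not_mem (h : Pushable N k b) {x : X.M} (hx : x ∉ k.target) :
    x ∈ (bpush h).wall.sd b := by
  rw [bpush_out]
  rintro ⟨z, hz, rfl⟩
  exact hx (k.map_source (h.sub hz))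

theorem bpush_cpt (h : Pushable N k b) : IsCompact ((bpush h).wall.sd b)ᶜ := by
  rw [bpush_out, compl_compl]
  exact h.cpt.image_of_continuousOn (k.contMDiffOn.continuousOn.mono h.sub)

end Push

/-- a band of a letter over the times `J` is a band of the word -/
theorem TIso.pushable {A X : TP V4} {J : Set ℝ} (k : TIso A X J) (N : Band A.mf) (b : Bool)
    (hc : IsCompact (N.wall.sd b)ᶜ) (h1 : ∀ x ∉ N.wall.sd b, A.τ x ∈ J)
    (h2 : ∀ p, A.τ (N.j p) ∈ J) : Pushable (X := X.mf) N k.φ b :=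
  ⟨hc, fun x hx => k.mem_src (h1 x hx), fun p => k.mem_src (h2 p)⟩

/-! ### vertical necks -/

section Time

variable {X : TP V4} {Y : Mf 3} [CompactSpace Y.M] [ConnectedSpace Y.M] {J : Set ℝ}
  (k : TIso (cylT Y.pc) X J) {σ : ℝ → ℝ}

/-- the neck over the interval of times `range σ` of a product region -/
def ofTime (hσ : IsOE 𝓘(ℝ, ℝ) 𝓘(ℝ, ℝ) σ) (hm : StrictMono σ) (h : ∀ s, σ s ∈ J) : Band X.mf where
  Y := Y
  j p := k (p.1, σ p.2)
  oe := k.isOE_neck hσ h
  ht x := X.τ x - σ 0
  cont := X.cont.sub continuous_const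
  pos p := by rw [k.tm (p.1, σ p.2) (h _), sub_pos]; exact hm.lt_iff_lt
  neg p := by rw [k.tm (p.1, σ p.2) (h _), sub_neg]; exact hm.lt_iff_lt
  off x hx e := by
    obtain ⟨y, hy⟩ := k.exists_cyl (x := x) (sub_eq_zero.1 e ▸ h 0)
    exact hx ⟨(y, 0), by rw [← hy, sub_eq_zero.1 e]⟩

variable (hσ : IsOE 𝓘(ℝ, ℝ) 𝓘(ℝ, ℝ) σ) (hm : StrictMono σ) (h : ∀ s, σ s ∈ J)

@[simp] theorem ofTime_j (p : Y.M × ℝ) : (ofTime k hσ hm h).j p = k (p.1, σ p.2) := rfl

theorem ofTime_true : (ofTime k hσ hm h).wall.sd true = X.τ ⁻¹' Ioi (σ 0) := by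
  ext x
  change 0 < pm true * (X.τ x - σ 0) ↔ _
  simp [pm]

theorem ofTime_false : (ofTime k hσ hm h).wall.sd false = X.τ ⁻¹' Iio (σ 0) := by
  ext x
  change 0 < pm false * (X.τ x - σ 0) ↔ _
  simp [pm]

theorem ofTime_slab (s : Set ℝ) : (ofTime k hσ hm h).slab s = X.τ ⁻¹' (σ '' s) := by
  rw [← k.image_preimage (s := σ '' s) (by rintro _ ⟨t, -, rfl⟩; exact h t)]
  ext x
  constructor
  · rintro ⟨p, hp, rfl⟩
    exact ⟨(p.1, σ p.2), ⟨p.2, hp.2, rfl⟩, rfl⟩
  · rintro ⟨⟨y, _⟩, ⟨t, ht, rfl⟩, rfl⟩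
    exact ⟨(y, t), ⟨trivial, ht⟩, rfl⟩

theorem ofTime_band : (ofTime k hσ hm h).wall.band = X.τ ⁻¹' range σ := by
  rw [← image_univ, ← ofTime_slab k hσ hm h, Band.slab, univ_prod_univ, image_univ]
  rfl

end Time

end Crest.Agent.X212.Cyl58
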