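import Crest.Agent.X212.Cyl58.TP
import Crest.Agent.X212.Glue52.Two

/-!
# X212/Cyl58/Jn: joining timed pieces; closed manifolds with a separating neck

* `Jn A B X g` : `X` is `A` before time `b` and `B` after time `a`, glued by `g` over `(a, b)`;
  existence `exists_jn`, uniqueness `Jn.exists_iso`, gluing of functions `Jn.lift`;
* `TIso.exists_of_charts` : uniqueness for any family of charts;
* `Sep`, `Sep.tp`, `Sep.k` : a separating neck defines a time function and a product region.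
-/

set_option autoImplicit false
set_option linter.unusedSectionVars false
noncomputable section
open Set Filter Topology Function Metric TopologicalSpace
open scoped ContDiff Manifold

namespace Crest.Agent.X212.Cyl58

open Glue52

variable {V V' V'' V₃ W : Type} [NormedAddCommGroup V] [NormedSpace ℝ V] [NormedAddCommGroup V']
  [NormedSpace ℝ V'] [NormedAddCommGroup V''] [NormedSpace ℝ V''] [NormedAddCommGroup V₃]
  [NormedSpace ℝ V₃] [NormedAddCommGroup W] [NormedSpace ℝ W]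

namespace TIso

/-- an embedding of the part over `J` onto the part over `J` -/
theorem exists_of_ov {M : TP V} {X : TP V'} {J : Set ℝ} (hJ : IsOpen J) {f : M.ov hJ → X.P.M}
    (hf : IsOE M.P.I X.P.I f) (ht : ∀ x, X.τ (f x) = M.τ x) (hs : ∀ y, X.τ y ∈ J → y ∈ range f) :
    ∃ k : TIso M X J, ∀ x : M.ov hJ, k x = f x := by
  have hv : Injective (Subtype.val : M.ov hJ → M.P.M) := Subtype.val_injective
  let F : M.P.M → X.P.M := extend Subtype.val f fun _ => Classical.arbitrary _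
  have hF : ∀ x : M.ov hJ, F x = f x := fun x => hv.extend_apply _ _ x
  refine ⟨mk' hJ F (fun x hx => ?_) (fun x y hx hy e => ?_) (fun x hx => ?_) (fun y hy => ?_), hF⟩
  · refine ld_of_comp ((isOE_val (M.ov hJ)).loc ⟨x, hx⟩) ?_
    rw [show F ∘ Subtype.val = f from funext hF]
    exact hf.loc _
  · exact congrArg Subtype.val (hf.inj ((hF ⟨x, hx⟩).symm.trans (e.trans (hF ⟨y, hy⟩))))
  · exact (congrArg X.τ (hF ⟨x, hx⟩)).trans (ht _)
  · obtain ⟨x, rfl⟩ := hs y hy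
    exact ⟨x, x.2, hF x⟩

/-- UNIQUENESS: the same charts with the same transitions -/
theorem exists_of_charts {ι : Type*} {M : ι → TP V} {X : TP V'} {X' : TP V''} {J : ι → Set ℝ}
    {L : Set ℝ} (hJ : ∀ i, IsOpen (J i)) (hL : ⋃ i, J i = L) (k : ∀ i, TIso (M i) X (J i))
    (k' : ∀ i, TIso (M i) X' (J i))
    (h : ∀ i j p q, (M i).τ p ∈ J i → (M j).τ q ∈ J j → k i p = k j q → k' i p = k' j q) :
    ∃ K : TIso X X' L, ∀ i p, (M i).τ p ∈ J i → K (k i p) = k' i p := by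
  obtain ⟨K, hK⟩ := exists_glue' hJ hL (fun i => (k i).symm.trans (k' i)) fun i j x hi hj =>
    h i j _ _ ((k i).symm.mem hi) ((k j).symm.mem hj)
      (((k i).apply_symm hi).trans ((k j).apply_symm hj).symm)
  refine ⟨K, fun i p hp => ?_⟩
  rw [hK i _ ((k i).mem hp), trans_apply, (k i).symm_apply hp]

variable {EZ HZ : Type*} [NormedAddCommGroup EZ] [NormedSpace ℝ EZ] [TopologicalSpace HZ]
  {IZ : ModelWithCorners ℝ EZ HZ} {Z : Type*} [TopologicalSpace Z] [ChartedSpace HZ Z]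

theorem contMDiffAt_iff {M : TP V} {X : TP V'} {J : Set ℝ} (k : TIso M X J) {F : X.P.M → Z}
    {p : M.P.M} (hp : M.τ p ∈ J) :
    ContMDiffAt M.P.I IZ ∞ (F ∘ k) p ↔ ContMDiffAt X.P.I IZ ∞ F (k p) :=
  contMDiffAt_comp_iff (k.ld hp)

end TIso

/-- `X` is `A` before time `b` and `B` after time `a` -/
structure Jn (A : TP V) (B : TP V') (X : TP V'') {a b : ℝ} (g : TIso A B (Ioo a b)) where
  lt : a < b
  l : TIso A X (Iio b)
  r : TIso B X (Ioi a)
  eq : ∀ p, A.τ p ∈ Ioo a b → r (g p) = l p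

/-- EXISTENCE of the join -/
theorem exists_jn {A B : TP V} {a b : ℝ} (hab : a < b) (g : TIso A B (Ioo a b))
    (hne : ∃ p, A.τ p < b) : ∃ X : TP V, Nonempty (Jn A B X g) := by
  let U₁ := A.ov (isOpen_Iio (a := b))
  let U₂ := B.ov (isOpen_Ioi (a := a))
  let N := A.ov (isOpen_Ioo (a := a) (b := b))
  let j₁ : N → U₁ := fun p => ⟨p.1, p.2.2⟩
  let j₂ : N → U₂ := fun p => ⟨g p.1, (g.mem p.2).1⟩
  have h₁ : IsOE A.P.I A.P.I j₁ := (isOE_val U₁).of_comp_left (isOE_val N)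
  have h₂ : IsOE A.P.I B.P.I j₂ := (isOE_val U₂).of_comp_left (g.isOE (isOE_val N) fun p => p.2)
  let T : Two V A.P.I B.P.I A.P.I U₁ U₂ N :=
    { L₁ := A.P.L, L₂ := B.P.L, j₁ := j₁, j₂ := j₂, ld₁ := h₁.loc, ld₂ := h₂.loc, inj₁ := h₁.inj,
      inj₂ := h₂.inj }
  let τ : T.M → ℝ := T.lift (fun p => A.τ p.1) fun q => B.τ q.1
  have τl : ∀ p, τ (T.inl p) = A.τ p.1 := T.lift_inl fun n => (g.tm n.1 n.2).symm
  have τr : ∀ q, τ (T.inr q) = B.τ q.1 := fun q => T.lift_inr _ _ q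
  have hτ : Continuous τ := T.continuous_iff.2
    ⟨(A.cont.comp continuous_subtype_val).congr fun p => (τl p).symm,
      (B.cont.comp continuous_subtype_val).congr fun q => (τr q).symm⟩
  have sl : ∀ x, τ x ∈ Iio b → x ∈ range T.inl := by
    intro x hx
    rcases T.surj x with h | ⟨q, rfl⟩
    · exact h
    · rw [τr] at hx
      obtain ⟨p, h1, h2⟩ := g.surj (y := q.1) ⟨q.2, hx⟩
      have hp : A.τ p ∈ Ioo a b := h1 ▸ ⟨q.2, hx⟩
      exact ⟨j₁ ⟨p, hp⟩, (T.inl_j₁ ⟨p, hp⟩).trans (congrArg T.inr (Subtype.ext h2))⟩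
  have sr : ∀ x, τ x ∈ Ioi a → x ∈ range T.inr := by
    intro x hx
    rcases T.surj x with ⟨p, rfl⟩ | h
    · rw [τl] at hx
      exact ⟨j₂ ⟨p.1, hx, p.2⟩, (T.inl_j₁ ⟨p.1, hx, p.2⟩).symm⟩
    · exact h
  have t2 : T2Space T.M := ⟨fun x y hxy => by
    by_cases h : τ x = τ y
    · rcases lt_or_ge (τ x) b with hx | hx
      · obtain ⟨p, rfl⟩ := sl x hx
        obtain ⟨q, rfl⟩ := sl y (show τ y < b from h ▸ hx)
        exact separated_by_isOpenEmbedding T.isOpenEmbedding_inl fun e => hxy (congrArg _ e)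
      · obtain ⟨p, rfl⟩ := sr x (hab.trans_le hx)
        obtain ⟨q, rfl⟩ := sr y (show a < τ y from h ▸ hab.trans_le hx)
        exact separated_by_isOpenEmbedding T.isOpenEmbedding_inr fun e => hxy (congrArg _ e)
    · exact separated_by_continuous hτ h⟩
  obtain ⟨p₀, hp₀⟩ := hne
  have ne : Nonempty T.M := ⟨T.inl ⟨p₀, hp₀⟩⟩
  let X : TP V :=
    { P := Pc.of 𝓘(ℝ, V) T.M (ContinuousLinearEquiv.refl ℝ V)
      τ := τ
      cont := hτ
      prop := fun s t => by
        obtain ⟨c, hac, hcb⟩ := exists_between hab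
        have k₁ : IsCompact ((fun p : U₁ => A.τ p.1) ⁻¹' Icc s c) :=
          IsInducing.subtypeVal.isCompact_preimage_iff (K := A.τ ⁻¹' Icc s c)
            (fun x hx => ⟨⟨x, hx.2.trans_lt hcb⟩, rfl⟩) |>.2 (A.prop s c)
        have k₂ : IsCompact ((fun p : U₂ => B.τ p.1) ⁻¹' Icc c t) :=
          IsInducing.subtypeVal.isCompact_preimage_iff (K := B.τ ⁻¹' Icc c t)
            (fun x hx => ⟨⟨x, hac.trans_le hx.1⟩, rfl⟩) |>.2 (B.prop c t)
        refine ((k₁.image T.isOpenEmbedding_inl.continuous).union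
          (k₂.image T.isOpenEmbedding_inr.continuous)).of_isClosed_subset
          (isClosed_Icc.preimage hτ) fun x hx => ?_
        rcases le_total (τ x) c with h | h
        · obtain ⟨p, rfl⟩ := sl x (h.trans_lt hcb)
          exact .inl ⟨p, ⟨hx.1.trans_eq (τl p), (τl p).symm.trans_le h⟩, rfl⟩
        · obtain ⟨p, rfl⟩ := sr x (hac.trans_le h)
          exact .inr ⟨p, ⟨h.trans_eq (τr p), (τr p).symm.trans_le hx.2⟩, rfl⟩ }
  obtain ⟨l, hl⟩ := TIso.exists_of_ov (M := A) (X := X) isOpen_Iio ⟨T.inl_injective, T.ld_inl⟩ τl sl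
  obtain ⟨r, hr⟩ := TIso.exists_of_ov (M := B) (X := X) isOpen_Ioi ⟨T.inr_injective, T.ld_inr⟩ τr sr
  exact ⟨X, ⟨hab, l, r, fun p hp =>
    (hr (j₂ ⟨p, hp⟩)).trans ((T.inl_j₁ ⟨p, hp⟩).symm.trans (hl (j₁ ⟨p, hp⟩)).symm)⟩⟩

/-- a chosen join -/
def jnX {A B : TP V} {a b : ℝ} (hab : a < b) (g : TIso A B (Ioo a b)) (hne : ∃ p, A.τ p < b) :
    TP V := (exists_jn hab g hne).choose

/-- its charts -/
def jn {A B : TP V} {a b : ℝ} (hab : a < b) (g : TIso A B (Ioo a b)) (hne : ∃ p, A.τ p < b) :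
    Jn A B (jnX hab g hne) g := (exists_jn hab g hne).choose_spec.some

namespace Jn

variable {A : TP V} {B : TP V'} {X : TP V''} {X' : TP V₃} {a b : ℝ} {g : TIso A B (Ioo a b)}
  (j : Jn A B X g)
include j

theorem cases (t : ℝ) : t ∈ Iio b ∨ t ∈ Ioi a :=
  (lt_or_ge t b).imp id fun h => j.lt.trans_le h

theorem union : Iio b ∪ Ioi a = univ := eq_univ_of_forall j.cases

theorem surj (x : X.P.M) : (∃ p, A.τ p < b ∧ j.l p = x) ∨ ∃ q, a < B.τ q ∧ j.r q = x := by
  rcases j.cases (X.τ x) with h | h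
  · obtain ⟨p, h1, h2⟩ := j.l.surj h
    exact .inl ⟨p, h1 ▸ h, h2⟩
  · obtain ⟨p, h1, h2⟩ := j.r.surj h
    exact .inr ⟨p, h1 ▸ h, h2⟩

theorem l_eq_r {p : A.P.M} {q : B.P.M} (hp : A.τ p < b) (hq : a < B.τ q) :
    j.l p = j.r q ↔ A.τ p ∈ Ioo a b ∧ g p = q := by
  refine ⟨fun e => ?_, fun h => by rw [← h.2, j.eq p h.1]⟩
  have h1 : A.τ p ∈ Ioo a b := ⟨by rwa [← j.l.tm p hp, e, j.r.tm q hq], hp⟩
  exact ⟨h1, j.r.inj (g.mem h1).1 hq ((j.eq p h1).trans e)⟩

theorem r_symm {x : X.P.M} (hx : X.τ x ∈ Ioo a b) : j.r.symm x = g (j.l.symm x) := by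
  have h1 : A.τ (j.l.symm x) ∈ Ioo a b := by rwa [j.l.symm.tm x hx.2]
  refine j.r.inj (j.r.symm.mem hx.1) (g.mem h1).1 ?_
  rw [j.r.apply_symm hx.1, j.eq _ h1, j.l.apply_symm hx.2]

/-- maps out of a join that are isomorphisms on both parts -/
theorem exists_iso' (l : TIso A X' (Iio b)) (r : TIso B X' (Ioi a))
    (h : ∀ p, A.τ p ∈ Ioo a b → r (g p) = l p) :
    ∃ K : TIso X X' univ, (∀ p, A.τ p < b → K (j.l p) = l p) ∧ ∀ q, a < B.τ q → K (j.r q) = r q := by
  obtain ⟨K, h1, h2⟩ := TIso.exists_glue₂ isOpen_Iio isOpen_Ioi j.union (j.l.symm.trans l)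
    (j.r.symm.trans r) fun x hx hx' => by
      rw [TIso.trans_apply, TIso.trans_apply, j.r_symm ⟨hx', hx⟩, h _ (by
        rw [j.l.symm.tm x hx]; exact ⟨hx', hx⟩)]
  refine ⟨K, fun p hp => ?_, fun q hq => ?_⟩
  · rw [h1 _ (j.l.mem hp), TIso.trans_apply, j.l.symm_apply hp]
  · rw [h2 _ (j.r.mem hq), TIso.trans_apply, j.r.symm_apply hq]

/-- UNIQUENESS of the join -/
theorem exists_iso (j' : Jn A B X' g) : ∃ K : TIso X X' univ,
    (∀ p, A.τ p < b → K (j.l p) = j'.l p) ∧ ∀ q, a < B.τ q → K (j.r q) = j'.r q :=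
  j.exists_iso' j'.l j'.r j'.eq

omit j in
/-- any timed piece is the join of itself with itself -/
def self (X : TP V) (h : a < b) : Jn X X X (TIso.refl X (isOpen_Ioo (a := a) (b := b))) :=
  ⟨h, TIso.refl X isOpen_Iio, TIso.refl X isOpen_Ioi, fun _ _ => rfl⟩

/-- a smaller overlap -/
def restr {a' b' : ℝ} (h : a' < b') (ha : a ≤ a') (hb : b' ≤ b) :
    Jn A B X (g.restr isOpen_Ioo (Ioo_subset_Ioo ha hb)) :=
  ⟨h, j.l.restr isOpen_Iio (Iio_subset_Iio hb), j.r.restr isOpen_Ioi (Ioi_subset_Ioi ha),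
    fun p hp => j.eq p (Ioo_subset_Ioo ha hb hp)⟩

/-- the function on the join given by functions on the two parts -/
def lift {Z : Type*} (F : A.P.M → Z) (G : B.P.M → Z) (x : X.P.M) : Z :=
  if X.τ x < b then F (j.l.symm x) else G (j.r.symm x)

theorem lift_l {Z : Type*} (F : A.P.M → Z) (G : B.P.M → Z) {p : A.P.M} (hp : A.τ p < b) :
    j.lift F G (j.l p) = F p := by
  rw [lift, if_pos (show X.τ (j.l p) < b from j.l.mem hp), j.l.symm_apply hp]

theorem lift_r {Z : Type*} {F : A.P.M → Z} {G : B.P.M → Z}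
    (h : ∀ p, A.τ p ∈ Ioo a b → G (g p) = F p) {q : B.P.M} (hq : a < B.τ q) :
    j.lift F G (j.r q) = G q := by
  unfold lift
  split_ifs with hx
  · rw [← h _ (by rw [j.l.symm.tm _ hx]; exact ⟨j.r.mem hq, hx⟩), ← j.r_symm ⟨j.r.mem hq, hx⟩,
      j.r.symm_apply hq]
  · rw [j.r.symm_apply hq]

variable {EZ HZ : Type*} [NormedAddCommGroup EZ] [NormedSpace ℝ EZ] [TopologicalSpace HZ]
  {IZ : ModelWithCorners ℝ EZ HZ} {Z : Type*} [TopologicalSpace Z] [ChartedSpace HZ Z]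

theorem contMDiff_of {F : X.P.M → Z} (hl : ∀ p, A.τ p < b → ContMDiffAt A.P.I IZ ∞ (F ∘ j.l) p)
    (hr : ∀ q, a < B.τ q → ContMDiffAt B.P.I IZ ∞ (F ∘ j.r) q) : ContMDiff X.P.I IZ ∞ F := by
  intro x
  rcases j.surj x with ⟨p, hp, rfl⟩ | ⟨q, hq, rfl⟩
  exacts [(j.l.contMDiffAt_iff hp).1 (hl p hp), (j.r.contMDiffAt_iff hq).1 (hr q hq)]

theorem contMDiff_lift {F : A.P.M → Z} {G : B.P.M → Z} (h : ∀ p, A.τ p ∈ Ioo a b → G (g p) = F p)
    (hF : ∀ p, A.τ p < b → ContMDiffAt A.P.I IZ ∞ F p)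
    (hG : ∀ q, a < B.τ q → ContMDiffAt B.P.I IZ ∞ G q) : ContMDiff X.P.I IZ ∞ (j.lift F G) := by
  refine j.contMDiff_of (fun p hp => (hF p hp).congr_of_eventuallyEq ?_)
    fun q hq => (hG q hq).congr_of_eventuallyEq ?_
  · filter_upwards [(isOpen_Iio.preimage A.cont).mem_nhds hp] with z hz using j.lift_l F G hz
  · filter_upwards [(isOpen_Ioi.preimage B.cont).mem_nhds hq] with z hz using j.lift_r h hz

/-- time bounded on both sides: the join is closed -/
theorem compactSpace {s t : ℝ} (hA : ∀ p, s ≤ A.τ p) (hB : ∀ q, B.τ q ≤ t) : CompactSpace X.P.M := by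
  refine X.compactSpace (a := min s a) (b := max t b) fun x => ?_
  rcases j.surj x with ⟨p, hp, rfl⟩ | ⟨q, hq, rfl⟩
  · rw [j.l.tm p hp]
    exact ⟨min_le_of_left_le (hA p), le_max_of_le_right hp.le⟩
  · rw [j.r.tm q hq]
    exact ⟨min_le_of_right_le hq.le, le_max_of_le_left (hB q)⟩

theorem lower {s : ℝ} (hA : ∀ p, s ≤ A.τ p) (x : X.P.M) : min s a ≤ X.τ x := by
  rcases j.surj x with ⟨p, hp, rfl⟩ | ⟨q, hq, rfl⟩
  · rw [j.l.tm p hp]; exact min_le_of_left_le (hA p)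
  · rw [j.r.tm q hq]; exact min_le_of_right_le hq.le

theorem upper {t : ℝ} (hB : ∀ q, B.τ q ≤ t) (x : X.P.M) : X.τ x ≤ max t b := by
  rcases j.surj x with ⟨p, hp, rfl⟩ | ⟨q, hq, rfl⟩
  · rw [j.l.tm p hp]; exact le_max_of_le_right hp.le
  · rw [j.r.tm q hq]; exact le_max_of_le_left (hB q)

/-- translation of time -/
def shift (d : ℝ) : Jn (A.shift d) (B.shift d) (X.shift d) (a := a + d) (b := b + d)
    ((g.shift d).cast (by ext t; simp only [mem_ofPred_eq, mem_Ioo]; constructor <;>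
      exact fun h => ⟨by linarith [h.1], by linarith [h.2]⟩)) where
  lt := by linarith [j.lt]
  l := (j.l.shift d).cast (by ext t; simp only [mem_ofPred_eq, mem_Iio]; exact sub_lt_iff_lt_add)
  r := (j.r.shift d).cast (by ext t; simp only [mem_ofPred_eq, mem_Ioi]; exact lt_sub_iff_add_lt)
  eq p hp := j.eq p ⟨lt_of_add_lt_add_right hp.1, lt_of_add_lt_add_right hp.2⟩

end Jn

/-! ### separating necks -/

/-- a neck of a closed manifold whose core separates -/
structure Sep (X : Pc V) (Y : Pc W) where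
  n : Y.M × ℝ → X.M
  oe : IsOE (Y.I.prod 𝓘(ℝ, ℝ)) X.I n
  L : Set X.M
  R : Set X.M
  oL : IsOpen L
  oR : IsOpen R
  dj : Disjoint L R
  cov : ∀ x ∉ range n, x ∈ L ∨ x ∈ R
  nL : ∀ p, p.2 < 0 → n p ∈ L
  nR : ∀ p, 0 < p.2 → n p ∈ R

namespace Sep

variable {X : Pc V} {Y : Pc W} (S : Sep X Y) [CompactSpace X.M] [T2Space X.M]
  [SecondCountableTopology X.M] [CompactSpace Y.M] [T2Space Y.M] [SecondCountableTopology Y.M]
  [Nonempty Y.M]

open Classical in
/-- the neck coordinate, clamped to `[-T, T]` -/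
def τ (T : ℝ) : X.M → ℝ :=
  extend S.n (fun p => max (-T) (min T p.2)) fun x => if x ∈ S.L then -T else T

theorem τ_n (T : ℝ) (p : Y.M × ℝ) : S.τ T (S.n p) = max (-T) (min T p.2) := S.oe.extend_apply _ _ p

theorem τ_n' {T : ℝ} {p : Y.M × ℝ} (h : p.2 ∈ Icc (-T) T) : S.τ T (S.n p) = p.2 := by
  rw [τ_n, min_eq_right h.2, max_eq_right h.1]

theorem τ_L (T : ℝ) {x : X.M} (hx : x ∉ range S.n) (h : x ∈ S.L) : S.τ T x = -T :=
  (extend_apply' _ _ _ hx).trans (if_pos h)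

theorem τ_R (T : ℝ) {x : X.M} (hx : x ∉ range S.n) (h : x ∈ S.R) : S.τ T x = T :=
  (extend_apply' _ _ _ hx).trans (if_neg fun h' => disjoint_left.1 S.dj h' h)

theorem τ_mem {T : ℝ} (hT : 0 < T) (x : X.M) : S.τ T x ∈ Icc (-T) T := by
  by_cases hx : x ∈ range S.n
  · obtain ⟨p, rfl⟩ := hx
    rw [τ_n]
    exact ⟨le_max_left _ _, max_le (by linarith) (min_le_left _ _)⟩
  · rcases S.cov x hx with h | h
    · rw [S.τ_L T hx h]; exact ⟨le_rfl, by linarith⟩
    · rw [S.τ_R T hx h]; exact ⟨by linarith, le_rfl⟩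

theorem continuous_τ {T : ℝ} (hT : 0 < T) : Continuous (S.τ T) := by
  classical
  rw [continuous_iff_continuousAt]
  intro x
  by_cases hx : x ∈ range S.n
  · obtain ⟨a, rfl⟩ := hx
    refine S.oe.isOpenEmbedding.continuousAt_iff.1 ?_
    rw [τ, S.oe.extend_comp]
    fun_prop
  · have h1 := extend_eventuallyEq S.oe.inj (g := fun p => max (-T) (min T p.2))
      (h := fun x => if x ∈ S.L then -T else T) (S.oe.isCompact_slab (-T) T).isClosed
      (fun p hp => by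
        rcases lt_or_ge p.2 (-T) with h | h
        · rw [if_pos (S.nL p (by linarith)), max_eq_left ((min_le_right _ _).trans h.le)]
        · have h2 : T < p.2 := not_le.1 fun h' => hp ⟨mem_univ _, h, h'⟩
          rw [if_neg fun h' => disjoint_left.1 S.dj h' (S.nR p (by linarith)), min_eq_left h2.le,
            max_eq_right (by linarith)])
      fun h' => hx (image_subset_range _ _ h')
    refine ContinuousAt.congr_of_eventuallyEq ?_ h1
    rcases S.cov x hx with h | h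
    · refine (continuousAt_const (y := -T)).congr_of_eventuallyEq ?_
      filter_upwards [S.oL.mem_nhds h] with z hz using if_pos hz
    · refine (continuousAt_const (y := T)).congr_of_eventuallyEq ?_
      filter_upwards [S.oR.mem_nhds h] with z hz using if_neg fun h' => disjoint_left.1 S.dj h' hz

/-- the closed manifold as a timed piece -/
def tp {T : ℝ} (hT : 0 < T) : TP V :=
  have : Nonempty X.M := ⟨S.n (Classical.arbitrary _, 0)⟩
  TP.ofCompact X (S.τ T) (S.continuous_τ hT)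

/-- the neck as a product region -/
def k {T : ℝ} (hT : 0 < T) : TIso (cylT Y) (S.tp hT) (Ioo (-T) T) :=
  TIso.mk' isOpen_Ioo S.n (fun p _ => S.oe.loc p) (fun _ _ _ _ e => S.oe.inj e)
    (fun _ hp => S.τ_n' (Ioo_subset_Icc_self hp)) fun x hx => by
      change S.τ T x ∈ _ at hx
      by_cases h : x ∈ range S.n
      · obtain ⟨p, rfl⟩ := h
        rw [τ_n] at hx
        refine ⟨p, ⟨?_, ?_⟩, rfl⟩
        · exact ((lt_max_iff.1 hx.1).resolve_left (lt_irrefl _)).trans_le (min_le_right _ _)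
        · exact (min_lt_iff.1 (max_lt_iff.1 hx.2).2).resolve_left (lt_irrefl _)
      · rcases S.cov x h with h' | h'
        · rw [S.τ_L T h h'] at hx; exact (lt_irrefl _ hx.1).elim
        · rw [S.τ_R T h h'] at hx; exact (lt_irrefl _ hx.2).elim

theorem k_apply {T : ℝ} (hT : 0 < T) (p : Y.M × ℝ) : S.k hT p = S.n p := rfl

end Sep

end Crest.Agent.X212.Cyl58
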