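import Crest.Agent.X212.Cyl58.Loc
import Crest.Agent.X212.Cyl58.Bnd
import Crest.Agent.X212.M.Rel
import Crest.Agent.X212.Orx52.Pos

/-!
# X212/Cyl58/Cps: the capped manifolds of a mark

`caps : CapsStmt`; `capsD C c` : every `Caps` is a `Capd`; pieces `C.pc c π` (clopen, partition,
connected, compact); ends; the transfer maps `tr`.
-/

set_option autoImplicit false
set_option linter.unusedSectionVars false
noncomputable section
open Set Filter Topology Function Metric TopologicalSpace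
open scoped ContDiff Manifold

namespace Crest.Agent.X212.Cyl58

open Glue52 M Cyf70 An

section Rnd

variable {Y : Mf 3} {κ : Type} [Fintype κ] {F : Fr Y.I Y.M κ} {θ : Y.M → V4} (h : Round F θ)
include h

theorem rnd_norm (y : Y.M) {r : ℝ} (hr : 0 ≤ r) : ‖r • θ y‖ = r := by
  rw [norm_smul, h.nrm, mul_one, Real.norm_of_nonneg hr]

theorem rnd_ne (y : Y.M) {r : ℝ} (hr : 0 < r) : r • θ y ≠ 0 :=
  norm_pos_iff.1 (by rwa [rnd_norm h y hr.le])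

theorem rnd_exists {v : V4} (hv : v ≠ 0) : ∃ y, ‖v‖ • θ y = v := by
  have h0 := norm_ne_zero_iff.2 hv
  obtain ⟨y, hy⟩ := h.surj (‖v‖⁻¹ • v) (by rw [norm_smul, norm_inv, norm_norm, inv_mul_cancel₀ h0])
  exact ⟨y, by rw [hy, smul_inv_smul₀ h0]⟩

theorem rnd_image (s : Set ℝ) : (fun p : Y.M × ℝ => Real.exp p.2 • θ p.1) '' (univ ×ˢ s) =
    {x | ‖x‖ ∈ Real.exp '' s} := by
  refine Subset.antisymm ?_ ?_
  · rintro _ ⟨p, hp, rfl⟩
    exact ⟨p.2, hp.2, (rnd_norm h _ (Real.exp_pos _).le).symm⟩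
  · rintro x ⟨t, ht, e⟩
    obtain ⟨y, hy⟩ := rnd_exists h (v := x) (norm_pos_iff.1 (e ▸ Real.exp_pos t))
    exact ⟨(y, t), ⟨trivial, ht⟩, by rw [← hy, ← e]⟩

theorem rnd_inj : Injective θ := fun y y' e =>
  congrArg Prod.fst (h.oe.inj (a₁ := (y, 0)) (a₂ := (y', 0)) (congrArg (Real.exp 0 • ·) e))

/-- the ball as a cap of a round cross-section -/
def rndCap : Cap V4 Y.pc where
  P := Pc.of 𝓘(ℝ, V4) V4 (ContinuousLinearEquiv.refl ℝ V4)
  c p := Real.exp p.2 • θ p.1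
  isEnd := ⟨h.oe, by
    rw [rnd_image h, Real.image_exp_Ici]
    exact isClosed_Ici.preimage continuous_norm⟩
  cpt := by
    rw [rnd_image h, Real.image_exp_Ioi]
    exact (isCompact_closedBall (0 : V4) (Real.exp 0)).of_isClosed_subset
      (isOpen_Ioi.preimage continuous_norm).isClosed_compl fun x hx => by simpa using hx

theorem rndCap_log (y : Y.M) {r : ℝ} (hr : 0 < r) : (rndCap h).c (y, Real.log r) = r • θ y :=
  congrArg (· • θ y) (Real.exp_log hr)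

theorem rndCap_range {z : V4} : z ∉ range (rndCap h).c ↔ z = 0 := by
  refine ⟨fun k => by_contra fun e => ?_, ?_⟩
  · obtain ⟨y, hy⟩ := rnd_exists h e
    exact k ⟨_, (rndCap_log h y (norm_pos_iff.2 e)).trans hy⟩
  · rintro rfl ⟨p, e⟩
    exact rnd_ne h p.1 (Real.exp_pos _) e

theorem rndCap_compl : (range (rndCap h).c)ᶜ = {(0 : V4)} := Set.ext fun _ => rndCap_range h

theorem rndCap_low {T : ℝ} {z : V4} : z ∈ (rndCap h).low T ↔ ‖z‖ ≤ Real.exp T := by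
  by_cases e : z = 0
  · exact iff_of_true ((rndCap h).mem_low T ((rndCap_range h).2 e)) (by simp [e, Real.exp_nonneg])
  · obtain ⟨y, hy⟩ := rnd_exists h e
    have h0 := norm_pos_iff.2 e
    rw [← Real.log_le_iff_le_exp h0, ← (rndCap h).c_mem_low (p := (y, Real.log ‖z‖)),
      rndCap_log h y h0, hy]
    exact Iff.rfl

instance : PreconnectedSpace (rndCap h).P.M := inferInstanceAs (PreconnectedSpace V4)

end Rnd

variable {X X' : Mf 4} {A A' A₀ κ : Type} [Fintype A] [Fintype A'] [Fintype A₀] [Fintype κ]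

section HB

variable (M : Mark X A κ) (c : M.Cl)

/-- the capped half bands of a cell -/
abbrev PB : Type := {p : A × Bool // p.1 ∈ c.1 ∧ M.pin p.1}

variable {M c}

theorem mem_cores {σ : Set A} {x : X.M} :
    x ∈ M.sys.cores σ ↔ ∃ a ∈ σ, ∃ y, (M.bn a).j (y, 0) = x := by
  simp only [Sys.cores, mem_iUnion, exists_prop]
  exact exists_congr fun a => and_congr_right fun _ => (M.bn a).mem_core

theorem band_eq {a a' : A} (ha : a ∈ c.1) (ha' : a' ∈ c.1) {p q} (e : (M.bn a).j p = (M.bn a').j q) :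
    a = a' := by_contra fun k => disjoint_left.1 (c.2 ha ha' k) ⟨p, rfl⟩ ⟨q, e.symm⟩

theorem j_mem_cores {a : A} (ha : a ∈ c.1) {p} : (M.bn a).j p ∈ M.sys.cores c.1 ↔ p.2 = 0 := by
  refine mem_cores.trans ⟨fun ⟨a', ha', y, e⟩ => ?_, fun e => ⟨a, ha, p.1, by rw [← e]⟩⟩
  obtain rfl := band_eq ha' ha e
  exact (congrArg Prod.snd ((M.bn a').oe.inj e)).symm

theorem j_not_mem_cores {a : A} (ha : a ∈ M.sys.fr c.1) (p) : (M.bn a).j p ∉ M.sys.cores c.1 := fun k => by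
  obtain ⟨a', ha', y, e⟩ := mem_cores.1 k
  exact disjoint_left.1 (ha.2 a' ha') ⟨p, rfl⟩ ⟨_, e⟩

theorem half_not_mem {a : A} (ha : a ∈ c.1) (b : Bool) (y) {r : ℝ} (hr : 0 < r) :
    (M.bn a).j (y, pm b * r) ∉ M.sys.cores c.1 := fun k =>
  mul_ne_zero (sg_ne b) hr.ne' ((j_mem_cores ha).1 k)

variable (M c)

/-- the complement of the cores with its half bands -/
def mkHB : HB (EuclideanSpace ℝ (Fin 3)) X.pc (PB M c) where
  U := ⟨(M.sys.cores c.1)ᶜ, (M.sys.isClosed_cores _).isOpen_compl⟩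
  Y p := (M.bn p.1.1).Y.pc
  n p := (M.bn p.1.1).j
  oe p := (M.bn p.1.1).oe
  b p := p.1.2
  mem p y _ hr := half_not_mem p.2.1 p.1.2 y hr
  out p _ k := k ((j_mem_cores p.2.1).2 rfl)
  disj := by
    rintro ⟨⟨a, b⟩, h⟩ ⟨⟨a', b'⟩, h'⟩ y y' r r' hr hr' e
    obtain rfl : a = a' := band_eq h.1 h'.1 e
    have := hx_inj (b := b) (b' := b') (t := -Real.log r) (t' := -Real.log r') (by
      rw [hx_log _ hr, hx_log _ hr']; exact congrArg Prod.snd ((M.bn a).oe.inj e))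
    subst this
    rfl

/-- the balls -/
def mkCap (p : PB M c) : Cap V4 ((mkHB M c).Y p) := rndCap (M.rnd p.1.1 p.2.2)

instance (p : PB M c) : Nonempty ((mkHB M c).Y p).M := inferInstanceAs (Nonempty (M.bn p.1.1).Y.M)

instance (p : PB M c) : PreconnectedSpace ((mkHB M c).Y p).M :=
  inferInstanceAs (PreconnectedSpace (M.bn p.1.1).Y.M)

instance (p : PB M c) : PreconnectedSpace (mkCap M c p).P.M := inferInstanceAs (PreconnectedSpace V4)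

theorem nonempty_U : (M.sys.cores c.1)ᶜ.Nonempty := by
  have := M.con
  rcases eq_empty_or_nonempty c.1 with e | ⟨a, ha⟩
  · exact ⟨Classical.arbitrary _, by simp [e, Sys.cores]⟩
  · exact ⟨_, half_not_mem ha true (Classical.arbitrary _) one_pos⟩

theorem mkHB_half (p : PB M c) : (mkHB M c).half p (Ioi 0) = (M.sys.w p.1.1).half p.1.2 := by
  ext x
  rw [HB.mem_half]
  exact ((M.bn p.1.1).mem_half.trans (by simp only [mem_Ioi]; rfl)).symm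

end HB

/-- CAPS -/
theorem caps : CapsStmt := fun X A κ _ _ M => by
  classical
  have ex : ∀ c : M.Cl, ∃ (Z : Mf 4) (D : Capd (mkHB M c) (mkCap M c) Z.pc) (o : Z.M → _),
      Int54.Ori Z.I o ∧ Orx52.Pos X.I Z.I D.φ (mkHB M c).U M.o o := fun c => by
    have : Nonempty (mkHB M c).U := (nonempty_U M c).to_subtype
    let D := (mkHB M c).capd (mkCap M c)
    obtain ⟨o, h1, -, h2⟩ := Orx52.capd_ori D (Orx52.oriOn M.ori _) fun _ => ⟨_, Orx52.ori_model⟩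
    exact ⟨pcMf ((mkHB M c).Z (mkCap M c)), ⟨D.φ, D.cap, D.oe, D.src, D.tgt, D.eq, D.disj⟩, o, h1, h2⟩
  choose Z D o h1 h2 using ex
  have := M.con
  let β : ∀ c, A → Bool → V4 → (Z c).M := fun c a b =>
    if h : a ∈ c.1 ∧ M.pin a then (D c).cap ⟨(a, b), h⟩ else fun _ => (D c).φ (Classical.arbitrary _)
  have hβ : ∀ c a b (h : a ∈ c.1 ∧ M.pin a), β c a b = (D c).cap ⟨(a, b), h⟩ := fun c a b h => dif_pos h
  refine ⟨⟨Z, fun c => (D c).φ, β, o, h1, fun c => (D c).src, fun c => (D c).tgt.trans ?_,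
    fun c a ha hp b => hβ c a b ⟨ha, hp⟩ ▸ (D c).oe _, fun c a ha hp b y r hr => ?_,
    fun c => (D c).src ▸ Orx52.same_symm (h2 c)⟩⟩
  · ext z
    simp only [mem_compl_iff, mem_iUnion, not_exists, mem_ofPred_eq]
    refine ⟨fun h a ha hp b e => h ⟨(a, b), ha, hp⟩ ⟨(0 : V4), (rndCap_range (M.rnd a hp)).2 rfl,
      by rw [e, hβ c a b ⟨ha, hp⟩]⟩, fun h p ⟨w, hw, e⟩ => h _ p.2.1 p.2.2 p.1.2 ?_⟩
    rw [hβ c _ _ p.2, ← e, (rndCap_range (M.rnd _ p.2.2)).1 hw]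
  · rw [hβ c a b ⟨ha, hp⟩, ← rndCap_log (M.rnd a hp) y hr]
    exact ((D c).eq ⟨(a, b), ha, hp⟩ y r hr).symm

variable {M : Mark X A κ} {M' : Mark X' A' κ} (C : Caps M) (c : M.Cl)

theorem caps_disj0 {p q : PB M c} {z w : V4} (hz : z ≠ 0)
    (e : C.β c p.1.1 p.1.2 z = C.β c q.1.1 q.1.2 w) : p = q := by
  obtain ⟨y, hy⟩ := rnd_exists (M.rnd _ p.2.2) hz
  have h0 := norm_pos_iff.2 hz
  have k : (M.bn p.1.1).j (y, pm p.1.2 * ‖z‖) ∈ (C.φ c).source := C.src c ▸ half_not_mem p.2.1 _ y h0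
  rw [← hy, C.βφ c _ p.2.1 p.2.2 _ y _ h0] at e
  by_cases hw : w = 0
  · exact ((C.tgt c).subset ((C.φ c).map_source k) _ q.2.1 q.2.2 _ (hw ▸ e)).elim
  obtain ⟨y', hy'⟩ := rnd_exists (M.rnd _ q.2.2) hw
  have h0' := norm_pos_iff.2 hw
  rw [← hy', C.βφ c _ q.2.1 q.2.2 _ y' _ h0'] at e
  exact (mkHB M c).disj p q y y' _ _ h0 h0'
    ((C.φ c).injOn k (C.src c ▸ half_not_mem q.2.1 _ y' h0') e)

/-- every `Caps` consists of capped regions -/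
def capsD : Capd (mkHB M c) (mkCap M c) (C.Z c).pc where
  φ := C.φ c
  cap p := C.β c p.1.1 p.1.2
  oe p := C.βoe c _ p.2.1 p.2.2 _
  src := C.src c
  tgt := (C.tgt c).trans (by
    ext z
    simp only [mem_compl_iff, mem_iUnion, not_exists, mem_ofPred_eq]
    exact ⟨fun h p ⟨w, hw, e⟩ => h _ p.2.1 p.2.2 p.1.2 (by
      rw [← e, (rndCap_range (M.rnd _ p.2.2)).1 hw]), fun h a ha hp b e =>
        h ⟨(a, b), ha, hp⟩ ⟨(0 : V4), (rndCap_range (M.rnd a hp)).2 rfl, e.symm⟩⟩)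
  eq p y r hr := (C.βφ c _ p.2.1 p.2.2 _ y r hr).symm.trans
    (congrArg _ (rndCap_log (M.rnd _ p.2.2) y hr).symm)
  disj p q z w e := by
    by_cases hz : z = (0 : V4)
    · have h1 : ∀ᶠ v in 𝓝[≠] (0 : V4), C.β c p.1.1 p.1.2 v ∈ range (C.β c q.1.1 q.1.2) :=
        mem_nhdsWithin_of_mem_nhds ((C.βoe c _ p.2.1 p.2.2 _).continuous.continuousAt.preimage_mem_nhds
          ((C.βoe c _ q.2.1 q.2.2 _).isOpen_range.mem_nhds ⟨w, hz ▸ e.symm⟩))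
      obtain ⟨v, ⟨u, h2⟩, h3⟩ := (h1.and self_mem_nhdsWithin).exists
      exact caps_disj0 C c h3 h2.symm
    · exact caps_disj0 C c hz e

variable {c}

theorem caps_inj {x y : X.M} (hx : x ∉ M.sys.cores c.1) (hy : y ∉ M.sys.cores c.1)
    (e : C.φ c x = C.φ c y) : x = y := (capsD C c).inj hx hy e

theorem caps_ld {x : X.M} (hx : x ∉ M.sys.cores c.1) :
    IsLocalDiffeomorphAt X.I (C.Z c).I ∞ (C.φ c) x := (capsD C c).ld hx

theorem caps_ne {x : X.M} (hx : x ∉ M.sys.cores c.1) {a : A} (ha : a ∈ c.1) (hp : M.pin a) (b : Bool) :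
    C.φ c x ≠ C.β c a b 0 := (C.tgt c).subset ((C.φ c).map_source (C.src c ▸ hx)) a ha hp b

theorem caps_disj {a a' : A} (ha : a ∈ c.1) (hp : M.pin a) (ha' : a' ∈ c.1) (hp' : M.pin a')
    {b b' : Bool} {z w : V4} (e : C.β c a b z = C.β c a' b' w) : a = a' ∧ b = b' :=
  Prod.mk.inj (congrArg Subtype.val ((capsD C c).disj ⟨(a, b), ha, hp⟩ ⟨(a', b'), ha', hp'⟩ z w e))

theorem caps_surj (z : (C.Z c).M) : (∃ x ∉ M.sys.cores c.1, C.φ c x = z) ∨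
    ∃ a ∈ c.1, M.pin a ∧ ∃ b, C.β c a b 0 = z :=
  ((capsD C c).surj z).imp_right fun ⟨p, _, hw, e⟩ =>
    ⟨_, p.2.1, p.2.2, _, (rndCap_range (M.rnd _ p.2.2)).1 hw ▸ e⟩

/-- `V` together with the centres in `J` -/
def cext (c : M.Cl) (V : Set X.M) (J : Set (A × Bool)) : Set (C.Z c).M :=
  C.φ c '' V ∪ {z | ∃ p ∈ J, z = C.β c p.1 p.2 0}

theorem cext_eq (V : Set X.M) {J : Set (A × Bool)} (hJ : ∀ p ∈ J, p.1 ∈ c.1 ∧ M.pin p.1) :
    cext C c V J = (capsD C c).ext V (Subtype.val ⁻¹' J) := by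
  refine congrArg (C.φ c '' V ∪ ·) (Set.ext fun z => ⟨fun ⟨p, hp, e⟩ => mem_iUnion₂.2
    ⟨⟨p, hJ p hp⟩, hp, (0 : V4), (rndCap_range (M.rnd _ (hJ p hp).2)).2 rfl, e.symm⟩, fun k => ?_⟩)
  obtain ⟨p, hp, w, hw, e⟩ := mem_iUnion₂.1 k
  exact ⟨p.1, hp, by rw [← e, (rndCap_range (M.rnd _ p.2.2)).1 hw]; rfl⟩

/-! ### pieces -/

section Piece

variable {π π' : Reg A}

theorem U_sub (h : M.sys.Piece c.1 π) : M.sys.U π ⊆ (mkHB M c).U :=
  have := M.con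
  (h.disjoint_cores c.2).subset_compl_right

theorem pc_eq (h : M.sys.Piece c.1 π) :
    C.pc c π = (capsD C c).ext (M.sys.U π) {p | π p.1.1 = some p.1.2} := by
  rw [show {p : PB M c | π p.1.1 = some p.1.2} =
    Subtype.val ⁻¹' {p : A × Bool | M.pin p.1 ∧ π p.1 = some p.2} from Set.ext fun p => by simp [p.2.2],
    ← cext_eq C _ fun p hp => ⟨h.bd_subset (Sys.mem_bd_of hp.2), hp.1⟩]
  exact congrArg (C.φ c '' M.sys.U π ∪ ·) (Set.ext fun z =>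
    ⟨fun ⟨a, b, h1, h2, h3⟩ => ⟨(a, b), ⟨h1, h2⟩, h3⟩, fun ⟨p, h1, h2⟩ => ⟨_, _, h1.1, h1.2, h2⟩⟩)

theorem half_sub (h : M.sys.Piece c.1 π) {p : PB M c} :
    (mkHB M c).half p (Ioi 0) ⊆ M.sys.U π ↔ π p.1.1 = some p.1.2 := by
  have := M.con
  rw [mkHB_half]
  refine ⟨fun k => ?_, h.adj _ _⟩
  obtain ⟨x, hx⟩ := (M.sys.w p.1.1).ne p.1.2
  exact h.eq_some c.2 p.2.1 (k hx) hx

theorem pc_eq_part (h : M.sys.Piece c.1 π) : C.pc c π = (capsD C c).part (M.sys.U π) := by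
  have := M.con
  rw [(capsD C c).ext_eq_part fun p => ?_, pc_eq C h, inter_eq_right.2 (U_sub h)]
  · simp only [half_sub h]
  · refine or_iff_not_imp_left.2 fun k => disjoint_left.2 fun x hx hx' => k ((half_sub h).2 ?_)
    exact h.eq_some c.2 p.2.1 hx' (mkHB_half M c p ▸ hx)

theorem φ_mem_pc (h : M.sys.Piece c.1 π) {x : X.M} (hx : x ∉ M.sys.cores c.1) :
    C.φ c x ∈ C.pc c π ↔ x ∈ M.sys.U π := pc_eq_part C h ▸ (capsD C c).φ_mem_part hx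

theorem β_mem_pc (h : M.sys.Piece c.1 π) {a : A} (ha : a ∈ c.1) (hp : M.pin a) {b : Bool} (z : V4) :
    C.β c a b z ∈ C.pc c π ↔ π a = some b := by
  have := M.con
  refine ⟨fun k => ?_, fun k => pc_eq_part C h ▸
    (capsD C c).cap_mem_part (a := ⟨(a, b), ha, hp⟩) ((half_sub h).2 k) z⟩
  by_contra e
  refine (capsD C c).cap_not_mem_part (a := ⟨(a, b), ha, hp⟩) (disjoint_left.2 fun x hx hx' => e ?_) z
    (pc_eq_part C h ▸ k)
  exact h.eq_some c.2 ha hx' (mkHB_half M c ⟨(a, b), ha, hp⟩ ▸ hx)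

theorem isOpen_pc (h : M.sys.Piece c.1 π) : IsOpen (C.pc c π) :=
  pc_eq_part C h ▸ (capsD C c).isOpen_part (M.sys.isOpen_U π)

theorem exists_pc (z : (C.Z c).M) : ∃ π, M.sys.Piece c.1 π ∧ z ∈ C.pc c π := by
  have := M.con
  rcases caps_surj C z with ⟨x, hx, rfl⟩ | ⟨a, ha, hp, b, rfl⟩
  · obtain ⟨π, h1, h2⟩ := Sys.exists_piece c.2 hx
    exact ⟨π, h1, (φ_mem_pc C h1 hx).2 h2⟩
  · obtain ⟨π, h1, h2⟩ := (Sys.existsUnique_adj c.2 ha b).exists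
    exact ⟨π, h1, (β_mem_pc C h1 ha hp 0).2 h2⟩

theorem pc_unique (h : M.sys.Piece c.1 π) (h' : M.sys.Piece c.1 π') {z : (C.Z c).M}
    (hz : z ∈ C.pc c π) (hz' : z ∈ C.pc c π') : π = π' := by
  have := M.con
  rcases caps_surj C z with ⟨x, hx, rfl⟩ | ⟨a, ha, hp, b, rfl⟩
  · exact h.unique c.2 h' ((φ_mem_pc C h hx).1 hz) ((φ_mem_pc C h' hx).1 hz')
  · exact (Sys.existsUnique_adj c.2 ha b).unique ⟨h, (β_mem_pc C h ha hp 0).1 hz⟩
      ⟨h', (β_mem_pc C h' ha hp 0).1 hz'⟩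

theorem disjoint_pc (h : M.sys.Piece c.1 π) (h' : M.sys.Piece c.1 π') (e : π ≠ π') :
    Disjoint (C.pc c π) (C.pc c π') := disjoint_left.2 fun _ hz hz' => e (pc_unique C h h' hz hz')

theorem isClopen_pc (h : M.sys.Piece c.1 π) : IsClopen (C.pc c π) := by
  refine ⟨isOpen_compl_iff.1 (isOpen_iff_mem_nhds.2 fun z hz => ?_), isOpen_pc C h⟩
  obtain ⟨π', h1, h2⟩ := exists_pc C z
  exact mem_of_superset ((isOpen_pc C h1).mem_nhds h2) fun w hw k => hz (pc_unique C h1 h hw k ▸ h2)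

theorem isConnected_pc (h : M.sys.Piece c.1 π) : IsConnected (C.pc c π) := by
  have := M.con
  refine ⟨h.toIsReg.nonempty.elim fun x hx => ⟨_, .inl ⟨x, hx, rfl⟩⟩, pc_eq_part C h ▸
    (capsD C c).isPreconnected_part ?_⟩
  rw [inter_eq_right.2 (U_sub h)]
  exact h.toIsReg.conn

end Piece

/-! ### ends and compact parts -/

/-- the thin parts of the cylindrical ends -/
def thin (c : M.Cl) (ε : ℝ) : Set (C.Z c).M :=
  C.φ c '' ⋃ a ∈ {a | a ∈ c.1 ∧ ¬M.pin a}, (M.bn a).slab {s | s ≠ 0 ∧ |s| < ε}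

theorem slab_sub {a : A} (ha : a ∈ c.1) {S : Set ℝ} (hS : (0 : ℝ) ∉ S) :
    (M.bn a).slab S ⊆ (M.sys.cores c.1)ᶜ := by
  rintro _ ⟨p, hp, rfl⟩ k
  exact hS ((j_mem_cores ha).1 k ▸ hp.2)

theorem isOpen_thin (ε : ℝ) : IsOpen (thin C c ε) :=
  (capsD C c).isOpen_image (isOpen_biUnion fun a _ => (M.bn a).isOpen_slab
    (isOpen_ne.inter (isOpen_lt continuous_abs continuous_const)))
    (iUnion₂_subset fun _ ha => slab_sub ha.1 fun k => k.1 rfl)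

theorem φ_mem_thin {ε : ℝ} {x : X.M} (hx : x ∉ M.sys.cores c.1) : C.φ c x ∈ thin C c ε ↔
    ∃ a ∈ c.1, ¬M.pin a ∧ ∃ p, |p.2| < ε ∧ (M.bn a).j p = x := by
  refine ⟨fun ⟨y, hy, e⟩ => ?_, fun ⟨a, ha, hp, p, h1, h2⟩ => ⟨x, mem_iUnion₂.2 ⟨a, ⟨ha, hp⟩, p,
    ⟨trivial, fun e => hx (h2 ▸ (j_mem_cores ha).2 e), h1⟩, h2⟩, rfl⟩⟩
  obtain ⟨a, ha, p, hp, rfl⟩ := mem_iUnion₂.1 hy
  exact ⟨a, ha.1, ha.2, p, hp.2.2,
    caps_inj C (slab_sub ha.1 (fun k => k.1 rfl) ⟨p, hp, rfl⟩) hx e⟩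

/-- the complement of the thin ends is compact -/
theorem isCompact_thick {ε : ℝ} (hε : 0 < ε) : IsCompact (thin C c ε)ᶜ := by
  have := M.cpt
  refine (capsD C c).isCompact_of (isOpen_thin C ε).isClosed_compl
    (K := (⋃ a ∈ c.1, (M.bn a).slab (Ioo (-min ε 1) (min ε 1)))ᶜ)
    (isOpen_biUnion fun a _ => (M.bn a).isOpen_slab isOpen_Ioo).isClosed_compl.isCompact
    (fun x hx k => ?_) fun x hx h1 h2 k => ?_
  · obtain ⟨a, ha, y, rfl⟩ := mem_cores.1 k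
    have : 0 < min ε 1 := lt_min hε one_pos
    exact hx (mem_iUnion₂.2 ⟨a, ha, (M.bn a).j_mem_slab.2 ⟨neg_lt_zero.2 this, this⟩⟩)
  · obtain ⟨a, ha, ⟨y, s⟩, hp, rfl⟩ := mem_iUnion₂.1 k
    have h3 : |s| < min ε 1 := abs_lt.2 hp.2
    by_cases e : M.pin a
    · have h4 : s ≠ 0 := fun e => hx ((j_mem_cores ha).2 e)
      obtain ⟨b, hb⟩ := exists_sg h4
      exact h2 ⟨(a, b), ha, e⟩ ((mkHB M c).mem_half.2 ⟨y, |s|,
        ⟨abs_pos.2 h4, h3.trans_le (min_le_right _ _)⟩, congrArg (fun t => (M.bn a).j (y, t)) hb.symm⟩)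
    · exact h1 ((φ_mem_thin C hx).2 ⟨a, ha, e, _, h3.trans_le (min_le_left _ _), rfl⟩)

theorem caps_compact (h : ∀ a ∈ c.1, M.pin a) : CompactSpace (C.Z c).M :=
  ⟨by simpa [thin, show {a | a ∈ c.1 ∧ ¬M.pin a} = ∅ from
    eq_empty_of_forall_notMem fun a ha => ha.2 (h a ha.1)] using isCompact_thick C (c := c) one_pos⟩

/-- a piece all of whose boundary walls are pinched is compact -/
theorem isCompact_pc {π : Reg A} (h : M.sys.Piece c.1 π) (hp : ∀ a ∈ Sys.bd π, M.pin a) :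
    IsCompact (C.pc c π) := by
  have := M.con
  refine (isCompact_thick C one_pos).of_isClosed_subset (isClopen_pc C h).1 ?_
  rintro _ hz ⟨x, hx, rfl⟩
  obtain ⟨a, ha, ⟨y, s⟩, k, rfl⟩ := mem_iUnion₂.1 hx
  obtain ⟨b, hb⟩ := exists_sg k.2.1
  exact ha.2 (hp a (Sys.mem_bd_of (h.eq_some c.2 ha.1 ((φ_mem_pc C h (slab_sub ha.1
    (fun k => k.1 rfl) ⟨_, k, rfl⟩)).1 hz) ((M.bn a).mem_half.2 ⟨y, |s|, abs_pos.2 k.2.1,
      congrArg (fun t => (M.bn a).j (y, t)) hb.symm⟩))))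

/-- closed slabs of bands that are not pinched in `c` have closed images -/
theorem isClosed_slab {a : A} (ha : a ∈ c.1 ∧ ¬M.pin a ∨ a ∈ M.sys.fr c.1) {S : Set ℝ}
    (hS : IsCompact S) : IsClosed (C.φ c '' ((M.sys.cores c.1)ᶜ ∩ (M.bn a).slab S)) := by
  have := (capsD C c).isClosed_ext (J := ∅) ((M.bn a).isCompact_slab hS).isClosed fun p _ =>
    ⟨1, one_pos, disjoint_left.2 fun x hx hx' => by
      obtain ⟨y, r, -, rfl⟩ := (mkHB M c).mem_half.1 hx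
      obtain ⟨q, -, e⟩ := hx'
      rcases ha with ha | ha
      · exact ha.2 (band_eq ha.1 p.2.1 e ▸ p.2.2)
      · exact disjoint_left.1 (ha.2 _ p.2.1) ⟨q, rfl⟩ ⟨_, e.symm⟩⟩
  simp only [Capd.ext, mem_empty_iff_false, iUnion_of_empty, iUnion_empty, union_empty] at this
  exact this

/-- the cylindrical ends -/
theorem isEnd_cyl {a : A} (ha : a ∈ c.1) (hp : ¬M.pin a) (b : Bool) {σ : ℝ → ℝ}
    (hσ : IsOE 𝓘(ℝ, ℝ) 𝓘(ℝ, ℝ) σ) (h0 : ∀ t, 0 < σ t) (h1 : σ '' Ici 0 = Ioc 0 (σ 0)) :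
    IsEnd (M.bn a).Y.I (C.Z c).I fun p => C.φ c ((M.bn a).j (p.1, pm b * σ p.2)) := by
  refine ⟨IsOE.of_pd (C.φ c) ((M.bn a).oe.comp (IsOE.id.prodMap ((isOE_sg b).comp hσ)))
    fun p => C.src c ▸ half_not_mem ha b p.1 (h0 _), ?_⟩
  convert isClosed_slab C (.inl ⟨ha, hp⟩) (S := (fun r => pm b * r) '' Icc 0 (σ 0))
    (isCompact_Icc.image (continuous_const.mul continuous_id)) using 1
  refine Subset.antisymm ?_ ?_
  · rintro _ ⟨p, k, rfl⟩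
    exact ⟨_, ⟨half_not_mem ha b p.1 (h0 _), (M.bn a).j_mem_slab.2
      ⟨_, Ioc_subset_Icc_self (h1.subset ⟨_, k.2, rfl⟩), rfl⟩⟩, rfl⟩
  · rintro _ ⟨_, ⟨k, ⟨y, _⟩, ⟨-, r, hr, rfl⟩, rfl⟩, rfl⟩
    obtain ⟨t, ht, rfl⟩ := h1.superset ⟨hr.1.lt_of_ne fun e =>
      k ((j_mem_cores ha).2 (by simp [← e])), hr.2⟩
    exact ⟨(y, t), ⟨trivial, ht⟩, rfl⟩

end Crest.Agent.X212.Cyl58
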