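import Crest.Agent.X212.Cyl58.Cps

/-!
# X212/Cyl58/Tr: transfer maps between capped manifolds

`caps_pd` : local maps out of `Z c`;  `tr` : the partial diffeomorphism `Z c ⇀ Z' c'` of an
identification of marks;  `tr_ball` : the same with unmatched pinch walls that are balls of `X'`.
-/

set_option autoImplicit false
set_option linter.unusedSectionVars false
noncomputable section
open Set Filter Topology Function Metric TopologicalSpace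
open scoped ContDiff Manifold

namespace Crest.Agent.X212.Cyl58

open Glue52 M Cyf70 An

variable {X X' : Mf 4} {A A' A₀ κ : Type} [Fintype A] [Fintype A'] [Fintype A₀] [Fintype κ]
  {M : Mark X A κ} {M' : Mark X' A' κ}

/-- `p` is a capped half band of `c` whose thin part lies in `V` -/
def Thin (M : Mark X A κ) (c : M.Cl) (V : Set X.M) (p : A × Bool) : Prop :=
  p.1 ∈ c.1 ∧ M.pin p.1 ∧ ∃ ε > 0, ∀ y r, 0 < r → r < ε → (M.bn p.1).j (y, pm p.2 * r) ∈ V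

theorem Thin.of_half {c : M.Cl} {V : Set X.M} {p : A × Bool} (h : p.1 ∈ c.1) (hp : M.pin p.1)
    (hV : (M.sys.w p.1).half p.2 ⊆ V) : Thin M c V p :=
  ⟨h, hp, 1, one_pos, fun y r hr _ => hV ((M.bn p.1).mem_half.2 ⟨y, r, hr, rfl⟩)⟩

variable (C : Caps M) (C' : Caps M') {c : M.Cl} {c' : M'.Cl} {V : Set X.M}

theorem φ_mem_cext (hU : V ⊆ (M.sys.cores c.1)ᶜ) {J : Set (A × Bool)}
    (hJ : ∀ p ∈ J, p.1 ∈ c.1 ∧ M.pin p.1) {x : X.M} (hx : x ∉ M.sys.cores c.1) :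
    C.φ c x ∈ cext C c V J ↔ x ∈ V := cext_eq C V hJ ▸ (capsD C c).φ_mem_ext hU hx

theorem β_mem_cext {J : Set (A × Bool)} {p : A × Bool} (hp : p ∈ J) (h : p.1 ∈ c.1 ∧ M.pin p.1)
    (hV : (M.sys.w p.1).half p.2 ⊆ V) (z : V4) : C.β c p.1 p.2 z ∈ cext C c V J := by
  by_cases e : z = 0
  · exact .inr ⟨p, hp, by rw [e]⟩
  · obtain ⟨y, hy⟩ := rnd_exists (M.rnd _ h.2) e
    have h0 := norm_pos_iff.2 e
    exact .inl ⟨_, hV ((M.bn p.1).mem_half.2 ⟨y, _, h0, rfl⟩), by rw [← C.βφ c _ h.1 h.2 _ y _ h0, hy]⟩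

theorem Thin.eventually {p : A × Bool} (h : Thin M c V p) :
    ∀ᶠ z in 𝓝[≠] (0 : V4), C.β c p.1 p.2 z ∈ C.φ c '' V := by
  obtain ⟨h1, h2, ε, h0, h⟩ := h
  filter_upwards [self_mem_nhdsWithin, mem_nhdsWithin_of_mem_nhds (ball_mem_nhds 0 h0)] with z e hz
  obtain ⟨y, hy⟩ := rnd_exists (M.rnd _ h2) e
  have h0 := norm_pos_iff.2 e
  exact ⟨_, h y _ h0 (mem_ball_zero_iff.1 hz), by rw [← C.βφ c _ h1 h2 _ y _ h0, hy]⟩

theorem cext_subset_closure {J : Set (A × Bool)} (hJ : ∀ p ∈ J, Thin M c V p) :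
    cext C c V J ⊆ closure (C.φ c '' V) := by
  rintro z (h | ⟨p, hp, rfl⟩)
  · exact subset_closure h
  · exact mem_closure_of_tendsto ((C.βoe c _ (hJ p hp).1 (hJ p hp).2.1 _).continuous.continuousAt.mono_left
      nhdsWithin_le_nhds) ((hJ p hp).eventually C)

theorem thin_half {J : Set (A × Bool)} (hJ : ∀ p ∈ J, Thin M c V p) :
    ∀ p ∈ (Subtype.val ⁻¹' J : Set (PB M c)), ∃ ε > 0, (mkHB M c).half p (Ioo 0 ε) ⊆ V := fun p hp => by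
  obtain ⟨-, -, ε, h0, h⟩ := hJ p hp
  refine ⟨ε, h0, fun x hx => ?_⟩
  obtain ⟨y, r, hr, rfl⟩ := (mkHB M c).mem_half.1 hx
  exact h y r hr.1 hr.2

theorem isOpen_cext (hV : IsOpen V) (hU : V ⊆ (M.sys.cores c.1)ᶜ) {J : Set (A × Bool)}
    (hJ : ∀ p ∈ J, Thin M c V p) : IsOpen (cext C c V J) :=
  cext_eq C V (fun p hp => ⟨(hJ p hp).1, (hJ p hp).2.1⟩) ▸ (capsD C c).isOpen_ext hV hU (thin_half hJ)

section Gen

variable {EN HN : Type*} [NormedAddCommGroup EN] [NormedSpace ℝ EN] [TopologicalSpace HN]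
  {IN : ModelWithCorners ℝ EN HN} {N : Type*} [TopologicalSpace N] [ChartedSpace HN N]

/-- LOCAL maps out of `Z c` -/
theorem caps_pd (hV : IsOpen V) (hU : V ⊆ (M.sys.cores c.1)ᶜ) {J : Set (A × Bool)}
    (hJ : ∀ p ∈ J, Thin M c V p) {g0 : X.M → N} {g : A × Bool → V4 → N}
    (l0 : ∀ x ∈ V, IsLocalDiffeomorphAt X.I IN ∞ g0 x) (i0 : InjOn g0 V)
    (l1 : ∀ p ∈ J, IsLocalDiffeomorphAt 𝓘(ℝ, V4) IN ∞ (g p) 0)
    (hc : ∀ p ∈ J, ∀ y r, 0 < r → (M.bn p.1).j (y, pm p.2 * r) ∈ V →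
      g p (r • M.th p.1 y) = g0 ((M.bn p.1).j (y, pm p.2 * r)))
    (h1 : ∀ p ∈ J, ∀ x ∈ V, g0 x ≠ g p 0) (h2 : ∀ p ∈ J, ∀ q ∈ J, g p 0 = g q 0 → p = q) :
    ∃ Ψ : PartialDiffeomorph (C.Z c).I IN (C.Z c).M N ∞, Ψ.source = cext C c V J ∧
      Ψ.target = g0 '' V ∪ {z | ∃ p ∈ J, z = g p 0} ∧ (∀ x ∈ V, Ψ (C.φ c x) = g0 x) ∧
      ∀ p ∈ J, ∀ z, C.β c p.1 p.2 z ∈ cext C c V J → Ψ (C.β c p.1 p.2 z) = g p z := by
  have := M.con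
  have hz : ∀ (p : PB M c) (z : V4), z ∉ range (mkCap M c p).c → z = 0 := fun p z h =>
    (rndCap_range (M.rnd _ p.2.2)).1 h
  have hJ' : ∀ p ∈ J, p.1 ∈ c.1 ∧ M.pin p.1 := fun p hp => ⟨(hJ p hp).1, (hJ p hp).2.1⟩
  obtain ⟨Ψ, k1, k2, k3, k4⟩ := (capsD C c).exists_pd (IN := IN) hV hU (thin_half hJ)
    (g := fun p => g p.1) l0 i0 (fun p hp z h => hz p z h ▸ l1 p hp)
    (fun p _ z h w h' _ => (hz p z h).trans (hz p w h').symm)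
    (fun p hp y r hr h => (congrArg (g p.1) (rndCap_log (M.rnd _ p.2.2) y hr)).trans (hc p hp y r hr h))
    (fun p hp z h x hx => hz p z h ▸ h1 p hp x hx)
    fun p hp q hq z h w h' e => Subtype.ext (h2 p hp q hq ((congrArg (g p) (hz p z h).symm).trans
      (e.trans (congrArg (g q) (hz q w h')))))
  refine ⟨Ψ, k1.trans (cext_eq C V hJ').symm, k2.trans (congrArg (g0 '' V ∪ ·) (Set.ext fun z =>
    ⟨fun k => ?_, fun ⟨p, hp, e⟩ => mem_iUnion₂.2 ⟨⟨p, hJ' p hp⟩, hp, (0 : V4),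
      (rndCap_range (M.rnd _ (hJ' p hp).2)).2 rfl, e.symm⟩⟩)), k3,
    fun p hp z h => k4 ⟨p, hJ' p hp⟩ hp z (cext_eq C V hJ' ▸ h)⟩
  obtain ⟨p, hp, w, hw, e⟩ := mem_iUnion₂.1 k
  exact ⟨p, hp, by rw [← e, hz p w hw]⟩

end Gen

variable (I : MId M M' A₀)

theorem pos_tr {Ψ : PartialDiffeomorph (C.Z c).I (C'.Z c').I (C.Z c).M (C'.Z c').M ∞} (hV : IsOpen V)
    (hs : V ⊆ I.ψ.source) (hU : V ⊆ (M.sys.cores c.1)ᶜ) (hU' : ∀ x ∈ V, I.ψ x ∉ M'.sys.cores c'.1)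
    (h1 : C.φ c '' V ⊆ Ψ.source) (h2 : Ψ.source ⊆ closure (C.φ c '' V))
    (h3 : ∀ x ∈ V, Ψ (C.φ c x) = C'.φ c' (I.ψ x)) :
    Orx52.Pos (C.Z c).I (C'.Z c').I Ψ Ψ.source (C.o c) (C'.o c') := by
  have p1 : Orx52.Pos X.I (C.Z c).I (C.φ c) V M.o (C.o c) :=
    Orx52.Pos.mono (Orx52.same_symm (C.oφ c)) (C.src c ▸ hU)
  have p2 : Orx52.Pos X'.I (C'.Z c').I (C'.φ c') (C'.φ c').source M'.o (C'.o c') :=
    Orx52.same_symm (C'.oφ c')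
  have p3 : Orx52.Pos X.I X'.I I.ψ V M.o M'.o := Orx52.Pos.mono (Orx52.same_symm I.ori) hs
  have p4 := (p2.comp p3 (fun _ hy => Orx52.ldp _ hy) (fun _ hx => Orx52.ldp _ (hs hx))
    fun x hx => C'.src c' ▸ hU' x hx).congr (f' := Ψ ∘ C.φ c) hV h3
  exact (p4.of_comp p1 (fun x hx => Orx52.ldp _ (h1 ⟨x, hx, rfl⟩)) fun x hx => caps_ld C (hU hx)).closure
    h2 (Orx52.oriOn (C.ori c) _) (Orx52.oriOn (C'.ori c') univ) (fun _ hy => Orx52.ldp _ hy)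
    (mapsTo_univ _ _)

/-- TRANSFER with balls: the half bands in `J` are matched, those in `K` are punctured balls `e` of `X'` -/
theorem tr_ball (hV : IsOpen V) (hs : V ⊆ I.ψ.source) (hU : V ⊆ (M.sys.cores c.1)ᶜ)
    (hU' : ∀ x ∈ V, I.ψ x ∉ M'.sys.cores c'.1) {J : Set (A₀ × Bool)}
    (hJ : ∀ p ∈ J, Thin M c V (I.f p.1, p.2) ∧ I.f' p.1 ∈ c'.1) {K : Set (A × Bool)}
    (hK : ∀ p ∈ K, Thin M c V p ∧ p.1 ∉ range I.f) {e : A × Bool → V4 → X'.M}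
    (e1 : ∀ p ∈ K, IsLocalDiffeomorphAt 𝓘(ℝ, V4) X'.I ∞ (e p) 0)
    (e2 : ∀ p ∈ K, e p 0 ∉ M'.sys.cores c'.1 ∧ e p 0 ∉ I.ψ '' V)
    (e3 : ∀ p ∈ K, ∀ y r, 0 < r → (M.bn p.1).j (y, pm p.2 * r) ∈ V →
      e p (r • M.th p.1 y) = I.ψ ((M.bn p.1).j (y, pm p.2 * r)))
    (e4 : ∀ p ∈ K, ∀ q ∈ K, e p 0 = e q 0 → p = q) :
    ∃ Ψ : PartialDiffeomorph (C.Z c).I (C'.Z c').I (C.Z c).M (C'.Z c').M ∞,
      Ψ.source = cext C c V (Prod.map I.f id '' J ∪ K) ∧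
      Ψ.target = cext C' c' (I.ψ '' V ∪ {x | ∃ p ∈ K, x = e p 0}) (Prod.map I.f' id '' J) ∧
      (∀ x ∈ V, Ψ (C.φ c x) = C'.φ c' (I.ψ x)) ∧
      (∀ p ∈ J, ∀ z, C.β c (I.f p.1) p.2 z ∈ Ψ.source →
        Ψ (C.β c (I.f p.1) p.2 z) = C'.β c' (I.f' p.1) p.2 z) ∧
      (∀ p ∈ K, ∀ z, C.β c p.1 p.2 z ∈ Ψ.source → Ψ (C.β c p.1 p.2 z) = C'.φ c' (e p z)) ∧
      Orx52.Pos (C.Z c).I (C'.Z c').I Ψ Ψ.source (C.o c) (C'.o c') := by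
  let g : A × Bool → V4 → (C'.Z c').M := fun p =>
    extend I.f (fun a => C'.β c' (I.f' a) p.2) (fun _ => C'.φ c' ∘ e p) p.1
  have g1 : ∀ p : A₀ × Bool, g (Prod.map I.f id p) = C'.β c' (I.f' p.1) p.2 := fun p =>
    I.f.injective.extend_apply _ _ p.1
  have g2 : ∀ p ∈ K, g p = C'.φ c' ∘ e p := fun p hp => extend_apply' _ _ _ (hK p hp).2
  have pn : ∀ p ∈ J, M'.pin (I.f' p.1) := fun p hp => (I.pin _).2 (hJ p hp).1.2.1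
  have hT : ∀ p ∈ Prod.map I.f id '' J ∪ K, Thin M c V p := by
    rintro _ (⟨p, hp, rfl⟩ | hp)
    exacts [(hJ p hp).1, (hK _ hp).1]
  obtain ⟨Ψ, k1, k2, k3, k4⟩ := caps_pd C (IN := (C'.Z c').I) hV hU hT (g0 := C'.φ c' ∘ I.ψ) (g := g)
    (fun x hx => ld_comp (caps_ld C' (hU' x hx)) (Orx52.ldp _ (hs hx)))
    (fun x hx y hy h => I.ψ.injOn (hs hx) (hs hy) (caps_inj C' (hU' x hx) (hU' y hy) h))
    (by
      rintro _ (⟨p, hp, rfl⟩ | hp)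
      · exact g1 p ▸ (C'.βoe c' _ (hJ p hp).2 (pn p hp) _).loc 0
      · exact g2 _ hp ▸ ld_comp (caps_ld C' (e2 _ hp).1) (e1 _ hp))
    (by
      rintro _ (⟨p, hp, rfl⟩ | hp) y r hr h
      · rw [g1]
        change C'.β c' _ _ (r • M.th (I.f p.1) y) = C'.φ c' (I.ψ ((M.bn (I.f p.1)).j (y, pm p.2 * r)))
        rw [I.jj, ← I.th _ (hJ p hp).1.2.1, C'.βφ c' _ (hJ p hp).2 (pn p hp) _ _ _ hr]
      · rw [g2 _ hp, comp_apply, e3 _ hp y r hr h, comp_apply])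
    (by
      rintro _ (⟨p, hp, rfl⟩ | hp) x hx
      · exact g1 p ▸ caps_ne C' (hU' x hx) (hJ p hp).2 (pn p hp) _
      · exact g2 _ hp ▸ fun h => (e2 _ hp).2 ⟨x, hx, caps_inj C' (hU' x hx) (e2 _ hp).1 h⟩)
    (by
      rintro _ (⟨p, hp, rfl⟩ | hp) _ (⟨q, hq, rfl⟩ | hq) h
      · rw [g1, g1] at h
        obtain ⟨h1, h2⟩ := caps_disj C' (hJ p hp).2 (pn p hp) (hJ q hq).2 (pn q hq) h
        rw [Prod.ext (I.f'.injective h1) h2]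
      · rw [g1, g2 _ hq] at h
        exact (caps_ne C' (e2 _ hq).1 (hJ p hp).2 (pn p hp) _ h.symm).elim
      · rw [g1, g2 _ hp] at h
        exact (caps_ne C' (e2 _ hp).1 (hJ q hq).2 (pn q hq) _ h).elim
      · rw [g2 _ hp, g2 _ hq] at h
        exact e4 _ hp _ hq (caps_inj C' (e2 _ hp).1 (e2 _ hq).1 h))
  refine ⟨Ψ, k1, k2.trans ?_, k3, fun p hp z h => ?_, fun p hp z h => ?_,
    pos_tr C C' I hV hs hU hU' (k1 ▸ subset_union_left) (k1 ▸ cext_subset_closure C hT) k3⟩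
  · rw [cext, image_union, image_comp, union_assoc]
    refine congrArg₂ _ rfl (Set.ext fun z => ⟨?_, ?_⟩)
    · rintro ⟨_, ⟨p, hp, rfl⟩ | hp, rfl⟩
      · exact .inr ⟨_, ⟨p, hp, rfl⟩, congrFun (g1 p) 0⟩
      · exact .inl ⟨_, ⟨_, hp, rfl⟩, (congrFun (g2 _ hp) 0).symm⟩
    · rintro (⟨_, ⟨p, hp, rfl⟩, rfl⟩ | ⟨_, ⟨p, hp, rfl⟩, rfl⟩)
      · exact ⟨p, .inr hp, (congrFun (g2 _ hp) 0).symm⟩
      · exact ⟨_, .inl ⟨p, hp, rfl⟩, (congrFun (g1 p) 0).symm⟩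
  · exact (k4 _ (.inl ⟨p, hp, rfl⟩) z (k1 ▸ h)).trans (congrFun (g1 p) z)
  · exact (k4 _ (.inr hp) z (k1 ▸ h)).trans (congrFun (g2 p hp) z)

/-- TRANSFER -/
theorem tr (hV : IsOpen V) (hs : V ⊆ I.ψ.source) (hU : V ⊆ (M.sys.cores c.1)ᶜ)
    (hU' : ∀ x ∈ V, I.ψ x ∉ M'.sys.cores c'.1) {J : Set (A₀ × Bool)}
    (hJ : ∀ p ∈ J, Thin M c V (I.f p.1, p.2) ∧ I.f' p.1 ∈ c'.1) :
    ∃ Ψ : PartialDiffeomorph (C.Z c).I (C'.Z c').I (C.Z c).M (C'.Z c').M ∞,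
      Ψ.source = cext C c V (Prod.map I.f id '' J) ∧
      Ψ.target = cext C' c' (I.ψ '' V) (Prod.map I.f' id '' J) ∧
      (∀ x ∈ V, Ψ (C.φ c x) = C'.φ c' (I.ψ x)) ∧
      (∀ p ∈ J, ∀ z, C.β c (I.f p.1) p.2 z ∈ Ψ.source →
        Ψ (C.β c (I.f p.1) p.2 z) = C'.β c' (I.f' p.1) p.2 z) ∧
      Orx52.Pos (C.Z c).I (C'.Z c').I Ψ Ψ.source (C.o c) (C'.o c') := by
  have := M'.con
  obtain ⟨Ψ, k1, k2, k3, k4, -, k5⟩ := tr_ball C C' I hV hs hU hU' hJ (K := ∅)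
    (e := fun _ _ => Classical.arbitrary _) (by simp) (by simp) (by simp) (by simp) (by simp)
  exact ⟨Ψ, by simpa using k1, by simpa using k2, k3, k4, k5⟩

/-- matched cells of a global identification have the same cores -/
theorem cores_iff (hc : c.1 ⊆ range I.f) (hc' : c'.1 ⊆ range I.f')
    (h : ∀ a, I.f a ∈ c.1 ↔ I.f' a ∈ c'.1) {x : X.M} (hx : x ∈ I.ψ.source) :
    I.ψ x ∈ M'.sys.cores c'.1 ↔ x ∈ M.sys.cores c.1 := by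
  simp only [Sys.cores, mem_iUnion, exists_prop]
  constructor
  · rintro ⟨a', ha, k⟩
    obtain ⟨a, rfl⟩ := hc' ha
    exact ⟨_, (h a).2 ha, fun b hb => k b ((I.sd a b x hx).2 hb)⟩
  · rintro ⟨a', ha, k⟩
    obtain ⟨a, rfl⟩ := hc ha
    exact ⟨_, (h a).1 ha, fun b hb => k b ((I.sd a b x hx).1 hb)⟩

/-- TRANSFER for a global identification and matched cells: a diffeomorphism -/
theorem tr_glob (hI : I.Glob) (hc : c.1 ⊆ range I.f) (hc' : c'.1 ⊆ range I.f')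
    (h : ∀ a, I.f a ∈ c.1 ↔ I.f' a ∈ c'.1) :
    ∃ Ψ : (C.Z c).M ≃ₘ^∞⟮(C.Z c).I, (C'.Z c').I⟯ (C'.Z c').M,
      (∀ x ∉ M.sys.cores c.1, Ψ (C.φ c x) = C'.φ c' (I.ψ x)) ∧
      (∀ a, I.f a ∈ c.1 → M.pin (I.f a) → ∀ b z, Ψ (C.β c (I.f a) b z) = C'.β c' (I.f' a) b z) ∧
      Orx52.Pos (C.Z c).I (C'.Z c').I Ψ univ (C.o c) (C'.o c') := by
  have hx : ∀ x, x ∈ I.ψ.source := fun x => hI.1 ▸ mem_univ x
  obtain ⟨Ψ, k1, k2, k3, k4, k5⟩ := tr C C' I (c := c) (c' := c') (M.sys.isClosed_cores _).isOpen_compl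
    (fun x _ => hx x) subset_rfl (fun x k => mt (cores_iff I hc hc' h (hx x)).1 k)
    (J := {p | I.f p.1 ∈ c.1 ∧ M.pin (I.f p.1)}) fun p hp =>
      ⟨⟨hp.1, hp.2, 1, one_pos, fun y _ hr _ => half_not_mem hp.1 _ y hr⟩, (h _).1 hp.1⟩
  have s1 : ∀ z, z ∈ Ψ.source := fun z => by
    rw [k1]
    rcases caps_surj C z with ⟨x, k, rfl⟩ | ⟨a', ha, hp, b, rfl⟩
    · exact .inl ⟨x, k, rfl⟩
    · obtain ⟨a, rfl⟩ := hc ha
      exact .inr ⟨_, ⟨(a, b), ⟨ha, hp⟩, rfl⟩, rfl⟩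
  have s2 : ∀ z, z ∈ Ψ.target := fun z => by
    rw [k2]
    rcases caps_surj C' z with ⟨x, k, rfl⟩ | ⟨a', ha, hp, b, rfl⟩
    · have e : I.ψ (I.ψ.symm x) = x := I.ψ.right_inv (hI.2 ▸ mem_univ x)
      exact .inl ⟨x, ⟨_, mt (cores_iff I hc hc' h (hx _)).2 (e.symm ▸ k), e⟩, rfl⟩
    · obtain ⟨a, rfl⟩ := hc' ha
      exact .inr ⟨_, ⟨(a, b), ⟨(h a).2 ha, (I.pin a).1 hp⟩, rfl⟩, rfl⟩
  exact ⟨diffeoOf Ψ Ψ.symm (fun z => (Orx52.ldp Ψ (s1 z)).contMDiffAt)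
    (fun z => (Orx52.ldp Ψ.symm (s2 z)).contMDiffAt) (fun z => Ψ.left_inv (s1 z))
    fun z => Ψ.right_inv (s2 z), k3, fun a ha hp b z => k4 (a, b) ⟨ha, hp⟩ z (s1 _),
    k5.mono fun z _ => s1 z⟩

end Crest.Agent.X212.Cyl58
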