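import Crest.Agent.X212.Cyl58.SmC

/-! # Row 212, CRIT-SMS (helper58): uniform bounds on `Y` and `SmsStmt` -/

set_option autoImplicit false
set_option linter.unusedSectionVars false
noncomputable section
open scoped Manifold ContDiff Topology InnerProductSpace
open MeasureTheory Set Function Filter

namespace Crest.Agent.X212.Cyl58
open An Dgr80 Cyf70 Nd18 Crt72 Mp86
open Lin97 (Hy)
open Wz78 (nab nabE)

variable {E3 : Type} [NormedAddCommGroup E3] [NormedSpace ℝ E3] [FiniteDimensional ℝ E3]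
  [MeasurableSpace E3] [BorelSpace E3]
  {H3 : Type} [TopologicalSpace H3] {I3 : ModelWithCorners ℝ E3 H3} [I3.Boundaryless]
  {Y : Type} [TopologicalSpace Y] [ChartedSpace H3 Y] [IsManifold I3 ∞ Y] [T2Space Y]
  [MeasurableSpace Y] [BorelSpace Y] [SecondCountableTopology Y] [CompactSpace Y]
  {κ : Type} [Fintype κ] {lam : Type} [Fintype lam] {D : YD I3 Y κ lam} {β : YC Y κ lam}

theorem sq_bd {α N : Type} [Fintype α] [NormedAddCommGroup N] {θ : α → Y → N}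
    (h : ∀ a, Continuous (θ a)) : ∃ C, 1 ≤ C ∧ ∀ x, ∑ a, ‖θ a x‖ ^ 2 ≤ C :=
  let ⟨K, hK⟩ := bd_of (continuous_finsetSum Finset.univ fun a _ => (h a).norm.pow 2)
  ⟨max 1 K, le_max_left _ _, fun x => (le_abs_self _).trans ((hK x).trans (le_max_right _ _))⟩

theorem fn_of (F : Fr I3 Y κ) {f : Y → ℝ} (hf : Sm I3 f) : ∃ C, 1 ≤ C ∧ Fn F C f := by
  obtain ⟨C, c, hC⟩ := sq_bd fun _ : Unit => hf.continuous
  obtain ⟨K, -, hK⟩ := sq_bd fun a => (F.sm_D hf a).continuous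
  exact ⟨max C K, le_max_of_le_left c, hf, fun x => le_max_of_le_left (by simpa using hC x),
    fun x => le_max_of_le_right (by simpa using hK x)⟩

theorem mc_cn (h : Hy D β) : Mc I3 (cn β) := ⟨h.sm_cn, fun a x => h.hC.sk (some a) (x, 0)⟩

variable (D) in
/-- uniformly bounded endomorphism fields -/
def UO (T : (β : YC Y κ lam) → Y → En (Fin β.m.N)) : Prop :=
  ∃ C : ℝ, 1 ≤ C ∧ ∀ β, Hy D β → Opr D.F (cn β) (cn β) C (T β)

theorem UO.congr {T T' : (β : YC Y κ lam) → Y → En (Fin β.m.N)} (h : UO D T)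
    (e : ∀ β, Hy D β → ∀ x, T' β x = T β x) : UO D T' :=
  h.imp fun _ k => ⟨k.1, fun β hβ => (funext (e β hβ)).symm ▸ k.2 β hβ⟩

theorem uo_cl {θ : Option κ → Y → ℝ} (hθ : ∀ a, Sm I3 (θ a)) :
    UO D fun β x => ∑ a, θ a x • β.m.ρ a x := by
  let H : κ × Option κ → Y → ℝ := fun s x =>
    D.F.D s.1 (θ s.2) x + ∑ b, θ b x * D.Z.Gam (some s.1) b s.2 (x, 0)
  obtain ⟨C, c, hC⟩ := sq_bd fun a => (hθ a).continuous
  obtain ⟨K, -, hK⟩ := sq_bd (θ := H) fun s => (D.F.sm_D (hθ _) _).continuous.add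
    (continuous_finsetSum _ fun b _ => (hθ b).continuous.mul
      (sm_slice_fst (fun z => (Wz78.lc_gam D.Z).sm (some s.1) b s.2 z) 0).continuous)
  simp only [Real.norm_eq_abs, sq_abs] at hC hK
  refine ⟨max C K, le_max_of_le_left c, fun β h => ?_⟩
  have b : ∀ x (θ : Option κ → ℝ) v, ‖∑ a, θ a • β.m.ρ a x v‖ ^ 2 ≤ (∑ a, θ a ^ 2) * ‖v‖ ^ 2 :=
    fun x => norm_cl (h.hB.pr (x, 0)) (h.hm.cl (x, 0)) (fun a => h.hm.ρsk a (x, 0))
      (h.hm.psym (x, 0)) (h.hm.pidem (x, 0))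
  have s1 := fun a x => Wz78.SA.smul (hθ a x) (sm_ρ h a x)
  refine ⟨fun x => Wz78.SA.sum _ fun a _ => s1 a x, fun x v => ?_, fun x v => ?_⟩
  · simp only [_root_.sum_apply, smul_apply]
    exact (b x _ v).trans (mul_le_mul_of_nonneg_right (le_max_of_le_left (hC x)) (sq_nonneg _))
  have e0 : ∀ a b, nabE I3 D.F.e (cn β) a (β.m.ρ b) x =
      ∑ k, D.Z.Gam (some a) b k (x, 0) • β.m.ρ k x := fun a b =>
    (congrArg (· + _) (congrFun (D_some_fst D.F.toPre (sm_ρ h b) a) (x, 0)).symm).trans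
      (h.hC.cc.comp (some a) b (x, 0))
  have e : ∀ a, nabH D.F (cn β) (cn β) a (fun x => ∑ a, θ a x • β.m.ρ a x) x =
      ∑ k, H (a, k) x • β.m.ρ k x := fun a => by
    change nabE I3 D.F.e (cn β) a _ x = _
    rw [Wz78.nabE_sum a _ fun b => s1 b x]
    simp only [fun b => Wz78.nabE_smul (e := D.F.e) (A := cn β) a (hθ b x) (sm_ρ h b x), e0, H,
      add_smul, Finset.sum_add_distrib, Finset.smul_sum, Finset.sum_smul, smul_smul]
    rw [Finset.sum_comm]; rfl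
  simp only [e, _root_.sum_apply, smul_apply]
  refine (Finset.sum_le_sum fun a _ => b x _ v).trans ?_
  rw [← Finset.sum_mul]
  exact mul_le_mul_of_nonneg_right (le_max_of_le_right
    ((Fintype.sum_prod_type _).symm.trans_le (hK x))) (sq_nonneg _)

theorem uo_j (h0 : HY D) {s : Y → Eu lam} (hs : Sm I3 s) : UO D fun β x => β.m.j x (s x) := by
  have sa : ∀ a, Sm I3 (D.a a) := fun a => sm_slice_fst (h0.ok.G.con.sm (some a)) 0
  obtain ⟨C, c, hC⟩ := sq_bd fun _ : Unit => hs.continuous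
  obtain ⟨K, -, hK⟩ := sq_bd fun a => (Wz78.sm_nab (F := D.F) sa a hs).continuous
  refine ⟨max C K, le_max_of_le_left c, fun β h => ?_⟩
  have sj : Sm I3 β.m.j := sm_slice_fst h.hm.sj 0
  have b : ∀ x s v, ‖β.m.j x s v‖ ^ 2 ≤ ‖s‖ ^ 2 * ‖v‖ ^ 2 := fun x s v =>
    (pow_le_pow_left₀ (norm_nonneg _) (norm_j h.hB h.hm (x, 0) s v) 2).trans_eq (mul_pow _ _ _)
  refine ⟨sj.clm_apply hs, fun x v => (b x _ v).trans (mul_le_mul_of_nonneg_right
    (le_max_of_le_left (by simpa using hC x)) (sq_nonneg _)), fun x v => ?_⟩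
  have e0 : ∀ a s, D.F.D a β.m.j x s + (cn β a x * β.m.j x s - β.m.j x s * cn β a x) =
      β.m.j x (D.a a x s) := fun a s =>
    (congrArg (fun T : CL (Eu lam) (En (Fin β.m.N)) => T s + _)
      (congrFun (D_some_fst D.F.toPre sj a) (x, 0)).symm).trans (h.hC.j (some a) (x, 0) s)
  have e : ∀ a, nabH D.F (cn β) (cn β) a (fun x => β.m.j x (s x)) x =
      β.m.j x (nab I3 D.F.e D.a a s x) := fun a => by
    rw [nab, map_add, ← e0, nabH, Pre.D, Sob92.dv_app (Wz78.SA.md (sj x)) (Wz78.SA.md (hs x))]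
    change _ + (cn β a x * _ - _ * cn β a x) = _
    simp only [Pre.D]; abel
  simp only [e]
  refine (Finset.sum_le_sum fun a _ => b x _ v).trans ?_
  rw [← Finset.sum_mul]
  exact mul_le_mul_of_nonneg_right (le_max_of_le_right (hK x)) (sq_nonneg _)

theorem uo_J : UO D fun β _ => β.m.J :=
  ⟨1, le_rfl, fun β h => Opr.par contMDiff_const (fun x v => by
    simpa [cs] using (norm_cs (J := β.m.J) h.hm.Jsq h.hm.Jsk Complex.I v).le) fun a x => by
      rw [nabH, Pre.D, Mp86.dv_const, zero_add]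
      exact sub_eq_zero.2 (h.hC.J (some a) (x, 0)).symm⟩

theorem uo_mul {f : Y → ℝ} (hf : Sm I3 f) : UO D fun _ x => f x • 1 :=
  (fn_of D.F hf).imp fun _ k => ⟨k.1, fun _ _ => k.2.opr⟩

theorem slo_mono {V : Type} [NormedAddCommGroup V] [InnerProductSpace ℝ V] [CompleteSpace V]
    {F : Fr I3 Y κ} {A : κ → Y → CL V V} {C K : ℝ} {t : SL Y V} (h : SLo F A C t) (k : C ≤ K) :
    SLo F A K t := by
  cases t with
  | op T => exact ⟨h.1.mono k, h.2.mono k⟩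
  | G => trivial

theorem UO.skw {T : (β : YC Y κ lam) → Y → En (Fin β.m.N)} (h : UO D T)
    (k : ∀ β, Hy D β → ∀ x, Skw (T β x)) :
    ∃ C : ℝ, 1 ≤ C ∧ ∀ β, Hy D β → SLo D.F (cn β) C (.op (T β)) :=
  h.imp fun _ h => ⟨h.1, fun β hβ => ⟨h.2 β hβ, by
    simp only [fun x => adj_skw (k β hβ x)]; exact (h.2 β hβ).neg⟩⟩

theorem slo_ylt {t : YL Y} (ht : t.OK I3) :
    ∃ C : ℝ, 1 ≤ C ∧ ∀ β, Hy D β → SLo D.F (cn β) C (ylt D.F β t) := by
  rcases t with f | (_ | g) | _ | _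
  · exact (uo_mul (D := D) ht).imp fun _ h => ⟨h.1, fun β hβ => ⟨h.2 β hβ, by
      simpa only [map_smul, ContinuousLinearMap.one_def, ContinuousLinearMap.adjoint_id] using
        h.2 β hβ⟩⟩
  · exact ((uo_cl (θ := fun a _ => a.elim 1 fun _ => 0) fun _ => contMDiff_const).congr
      fun β _ x => by simp).skw fun β h x => h.hm.ρsk none (x, 0)
  · refine ((uo_cl (θ := fun a => a.elim 0 fun a => D.F.D a g) fun a => ?_).congr
      fun β _ x => by simp).skw fun β h x v w => ?_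
    · cases a
      exacts [contMDiff_const, D.F.sm_D (ht g rfl) _]
    · have e : ∀ a v w, ⟪β.m.ρ a x v, w⟫_ℝ = -⟪v, β.m.ρ a x w⟫_ℝ := fun a => h.hm.ρsk a (x, 0)
      simp only [_root_.sum_apply, smul_apply, sum_inner, inner_sum, real_inner_smul_left,
        real_inner_smul_right, e _ v, mul_neg, Finset.sum_neg_distrib]
  · exact uo_J.skw fun β h _ => h.hm.Jsk
  · exact ⟨1, le_rfl, fun _ _ => trivial⟩

theorem slo_list : ∀ {u : List (YL Y)}, (∀ t ∈ u, t.OK I3) →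
    ∃ C : ℝ, 1 ≤ C ∧ ∀ β, Hy D β → ∀ t ∈ u.map (ylt D.F β), SLo D.F (cn β) C t
  | [], _ => ⟨1, le_rfl, by simp⟩
  | t :: u, h => by
    obtain ⟨C, c, hC⟩ := slo_ylt (D := D) (h t (by simp))
    obtain ⟨K, -, hK⟩ := slo_list (u := u) fun s hs => h s (by simp [hs])
    exact ⟨max C K, le_max_of_le_left c, fun β hβ => List.forall_mem_cons.2
      ⟨slo_mono (hC β hβ) (le_max_left _ _), fun s hs => slo_mono (hK β hβ s hs) (le_max_right _ _)⟩⟩

variable (D) in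
/-- uniformly controlled spinors -/
def US (w : (β : YC Y κ lam) → Y → β.m.V) : Prop :=
  ∃ K : ℝ, 1 ≤ K ∧ ∀ β, Hy D β → Ctl D.F (gr2 I3 D.F.e (cn β) β.Φ) 1 K (cn β) (w β)

variable {u v : List (YL Y)} {l : (β : YC Y κ lam) → Y → β.m.V}

theorem us_yw (hu : ∀ t ∈ u, t.OK I3) : US D fun β => yw D.F β u := by
  obtain ⟨C, c, hC⟩ := slo_list (D := D) hu
  refine ⟨(4 * C) ^ u.length * 1, by rw [mul_one]; exact one_le_pow₀ (by linarith), fun β h => ?_⟩
  exact List.length_map (ylt D.F β) ▸ ctl_wd bumps_of_compact (mc_cn h) zero_le_one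
    (fun _ => gr2_nonneg) zero_le_one c (ctl_nf (mc_cn h) h.sm_Φ).2 (hC β h)

theorem US.app {T : (β : YC Y κ lam) → Y → En (Fin β.m.N)} (hl : US D l) (hT : UO D T) :
    US D fun β x => T β x (l β x) := by
  obtain ⟨C, c, hC⟩ := hT
  obtain ⟨K, k, hK⟩ := hl
  exact ⟨4 * C * K, by nlinarith, fun β h => (hK β h).app zero_le_one (fun _ => gr2_nonneg)
    (by linarith) (by linarith) (hC β h)⟩

theorem US.dn (hl : US D l) : US D fun β => dn β (l β) := by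
  obtain ⟨K, k, hK⟩ := hl
  refine ⟨136 * K, by linarith, fun β h => ?_⟩
  have k0 : 0 ≤ K := by linarith
  obtain ⟨a1, a2⟩ := ctl_nf (F := D.F) (mc_cn h) h.sm_Φ
  have := (a1.smul' (hK β h) zero_le_one k0).add (((a1.smul' (a2.inner (mc_cn h) (hK β h)
    zero_le_one k0) zero_le_one (by positivity)).smul' a2 (by positivity) zero_le_one).neg)
  convert this using 1
  · ring
  · funext x
    simp only [Dgr80.dn, nf, real_inner_smul_left, smul_smul, smul_eq_mul, sub_eq_add_neg]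
    congr 3; ring

theorem US.ywP (hl : US D l) (hu : ∀ t ∈ u, t.OK I3) : US D fun β => ywP D.F β u (l β) := by
  obtain ⟨C, c, hC⟩ := slo_list (D := D) hu
  obtain ⟨K, k, hK⟩ := hl
  refine US.dn ⟨(4 * C) ^ u.length * K, one_le_mul_of_one_le_of_one_le
    (one_le_pow₀ (by linarith)) k, fun β h => ?_⟩
  simpa only [List.length_map] using ctl_bk bumps_of_compact (mc_cn h) zero_le_one
    (fun _ => gr2_nonneg) c (by linarith) (hC β h) (hK β h)

theorem US.ywA (hl : US D l) (hu : ∀ t ∈ u, t.OK I3) : ∃ K : ℝ, 0 ≤ K ∧ ∀ β, Hy D β →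
    Dom D.F K fun x => ‖ywA D.F β u (l β) x‖ ^ 2 := by
  obtain ⟨C, c, hC⟩ := slo_list (D := D) hu
  obtain ⟨K, k, hK⟩ := hl
  exact ⟨_, by positivity, fun β h => dom_gc' bumps_of_compact (mc_cn h) norm_opL c
    ((ctl_nf (F := D.F) (mc_cn h) h.sm_Φ).2.norm_le le_rfl) (n := u.length)
    (List.length_map _).le (fun t ht => (hC β h t ht).le c) ((hK β h).norm_le k)⟩

variable {T : Pk Y lam}

theorem bd_sw (hT : UO D fun β => pk β T) (hu : ∀ t ∈ u, t.OK I3) (hv : ∀ t ∈ v, t.OK I3) :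
    ∃ R, ∀ β, Hy D β → |(YF.sw D.F T u v).f β| ≤ R ∧
      Ctl D.F (gr2 I3 D.F.e (cn β) β.Φ) 1 R (cn β) ((YF.sw D.F T u v).gP β) ∧
      ∃ g, Dom D.F R g ∧ ∀ y, ‖(YF.sw D.F T u v).gA β y‖ ^ 2 ≤ R + g y := by
  have pu := (us_yw hu).app hT
  have pv := (us_yw hv).app hT
  obtain ⟨A1, a1, hA1⟩ := pv.ywA hu
  obtain ⟨A2, a2, hA2⟩ := pu.ywA hv
  obtain ⟨P1, p1, hP1⟩ := pv.ywP hu
  obtain ⟨P2, p2, hP2⟩ := pu.ywP hv
  obtain ⟨K, k, hK⟩ := pu
  obtain ⟨L, l, hL⟩ := us_yw (D := D) hv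
  have m : 0 ≤ K * L * D.F.μ.real univ := by positivity
  have f : ∀ β, Hy D β → ‖∫ y, ⟪pk β T y (yw D.F β u y), yw D.F β v y⟫_ℝ ∂D.F.μ‖ ≤ _ := fun β h =>
    norm_integral_le_of_norm_le_const (.of_forall fun x => (norm_inner_le_norm _ _).trans
      (mul_le_mul ((hK β h).norm_le k x) ((hL β h).norm_le l x) (norm_nonneg _) (by linarith)))
  exact ⟨K * L * D.F.μ.real univ + (2 * P1 + 2 * P2) + (2 * A1 + 2 * A2), fun β h =>
    ⟨(f β h).trans (by linarith), ((hP1 β h).add (hP2 β h)).mono zero_le_one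
    (fun _ => gr2_nonneg) (by linarith), _, ((hA1 β h).sq_add (hA2 β h)).mono (by linarith)
      fun _ => le_rfl, fun _ => le_add_of_nonneg_left (by linarith)⟩⟩

theorem sm1_sw (h : HY D) {j : BB D} (e : yf D j = YF.sw D.F T u v) (hT : UO D fun β => pk β T)
    (sy : ∀ β, Hy D β → ∀ x, Sym (pk β T x)) (hu : ∀ t ∈ u, t.OK I3) (hv : ∀ t ∈ v, t.OK I3) :
    Sm1 D j := by
  have s : ∀ β, D.Adm β → Sm I3 (pk β T) := fun β hβ => (hT.choose_spec.2 β ⟨h, hβ⟩).sm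
  have L : ∀ β, D.Adm β → Lip D β (yf D j) := fun β hβ =>
    e ▸ lip_sw ⟨h, hβ⟩ (s β hβ) (sy β ⟨h, hβ⟩) hu hv
  have t : ∀ β, D.Adm β → ∀ k, 7 ≤ k → ∃ T, RpT D β (yf D j) (k + 1) (k + 1) T :=
    fun β hβ k hk => e ▸ rpT_sw ⟨h, hβ⟩ (by omega) (s β hβ) hu hv
  exact ⟨t, fun β hβ k hk => e ▸ rpf_sw ⟨h, hβ⟩ (by omega) (s β hβ) hu hv,
    fun β hβ => (L β hβ).grad, fun k hk act sf o => (L _ o.2).hs h hk (t _ o.2 k hk),
    e ▸ (bd_sw hT hu hv).imp fun _ k β hβ => k β ⟨h, hβ⟩⟩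

variable (D) in
/-- **CRIT-SMS** -/
theorem smsStmt : SmsStmt D := fun h _ j hj => by
  rcases j with c | p | d | d
  · exact (hj c rfl).elim
  · exact sm1_sw h rfl ((uo_mul (f := fun _ => 1) contMDiff_const).congr fun _ _ _ =>
      (one_smul _ _).symm) (fun _ _ _ _ _ => rfl) p.2.1 p.2.2
  · exact sm1_sw h rfl (uo_j h d.2.1) (fun β hβ x => hβ.hm.jsym (x, 0) _) d.2.2.1 d.2.2.2
  · have e : ∀ β, Hy D β → ∀ x, pk β (.im d.1.s) x = β.m.j x (D.il (d.1.s x)) := fun β hβ x =>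
      (hβ.hm.jil (x, 0) _).symm
    exact sm1_sw h rfl ((uo_j h (D.il.contMDiff.comp d.2.1)).congr e)
      (fun β hβ x => e β hβ x ▸ hβ.hm.jsym (x, 0) _) d.2.2.1 d.2.2.2

end Crest.Agent.X212.Cyl58
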