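import Crest.Agent.X212.Mon62.Hyp
import Crest.Agent.X212.Dgr80.Rs

/-! # Row 212, CRIT-SMS (helper58): the bounded seed and the engine on a closed manifold -/

set_option autoImplicit false
set_option linter.unusedSectionVars false
noncomputable section
open scoped Manifold ContDiff Topology InnerProductSpace
open MeasureTheory Set Function Filter Metric

namespace Crest.Agent.X212.Cyl58
open An Sob92 Dgr80
open Mp86 (Mc)
open Wz78 (nab)

section pw
variable {V : Type} [NormedAddCommGroup V] [InnerProductSpace ℝ V]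

/-- `(1 + |v|²)^(-1/2)` -/
def iq (v : V) : ℝ := (√(1 + ‖v‖ ^ 2))⁻¹

/-- `v / √(1 + |v|²)` -/
def nq (v : V) : V := iq v • v

/-- its differential -/
def dq (v : V) : V →L[ℝ] V :=
  iq v • ContinuousLinearMap.id ℝ V - iq v ^ 3 • (innerSL ℝ v).smulRight v

theorem dq_apply (v l : V) : dq v l = iq v • l - (iq v ^ 3 * ⟪v, l⟫_ℝ) • v := by
  simp [dq, mul_smul]

theorem dq_symm (v w l : V) : ⟪dq v w, l⟫_ℝ = ⟪w, dq v l⟫_ℝ := by
  simp only [dq_apply, inner_sub_left, inner_sub_right, real_inner_smul_left, real_inner_smul_right,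
    real_inner_comm v w]
  ring

theorem cd_iq : ContDiff ℝ ∞ (iq : V → ℝ) :=
  ((contDiff_const.add (contDiff_norm_sq ℝ)).sqrt fun _ => by positivity).inv fun _ => by positivity

theorem cd_nq : ContDiff ℝ ∞ (nq : V → V) := cd_iq.smul contDiff_id

theorem cd_dq : ContDiff ℝ ∞ (dq : V → V →L[ℝ] V) :=
  (cd_iq.smul contDiff_const).sub ((cd_iq.pow 3).smul ((innerSL ℝ).contDiff.smulRight contDiff_id))

theorem iq_pos (v : V) : 0 < iq v := by unfold iq; positivity

theorem iq_sq (v : V) : iq v ^ 2 * (1 + ‖v‖ ^ 2) = 1 := by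
  rw [iq, inv_pow, Real.sq_sqrt (by positivity), inv_mul_cancel₀ (by positivity)]

theorem iq_le (v : V) : iq v ≤ 1 := by
  nlinarith [iq_sq v, iq_pos v, mul_nonneg (sq_nonneg (iq v)) (sq_nonneg ‖v‖)]

theorem norm_nq (v : V) : ‖nq v‖ ≤ 1 := by
  rw [nq, norm_smul, Real.norm_of_nonneg (iq_pos v).le]
  nlinarith [iq_sq v, sq_nonneg (iq v), mul_nonneg (iq_pos v).le (norm_nonneg v)]

theorem norm_dq (v l : V) : ‖dq v l‖ ≤ 2 * ‖l‖ := by
  have h0 := iq_pos v
  have h1 : iq v ^ 3 * ‖v‖ ^ 2 ≤ 1 := by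
    nlinarith [iq_sq v, iq_le v, sq_nonneg (iq v), mul_nonneg (sq_nonneg (iq v)) (sq_nonneg ‖v‖)]
  rw [dq_apply]
  refine (norm_sub_le _ _).trans ?_
  rw [norm_smul, norm_smul, norm_mul, Real.norm_of_nonneg h0.le, Real.norm_of_nonneg (by positivity)]
  have h2 := mul_le_mul_of_nonneg_right (mul_le_mul_of_nonneg_left (norm_inner_le_norm (𝕜 := ℝ) v l)
    (show 0 ≤ iq v ^ 3 by positivity)) (norm_nonneg v)
  nlinarith [mul_le_mul_of_nonneg_right h1 (norm_nonneg l),
    mul_le_mul_of_nonneg_right (iq_le v) (norm_nonneg l)]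

theorem der_iq (v : V) : HasFDerivAt iq (-(iq v ^ 3) • innerSL ℝ v) v := by
  have h1 : HasFDerivAt (fun v : V => 1 + ‖v‖ ^ 2) (2 • innerSL ℝ v) v :=
    (hasStrictFDerivAt_norm_sq v).hasFDerivAt.const_add 1
  have h0 : (0 : ℝ) < 1 + ‖v‖ ^ 2 := by positivity
  have h2 := ((Real.hasDerivAt_sqrt h0.ne').inv (by positivity)).comp_hasFDerivAt v h1
  refine h2.congr_fderiv ?_
  ext w
  simp only [iq, smul_apply, smul_eq_mul, nsmul_eq_mul]
  have := Real.sqrt_pos.2 h0
  field_simp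
  push_cast; ring

theorem der_nq (v : V) : HasFDerivAt nq (dq v) v :=
  ((der_iq v).smul (hasFDerivAt_id v)).congr_fderiv (by
    ext w; simp [dq_apply, sub_eq_add_neg])

theorem lip_nq (v w : V) : ‖nq w - nq v‖ ≤ 2 * ‖w - v‖ :=
  convex_univ.norm_image_sub_le_of_norm_hasFDerivWithin_le
    (fun x _ => (der_nq x).hasFDerivWithinAt)
    (fun x _ => (dq x).opNorm_le_bound zero_le_two (norm_dq x)) trivial trivial

theorem lip_dq [FiniteDimensional ℝ V] (R : ℝ) : ∃ K, 0 ≤ K ∧ ∀ v w : V, ‖v‖ ≤ R → ‖w‖ ≤ R →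
    ‖dq w - dq v‖ ≤ K * ‖w - v‖ ∧ ‖nq w - nq v - dq v (w - v)‖ ≤ K * ‖w - v‖ * ‖w - v‖ := by
  obtain ⟨K, hK⟩ := (cd_dq (V := V)).contDiffOn.exists_lipschitzOnWith (by simp)
    (convex_closedBall (0 : V) R) (isCompact_closedBall 0 R)
  have h : ∀ v w : V, ‖v‖ ≤ R → ‖w‖ ≤ R → ‖dq w - dq v‖ ≤ K * ‖w - v‖ := fun v w hv hw =>
    hK.norm_sub_le (mem_closedBall_zero_iff.2 hw) (mem_closedBall_zero_iff.2 hv)
  refine ⟨K, K.2, fun v w hv hw => ⟨h v w hv hw, ?_⟩⟩
  exact ((convex_closedBall (0 : V) R).inter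
    (convex_closedBall v ‖w - v‖)).norm_image_sub_le_of_norm_hasFDerivWithin_le'
    (fun x _ => (der_nq x).hasFDerivWithinAt) (fun x hx => (h v x hv
      (mem_closedBall_zero_iff.1 hx.1)).trans (mul_le_mul_of_nonneg_left
        (mem_closedBall_iff_norm.1 hx.2) K.2))
    ⟨mem_closedBall_zero_iff.2 hv, mem_closedBall_self (norm_nonneg _)⟩
    ⟨mem_closedBall_zero_iff.2 hw, mem_closedBall_iff_norm.2 le_rfl⟩

end pw

variable {E : Type} [NormedAddCommGroup E] [NormedSpace ℝ E] [FiniteDimensional ℝ E]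
  [MeasurableSpace E] [BorelSpace E]
  {HM : Type} [TopologicalSpace HM] {I : ModelWithCorners ℝ E HM} [I.Boundaryless]
  {M : Type} [TopologicalSpace M] [ChartedSpace HM M] [IsManifold I ∞ M]
  [MeasurableSpace M] [T2Space M] [BorelSpace M] [SecondCountableTopology M] [CompactSpace M]
  {ι : Type} [Fintype ι] {J : Type}
  {U V : Type} [NormedAddCommGroup U] [InnerProductSpace ℝ U] [CompleteSpace U]
  [NormedAddCommGroup V] [InnerProductSpace ℝ V] [FiniteDimensional ℝ V] [CompleteSpace V]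
  {F : Fr I M ι} {C : ℕ → ℝ} {A : ι → M → CL V V} {A' : J → ι → M → CL V V} {r : CL U (CL V V)}
  {α : J → M → Fm ι U} {φ : J → M → V} {Φ : M → V}

theorem bd_of {N : Type} [NormedAddCommGroup N] {u : M → N} (h : Continuous u) : Bd u :=
  let ⟨K, hK⟩ := isCompact_univ.exists_bound_of_continuousOn h.continuousOn
  ⟨K, fun x => hK x trivial⟩

theorem int_of {N : Type} [NormedAddCommGroup N] {u : M → N} (h : Continuous u) :
    Integrable u F.μ := h.integrable_of_hasCompactSupport (.of_compactSpace _)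

theorem cls_sm (hF : F.Tame C) (hA : Mc I A) : Cls F A (Sm I) :=
  ⟨fun _ h => h, fun _ h => Mp86.res_spec (Mon62.exists_res hF hA.sm hA.sk h),
    fun _ _ => Mp86.sm_res _ _ _⟩

variable (α φ) in
/-- unit weights; the size is the square of the `L²` norm -/
def cx (hF : F.Tame C) : Cx F J :=
  ⟨fun _ => 1, fun _ _ => 1, fun j => ∫ x, (‖α j x‖ ^ 2 + ‖φ j x‖ ^ 2) ∂F.μ,
    amb_of_tame hF wg_one (int_of continuous_const), fun _ => wg_one,
    fun _ => integral_nonneg fun _ => by positivity⟩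

variable (hF : F.Tame C)

theorem cx_big : (cx α φ hF).Big := ⟨fun _ _ => by simp [cx], 1, fun _ => le_rfl⟩

theorem lz (hA : Mc I A) (hA' : ∀ j, Mc I (A' j)) (e : ∀ j a x, A' j a x = A a x + r (α j x a))
    (sα : ∀ j, Sm I (α j)) (sφ : ∀ j, Sm I (φ j)) :
    Lz A (Sm I) r (cx α φ hF) (fun _ => Sm I) A' α φ := by
  have b := fun (u : M → V) a => bd_of (Wz78.sm_nab (F := F) hA.sm a (Mp86.sm_res F A u)).continuous
  have c1 := fun j => (sα j).continuous.norm.pow 2
  have c2 := fun j => (sφ j).continuous.norm.pow 2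
  refine ⟨⟨hA, hA', e, sα, ⟨fun j => (sα j).continuous, 1, zero_le_one, fun j => ?_⟩, cls_sm hF hA,
    fun j => cls_sm hF (hA' j), fun u _ => ?_⟩, ⟨fun j => (sφ j).continuous, 1, zero_le_one,
    fun j => ?_⟩, fun u _ => b u, fun f u hf hu => ContMDiff.smul hf.choose_spec.1 hu,
    fun _ f u hf hu => ContMDiff.smul hf.choose_spec.1 hu⟩
  · simp only [cx, one_mul]
    exact ⟨int_of (c1 j), integral_mono (int_of (c1 j)) (int_of ((c1 j).add (c2 j))) fun x =>
      le_add_of_nonneg_right (sq_nonneg _)⟩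
  · choose K hK using b u
    exact ⟨∑ a, |K a|, fun _ x a _ => ((hK a x).trans (le_abs_self _)).trans
      (Finset.single_le_sum (f := fun a => |K a|) (fun _ _ => abs_nonneg _) (Finset.mem_univ a))⟩
  · simp only [cx, one_mul]
    exact ⟨int_of (c2 j), integral_mono (int_of (c2 j)) (int_of ((c1 j).add (c2 j))) fun x =>
      le_add_of_nonneg_left (sq_nonneg _)⟩

variable (ι U) in
/-- the bounded seed -/
def sd0 (Φ : M → V) : RS M ι V U V := ⟨fun x => nq (Φ x), fun _ _ => 0, fun l x => dq (Φ x) (l x)⟩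

theorem sm_nq (h : Sm I Φ) : Sm I fun x => nq (Φ x) := cd_nq.contMDiff.comp h

theorem sm_dq (h : Sm I Φ) : Sm I fun x => dq (Φ x) := cd_dq.contMDiff.comp h

theorem lg0 {X : Cx F J} (hΦ : Sm I Φ) (sφ : ∀ j, Sm I (φ j)) (oφ : X.O2 φ)
    (h1 : ∀ j x, ‖φ j x‖ ≤ 1) : RS.Lg (Sm I) X (fun _ => Sm I) α φ (sd0 ι U Φ)
      fun j => sd0 ι U fun x => Φ x + φ j x := by
  obtain ⟨R, hR⟩ := bd_of hΦ.continuous
  obtain ⟨K, K0, hK⟩ := lip_dq (V := V) (R + 1)
  have k := fun j x => hK (Φ x) (Φ x + φ j x) ((hR x).trans (by linarith))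
    ((norm_add_le _ _).trans (add_le_add (hR x) (h1 j x)))
  simp only [add_sub_cancel_left] at k
  have s1 : ∀ j, Sm I fun x => Φ x + φ j x := fun j => hΦ.add (sφ j)
  have c0 := (sm_dq hΦ).continuous
  have c1 := fun j => (sm_dq (s1 j)).continuous
  have c2 := fun j => (sm_nq (s1 j)).continuous.sub (sm_nq hΦ).continuous
  refine ⟨⟨sm_nq hΦ, fun j => sm_nq (s1 j), ⟨1, fun _ => norm_nq _⟩,
    ⟨1, zero_le_one, fun _ _ => norm_nq _⟩, oφ.dom c2 (K := 2) fun j x => ?_⟩,
    fun _ _ _ => Cx.o2_zero.congr fun _ _ => sub_self _, fun l l' h => ?_,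
    fun _ _ _ => Cx.lw_bd continuous_const ⟨0, fun _ => norm_zero.le⟩,
    fun l h _ => Cx.lw_bd (c0.clm_apply h.continuous) (bd_of (c0.clm_apply h.continuous)),
    fun hX l h b => ?_⟩
  · simpa only [sd0, add_sub_cancel_left] using lip_nq (Φ x) (Φ x + φ j x)
  · refine ((h.d.dom (w := fun j x => dq (Φ x + φ j x) (l' j x - l x))
      (fun j => (c1 j).clm_apply (h.d.1 j)) fun j x => norm_dq _ _).add
      (oφ.ub h.bd.ub (w := fun j x => (dq (Φ x + φ j x) - dq (Φ x)) (l x))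
        (fun j => ((c1 j).sub c0).clm_apply h.q.continuous) K0 fun j x =>
          (ContinuousLinearMap.le_opNorm _ _).trans
            (mul_le_mul_of_nonneg_right (k j x).1 (norm_nonneg _)))).congr fun j x => ?_
    simp [sd0]
  · obtain ⟨L, hL⟩ := b
    refine (oφ.o1 hX oφ (f := fun j x => ⟪nq (Φ x + φ j x) - nq (Φ x) - dq (Φ x) (φ j x), l x⟫_ℝ)
      (K := K * |L|) (by positivity) fun j x => (abs_real_inner_le_norm _ _).trans
        ((mul_le_mul (k j x).2 ((hL x).trans (le_abs_self L)) (norm_nonneg _)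
          (by positivity)).trans_eq (by ring))).congr fun j => ?_
    simp only [sd0, inner_zero_right, integral_zero, sub_zero]
    rw [← integral_sub (int_of ((c2 j).inner h.continuous))
      (int_of ((sφ j).continuous.inner (c0.clm_apply h.continuous)))]
    simp only [inner_sub_left (nq _ - nq _), dq_symm]

theorem ad_op {T : M → CL V V} (hT : Sm I T) : (SL.op T).Ad (Sm I) fun _ : J => Sm I := by
  have h : (SL.op T).Ok (Sm I) := fun _ hu => ⟨hT.clm_apply hu,
    ((ContinuousLinearMap.adjoint (𝕜 := ℝ) (E := V) (F := V)).contDiff.contMDiff.comp hT).clm_apply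
      hu⟩
  exact ⟨h, fun _ => h, bd_of hT.continuous⟩

end Crest.Agent.X212.Cyl58
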