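import Crest.Agent.X212.Cyl58.FinA
import Crest.Agent.X212.Cay24.GlB
import Crest.Agent.X212.Dg64.Lf

/-!
# Row 212, DG-FIN (helper58): small points from global gauges
-/

set_option autoImplicit false
set_option linter.unusedSectionVars false
noncomputable section
open scoped Manifold ContDiff Topology InnerProductSpace ENNReal NNReal
open MeasureTheory Set Function Filter Real

namespace Crest.Agent.X212.Fin58
open An An.Job M Nd18 Mod61 Prm93 Gj67 Sob92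
open Gl67 (Sid Cm g0 q2)

section gen
variable {E : Type} [NormedAddCommGroup E] [NormedSpace ℝ E] [FiniteDimensional ℝ E]
  [MeasurableSpace E] [BorelSpace E]
  {HM : Type} [TopologicalSpace HM] {I : ModelWithCorners ℝ E HM} [I.Boundaryless]
  {M : Type} [TopologicalSpace M] [ChartedSpace HM M] [IsManifold I ∞ M]
  [MeasurableSpace M] [T2Space M] [BorelSpace M] [SecondCountableTopology M]
  {ι lam h : Type} [Fintype ι] [Fintype lam] [Fintype h]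
  {T U Up R : Type} [NormedAddCommGroup T] [NormedSpace ℝ T] [NormedAddCommGroup U]
  [NormedSpace ℝ U] [NormedAddCommGroup Up] [NormedSpace ℝ Up] [NormedAddCommGroup R]
  [NormedSpace ℝ R] {N r : ℕ} {Jc : En (Fin N)} {𝔉 : Mod61.Fam I M ι lam T}

theorem cb_toB {F : Pre I M ι} {f : M → U} {k : ℕ} {C : ℝ} (c : F.Cb f) (e : ‖toB F k f‖ ≤ C) :
    F.CB k f C := by
  have := Prm93.B.CB (toB F k f)
  rw [fn_toB c] at this
  exact CB_mono this e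

/-- the fields of the cuts -/
theorem cuts {s : Sid 𝔉 N Jc U Up R} {t : T} {c : Cfg M ι lam r} {g : M → CL c.m.V (Eu (Fin N))}
    {u : U} {θ : Circle} (H : s.OK) (ht : t ∈ 𝔉.Q) (hc : Eqv71.Ad0 c 𝔉.B (𝔉.G t))
    (hg : Pj41.Iso0 I c.m s.md univ g) (sm : Sm I (wv s t c g u θ)) (c0 : Cm N r h R)
    {k : Cut M lam} {ψ0 : L2c (Fin N)} (hb : ψ0 ∈ Hd Jc (s.md.pp 𝔉.B k.x0)) (ψ : k.H 𝔉.B c.m)
    {ε : ℝ} (e : ∃ η : Circle,
      ‖(csE Jc η ∘L g k.x0).compLpL 2 μc (ψ : L2c (Fin c.m.N)) - ψ0‖ ≤ ε) :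
    ∃ ψ' : k.H 𝔉.B s.md, ‖ψ'‖ ≤ ε ∧ k.Eqv k 𝔉.B 𝔉.B (m' := s.md) g ψ
      ((Hd _ _).orthogonalProjectionOnto ψ0 + ψ') := by
  obtain ⟨η, e⟩ := e
  have co : (Cnt93.Rh (m' := s.md) k k 𝔉.B 𝔉.B g η ψ : L2c (Fin N)) =
      (csE Jc η ∘L g k.x0).compLpL 2 μc (ψ : L2c (Fin c.m.N)) := Cnt93.coe_Rh ((Eqv71.lg_refl H.fam.B (H.fam.G t ht) isOpen_univ).of_ceq hc
    (Cay24.sd_ad0 H c0 sm (wv_pC u θ H ht hc hg) ht) (ceq u θ H ht hc hg c0 0))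
    (Cnt93.rel_refl (k := k) H.fam.B (subset_univ _)) η ψ
  refine ⟨Cnt93.Rh (m' := s.md) k k 𝔉.B 𝔉.B g η ψ - (Hd _ _).orthogonalProjectionOnto ψ0,
    le_of_eq_of_le ?_ e, η, ?_⟩
  · have : (Hd s.md.J (s.md.pp 𝔉.B k.x0)).orthogonalProjectionOnto ψ0 = ⟨_, hb⟩ :=
      Submodule.orthogonalProjectionOnto_mem_subspace_eq_self (⟨_, hb⟩ : k.H 𝔉.B s.md)
    rw [← co, this]; rfl
  · rw [add_sub_cancel]; exact co

end gen

variable {Wi : Type} {X : Mf 4} {A κ lam : Type} [Fintype A] [Fintype κ] [Fintype lam]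
  [DecidableEq lam] {M : Mark X A κ} {W : World M} {L : ML M lam} {Λ : Lns W L}
  {A' h : Type} [Fintype A'] [DecidableEq A'] [Fintype h] {r n : ℕ}
  {J : Job Wi Λ A' h r n} {σ : Cel A'} {a : A'}
  {U Up R : Type} [NormedAddCommGroup U] [NormedSpace ℝ U] [NormedAddCommGroup Up]
  [NormedSpace ℝ Up] [NormedAddCommGroup R] [NormedSpace ℝ R] {d : Dat J σ a U Up R}
  {q₀ : Wi →₀ ℝ} {δ : ℝ}

variable (d) in
/-- the other coordinates -/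
def tc (y : J.Obc M.c0) : Tc σ a := fun a' => y.s a' - d.y.s a'

theorem s_tc (h0 : d.y.s ∈ cl σ) {y : J.Obc M.c0} (hy : y.s ∈ cl σ) {τ : ℝ}
    (e : τ = y.s a) : d.s τ (tc d y) = y.s := funext fun a' => by
  rw [Dat.s, ee]
  split_ifs with k k'
  · exact add_sub_cancel _ _
  · exact k' ▸ e
  · obtain ⟨b, hb⟩ := Option.ne_none_iff_exists'.1 fun k1 => k ⟨k1, k'⟩
    exact (h0.1 a' b hb).trans (hy.1 a' b hb).symm

theorem s_a (H : d.OK q₀ δ) : d.y.s a = 1 := by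
  obtain ⟨a', h1, h2⟩ := H.ok.inf σ H.mem _ (J.cl_dom H.sol.cell) _ (Cay24.th1 d)
  exact H.ok.inj _ _ _ h1 H.hd ▸ h2

/-- one point -/
theorem one {τ : d.Ta} {y : J.Obc M.c0} {t : Tc σ a} (e : d.s τ t = y.s) (ok : (d.Xs τ).OK)
    (hy : y.Ok) (hb : ∀ i, d.cm.ψ0 i ∈ Hd d.Jc ((d.Xs τ).md.pp (J.B M.c0) (J.cut M.c0 i).x0))
    {u : U} {θ : Circle} {g : (W.Z M.c0).M → CL y.x.m.V (Eu (Fin d.N))} {j : ℕ} {e' ε : ℝ}
    (k : d.Gg τ y u θ g j e' ε) (sm : Sm (W.Z M.c0).I (wv (d.Xs τ) t y.x g u θ)) :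
    ∃ (w : Sec (W.Z M.c0).I (d.Xs τ).bd.pC) (p : d.PH τ), w.1 = wv (d.Xs τ) t y.x g u θ ∧
      ‖p‖ ≤ ‖t‖ + ε ∧ Job.Iso (d.ob τ w p) y := by
  have : CompactSpace (W.Z M.c0).M := Cyl58.caps_compact W.toCaps fun _ h => h.elim
  have ht : t ∈ (d.FX τ).Q := show J.Θ (d.s τ t) ∈ _ from e ▸ hy.2
  have hc : Eqv71.Ad0 y.x (d.FX τ).B ((d.FX τ).G t) :=
    show Eqv71.Ad0 _ _ (J.G _ (d.s τ t)) from e ▸ hy.1
  have pw := wv_pC u θ ok ht hc k.iso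
  have ce := ceq u θ ok ht hc k.iso d.cm
  choose ψ h1 h2 using fun i => cuts ok ht hc k.iso sm d.cm (hb i) (y.ψ i) (k.ψ i)
  have e0 : 0 ≤ ε := (norm_nonneg _).trans k.u
  have n : ∀ {x : ℝ}, x ≤ ε → x ≤ ‖t‖ + ε := fun h => h.trans (le_add_of_nonneg_left (norm_nonneg _))
  exact ⟨⟨_, sm, .of_compactSpace _, pw⟩, (t, u, ((θ : ℂ) ^ 2) • y.x.z - d.cm.z0, ψ), rfl,
    norm_prod_le_iff.2 ⟨le_add_of_nonneg_right e0, norm_prod_le_iff.2 ⟨n k.u, norm_prod_le_iff.2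
      ⟨n k.z, n ((pi_norm_le_iff_of_nonneg e0).2 h1)⟩⟩⟩,
    Iso.symm ⟨e.symm, g, θ, e ▸ ce _, fun i => h2 i⟩ hy ⟨Cay24.sd_ad0 ok d.cm sm pw ht, ht⟩⟩

/-- **DG-FIN** -/
theorem fin {k : ℕ} (H : d.OK q₀ δ) (G : d.Geo) (B : d.Base) (Fr : d.Frm) (Vo : d.Vol)
    (Tr : d.Trf q₀) (Gl : d.Glb q₀ δ) : d.DG q₀ δ k := by
  intro α 𝒰 q y y₀ hq hy h0 ht hi hd
  replace hd := Tr α 𝒰 q y y₀ hy h0 ht hi hd
  obtain ⟨e, he, Gl⟩ := Gl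
  replace Gl := Gl α 𝒰 q y hq hy hd (k + 1)
  have ta : Tendsto (fun i => (y i).s a) 𝒰 (𝓝 1) := s_a H ▸ tendsto_pi_nhds.1 hd.s a
  obtain ⟨_, τ₀, -⟩ := (Gl 1 one_pos).exists
  have : Nonempty d.Ta := ⟨τ₀⟩
  obtain ⟨D, ε, hε, hD⟩ := diag (l := 𝒰)
    (γ := fun i => d.Ta × U × Circle × ((W.Z M.c0).M → CL (y i).x.m.V (Eu (Fin d.N))))
    (P := fun i D ε => (D.1 : ℝ) = (y i).s a ∧ d.Gg D.1 (y i) D.2.1 D.2.2.1 D.2.2.2 (k + 1) e ε)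
    (ν := fun i => 1 - (y i).s a) (by simpa using ta.const_sub 1)
    (((Gl 1 one_pos).and (ta.eventually (eventually_comap.1 G.len))).mono
      fun i ⟨⟨τ, _, _, _, h1, _⟩, h2⟩ => sub_pos.2 (h1 ▸ (h2 τ h1).1))
    fun ε hε => (Gl ε hε).mono fun i ⟨τ, u, θ, g, h⟩ => ⟨(τ, u, θ, g), h⟩
  have hτ : Tendsto (fun i => (D i).1) 𝒰 d.lg :=
    tendsto_comap_iff.2 (ta.congr' (hD.mono fun i h => h.2.1.symm))
  have t0 : Tendsto (fun i => tc d (y i)) 𝒰 (𝓝 0) := tendsto_pi_nhds.2 fun a' =>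
    tendsto_sub_nhds_zero_iff.2 (tendsto_pi_nhds.1 hd.s a')
  obtain ⟨C, B⟩ := B
  obtain ⟨ρ, ρ0, C', -, fam⟩ := G.fam
  obtain ⟨V, Vo⟩ := Vo (2 * (e - δ)) (by linarith)
  replace B := hτ.eventually B
  replace Fr := fun η hη => (hτ.prodMk t0).eventually (Fr (k + 1) η hη)
  have es : ∀ᶠ i in 𝒰, d.s (D i).1 (tc d (y i)) = (y i).s ∧ (y i).Ok :=
    (hy.and hD).mono fun i h => ⟨s_tc H.sol.cell h.1.cell h.2.2.1, h.1.ok H.ok H.mem⟩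
  have eQ : ∀ᶠ i in 𝒰, ((d.FX (D i).1).OK ∧ tc d (y i) ∈ (d.FX (D i).1).Q) :=
    (B.and es).mono fun i h => ⟨h.1.1.fam, show J.Θ (d.s _ _) ∈ _ from h.2.1 ▸ h.2.2.2⟩
  obtain ⟨sm, sml⟩ := small (l := 𝒰) (s := fun i => d.Xs (D i).1) (t := fun i => tc d (y i))
    (c := fun i => (y i).x) (g := fun i => (D i).2.2.2) (u := fun i => (D i).2.1)
    (θ := fun i => (D i).2.2.1) (e := e) (Vo := V) (k := k + 1) H.δ0.le (H.δ0.trans he).le hε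
    (by
      filter_upwards [B, es, eQ, hD, hτ.eventually Vo, Fr 1 one_pos] with i b es eQ hD vo fr
      refine ⟨b.1, eQ.2, show Eqv71.Ad0 _ _ (J.G _ (d.s _ _)) from es.1 ▸ es.2.1, hD.2.2.iso,
        hD.2.2.u, fun b x w hw => ?_, fun x w hw => hD.2.2.P w hw x, vo, fr.2.2.2⟩
      have := hD.2.2.A b w hw x
      rw [← es.1] at this
      exact this)
    ⟨_, B.mono fun _ b => ⟨b.2.1.p.1, b.2.1.p.2 _⟩⟩
    (fun j => ⟨_, B.mono fun _ b => ⟨(b.2.1.ρ j).1, (b.2.1.ρ j).2 _⟩⟩)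
    (fun j => ⟨_, B.mono fun _ b => ⟨(b.2.1.A j).1, (b.2.1.A j).2 _⟩⟩)
    ⟨_, B.mono fun _ b => ⟨b.2.1.b.1, b.2.1.b.2 _⟩⟩
    (fun j j' => ⟨C' (k + 1 + 0), by
      filter_upwards [eQ, hτ.eventually fam, t0.eventually (Metric.closedBall_mem_nhds _ ρ0)]
        with i eQ fam hρ
      have c := (eQ.1.sSi j j').cb _ eQ.2
      have := fam.2.1.Si j j' (k + 1) 0 _ hρ
      rw [norm_iteratedFDeriv_zero] at this
      exact ⟨Cb.sm c, cb_toB c this⟩⟩)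
    (fun j j' η hη => (eQ.and (Fr η hη)).mono fun i h =>
      ⟨(Cb.sm ((h.1.1.sS j j').cb _ h.1.2)).sub (h.1.1.B.sP j j'), h.2.1 j j'⟩)
    (fun j j' j'' η hη => (eQ.and (Fr η hη)).mono fun i h =>
      ⟨Cb.sm ((h.1.1.scf j j' j'').cb _ h.1.2), h.2.2.1 j j' j''⟩)
    fun j η hη => (eQ.and (Fr η hη)).mono fun i h =>
      ⟨Cb.sm ((h.1.1.sla j).cb _ h.1.2), h.2.2.2.1 j⟩
  have ex := (B.and (es.and (hD.and sm))).mono fun i h =>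
    one h.2.1.1 h.1.1 h.2.1.2 h.1.2.2.2.2 h.2.2.1.2.2 h.2.2.2
  classical
  choose! w p hw using fun i (h : ∃ (w : Sec (W.Z M.c0).I (d.Xs (D i).1).bd.pC) (p : d.PH (D i).1),
    w.1 = wv (d.Xs (D i).1) (tc d (y i)) (y i).x (D i).2.2.2 (D i).2.1 (D i).2.2.1 ∧
      ‖p‖ ≤ ‖tc d (y i)‖ + ε i ∧ Job.Iso (d.ob (D i).1 w p) (y i)) => h
  replace hw := ex.mono hw
  refine ⟨fun i => (D i).1, w, p, ⟨hτ, ?_⟩, hw.mono fun _ h => h.2.2⟩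
  rw [← add_zero (0 : ℝ≥0∞)]
  refine (sml.congr' (hw.mono fun i h => by rw [← h.1]; rfl)).add (Gl67.q2_tendsto.2
    (squeeze_zero' (.of_forall fun _ => norm_nonneg _) (hw.mono fun _ h => h.2.1) ?_))
  simpa using t0.norm.add hε

end Crest.Agent.X212.Fin58
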