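import Crest.Agent.X212.Cyl58.Duq

/-!
# Row 212, RFACE: `InL` on the side `S¹ × D³` from the abelian part
-/

set_option autoImplicit false
set_option linter.unusedSectionVars false
noncomputable section
open Set Function Filter

namespace Crest.Agent.X212.Cyl58.Duq
open An M Nd18 Rf65 G75 Dfl49
open An.Job (Sol)

variable {κ lam : Type} [Fintype κ] [Fintype lam] [DecidableEq lam] {Lm : LM κ lam}
  {S : Scene Lm} {D : S.Dat} {i : S.L} {Wi : Type} {r n : ℕ}
  {J : Job Wi (D.Λ i) (S.A ⊕ Unit) S.ls r n} {c : S.M.Cl} {R : S.A} {j : ℕ} {n₀ : ℤ} {T ε δ : ℝ}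
  {Adm : (Wi →₀ ℝ) → Prop} {σ : Cel (S.A ⊕ Unit)}

theorem trD (G : HD J c R j n₀ T) (H : H1R J c δ σ Adm R ∅ 0 0 n₀) :
    TrL J c δ (shX S {R}) σ Adm n₀ fun _ _ => True := fun G' g k => ⟨G', g, fun q hq y x s f => by
  obtain ⟨x', e1, e2⟩ := (k q hq).1 y s fun t =>
    singleton_ne_empty R (G.c1.symm.trans (congrArg Subtype.val t.1))
  obtain rfl : x' = x := singleton_injective (e1.2.1.symm.trans f.1.2.1)
  exact ⟨by simpa using (H.qr q y _ (g.le q hq) s e1 f.2.1 (e2 f.2.1).1).2.2, trivial⟩⟩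

/-- **the inside** from `InjD` and the abelian part at flat objects -/
theorem inL (TA : Rf65.TP Lm) (G : HD J c R j n₀ T) (inj : InjD J c R) (he : EpsAt J ε Adm)
    (ta : H1R J c δ σ Adm R ∅ 0 0 n₀ → ∀ q y, Adm q → FS J c R σ q y → FA J c σ n₀ y R →
      dz (J.xs R).D (y.β R true) = 1 → TA J c δ (shX S {R}) σ q y R) :
    InL TA J c δ σ Adm R ∅ 0 0 n₀ fun _ _ => True := fun H =>
  have k := duq Lm S D i Wi r n J c R j n₀ T G inj ε Adm δ σ he H
  ⟨fun q y x a s f o e t => k.1 q y x a s f o e t.1, trD G H, fun q y x a s f _ _ o _ => by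
    obtain ⟨rfl, t⟩ := k.2 q y x a s f o
    exact ta H q y a t f ((H.num q y _ a s f.1).2.2 f.2.1 o).1⟩

end Crest.Agent.X212.Cyl58.Duq
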