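import Mathlib

/-!
# X212/Cyl58/OE: smooth open embeddings between manifolds with arbitrary models

`IsOE I J f`: `f` is an injective local diffeomorphism.  API: composition, products, the partial
diffeomorphism `pd` onto the range, smoothness tested through `f`, spans.
-/

set_option autoImplicit false
noncomputable section
open Set Filter Topology Function
open scoped ContDiff Manifold

namespace Crest.Agent.X212.Cyl58

variable {EA HA EB HB EC HC ED HD : Type*}
  [NormedAddCommGroup EA] [NormedSpace ℝ EA] [TopologicalSpace HA]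
  [NormedAddCommGroup EB] [NormedSpace ℝ EB] [TopologicalSpace HB]
  [NormedAddCommGroup EC] [NormedSpace ℝ EC] [TopologicalSpace HC]
  [NormedAddCommGroup ED] [NormedSpace ℝ ED] [TopologicalSpace HD]
  {IA : ModelWithCorners ℝ EA HA} {IB : ModelWithCorners ℝ EB HB}
  {IC : ModelWithCorners ℝ EC HC} {ID : ModelWithCorners ℝ ED HD}
  {A B C D : Type*} [TopologicalSpace A] [ChartedSpace HA A] [TopologicalSpace B]
  [ChartedSpace HB B] [TopologicalSpace C] [ChartedSpace HC C] [TopologicalSpace D]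
  [ChartedSpace HD D]

/-! ### local diffeomorphisms -/

theorem ld_comp {f : A → B} {g : B → C} {x : A} (hg : IsLocalDiffeomorphAt IB IC ∞ g (f x))
    (h : IsLocalDiffeomorphAt IA IB ∞ f x) : IsLocalDiffeomorphAt IA IC ∞ (g ∘ f) x :=
  h.comp _ _ hg

theorem ld_congr {f g : A → B} {x : A} (h : IsLocalDiffeomorphAt IA IB ∞ f x)
    (hg : g =ᶠ[𝓝 x] f) : IsLocalDiffeomorphAt IA IB ∞ g x := by
  obtain ⟨Φ, hx, hΦ⟩ := h
  obtain ⟨U, hU, hUo, hxU⟩ := mem_nhds_iff.1 hg
  let e := Φ.toOpenPartialHomeomorph.restrOpen U hUo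
  refine ⟨⟨e.toPartialEquiv, e.open_source, e.open_target,
    Φ.contMDiffOn_toFun.mono inter_subset_left, Φ.contMDiffOn_invFun.mono inter_subset_left⟩,
    ⟨hx, hxU⟩, fun y hy => ?_⟩
  exact (hU hy.2 : g y = f y).trans (hΦ hy.1)

/-- smoothness at `f x` is tested through a local diffeomorphism `f` -/
theorem contMDiffAt_of_comp {f : A → B} {x : A} (h : IsLocalDiffeomorphAt IA IB ∞ f x)
    {g : B → C} (hg : ContMDiffAt IA IC ∞ (g ∘ f) x) : ContMDiffAt IB IC ∞ g (f x) := by
  have h1 : ContMDiffAt IA IC ∞ (g ∘ f) (h.localInverse (f x)) := by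
    rwa [h.localInverse_left_inv h.localInverse_mem_target]
  refine (h1.comp (f x) h.localInverse_contMDiffAt).congr_of_eventuallyEq ?_
  filter_upwards [h.localInverse_eventuallyEq_right] with y hy
  simp only [comp_apply] at hy ⊢
  rw [hy]; rfl

theorem contMDiffAt_comp_iff {f : A → B} {x : A} (h : IsLocalDiffeomorphAt IA IB ∞ f x)
    {g : B → C} : ContMDiffAt IA IC ∞ (g ∘ f) x ↔ ContMDiffAt IB IC ∞ g (f x) :=
  ⟨contMDiffAt_of_comp h, fun hg => hg.comp x h.contMDiffAt⟩

/-- smoothness of a continuous map is tested after a local diffeomorphism -/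
theorem contMDiffAt_of_comp_left {f : B → C} {g : A → B} {x : A}
    (h : IsLocalDiffeomorphAt IB IC ∞ f (g x)) (hc : ContinuousAt g x)
    (hg : ContMDiffAt IA IC ∞ (f ∘ g) x) : ContMDiffAt IA IB ∞ g x := by
  refine (h.localInverse_contMDiffAt.comp x hg).congr_of_eventuallyEq ?_
  filter_upwards [hc.eventually h.localInverse_eventuallyEq_left] with y hy
  exact hy.symm

/-- a map with a smooth local two-sided inverse is a local diffeomorphism -/
theorem ld_of_inverse {f : A → B} {g : B → A} {U : Set A} {V : Set B} (hU : IsOpen U)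
    (hV : IsOpen V) (hf : ContMDiffOn IA IB ∞ f U) (hg : ContMDiffOn IB IA ∞ g V)
    (hUV : MapsTo f U V) (hVU : MapsTo g V U) (hl : ∀ x ∈ U, g (f x) = x)
    (hr : ∀ y ∈ V, f (g y) = y) {x : A} (hx : x ∈ U) : IsLocalDiffeomorphAt IA IB ∞ f x :=
  ⟨⟨⟨f, g, U, V, hUV, hVU, hl, hr⟩, hU, hV, hf, hg⟩, hx, fun _ _ => rfl⟩

/-- two out of three: if `f` and `g ∘ f` are local diffeomorphisms, so is `g` -/
theorem ld_of_comp {f : A → B} {g : B → C} {x : A} (h : IsLocalDiffeomorphAt IA IB ∞ f x)
    (hg : IsLocalDiffeomorphAt IA IC ∞ (g ∘ f) x) : IsLocalDiffeomorphAt IB IC ∞ g (f x) := by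
  have h1 : IsLocalDiffeomorphAt IA IC ∞ (g ∘ f) (h.localInverse (f x)) := by
    rwa [h.localInverse_left_inv h.localInverse_mem_target]
  refine ld_congr (ld_comp h1 h.localInverse_isLocalDiffeomorphAt) ?_
  filter_upwards [h.localInverse_eventuallyEq_right] with y hy
  simp only [comp_apply] at hy ⊢
  rw [hy]; rfl

/-- two out of three: if `f` and `f ∘ g` are local diffeomorphisms, `g` continuous, so is `g` -/
theorem ld_of_comp_left {f : B → C} {g : A → B} {x : A}
    (h : IsLocalDiffeomorphAt IB IC ∞ f (g x)) (hc : ContinuousAt g x)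
    (hg : IsLocalDiffeomorphAt IA IC ∞ (f ∘ g) x) : IsLocalDiffeomorphAt IA IB ∞ g x := by
  refine ld_congr (ld_comp h.localInverse_isLocalDiffeomorphAt hg) ?_
  filter_upwards [hc.eventually h.localInverse_eventuallyEq_left] with y hy
  exact hy.symm

theorem ld_prodMap {f : A → B} {g : C → D} {x : A} {y : C}
    (hf : IsLocalDiffeomorphAt IA IB ∞ f x) (hg : IsLocalDiffeomorphAt IC ID ∞ g y) :
    IsLocalDiffeomorphAt (IA.prod IC) (IB.prod ID) ∞ (Prod.map f g) (x, y) := by
  obtain ⟨Φ, hx, hΦ⟩ := hf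
  obtain ⟨Ψ, hy, hΨ⟩ := hg
  let e := Φ.toOpenPartialHomeomorph.prod Ψ.toOpenPartialHomeomorph
  refine ⟨⟨e.toPartialEquiv, e.open_source, e.open_target,
    Φ.contMDiffOn_toFun.prodMap Ψ.contMDiffOn_toFun,
    Φ.contMDiffOn_invFun.prodMap Ψ.contMDiffOn_invFun⟩, ⟨hx, hy⟩, fun p hp => ?_⟩
  exact Prod.ext (hΦ hp.1) (hΨ hp.2)

theorem ld_id (x : A) : IsLocalDiffeomorphAt IA IA ∞ id x :=
  (Diffeomorph.refl IA A ∞).isLocalDiffeomorph x

/-! ### smooth open embeddings -/

variable (IA IB) in
/-- a smooth open embedding: an injective local diffeomorphism -/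
structure IsOE (f : A → B) : Prop where
  inj : Injective f
  loc : IsLocalDiffeomorph IA IB ∞ f

namespace IsOE

variable {f : A → B}

theorem contMDiff (h : IsOE IA IB f) : ContMDiff IA IB ∞ f := h.loc.contMDiff

theorem continuous (h : IsOE IA IB f) : Continuous f := h.contMDiff.continuous

theorem isOpenEmbedding (h : IsOE IA IB f) : IsOpenEmbedding f :=
  .of_continuous_injective_isOpenMap h.continuous h.inj h.loc.isOpenMap

theorem isOpen_range (h : IsOE IA IB f) : IsOpen (range f) := h.loc.isOpen_range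

theorem isOpen_image (h : IsOE IA IB f) {s : Set A} (hs : IsOpen s) : IsOpen (f '' s) :=
  h.loc.isOpenMap s hs

protected theorem id : IsOE IA IA (id : A → A) := ⟨injective_id, ld_id⟩

theorem comp {g : B → C} (hg : IsOE IB IC g) (h : IsOE IA IB f) : IsOE IA IC (g ∘ f) :=
  ⟨hg.inj.comp h.inj, fun x => ld_comp (hg.loc _) (h.loc x)⟩

theorem prodMap {g : C → D} (h : IsOE IA IB f) (hg : IsOE IC ID g) :
    IsOE (IA.prod IC) (IB.prod ID) (Prod.map f g) :=
  ⟨h.inj.prodMap hg.inj, fun p => ld_prodMap (h.loc p.1) (hg.loc p.2)⟩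

theorem of_diffeo (φ : A ≃ₘ^∞⟮IA, IB⟯ B) : IsOE IA IB φ :=
  ⟨φ.injective, φ.isLocalDiffeomorph⟩

/-- a partial diffeomorphism composed with an embedding into its source -/
theorem of_pd (Φ : PartialDiffeomorph IB IC B C ∞) (h : IsOE IA IB f)
    (hs : ∀ x, f x ∈ Φ.source) : IsOE IA IC (Φ ∘ f) :=
  ⟨fun x y hxy => h.inj (Φ.injOn (hs x) (hs y) hxy),
    fun x => ld_comp (Φ.isLocalDiffeomorphAt _ _ _ (hs x)) (h.loc x)⟩

/-- a map through an embedding -/
theorem of_comp_left {g : B → C} (hg : IsOE IB IC g) (h : IsOE IA IC (g ∘ f)) :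
    IsOE IA IB f :=
  ⟨h.inj.of_comp, fun x => ld_of_comp_left (hg.loc _)
    ((hg.isOpenEmbedding.isInducing.continuous_iff.2 h.continuous).continuousAt) (h.loc x)⟩

theorem contMDiffAt_iff (h : IsOE IA IB f) {g : B → C} {x : A} :
    ContMDiffAt IA IC ∞ (g ∘ f) x ↔ ContMDiffAt IB IC ∞ g (f x) :=
  contMDiffAt_comp_iff (h.loc x)

theorem contMDiffOn_range (h : IsOE IA IB f) {g : B → C} (hg : ContMDiff IA IC ∞ (g ∘ f)) :
    ContMDiffOn IB IC ∞ g (range f) := by
  rintro _ ⟨x, rfl⟩
  exact (h.contMDiffAt_iff.1 (hg x)).contMDiffWithinAt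

theorem contMDiffOn_image (h : IsOE IA IB f) {g : B → C} {s : Set A} (hs : IsOpen s)
    (hg : ContMDiffOn IA IC ∞ (g ∘ f) s) : ContMDiffOn IB IC ∞ g (f '' s) := by
  rintro _ ⟨x, hx, rfl⟩
  exact (h.contMDiffAt_iff.1 (hg.contMDiffAt (hs.mem_nhds hx))).contMDiffWithinAt

theorem contMDiffAt_left (h : IsOE IA IB f) {g : C → A} {x : C}
    (hg : ContMDiffAt IC IB ∞ (f ∘ g) x) : ContMDiffAt IC IA ∞ g x :=
  contMDiffAt_of_comp_left (h.loc _)
    ((h.isOpenEmbedding.isInducing.continuousAt_iff).2 hg.continuousAt) hg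

theorem contMDiff_left (h : IsOE IA IB f) {g : C → A} (hg : ContMDiff IC IB ∞ (f ∘ g)) :
    ContMDiff IC IA ∞ g := fun x => h.contMDiffAt_left (hg x)

/-- the partial diffeomorphism onto the range -/
def pd [Nonempty A] (h : IsOE IA IB f) : PartialDiffeomorph IA IB A B ∞ where
  toFun := f
  invFun := invFun f
  source := univ
  target := range f
  map_source' x _ := mem_range_self x
  map_target' _ _ := mem_univ _
  left_inv' x _ := leftInverse_invFun h.inj x
  right_inv' _ hy := invFun_eq hy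
  open_source := isOpen_univ
  open_target := h.isOpen_range
  contMDiffOn_toFun := h.contMDiff.contMDiffOn
  contMDiffOn_invFun := h.contMDiffOn_range (by
    rw [invFun_comp h.inj]; exact contMDiff_id)

@[simp] theorem pd_source [Nonempty A] (h : IsOE IA IB f) : h.pd.source = univ := rfl
@[simp] theorem pd_target [Nonempty A] (h : IsOE IA IB f) : h.pd.target = range f := rfl
@[simp] theorem pd_apply [Nonempty A] (h : IsOE IA IB f) (x : A) : h.pd x = f x := rfl
@[simp] theorem pd_symm_apply [Nonempty A] (h : IsOE IA IB f) (x : A) : h.pd.symm (f x) = x :=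
  leftInverse_invFun h.inj x

/-- the partial diffeomorphism `f x ↦ g x` of a span of embeddings -/
def span [Nonempty A] {g : A → C} (h : IsOE IA IB f) (hg : IsOE IA IC g) :
    PartialDiffeomorph IB IC B C ∞ := h.pd.symm.trans hg.pd

theorem span_source [Nonempty A] {g : A → C} (h : IsOE IA IB f) (hg : IsOE IA IC g) :
    (h.span hg).source = range f := by
  change range f ∩ _ ⁻¹' univ = _
  simp

theorem span_target [Nonempty A] {g : A → C} (h : IsOE IA IB f) (hg : IsOE IA IC g) :
    (h.span hg).target = range g := by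
  change range g ∩ _ ⁻¹' univ = _
  simp

@[simp] theorem span_apply [Nonempty A] {g : A → C} (h : IsOE IA IB f) (hg : IsOE IA IC g)
    (x : A) : h.span hg (f x) = g x := congrArg g (h.pd_symm_apply x)

@[simp] theorem span_symm_apply [Nonempty A] {g : A → C} (h : IsOE IA IB f) (hg : IsOE IA IC g)
    (x : A) : (h.span hg).symm (g x) = f x := congrArg f (hg.pd_symm_apply x)

/-- a surjective embedding is a diffeomorphism -/
def diffeo (h : IsOE IA IB f) (hs : Surjective f) : A ≃ₘ^∞⟮IA, IB⟯ B where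
  toEquiv := Equiv.ofBijective f ⟨h.inj, hs⟩
  contMDiff_toFun := h.contMDiff
  contMDiff_invFun := h.contMDiff_left (by
    refine contMDiff_id.congr fun y => ?_
    exact (Equiv.ofBijective f ⟨h.inj, hs⟩).right_inv y)

@[simp] theorem diffeo_apply (h : IsOE IA IB f) (hs : Surjective f) (x : A) :
    h.diffeo hs x = f x := rfl

/-- two embeddings with the same range differ by a diffeomorphism -/
theorem exists_diffeo {g : C → B} (h : IsOE IA IB f) (hg : IsOE IC IB g)
    (hr : range f = range g) : ∃ φ : A ≃ₘ^∞⟮IA, IC⟯ C, ∀ x, g (φ x) = f x := by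
  have h1 : ∀ x, ∃ c, g c = f x := fun x => by
    have : f x ∈ range g := hr ▸ mem_range_self x
    exact this
  choose φ hφ using h1
  have h2 : IsOE IA IC φ := hg.of_comp_left (by
    rw [show g ∘ φ = f from funext hφ]; exact h)
  refine ⟨h2.diffeo fun c => ?_, hφ⟩
  obtain ⟨x, hx⟩ : g c ∈ range f := hr ▸ mem_range_self c
  exact ⟨x, hg.inj ((hφ x).trans hx)⟩

/-- factor an embedding through an embedding with larger range -/
theorem exists_factor {g : C → B} (h : IsOE IA IB f) (hg : IsOE IC IB g)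
    (hr : range f ⊆ range g) : ∃ φ : A → C, IsOE IA IC φ ∧ ∀ x, g (φ x) = f x := by
  have h1 : ∀ x, ∃ c, g c = f x := fun x => hr (mem_range_self x)
  choose φ hφ using h1
  exact ⟨φ, hg.of_comp_left (by rw [show g ∘ φ = f from funext hφ]; exact h), hφ⟩

end IsOE

/-- the inclusion of an open subset -/
theorem isOE_val (U : TopologicalSpace.Opens A) : IsOE IA IA (Subtype.val : U → A) := by
  refine ⟨Subtype.val_injective, fun x => ?_⟩
  classical
  let g : A → U := fun a => if h : a ∈ U then ⟨a, h⟩ else x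
  refine ld_of_inverse (g := g) isOpen_univ U.isOpen contMDiff_subtype_val.contMDiffOn ?_
    (fun y _ => y.2) (fun _ _ => mem_univ _) (fun y _ => by simp [g]) (fun y hy => ?_) (mem_univ x)
  · intro a ha
    refine ContMDiffAt.contMDiffWithinAt ?_
    rw [← ContMDiffAt.subtypeVal_comp_iff]
    refine contMDiffAt_id.congr_of_eventuallyEq ?_
    filter_upwards [U.isOpen.mem_nhds ha] with b hb
    have hb' : b ∈ U := hb
    simp [g, hb']
  · have hy' : y ∈ U := hy
    simp [g, hy']

end Crest.Agent.X212.Cyl58
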