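import Crest.Agent.X212.Cyl58.Cov

/-!
# X212/Cyl58/TP: timed pieces

`TP V` : a manifold with a continuous proper time function.  `TIso M M' J` : a time preserving
diffeomorphism between the parts over the open set of times `J`.  These glue along open covers.
-/

set_option autoImplicit false
set_option linter.unusedSectionVars false
noncomputable section
open Set Filter Topology Function Metric TopologicalSpace
open scoped ContDiff Manifold

namespace Crest.Agent.X212.Cyl58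

open Glue52

variable {V V' V'' W : Type} [NormedAddCommGroup V] [NormedSpace ℝ V] [NormedAddCommGroup V']
  [NormedSpace ℝ V'] [NormedAddCommGroup V''] [NormedSpace ℝ V''] [NormedAddCommGroup W]
  [NormedSpace ℝ W]

variable (V) in
/-- a manifold with a proper time function -/
structure TP : Type 1 where
  P : Pc V
  [t2 : T2Space P.M]
  [sc : SecondCountableTopology P.M]
  [ne : Nonempty P.M]
  τ : P.M → ℝ
  cont : Continuous τ
  prop : ∀ a b, IsCompact (τ ⁻¹' Icc a b)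

attribute [instance] TP.t2 TP.sc TP.ne

namespace TP

variable (M : TP V)

theorem isCompact_preimage {K : Set ℝ} (hK : IsCompact K) : IsCompact (M.τ ⁻¹' K) := by
  obtain ⟨a, ha⟩ := hK.bddBelow
  obtain ⟨b, hb⟩ := hK.bddAbove
  exact (M.prop a b).of_isClosed_subset (hK.isClosed.preimage M.cont) fun x hx => ⟨ha hx, hb hx⟩

/-- bounded time: the manifold is closed -/
theorem compactSpace {a b : ℝ} (h : ∀ x, M.τ x ∈ Icc a b) : CompactSpace M.P.M :=
  ⟨by rw [← eq_univ_of_forall (s := M.τ ⁻¹' Icc a b) h]; exact M.prop a b⟩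

/-- change of time by a homeomorphism of the line -/
def re (l : ℝ ≃ₜ ℝ) : TP V where
  P := M.P
  τ := l ∘ M.τ
  cont := l.continuous.comp M.cont
  prop _ _ := M.isCompact_preimage (l.isCompact_preimage.2 isCompact_Icc)

/-- translation of time -/
def shift (d : ℝ) : TP V where
  P := M.P
  τ x := M.τ x + d
  cont := M.cont.add continuous_const
  prop _ _ := M.isCompact_preimage ((Homeomorph.addRight d).isCompact_preimage.2 isCompact_Icc)

/-- reversal of time -/
def rev : TP V where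
  P := M.P
  τ x := -M.τ x
  cont := M.cont.neg
  prop _ _ := M.isCompact_preimage ((Homeomorph.neg ℝ).isCompact_preimage.2 isCompact_Icc)

/-- a closed manifold with any continuous function -/
def ofCompact (P : Pc V) [T2Space P.M] [SecondCountableTopology P.M] [Nonempty P.M]
    [CompactSpace P.M] (τ : P.M → ℝ) (h : Continuous τ) : TP V where
  P := P
  τ := τ
  cont := h
  prop _ _ := (isClosed_Icc.preimage h).isCompact

/-- the part over an open set of times -/
def ov {J : Set ℝ} (hJ : IsOpen J) : Opens M.P.M := ⟨M.τ ⁻¹' J, hJ.preimage M.cont⟩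

end TP

/-- the cylinder -/
def cylT (Y : Pc W) [CompactSpace Y.M] [T2Space Y.M] [SecondCountableTopology Y.M] [Nonempty Y.M] :
    TP (W × ℝ) where
  P := cyl Y
  τ := Prod.snd
  cont := continuous_snd
  prop a b := by
    rw [show (Prod.snd ⁻¹' Icc a b : Set (Y.M × ℝ)) = univ ×ˢ Icc a b from by ext; simp]
    exact isCompact_univ.prod isCompact_Icc

/-- a time preserving diffeomorphism over `J` -/
structure TIso (M : TP V) (M' : TP V') (J : Set ℝ) where
  φ : PartialDiffeomorph M.P.I M'.P.I M.P.M M'.P.M ∞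
  src : φ.source = M.τ ⁻¹' J
  tgt : φ.target = M'.τ ⁻¹' J
  tm : ∀ x, M.τ x ∈ J → M'.τ (φ x) = M.τ x

namespace TIso

variable {M : TP V} {M' : TP V'} {M'' : TP V''} {J J' : Set ℝ}

instance : CoeFun (TIso M M' J) fun _ => M.P.M → M'.P.M := ⟨fun k => k.φ⟩

variable (k : TIso M M' J)

theorem mem_src {x : M.P.M} (hx : M.τ x ∈ J) : x ∈ k.φ.source := k.src ▸ hx

theorem mem_tgt {x : M'.P.M} (hx : M'.τ x ∈ J) : x ∈ k.φ.target := k.tgt ▸ hx

theorem mem {x : M.P.M} (hx : M.τ x ∈ J) : M'.τ (k x) ∈ J := (k.tm x hx).symm ▸ hx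

theorem ld {x : M.P.M} (hx : M.τ x ∈ J) : IsLocalDiffeomorphAt M.P.I M'.P.I ∞ k x :=
  k.φ.isLocalDiffeomorphAt _ _ _ (k.mem_src hx)

theorem inj {x y : M.P.M} (hx : M.τ x ∈ J) (hy : M.τ y ∈ J) (e : k x = k y) : x = y :=
  k.φ.injOn (k.mem_src hx) (k.mem_src hy) e

/-- the inverse -/
def symm : TIso M' M J where
  φ := k.φ.symm
  src := k.tgt
  tgt := k.src
  tm y hy := by
    have h1 : M.τ (k.φ.symm y) ∈ J := show k.φ.symm y ∈ M.τ ⁻¹' J from
      k.src ▸ k.φ.map_target (k.mem_tgt hy)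
    rw [← k.tm _ h1]
    exact congrArg M'.τ (k.φ.right_inv (k.mem_tgt hy))

theorem symm_apply {x : M.P.M} (hx : M.τ x ∈ J) : k.symm (k x) = x := k.φ.left_inv (k.mem_src hx)

theorem apply_symm {y : M'.P.M} (hy : M'.τ y ∈ J) : k (k.symm y) = y :=
  k.φ.right_inv (k.mem_tgt hy)

theorem surj {y : M'.P.M} (hy : M'.τ y ∈ J) : ∃ x, M.τ x = M'.τ y ∧ k x = y :=
  ⟨k.symm y, k.symm.tm y hy, k.apply_symm hy⟩

/-- a time preserving bijective local diffeomorphism over `J` -/
def mk' (hJ : IsOpen J) (f : M.P.M → M'.P.M)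
    (hl : ∀ x, M.τ x ∈ J → IsLocalDiffeomorphAt M.P.I M'.P.I ∞ f x)
    (hi : ∀ x y, M.τ x ∈ J → M.τ y ∈ J → f x = f y → x = y)
    (ht : ∀ x, M.τ x ∈ J → M'.τ (f x) = M.τ x)
    (hs : ∀ y, M'.τ y ∈ J → ∃ x, M.τ x ∈ J ∧ f x = y) : TIso M M' J where
  φ :=
    { toFun := f
      invFun := invFunOn f (M.τ ⁻¹' J)
      source := M.τ ⁻¹' J
      target := M'.τ ⁻¹' J
      map_source' := fun x hx => show M'.τ (f x) ∈ J from (ht x hx).symm ▸ hx
      map_target' := fun y hy => invFunOn_mem (hs y hy)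
      left_inv' := fun x hx => hi _ _ (invFunOn_apply_mem hx) hx (invFunOn_apply_eq hx)
      right_inv' := fun y hy => invFunOn_eq (hs y hy)
      open_source := hJ.preimage M.cont
      open_target := hJ.preimage M'.cont
      contMDiffOn_toFun := fun x hx => (hl x hx).contMDiffAt.contMDiffWithinAt
      contMDiffOn_invFun := fun y hy => by
        obtain ⟨x, hx, rfl⟩ := hs y hy
        refine (contMDiffAt_of_comp (hl x hx) (contMDiffAt_id.congr_of_eventuallyEq ?_)
          ).contMDiffWithinAt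
        filter_upwards [(hJ.preimage M.cont).mem_nhds hx] with z hz
        exact hi _ _ (invFunOn_apply_mem hz) hz (invFunOn_apply_eq hz) }
  src := rfl
  tgt := rfl
  tm := ht

@[simp] theorem mk'_apply (hJ : IsOpen J) (f : M.P.M → M'.P.M) (hl hi ht hs) (x : M.P.M) :
    (mk' hJ f hl hi ht hs : TIso M M' J) x = f x := rfl

/-- restriction to a smaller open set of times -/
def restr (hJ' : IsOpen J') (h : J' ⊆ J) : TIso M M' J' :=
  mk' hJ' k (fun _ hx => k.ld (h hx)) (fun _ _ hx hy => k.inj (h hx) (h hy))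
    (fun x hx => k.tm x (h hx)) fun y hy => by
      obtain ⟨x, h1, h2⟩ := k.surj (h hy)
      exact ⟨x, h1 ▸ hy, h2⟩

@[simp] theorem restr_apply (hJ' : IsOpen J') (h : J' ⊆ J) (x : M.P.M) : k.restr hJ' h x = k x := rfl

theorem restr_symm (hJ' : IsOpen J') (h : J' ⊆ J) {y : M'.P.M} (hy : M'.τ y ∈ J') :
    (k.restr hJ' h).symm y = k.symm y := by
  refine k.inj (h ((k.restr hJ' h).symm.mem hy)) (k.symm.mem (h hy)) ?_
  rw [k.apply_symm (h hy)]
  exact (k.restr hJ' h).apply_symm hy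

/-- the identity -/
def refl (M : TP V) (hJ : IsOpen J) : TIso M M J :=
  mk' hJ id (fun x _ => ld_id x) (fun _ _ _ _ e => e) (fun _ _ => rfl) fun y hy => ⟨y, hy, rfl⟩

@[simp] theorem refl_apply (M : TP V) (hJ : IsOpen J) (x : M.P.M) : refl M hJ x = x := rfl

/-- composition over the same set of times -/
def trans (k' : TIso M' M'' J) : TIso M M'' J where
  φ := k.φ.trans k'.φ
  src := by
    ext x
    change x ∈ k.φ.source ∧ k x ∈ k'.φ.source ↔ _
    rw [k.src, k'.src]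
    exact ⟨fun h => h.1, fun h => ⟨h, k.mem h⟩⟩
  tgt := by
    ext x
    change x ∈ k'.φ.target ∧ k'.symm x ∈ k.φ.target ↔ _
    rw [k.tgt, k'.tgt]
    exact ⟨fun h => h.1, fun h => ⟨h, k'.symm.mem h⟩⟩
  tm x hx := (k'.tm _ (k.mem hx)).trans (k.tm x hx)

@[simp] theorem trans_apply (k' : TIso M' M'' J) (x : M.P.M) : k.trans k' x = k' (k x) := rfl

@[simp] theorem trans_symm_apply (k' : TIso M' M'' J) (x : M''.P.M) :
    (k.trans k').symm x = k.symm (k'.symm x) := rfl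

/-- a time preserving diffeomorphism -/
def ofDiffeo (f : M.P.M ≃ₘ^∞⟮M.P.I, M'.P.I⟯ M'.P.M) (h : ∀ x, M'.τ (f x) = M.τ x) (hJ : IsOpen J) :
    TIso M M' J :=
  mk' hJ f (fun x _ => f.isLocalDiffeomorph x) (fun _ _ _ _ e => f.injective e) (fun x _ => h x)
    fun y hy => ⟨f.symm y, by rwa [← h, f.apply_symm_apply], f.apply_symm_apply y⟩

/-- over all times one gets a diffeomorphism -/
def toDiffeo (k : TIso M M' univ) : M.P.M ≃ₘ^∞⟮M.P.I, M'.P.I⟯ M'.P.M where
  toFun := k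
  invFun := k.symm
  left_inv _ := k.symm_apply (mem_univ _)
  right_inv _ := k.apply_symm (mem_univ _)
  contMDiff_toFun _ := (k.ld (mem_univ _)).contMDiffAt
  contMDiff_invFun _ := (k.symm.ld (mem_univ _)).contMDiffAt

@[simp] theorem toDiffeo_apply (k : TIso M M' univ) (x : M.P.M) : k.toDiffeo x = k x := rfl

/-- the same map after a change of time on both sides -/
def re (l : ℝ ≃ₜ ℝ) : TIso (M.re l) (M'.re l) (l.symm ⁻¹' J) where
  φ := k.φ
  src := k.src.trans (by ext x; simp [TP.re])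
  tgt := k.tgt.trans (by ext x; simp [TP.re])
  tm x hx := congrArg l (k.tm x (by rw [← l.symm_apply_apply (M.τ x)]; exact hx))

/-- the same map after a translation of time on both sides -/
def shift (d : ℝ) : TIso (M.shift d) (M'.shift d) {t | t - d ∈ J} where
  φ := k.φ
  src := k.src.trans (by ext x; simp [TP.shift])
  tgt := k.tgt.trans (by ext x; simp [TP.shift])
  tm x hx := congrArg (· + d) (k.tm x (by simpa [TP.shift] using hx))

/-- the same map after reversal of time on both sides -/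
def rev : TIso M.rev M'.rev {t | -t ∈ J} where
  φ := k.φ
  src := k.src.trans (by ext x; simp [TP.rev])
  tgt := k.tgt.trans (by ext x; simp [TP.rev])
  tm x hx := congrArg Neg.neg (k.tm x (by simpa [TP.rev] using hx))

/-- GLUING of isomorphisms along an open cover -/
theorem exists_glue {ι : Type*} {J : ι → Set ℝ} (hJ : ∀ i, IsOpen (J i)) (k : ∀ i, TIso M M' (J i))
    (h : ∀ i j x, M.τ x ∈ J i → M.τ x ∈ J j → k i x = k j x) :
    ∃ K : TIso M M' (⋃ i, J i), ∀ i x, M.τ x ∈ J i → K x = k i x := by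
  classical
  let f : M.P.M → M'.P.M := fun x =>
    if hx : ∃ i, M.τ x ∈ J i then k hx.choose x else Classical.arbitrary _
  have hf : ∀ i x, M.τ x ∈ J i → f x = k i x := fun i x hx => by
    have h1 : ∃ i, M.τ x ∈ J i := ⟨i, hx⟩
    simp only [f, dif_pos h1]
    exact h _ _ _ h1.choose_spec hx
  have ht : ∀ x, M.τ x ∈ ⋃ i, J i → M'.τ (f x) = M.τ x := fun x hx => by
    obtain ⟨i, hi⟩ := mem_iUnion.1 hx
    rw [hf i x hi, (k i).tm x hi]
  refine ⟨mk' (isOpen_iUnion hJ) f (fun x hx => ?_) (fun x y hx hy e => ?_) ht (fun y hy => ?_), hf⟩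
  · obtain ⟨i, hi⟩ := mem_iUnion.1 hx
    refine ld_congr ((k i).ld hi) ?_
    filter_upwards [((hJ i).preimage M.cont).mem_nhds hi] with z hz using hf i z hz
  · obtain ⟨i, hi⟩ := mem_iUnion.1 hx
    have hi' : M.τ y ∈ J i := by rwa [← ht y hy, ← e, ht x hx]
    exact (k i).inj hi hi' (by rw [← hf i x hi, ← hf i y hi', e])
  · obtain ⟨i, hi⟩ := mem_iUnion.1 hy
    obtain ⟨x, h1, h2⟩ := (k i).surj hi
    exact ⟨x, h1 ▸ hy, (hf i x (h1 ▸ hi)).trans h2⟩

/-- change of the set of times along an equality -/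
def cast (h : J = J') : TIso M M' J' where
  φ := k.φ
  src := h ▸ k.src
  tgt := h ▸ k.tgt
  tm := h ▸ k.tm

@[simp] theorem cast_apply (h : J = J') (x : M.P.M) : k.cast h x = k x := rfl

theorem exists_glue' {ι : Type*} {J : ι → Set ℝ} {L : Set ℝ} (hJ : ∀ i, IsOpen (J i))
    (hL : ⋃ i, J i = L) (k : ∀ i, TIso M M' (J i))
    (h : ∀ i j x, M.τ x ∈ J i → M.τ x ∈ J j → k i x = k j x) :
    ∃ K : TIso M M' L, ∀ i x, M.τ x ∈ J i → K x = k i x :=
  hL ▸ exists_glue hJ k h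

theorem exists_glue₂ {L : Set ℝ} (hJ : IsOpen J) (hJ' : IsOpen J') (hL : J ∪ J' = L)
    (k : TIso M M' J) (k' : TIso M M' J') (h : ∀ x, M.τ x ∈ J → M.τ x ∈ J' → k x = k' x) :
    ∃ K : TIso M M' L, (∀ x, M.τ x ∈ J → K x = k x) ∧ ∀ x, M.τ x ∈ J' → K x = k' x := by
  obtain ⟨K, hK⟩ := exists_glue' (ι := Bool) (J := fun b => cond b J J') (L := L)
    (fun b => by cases b; exacts [hJ', hJ]) (by rw [← hL, union_eq_iUnion])
    (fun b => match b with
      | true => k
      | false => k')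
    (fun b b' x => by
      cases b <;> cases b'
      exacts [fun _ _ => rfl, fun h1 h2 => (h x h2 h1).symm, h x, fun _ _ => rfl])
  exact ⟨K, hK true, hK false⟩

section Band

variable {EA HA : Type*} [NormedAddCommGroup EA] [NormedSpace ℝ EA] [TopologicalSpace HA]
  {IA : ModelWithCorners ℝ EA HA} {A : Type*} [TopologicalSpace A] [ChartedSpace HA A]

/-- embeddings over `J` are transported -/
theorem isOE {j : A → M.P.M} (hj : IsOE IA M.P.I j) (h : ∀ a, M.τ (j a) ∈ J) :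
    IsOE IA M'.P.I (k ∘ j) := IsOE.of_pd k.φ hj fun a => k.mem_src (h a)

end Band

theorem image_preimage {s : Set ℝ} (h : s ⊆ J) : k '' (M.τ ⁻¹' s) = M'.τ ⁻¹' s := by
  refine Subset.antisymm ?_ fun y hy => ?_
  · rintro _ ⟨x, hx, rfl⟩
    exact show M'.τ (k x) ∈ s from (k.tm x (h hx)).symm ▸ hx
  · obtain ⟨x, h1, h2⟩ := k.surj (h hy)
    exact ⟨x, show M.τ x ∈ s from h1 ▸ hy, h2⟩

end TIso

section Cyl

variable {W' : Type} [NormedAddCommGroup W'] [NormedSpace ℝ W'] {Y : Pc W} {Y' : Pc W'}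
  [CompactSpace Y.M] [T2Space Y.M] [SecondCountableTopology Y.M] [Nonempty Y.M]
  [CompactSpace Y'.M] [T2Space Y'.M] [SecondCountableTopology Y'.M] [Nonempty Y'.M] {J : Set ℝ}

/-- `f × id` -/
def cylIso (f : Y.M ≃ₘ^∞⟮Y.I, Y'.I⟯ Y'.M) (hJ : IsOpen J) : TIso (cylT Y) (cylT Y') J :=
  TIso.ofDiffeo (M := cylT Y) (M' := cylT Y') (f.prodCongr (Diffeomorph.refl _ ℝ ∞)) (fun _ => rfl) hJ

@[simp] theorem cylIso_apply (f : Y.M ≃ₘ^∞⟮Y.I, Y'.I⟯ Y'.M) (hJ : IsOpen J) (p : Y.M × ℝ) :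
    cylIso f hJ p = (f p.1, p.2) := rfl

/-- the junction of two product regions along `f` -/
def junc {M : TP V} {M' : TP V'} (k : TIso (cylT Y) M J) (k' : TIso (cylT Y') M' J)
    (f : Y.M ≃ₘ^∞⟮Y.I, Y'.I⟯ Y'.M) (hJ : IsOpen J) : TIso M M' J :=
  k.symm.trans ((cylIso f hJ).trans k')

theorem junc_apply {M : TP V} {M' : TP V'} (k : TIso (cylT Y) M J) (k' : TIso (cylT Y') M' J)
    (f : Y.M ≃ₘ^∞⟮Y.I, Y'.I⟯ Y'.M) (hJ : IsOpen J) (y : Y.M) {t : ℝ} (ht : t ∈ J) :
    junc k k' f hJ (k (y, t)) = k' (f y, t) := by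
  simp only [junc, TIso.trans_apply]
  rw [k.symm_apply (x := (y, t)) ht]
  rfl

/-- a product region gives necks -/
theorem TIso.isOE_neck {M : TP V} (k : TIso (cylT Y) M J) {σ : ℝ → ℝ}
    (hσ : IsOE 𝓘(ℝ, ℝ) 𝓘(ℝ, ℝ) σ) (h : ∀ s, σ s ∈ J) :
    IsOE (Y.I.prod 𝓘(ℝ, ℝ)) M.P.I fun p : Y.M × ℝ => k (p.1, σ p.2) :=
  k.isOE (j := Prod.map id σ) (IsOE.id.prodMap hσ) fun p => h p.2

/-- a change of time of the cylinder is undone by a diffeomorphism -/
def cylRe (l : ℝ ≃ₘ^∞⟮𝓘(ℝ, ℝ), 𝓘(ℝ, ℝ)⟯ ℝ) (hJ : IsOpen J) :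
    TIso ((cylT Y).re l.toHomeomorph) (cylT Y) J :=
  TIso.ofDiffeo (M := (cylT Y).re l.toHomeomorph) (M' := cylT Y)
    ((Diffeomorph.refl _ Y.M ∞).prodCongr l) (fun _ => rfl) hJ

@[simp] theorem cylRe_apply (l : ℝ ≃ₘ^∞⟮𝓘(ℝ, ℝ), 𝓘(ℝ, ℝ)⟯ ℝ) (hJ : IsOpen J) (p : Y.M × ℝ) :
    cylRe l hJ p = (p.1, l p.2) := rfl

/-- a product region of `M` is a product region of `M.shift d` -/
def TIso.shiftC {M : TP V} (k : TIso (cylT Y) M J) (hJ : IsOpen J) (d : ℝ) :
    TIso (cylT Y) (M.shift d) {t | t - d ∈ J} :=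
  (TIso.ofDiffeo (M := cylT Y) (M' := (cylT Y).shift d)
    ((Diffeomorph.refl _ Y.M ∞).prodCongr (addD (-d))) (fun p => neg_add_cancel_right p.2 d)
    (hJ.preimage (continuous_id.sub continuous_const))).trans (k.shift d)

theorem TIso.shiftC_apply {M : TP V} (k : TIso (cylT Y) M J) (hJ : IsOpen J) (d : ℝ) (p : Y.M × ℝ) :
    k.shiftC hJ d p = k (p.1, p.2 + -d) := rfl

end Cyl

end Crest.Agent.X212.Cyl58
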