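import Crest.Agent.X212.Cyl58.ME

/-!
# X212/Cyl58/Ext: patching along an open embedding, stretching, height functions

`Function.extend f g h` is `g` read through `f` on the range of `f` and `h` elsewhere.  It is smooth
(a local diffeomorphism, an embedding) when `g = h ∘ f` off a set with closed image.
-/

set_option autoImplicit false
set_option linter.unusedSectionVars false
noncomputable section
open Set Filter Topology Function
open scoped ContDiff Manifold

namespace Crest.Agent.X212.Cyl58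

open Glue52

section Patch

variable {EA HA EB HB EC HC : Type*}
  [NormedAddCommGroup EA] [NormedSpace ℝ EA] [TopologicalSpace HA]
  [NormedAddCommGroup EB] [NormedSpace ℝ EB] [TopologicalSpace HB]
  [NormedAddCommGroup EC] [NormedSpace ℝ EC] [TopologicalSpace HC]
  {IA : ModelWithCorners ℝ EA HA} {IB : ModelWithCorners ℝ EB HB} {IC : ModelWithCorners ℝ EC HC}
  {A B C : Type*} [TopologicalSpace A] [ChartedSpace HA A] [TopologicalSpace B]
  [ChartedSpace HB B] [TopologicalSpace C] [ChartedSpace HC C] {f : A → B}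

theorem extend_eq_of_notMem {A B Z : Type*} {f : A → B} (hf : Injective f) {g : A → Z} {h : B → Z}
    {K : Set A} (hK : ∀ a ∉ K, g a = h (f a)) {x : B} (hx : x ∉ f '' K) : extend f g h x = h x := by
  by_cases hr : ∃ a, f a = x
  · obtain ⟨a, rfl⟩ := hr
    rw [hf.extend_apply, hK a fun ha => hx ⟨a, ha, rfl⟩]
  · exact extend_apply' _ _ _ hr

theorem extend_eventuallyEq {A B Z : Type*} [TopologicalSpace B] {f : A → B} (hf : Injective f)
    {g : A → Z} {h : B → Z} {K : Set A} (hc : IsClosed (f '' K)) (hK : ∀ a ∉ K, g a = h (f a))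
    {x : B} (hx : x ∉ f '' K) : extend f g h =ᶠ[𝓝 x] h := by
  filter_upwards [hc.isOpen_compl.mem_nhds hx] with y hy
  exact extend_eq_of_notMem hf hK hy

namespace IsOE

theorem extend_comp (hf : IsOE IA IB f) {Z : Type*} (g : A → Z) (h : B → Z) :
    extend f g h ∘ f = g := Function.extend_comp hf.inj g h

theorem extend_apply (hf : IsOE IA IB f) {Z : Type*} (g : A → Z) (h : B → Z) (a : A) :
    extend f g h (f a) = g a := hf.inj.extend_apply g h a

/-- patching smooth maps; `h` has to be smooth off the range of `f` only -/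
theorem contMDiff_extend' (hf : IsOE IA IB f) {g : A → C} {h : B → C} {K : Set A}
    (hc : IsClosed (f '' K)) (hK : ∀ a ∉ K, g a = h (f a)) (hg : ContMDiff IA IC ∞ g)
    (hh : ∀ x ∉ range f, ContMDiffAt IB IC ∞ h x) : ContMDiff IB IC ∞ (extend f g h) := by
  intro x
  by_cases hx : x ∈ range f
  · obtain ⟨a, rfl⟩ := hx
    refine hf.contMDiffAt_iff.1 ?_
    rw [hf.extend_comp]; exact hg a
  · exact (hh x hx).congr_of_eventuallyEq
      (extend_eventuallyEq hf.inj hc hK fun h' => hx (image_subset_range _ _ h'))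

theorem contMDiff_extend (hf : IsOE IA IB f) {g : A → C} {h : B → C} {K : Set A}
    (hc : IsClosed (f '' K)) (hK : ∀ a ∉ K, g a = h (f a)) (hg : ContMDiff IA IC ∞ g)
    (hh : ContMDiff IB IC ∞ h) : ContMDiff IB IC ∞ (extend f g h) :=
  hf.contMDiff_extend' hc hK hg fun x _ => hh x

theorem continuous_extend (hf : IsOE IA IB f) {Z : Type*} [TopologicalSpace Z] {g : A → Z}
    {h : B → Z} {K : Set A} (hc : IsClosed (f '' K)) (hK : ∀ a ∉ K, g a = h (f a))
    (hg : Continuous g) (hh : Continuous h) : Continuous (extend f g h) := by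
  rw [continuous_iff_continuousAt]
  intro x
  by_cases hx : x ∈ range f
  · obtain ⟨a, rfl⟩ := hx
    refine hf.isOpenEmbedding.continuousAt_iff.1 ?_
    rw [hf.extend_comp]; exact hg.continuousAt
  · exact hh.continuousAt.congr_of_eventuallyEq
      (extend_eventuallyEq hf.inj hc hK fun h' => hx (image_subset_range _ _ h'))

theorem ld_extend (hf : IsOE IA IB f) {g : A → C} {h : B → C} {K : Set A}
    (hc : IsClosed (f '' K)) (hK : ∀ a ∉ K, g a = h (f a)) (hg : IsLocalDiffeomorph IA IC ∞ g)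
    (hh : ∀ x ∉ range f, IsLocalDiffeomorphAt IB IC ∞ h x) :
    IsLocalDiffeomorph IB IC ∞ (extend f g h) := by
  intro x
  by_cases hx : x ∈ range f
  · obtain ⟨a, rfl⟩ := hx
    refine ld_of_comp (hf.loc a) ?_
    rw [hf.extend_comp]; exact hg a
  · exact ld_congr (hh x hx)
      (extend_eventuallyEq hf.inj hc hK fun h' => hx (image_subset_range _ _ h'))

end IsOE

/-- the self-map of `B` that is `ψ` read through `f` and the identity elsewhere -/
def push {A B : Type*} (f : A → B) (ψ : A → A) : B → B := extend f (f ∘ ψ) id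

theorem push_apply {A B : Type*} {f : A → B} (hf : Injective f) (ψ : A → A) (a : A) :
    push f ψ (f a) = f (ψ a) := hf.extend_apply _ _ a

theorem push_of_notMem {A B : Type*} {f : A → B} (ψ : A → A) {x : B} (hx : x ∉ range f) :
    push f ψ x = x := extend_apply' _ _ _ hx

theorem push_push {A B : Type*} {f : A → B} (hf : Injective f) (ψ φ : A → A) (x : B) :
    push f ψ (push f φ x) = push f (ψ ∘ φ) x := by
  by_cases hx : x ∈ range f
  · obtain ⟨a, rfl⟩ := hx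
    simp only [push_apply hf, comp_apply]
  · simp only [push_of_notMem _ hx]

theorem push_id {A B : Type*} {f : A → B} (hf : Injective f) (x : B) : push f id x = x := by
  by_cases hx : x ∈ range f
  · obtain ⟨a, rfl⟩ := hx
    rw [push_apply hf, id]
  · exact push_of_notMem _ hx

theorem push_injective {A B : Type*} {f : A → B} (hf : Injective f) {ψ : A → A}
    (hψ : Injective ψ) : Injective (push f ψ) := by
  intro x y h
  by_cases hx : x ∈ range f <;> by_cases hy : y ∈ range f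
  · obtain ⟨a, rfl⟩ := hx
    obtain ⟨b, rfl⟩ := hy
    rw [push_apply hf, push_apply hf] at h
    rw [hψ (hf h)]
  · obtain ⟨a, rfl⟩ := hx
    rw [push_apply hf, push_of_notMem _ hy] at h
    exact (hy ⟨_, h⟩).elim
  · obtain ⟨a, rfl⟩ := hy
    rw [push_apply hf, push_of_notMem _ hx] at h
    exact (hx ⟨_, h.symm⟩).elim
  · rwa [push_of_notMem _ hx, push_of_notMem _ hy] at h

theorem range_push {A B : Type*} {f : A → B} (hf : Injective f) (ψ : A → A) :
    range (push f ψ) = (f '' (range ψ)ᶜ)ᶜ := by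
  ext x
  constructor
  · rintro ⟨y, rfl⟩ ⟨a, ha, e⟩
    by_cases hy : y ∈ range f
    · obtain ⟨b, rfl⟩ := hy
      rw [push_apply hf] at e
      exact ha ⟨b, (hf e).symm⟩
    · rw [push_of_notMem _ hy] at e
      exact hy ⟨a, e⟩
  · intro hx
    by_cases hy : x ∈ range f
    · obtain ⟨a, rfl⟩ := hy
      by_contra h
      refine hx ⟨a, ?_, rfl⟩
      rintro ⟨b, rfl⟩
      exact h ⟨f b, push_apply hf ψ b⟩
    · exact ⟨x, push_of_notMem _ hy⟩

theorem IsOE.contMDiff_push (hf : IsOE IA IB f) {ψ : A → A} {K : Set A} (hc : IsClosed (f '' K))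
    (hK : ∀ a ∉ K, ψ a = a) (hψ : ContMDiff IA IA ∞ ψ) : ContMDiff IB IB ∞ (push f ψ) :=
  hf.contMDiff_extend hc (fun a ha => by simp [hK a ha]) (hf.contMDiff.comp hψ) contMDiff_id

theorem IsOE.push (hf : IsOE IA IB f) {ψ : A → A} {K : Set A} (hc : IsClosed (f '' K))
    (hK : ∀ a ∉ K, ψ a = a) (hψ : IsOE IA IA ψ) : IsOE IB IB (push f ψ) :=
  ⟨push_injective hf.inj hψ.inj,
    hf.ld_extend hc (fun a ha => by simp [hK a ha]) (hf.comp hψ).loc fun x _ => ld_id x⟩

/-- a diffeomorphism supported in `K` extends by the identity -/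
def IsOE.pushD (hf : IsOE IA IB f) (ψ : A ≃ₘ^∞⟮IA, IA⟯ A) {K : Set A} (hc : IsClosed (f '' K))
    (hK : ∀ a ∉ K, ψ a = a) : B ≃ₘ^∞⟮IB, IB⟯ B where
  toFun := Cyl58.push f ψ
  invFun := Cyl58.push f ψ.symm
  left_inv x := by
    rw [push_push hf.inj, show ψ.symm ∘ ψ = id from funext ψ.symm_apply_apply, push_id hf.inj]
  right_inv x := by
    rw [push_push hf.inj, show ψ ∘ ψ.symm = id from funext ψ.apply_symm_apply, push_id hf.inj]
  contMDiff_toFun := hf.contMDiff_push hc hK ψ.contMDiff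
  contMDiff_invFun := hf.contMDiff_push hc (fun a ha => by
    conv_lhs => rw [← hK a ha]
    exact ψ.symm_apply_apply a) ψ.symm.contMDiff

@[simp] theorem IsOE.pushD_apply (hf : IsOE IA IB f) (ψ : A ≃ₘ^∞⟮IA, IA⟯ A) {K : Set A}
    (hc : IsClosed (f '' K)) (hK : ∀ a ∉ K, ψ a = a) (a : A) :
    hf.pushD ψ hc hK (f a) = f (ψ a) := push_apply hf.inj ψ a

theorem IsOE.pushD_of_notMem (hf : IsOE IA IB f) (ψ : A ≃ₘ^∞⟮IA, IA⟯ A) {K : Set A}
    (hc : IsClosed (f '' K)) (hK : ∀ a ∉ K, ψ a = a) {x : B} (hx : x ∉ f '' K) :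
    hf.pushD ψ hc hK x = x :=
  extend_eq_of_notMem hf.inj (K := K) (fun a ha => by simp [hK a ha]) hx

end Patch

/-! ### finitely many disjoint embeddings -/

section Family

variable {α : Type*} {EA HA A : α → Type*} {EB HB EC HC : Type*}
  [∀ a, NormedAddCommGroup (EA a)] [∀ a, NormedSpace ℝ (EA a)] [∀ a, TopologicalSpace (HA a)]
  [NormedAddCommGroup EB] [NormedSpace ℝ EB] [TopologicalSpace HB]
  [NormedAddCommGroup EC] [NormedSpace ℝ EC] [TopologicalSpace HC]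
  {IA : ∀ a, ModelWithCorners ℝ (EA a) (HA a)} {IB : ModelWithCorners ℝ EB HB}
  {IC : ModelWithCorners ℝ EC HC}
  {B C : Type*} [∀ a, TopologicalSpace (A a)] [∀ a, ChartedSpace (HA a) (A a)] [TopologicalSpace B]
  [ChartedSpace HB B] [TopologicalSpace C] [ChartedSpace HC C]

/-- `g a` read through `f a` on the range of `f a`, and `h` elsewhere -/
def extF {α : Type*} {A : α → Type*} {B Z : Type*} (f : ∀ a, A a → B) (g : ∀ a, A a → Z)
    (h : B → Z) : B → Z :=
  extend (fun p : Σ a, A a => f p.1 p.2) (fun p => g p.1 p.2) h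

theorem sigma_injective {α : Type*} {A : α → Type*} {B : Type*} {f : ∀ a, A a → B}
    (hf : ∀ a, Injective (f a)) (hd : ∀ a b p q, f a p = f b q → a = b) :
    Injective fun p : Σ a, A a => f p.1 p.2 := by
  rintro ⟨a, p⟩ ⟨b, q⟩ e
  obtain rfl := hd a b p q e
  rw [show p = q from hf a e]

theorem extF_apply {α : Type*} {A : α → Type*} {B Z : Type*} {f : ∀ a, A a → B}
    (hf : ∀ a, Injective (f a)) (hd : ∀ a b p q, f a p = f b q → a = b) (g : ∀ a, A a → Z)
    (h : B → Z) (a : α) (p : A a) : extF f g h (f a p) = g a p :=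
  (sigma_injective hf hd).extend_apply _ h ⟨a, p⟩

theorem extF_of_notMem {α : Type*} {A : α → Type*} {B Z : Type*} {f : ∀ a, A a → B}
    (g : ∀ a, A a → Z) (h : B → Z) {x : B} (hx : ∀ a p, f a p ≠ x) : extF f g h x = h x :=
  extend_apply' _ _ _ fun ⟨p, e⟩ => hx p.1 p.2 e

theorem extF_eq {α : Type*} {A : α → Type*} {B Z : Type*} {f : ∀ a, A a → B}
    (hf : ∀ a, Injective (f a)) (hd : ∀ a b p q, f a p = f b q → a = b) {g : ∀ a, A a → Z}
    {h : B → Z} {K : ∀ a, Set (A a)} (hK : ∀ a, ∀ p ∉ K a, g a p = h (f a p)) {x : B}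
    (hx : x ∉ ⋃ a, f a '' K a) : extF f g h x = h x := by
  by_cases hr : ∃ a p, f a p = x
  · obtain ⟨a, p, rfl⟩ := hr
    rw [extF_apply hf hd, hK a p fun hp => hx (mem_iUnion.2 ⟨a, p, hp, rfl⟩)]
  · exact extF_of_notMem g h fun a p e => hr ⟨a, p, e⟩

theorem extF_eventuallyEq [Finite α] {Z : Type*} {f : ∀ a, A a → B}
    (hf : ∀ a, Injective (f a)) (hd : ∀ a b p q, f a p = f b q → a = b) {g : ∀ a, A a → Z}
    {h : B → Z} {K : ∀ a, Set (A a)} (hc : ∀ a, IsClosed (f a '' K a))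
    (hK : ∀ a, ∀ p ∉ K a, g a p = h (f a p)) {x : B} (hx : x ∉ ⋃ a, f a '' K a) :
    extF f g h =ᶠ[𝓝 x] h := by
  filter_upwards [(isClosed_iUnion_of_finite hc).isOpen_compl.mem_nhds hx] with y hy
  exact extF_eq hf hd hK hy

theorem contMDiff_extF [Finite α] {f : ∀ a, A a → B} (hf : ∀ a, IsOE (IA a) IB (f a))
    (hd : ∀ a b p q, f a p = f b q → a = b) {g : ∀ a, A a → C} {h : B → C} {K : ∀ a, Set (A a)}
    (hc : ∀ a, IsClosed (f a '' K a)) (hK : ∀ a, ∀ p ∉ K a, g a p = h (f a p))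
    (hg : ∀ a, ContMDiff (IA a) IC ∞ (g a))
    (hh : ∀ x, (∀ a p, f a p ≠ x) → ContMDiffAt IB IC ∞ h x) :
    ContMDiff IB IC ∞ (extF f g h) := by
  intro x
  by_cases hx : ∃ a p, f a p = x
  · obtain ⟨a, p, rfl⟩ := hx
    refine (hf a).contMDiffAt_iff.1 ?_
    rw [show extF f g h ∘ f a = g a from funext (extF_apply (fun a => (hf a).inj) hd g h a)]
    exact hg a p
  · refine (hh x fun a p e => hx ⟨a, p, e⟩).congr_of_eventuallyEq
      (extF_eventuallyEq (fun a => (hf a).inj) hd hc hK fun h' => ?_)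
    obtain ⟨a, p, -, e⟩ := mem_iUnion.1 h'
    exact hx ⟨a, p, e⟩

theorem ld_extF [Finite α] {f : ∀ a, A a → B} (hf : ∀ a, IsOE (IA a) IB (f a))
    (hd : ∀ a b p q, f a p = f b q → a = b) {g : ∀ a, A a → C} {h : B → C} {K : ∀ a, Set (A a)}
    (hc : ∀ a, IsClosed (f a '' K a)) (hK : ∀ a, ∀ p ∉ K a, g a p = h (f a p))
    (hg : ∀ a, IsLocalDiffeomorph (IA a) IC ∞ (g a))
    (hh : ∀ x, (∀ a p, f a p ≠ x) → IsLocalDiffeomorphAt IB IC ∞ h x) :
    IsLocalDiffeomorph IB IC ∞ (extF f g h) := by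
  intro x
  by_cases hx : ∃ a p, f a p = x
  · obtain ⟨a, p, rfl⟩ := hx
    refine ld_of_comp ((hf a).loc p) ?_
    rw [show extF f g h ∘ f a = g a from funext (extF_apply (fun a => (hf a).inj) hd g h a)]
    exact hg a p
  · refine ld_congr (hh x fun a p e => hx ⟨a, p, e⟩)
      (extF_eventuallyEq (fun a => (hf a).inj) hd hc hK fun h' => ?_)
    obtain ⟨a, p, -, e⟩ := mem_iUnion.1 h'
    exact hx ⟨a, p, e⟩

end Family

/-! ### functions of the height on a manifold with ends -/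

namespace ME

variable {V W : Type} [NormedAddCommGroup V] [NormedSpace ℝ V] [NormedAddCommGroup W]
  [NormedSpace ℝ W] (M : ME V W)
  {EC HC : Type*} [NormedAddCommGroup EC] [NormedSpace ℝ EC] [TopologicalSpace HC]
  {IC : ModelWithCorners ℝ EC HC} {C : Type*} [TopologicalSpace C] [ChartedSpace HC C]

/-- `g a` on the end `a`, `h` elsewhere -/
def patch {Z : Type*} (g : ∀ a, (M.Y a).M × ℝ → Z) (h : M.P.M → Z) : M.P.M → Z := extF M.j g h

@[simp] theorem patch_j {Z : Type*} (g : ∀ a, (M.Y a).M × ℝ → Z) (h : M.P.M → Z) (a : M.α)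
    (p : (M.Y a).M × ℝ) : M.patch g h (M.j a p) = g a p :=
  extF_apply (fun a => (M.oe a).inj) M.disj g h a p

theorem patch_of_notMem {Z : Type*} (g : ∀ a, (M.Y a).M × ℝ → Z) (h : M.P.M → Z) {x : M.P.M}
    (hx : ∀ a p, M.j a p ≠ x) : M.patch g h x = h x := extF_of_notMem g h hx

theorem patch_core {Z : Type*} {g : ∀ a, (M.Y a).M × ℝ → Z} {h : M.P.M → Z} {T : ℝ}
    (hT : ∀ a p, p.2 ≤ T → g a p = h (M.j a p)) {x : M.P.M} (hx : x ∈ M.core T) :
    M.patch g h x = h x := by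
  by_cases hr : ∃ a p, M.j a p = x
  · obtain ⟨a, p, rfl⟩ := hr
    rw [patch_j, hT a p (M.j_mem_core.1 hx)]
  · exact M.patch_of_notMem g h fun a p e => hr ⟨a, p, e⟩

theorem contMDiff_patch {g : ∀ a, (M.Y a).M × ℝ → C} {h : M.P.M → C} {T : ℝ}
    (hT : ∀ a p, p.2 < T → g a p = h (M.j a p))
    (hg : ∀ a, ContMDiff ((M.Y a).I.prod 𝓘(ℝ, ℝ)) IC ∞ (g a))
    (hh : ∀ x, (∀ a p, M.j a p ≠ x) → ContMDiffAt M.P.I IC ∞ h x) :
    ContMDiff M.P.I IC ∞ (M.patch g h) :=
  contMDiff_extF M.oe M.disj (K := fun _ => univ ×ˢ Ici T) (fun a => (M.isEnd a).isClosed T)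
    (fun a p hp => hT a p (not_le.1 fun h => hp ⟨mem_univ _, h⟩)) hg hh

theorem ld_patch {g : ∀ a, (M.Y a).M × ℝ → C} {h : M.P.M → C} {T : ℝ}
    (hT : ∀ a p, p.2 < T → g a p = h (M.j a p))
    (hg : ∀ a, IsLocalDiffeomorph ((M.Y a).I.prod 𝓘(ℝ, ℝ)) IC ∞ (g a))
    (hh : ∀ x, (∀ a p, M.j a p ≠ x) → IsLocalDiffeomorphAt M.P.I IC ∞ h x) :
    IsLocalDiffeomorph M.P.I IC ∞ (M.patch g h) :=
  ld_extF M.oe M.disj (K := fun _ => univ ×ˢ Ici T) (fun a => (M.isEnd a).isClosed T)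
    (fun a p hp => hT a p (not_le.1 fun h => hp ⟨mem_univ _, h⟩)) hg hh

/-- a function of the height: `χ a t` at height `t` of the end `a`, `c` off the ends -/
def ht {Z : Type*} (χ : M.α → ℝ → Z) (c : Z) : M.P.M → Z :=
  M.patch (fun a p => χ a p.2) fun _ => c

@[simp] theorem ht_j {Z : Type*} (χ : M.α → ℝ → Z) (c : Z) (a : M.α) (p : (M.Y a).M × ℝ) :
    M.ht χ c (M.j a p) = χ a p.2 := M.patch_j _ _ a p

theorem ht_core {Z : Type*} {χ : M.α → ℝ → Z} {c : Z} {T : ℝ} (hT : ∀ a t, t ≤ T → χ a t = c)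
    {x : M.P.M} (hx : x ∈ M.core T) : M.ht χ c x = c :=
  M.patch_core (fun a p hp => hT a p.2 hp) hx

theorem contMDiff_ht {χ : M.α → ℝ → C} {c : C} {T : ℝ} (hT : ∀ a t, t < T → χ a t = c)
    (hχ : ∀ a, ContMDiff 𝓘(ℝ, ℝ) IC ∞ (χ a)) : ContMDiff M.P.I IC ∞ (M.ht χ c) :=
  M.contMDiff_patch (fun a p hp => hT a p.2 hp) (fun a => (hχ a).comp contMDiff_snd)
    fun _ _ => contMDiffAt_const

/-- reparametrise the height on every end -/
def str (σ : M.α → ℝ → ℝ) : M.P.M → M.P.M := M.patch (fun a p => M.j a (p.1, σ a p.2)) id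

@[simp] theorem str_j (σ : M.α → ℝ → ℝ) (a : M.α) (p : (M.Y a).M × ℝ) :
    M.str σ (M.j a p) = M.j a (p.1, σ a p.2) := M.patch_j _ _ a p

theorem str_of_notMem (σ : M.α → ℝ → ℝ) {x : M.P.M} (hx : ∀ a p, M.j a p ≠ x) : M.str σ x = x :=
  M.patch_of_notMem _ _ hx

theorem str_core {σ : M.α → ℝ → ℝ} {T : ℝ} (hT : ∀ a t, t ≤ T → σ a t = t) {x : M.P.M}
    (hx : x ∈ M.core T) : M.str σ x = x :=
  M.patch_core (fun a p hp => by rw [hT a _ hp, id]) hx

theorem str_injective {σ : M.α → ℝ → ℝ} (hσ : ∀ a, Injective (σ a)) : Injective (M.str σ) := by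
  intro x y h
  by_cases hx : ∃ a p, M.j a p = x <;> by_cases hy : ∃ a p, M.j a p = y
  · obtain ⟨a, p, rfl⟩ := hx
    obtain ⟨b, q, rfl⟩ := hy
    rw [str_j, str_j] at h
    obtain rfl := M.disj _ _ _ _ h
    have h1 := (M.oe a).inj h
    rw [show p = q from Prod.ext (Prod.mk.inj h1).1 (hσ a (Prod.mk.inj h1).2)]
  · obtain ⟨a, p, rfl⟩ := hx
    rw [str_j, M.str_of_notMem σ fun a p e => hy ⟨a, p, e⟩] at h
    exact (hy ⟨_, _, h⟩).elim
  · obtain ⟨a, p, rfl⟩ := hy
    rw [str_j, M.str_of_notMem σ fun a p e => hx ⟨a, p, e⟩] at h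
    exact (hx ⟨_, _, h.symm⟩).elim
  · rwa [M.str_of_notMem σ fun a p e => hx ⟨a, p, e⟩,
      M.str_of_notMem σ fun a p e => hy ⟨a, p, e⟩] at h

theorem isOE_str {σ : M.α → ℝ → ℝ} {T : ℝ} (hT : ∀ a t, t < T → σ a t = t)
    (hσ : ∀ a, IsOE 𝓘(ℝ, ℝ) 𝓘(ℝ, ℝ) (σ a)) : IsOE M.P.I M.P.I (M.str σ) :=
  ⟨M.str_injective fun a => (hσ a).inj, M.ld_patch (T := T) (fun a p hp => by rw [hT a _ hp, id])
    (fun a => ((M.oe a).comp (IsOE.id.prodMap (hσ a))).loc) fun x _ => ld_id x⟩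

theorem mem_range_str {σ : M.α → ℝ → ℝ} {x : M.P.M} :
    x ∈ range (M.str σ) ↔ ∀ a p, M.j a p = x → p.2 ∈ range (σ a) := by
  constructor
  · rintro ⟨y, rfl⟩ a p e
    by_cases hy : ∃ b q, M.j b q = y
    · obtain ⟨b, q, rfl⟩ := hy
      rw [str_j] at e
      obtain rfl := M.disj _ _ _ _ e
      exact ⟨q.2, (congrArg Prod.snd ((M.oe a).inj e)).symm⟩
    · rw [M.str_of_notMem σ fun a p e => hy ⟨a, p, e⟩] at e
      exact (hy ⟨a, p, e⟩).elim
  · intro h
    by_cases hx : ∃ a p, M.j a p = x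
    · obtain ⟨a, p, rfl⟩ := hx
      obtain ⟨t, ht⟩ := h a p rfl
      exact ⟨M.j a (p.1, t), by rw [str_j, ht]⟩
    · exact ⟨x, M.str_of_notMem σ fun a p e => hx ⟨a, p, e⟩⟩

end ME

end Crest.Agent.X212.Cyl58
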