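import Crest.Agent.X212.Cyl58.Cap
import Crest.Agent.X212.Glue52.More

/-!
# X212/Cyl58/Cov: recognition theorems

* `exists_pd_of_cover` : the same pieces with the same coincidences give a partial diffeomorphism;
* `isOE_extF` : an embedding off finitely many compact sets, patched with embeddings of caps;
* `Nks.isOE_lift`, `Nks.exists_isOE_into` : recognition of `N.XS C` and of its pieces;
* `Cap.prod`, `Cap.reparam`.
-/

set_option autoImplicit false
set_option linter.unusedSectionVars false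
noncomputable section
open Set Filter Topology Function Metric TopologicalSpace
open scoped ContDiff Manifold

namespace Crest.Agent.X212.Cyl58

open Glue52

section Family

variable {α : Type*} {EA HA A : α → Type*} {EB HB EC HC : Type*}
  [∀ a, NormedAddCommGroup (EA a)] [∀ a, NormedSpace ℝ (EA a)] [∀ a, TopologicalSpace (HA a)]
  [NormedAddCommGroup EB] [NormedSpace ℝ EB] [TopologicalSpace HB]
  [NormedAddCommGroup EC] [NormedSpace ℝ EC] [TopologicalSpace HC]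
  {IA : ∀ a, ModelWithCorners ℝ (EA a) (HA a)} {IB : ModelWithCorners ℝ EB HB}
  {IC : ModelWithCorners ℝ EC HC}
  {B C : Type*} [∀ a, TopologicalSpace (A a)] [∀ a, ChartedSpace (HA a) (A a)] [TopologicalSpace B]
  [ChartedSpace HB B] [TopologicalSpace C] [ChartedSpace HC C]

/-- the map `f a p ↦ g a p` -/
def covMap {α : Type*} {A : α → Type*} {B C : Type*} [Nonempty C] (f : ∀ a, A a → B)
    (g : ∀ a, A a → C) : B → C :=
  extend (fun p : Σ a, A a => f p.1 p.2) (fun p => g p.1 p.2) fun _ => Classical.arbitrary C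

theorem covMap_apply {α : Type*} {A : α → Type*} {B C : Type*} [Nonempty C] {f : ∀ a, A a → B}
    {g : ∀ a, A a → C} (h : ∀ a b p q, f a p = f b q → g a p = g b q) (a : α) (p : A a) :
    covMap f g (f a p) = g a p :=
  FactorsThrough.extend_apply (f := fun p : Σ a, A a => f p.1 p.2) (g := fun p => g p.1 p.2)
    (fun p q e => h p.1 q.1 p.2 q.2 e) _ ⟨a, p⟩

/-- the partial diffeomorphism between two manifolds partly covered by the same pieces -/
def covPD [Nonempty B] [Nonempty C] {f : ∀ a, A a → B} {g : ∀ a, A a → C}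
    (hf : ∀ a, IsLocalDiffeomorph (IA a) IB ∞ (f a)) (hg : ∀ a, IsLocalDiffeomorph (IA a) IC ∞ (g a))
    (h : ∀ a b p q, f a p = f b q ↔ g a p = g b q) : PartialDiffeomorph IB IC B C ∞ where
  toFun := covMap f g
  invFun := covMap g f
  source := ⋃ a, range (f a)
  target := ⋃ a, range (g a)
  map_source' x hx := by
    obtain ⟨a, p, rfl⟩ := mem_iUnion.1 hx
    exact mem_iUnion.2 ⟨a, p, (covMap_apply (fun a b p q => (h a b p q).1) a p).symm⟩
  map_target' x hx := by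
    obtain ⟨a, p, rfl⟩ := mem_iUnion.1 hx
    exact mem_iUnion.2 ⟨a, p, (covMap_apply (fun a b p q => (h a b p q).2) a p).symm⟩
  left_inv' x hx := by
    obtain ⟨a, p, rfl⟩ := mem_iUnion.1 hx
    rw [covMap_apply fun a b p q => (h a b p q).1, covMap_apply fun a b p q => (h a b p q).2]
  right_inv' x hx := by
    obtain ⟨a, p, rfl⟩ := mem_iUnion.1 hx
    rw [covMap_apply fun a b p q => (h a b p q).2, covMap_apply fun a b p q => (h a b p q).1]
  open_source := isOpen_iUnion fun a => (hf a).isOpen_range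
  open_target := isOpen_iUnion fun a => (hg a).isOpen_range
  contMDiffOn_toFun x hx := by
    obtain ⟨a, p, rfl⟩ := mem_iUnion.1 hx
    refine (contMDiffAt_of_comp (hf a p) ?_).contMDiffWithinAt
    rw [show covMap f g ∘ f a = g a from funext (covMap_apply (fun a b p q => (h a b p q).1) a)]
    exact (hg a p).contMDiffAt
  contMDiffOn_invFun x hx := by
    obtain ⟨a, p, rfl⟩ := mem_iUnion.1 hx
    refine (contMDiffAt_of_comp (hg a p) ?_).contMDiffWithinAt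
    rw [show covMap g f ∘ g a = f a from funext (covMap_apply (fun a b p q => (h a b p q).2) a)]
    exact (hf a p).contMDiffAt

theorem exists_pd_of_cover [Nonempty B] [Nonempty C] {f : ∀ a, A a → B} {g : ∀ a, A a → C}
    (hf : ∀ a, IsLocalDiffeomorph (IA a) IB ∞ (f a)) (hg : ∀ a, IsLocalDiffeomorph (IA a) IC ∞ (g a))
    (h : ∀ a b p q, f a p = f b q ↔ g a p = g b q) :
    ∃ Φ : PartialDiffeomorph IB IC B C ∞, Φ.source = ⋃ a, range (f a) ∧
      Φ.target = ⋃ a, range (g a) ∧ (∀ a p, Φ (f a p) = g a p) ∧ ∀ a p, Φ.symm (g a p) = f a p :=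
  ⟨covPD hf hg h, rfl, rfl, covMap_apply fun a b p q => (h a b p q).1,
    covMap_apply fun a b p q => (h a b p q).2⟩

/-- if the pieces cover the source one gets an embedding -/
theorem exists_isOE_of_cover {f : ∀ a, A a → B} {g : ∀ a, A a → C}
    (hf : ∀ a, IsLocalDiffeomorph (IA a) IB ∞ (f a)) (hg : ∀ a, IsLocalDiffeomorph (IA a) IC ∞ (g a))
    (h : ∀ a b p q, f a p = f b q ↔ g a p = g b q) (hs : ∀ x, ∃ a p, f a p = x) :
    ∃ Φ : B → C, IsOE IB IC Φ ∧ range Φ = ⋃ a, range (g a) ∧ ∀ a p, Φ (f a p) = g a p := by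
  choose a p hp using hs
  have key : ∀ b q, g (a (f b q)) (p (f b q)) = g b q := fun b q => (h _ _ _ _).1 (hp _)
  refine ⟨fun x => g (a x) (p x), ⟨fun x y e => ?_, fun x => ?_⟩, ?_, key⟩
  · rw [← hp x, ← hp y]; exact (h _ _ _ _).2 e
  · rw [← hp x]
    refine ld_of_comp (hf _ _) ?_
    rw [show (fun x => g (a x) (p x)) ∘ f (a x) = g (a x) from funext (key _)]
    exact hg _ _
  · refine Subset.antisymm ?_ (iUnion_subset fun b => ?_)
    · rintro _ ⟨x, rfl⟩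
      exact mem_iUnion.2 ⟨_, _, rfl⟩
    · rintro _ ⟨q, rfl⟩
      exact ⟨f b q, key b q⟩

theorem exists_diffeo_of_cover {f : ∀ a, A a → B} {g : ∀ a, A a → C}
    (hf : ∀ a, IsLocalDiffeomorph (IA a) IB ∞ (f a)) (hg : ∀ a, IsLocalDiffeomorph (IA a) IC ∞ (g a))
    (h : ∀ a b p q, f a p = f b q ↔ g a p = g b q) (hs : ∀ x, ∃ a p, f a p = x)
    (hs' : ∀ x, ∃ a p, g a p = x) : ∃ Φ : B ≃ₘ^∞⟮IB, IC⟯ C, ∀ a p, Φ (f a p) = g a p := by
  obtain ⟨Φ, h1, -, h3⟩ := exists_isOE_of_cover hf hg h hs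
  refine ⟨h1.diffeo fun y => ?_, h3⟩
  obtain ⟨a, p, rfl⟩ := hs' y
  exact ⟨f a p, h3 a p⟩

/-- an embedding `h` defined off the sets `f a '' K a` is completed by embeddings `g a` -/
theorem isOE_extF [Finite α] {f : ∀ a, A a → B} (hf : ∀ a, IsOE (IA a) IB (f a))
    (hd : ∀ a b p q, f a p = f b q → a = b) {g : ∀ a, A a → C} {h : B → C} {K : ∀ a, Set (A a)}
    (hc : ∀ a, IsClosed (f a '' K a)) (hK : ∀ a, ∀ p ∉ K a, g a p = h (f a p))
    (hg : ∀ a, IsOE (IA a) IC (g a))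
    (hh : ∀ x, (∀ a p, f a p ≠ x) → IsLocalDiffeomorphAt IB IC ∞ h x)
    (hi : InjOn h (⋃ a, f a '' K a)ᶜ)
    (h1 : ∀ a, ∀ p ∈ K a, ∀ x ∉ ⋃ a, f a '' K a, g a p ≠ h x)
    (h2 : ∀ a b, ∀ p ∈ K a, ∀ q ∈ K b, g a p = g b q → a = b) : IsOE IB IC (extF f g h) := by
  have hf' := fun a => (hf a).inj
  refine ⟨fun x y e => ?_, ld_extF hf hd hc hK (fun a => (hg a).loc) hh⟩
  by_cases hx : x ∈ ⋃ a, f a '' K a <;> by_cases hy : y ∈ ⋃ a, f a '' K a
  · obtain ⟨a, p, hp, rfl⟩ := mem_iUnion.1 hx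
    obtain ⟨b, q, hq, rfl⟩ := mem_iUnion.1 hy
    rw [extF_apply hf' hd, extF_apply hf' hd] at e
    obtain rfl := h2 a b p hp q hq e
    rw [(hg a).inj e]
  · obtain ⟨a, p, hp, rfl⟩ := mem_iUnion.1 hx
    rw [extF_apply hf' hd, extF_eq hf' hd hK hy] at e
    exact (h1 a p hp y hy e).elim
  · obtain ⟨a, p, hp, rfl⟩ := mem_iUnion.1 hy
    rw [extF_apply hf' hd, extF_eq hf' hd hK hx] at e
    exact (h1 a p hp x hx e.symm).elim
  · rw [extF_eq hf' hd hK hx, extF_eq hf' hd hK hy] at e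
    exact hi hx hy e

end Family

section Two

variable {EA HA EA' HA' EB HB EC HC : Type*}
  [NormedAddCommGroup EA] [NormedSpace ℝ EA] [TopologicalSpace HA]
  [NormedAddCommGroup EA'] [NormedSpace ℝ EA'] [TopologicalSpace HA']
  [NormedAddCommGroup EB] [NormedSpace ℝ EB] [TopologicalSpace HB]
  [NormedAddCommGroup EC] [NormedSpace ℝ EC] [TopologicalSpace HC]
  {IA : ModelWithCorners ℝ EA HA} {IA' : ModelWithCorners ℝ EA' HA'}
  {IB : ModelWithCorners ℝ EB HB} {IC : ModelWithCorners ℝ EC HC}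
  {A A' B C : Type*} [TopologicalSpace A] [ChartedSpace HA A] [TopologicalSpace A']
  [ChartedSpace HA' A'] [TopologicalSpace B] [ChartedSpace HB B] [TopologicalSpace C]
  [ChartedSpace HC C]

/-- two pieces -/
theorem exists_isOE_of_two {f : A → B} {f' : A' → B} {g : A → C} {g' : A' → C}
    (hf : IsOE IA IB f) (hf' : IsOE IA' IB f') (hg : IsOE IA IC g) (hg' : IsOE IA' IC g')
    (h : ∀ p q, f p = f' q ↔ g p = g' q) (hs : ∀ x, x ∈ range f ∨ x ∈ range f') :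
    ∃ Φ : B → C, IsOE IB IC Φ ∧ range Φ = range g ∪ range g' ∧ (∀ p, Φ (f p) = g p) ∧
      ∀ q, Φ (f' q) = g' q := by
  have h0 : ∀ x, ∃ y, (∀ p, f p = x → g p = y) ∧ ∀ q, f' q = x → g' q = y := by
    intro x
    rcases hs x with ⟨p, rfl⟩ | ⟨q, rfl⟩
    · exact ⟨g p, fun p' e => by rw [hf.inj e], fun q e => ((h p q).1 e.symm).symm⟩
    · exact ⟨g' q, fun p e => (h p q).1 e, fun q' e => by rw [hf'.inj e]⟩
  choose Φ h1 h2 using h0
  have e1 : ∀ p, Φ (f p) = g p := fun p => (h1 _ p rfl).symm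
  have e2 : ∀ q, Φ (f' q) = g' q := fun q => (h2 _ q rfl).symm
  refine ⟨Φ, ⟨fun x y e => ?_, fun x => ?_⟩, ?_, e1, e2⟩
  · rcases hs x with ⟨p, rfl⟩ | ⟨p, rfl⟩ <;> rcases hs y with ⟨q, rfl⟩ | ⟨q, rfl⟩
    · rw [e1, e1] at e; rw [hg.inj e]
    · rw [e1, e2] at e; exact (h p q).2 e
    · rw [e1, e2] at e; exact ((h q p).2 e.symm).symm
    · rw [e2, e2] at e; rw [hg'.inj e]
  · rcases hs x with ⟨p, rfl⟩ | ⟨p, rfl⟩
    · refine ld_of_comp (hf.loc p) ?_
      rw [show Φ ∘ f = g from funext e1]; exact hg.loc p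
    · refine ld_of_comp (hf'.loc p) ?_
      rw [show Φ ∘ f' = g' from funext e2]; exact hg'.loc p
  · refine Subset.antisymm ?_ (union_subset ?_ ?_)
    · rintro _ ⟨x, rfl⟩
      rcases hs x with ⟨p, rfl⟩ | ⟨p, rfl⟩
      exacts [.inl ⟨p, (e1 p).symm⟩, .inr ⟨p, (e2 p).symm⟩]
    · rintro _ ⟨p, rfl⟩
      exact ⟨_, e1 p⟩
    · rintro _ ⟨p, rfl⟩
      exact ⟨_, e2 p⟩

theorem exists_diffeo_of_two {f : A → B} {f' : A' → B} {g : A → C} {g' : A' → C}
    (hf : IsOE IA IB f) (hf' : IsOE IA' IB f') (hg : IsOE IA IC g) (hg' : IsOE IA' IC g')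
    (h : ∀ p q, f p = f' q ↔ g p = g' q) (hs : ∀ x, x ∈ range f ∨ x ∈ range f')
    (hs' : ∀ x, x ∈ range g ∨ x ∈ range g') :
    ∃ Φ : B ≃ₘ^∞⟮IB, IC⟯ C, (∀ p, Φ (f p) = g p) ∧ ∀ q, Φ (f' q) = g' q := by
  obtain ⟨Φ, h1, h2, h3, h4⟩ := exists_isOE_of_two hf hf' hg hg' h hs
  exact ⟨h1.diffeo fun y => show y ∈ range Φ from h2 ▸ hs' y, h3, h4⟩

/-- the range of an embedding of a compact manifold is open and closed -/
theorem IsOE.isClopen_range [CompactSpace A] [T2Space B] {f : A → B} (hf : IsOE IA IB f) :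
    IsClopen (range f) := ⟨(isCompact_range hf.continuous).isClosed, hf.isOpen_range⟩

/-- an embedding of a nonempty compact manifold in a connected one is onto -/
theorem IsOE.surjective [CompactSpace A] [Nonempty A] [T2Space B] [PreconnectedSpace B] {f : A → B}
    (hf : IsOE IA IB f) : Surjective f :=
  range_eq_univ.1 (hf.isClopen_range.eq_univ (range_nonempty f))

end Two

variable {V W : Type} [NormedAddCommGroup V] [NormedSpace ℝ V] [NormedAddCommGroup W]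
  [NormedSpace ℝ W]

namespace Nks

variable {X : Pc V} {S : Type} (N : Nks W X S) [Finite S] [T2Space X.M] [CompactSpace X.M]
  [SecondCountableTopology X.M] (C : ∀ a : S × Bool, Cap V (N.Y a.1))
  {E' : Type*} [NormedAddCommGroup E'] [NormedSpace ℝ E'] {H' : Type*} [TopologicalSpace H']
  {J : ModelWithCorners ℝ E' H'} {Z : Type*} [TopologicalSpace Z] [ChartedSpace H' Z]

/-- maps out of the capped manifold -/
def lift {Z : Sort*} (g0 : N.Cut → Z) (g : ∀ a, (C a).P.M → Z)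
    (h : ∀ a p, g a ((C a).c p) = g0 (N.jc a (p.1, -p.2))) : N.XS C → Z :=
  (N.jg C).lift (fun i => match i with
    | none => g0
    | some a => g a) fun a p => by
      have := h a (p.1, -p.2)
      simp only [neg_neg] at this
      exact this.symm

@[simp] theorem lift_i0 {Z : Sort*} (g0 : N.Cut → Z) (g : ∀ a, (C a).P.M → Z)
    (h : ∀ a p, g a ((C a).c p) = g0 (N.jc a (p.1, -p.2))) (y : N.Cut) :
    N.lift C g0 g h (N.i0 C y) = g0 y := rfl

@[simp] theorem lift_cap {Z : Sort*} (g0 : N.Cut → Z) (g : ∀ a, (C a).P.M → Z)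
    (h : ∀ a p, g a ((C a).c p) = g0 (N.jc a (p.1, -p.2))) (a : S × Bool) (z : (C a).P.M) :
    N.lift C g0 g h (N.cap C a z) = g a z := rfl

theorem contMDiff_iff {k : N.XS C → Z} : ContMDiff 𝓘(ℝ, V) J ∞ k ↔
    ContMDiff X.I J ∞ (k ∘ N.i0 C) ∧ ∀ a, ContMDiff (C a).P.I J ∞ (k ∘ N.cap C a) :=
  (N.jg C).contMDiff_iff.trans Option.forall

/-- recognition of the capped manifold -/
theorem isOE_lift {g0 : N.Cut → Z} {g : ∀ a, (C a).P.M → Z}
    (h : ∀ a p, g a ((C a).c p) = g0 (N.jc a (p.1, -p.2))) (h0 : IsOE X.I J g0)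
    (hg : ∀ a, IsOE (C a).P.I J (g a)) (h1 : ∀ a, ∀ z ∉ range (C a).c, g a z ∉ range g0)
    (h2 : ∀ a b, ∀ z ∉ range (C a).c, ∀ w ∉ range (C b).c, g a z = g b w → a = b) :
    IsOE 𝓘(ℝ, V) J (N.lift C g0 g h) := by
  refine ⟨fun x y e => ?_, (N.jg C).ld_iff.2 (Option.forall.2 ⟨h0.loc, fun a => (hg a).loc⟩)⟩
  have key : ∀ x, (∃ y, N.i0 C y = x) ∨ ∃ a z, z ∉ range (C a).c ∧ N.cap C a z = x := by
    intro x
    by_cases hx : x ∈ range (N.i0 C)
    · exact .inl hx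
    · rw [N.range_i0, notMem_compl_iff] at hx
      obtain ⟨a, z, hz, e⟩ := mem_iUnion.1 hx
      exact .inr ⟨a, z, hz, e⟩
  rcases key x with ⟨p, rfl⟩ | ⟨a, z, hz, rfl⟩ <;> rcases key y with ⟨q, rfl⟩ | ⟨b, w, hw, rfl⟩
  · rw [show p = q from h0.inj e]
  · exact (h1 b w hw ⟨p, e⟩).elim
  · exact (h1 a z hz ⟨q, e.symm⟩).elim
  · obtain rfl := h2 a b z hz w hw e
    rw [show z = w from (hg a).inj e]

theorem range_lift {Z : Type*} {g0 : N.Cut → Z} {g : ∀ a, (C a).P.M → Z}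
    (h : ∀ a p, g a ((C a).c p) = g0 (N.jc a (p.1, -p.2))) :
    range (N.lift C g0 g h) = range g0 ∪ ⋃ a, range (g a) := by
  refine Subset.antisymm ?_ (union_subset ?_ (iUnion_subset fun a => ?_))
  · rintro _ ⟨x, rfl⟩
    rcases N.surj C x with ⟨y, rfl⟩ | ⟨a, z, rfl⟩
    exacts [.inl ⟨y, rfl⟩, .inr (mem_iUnion.2 ⟨a, z, rfl⟩)]
  · rintro _ ⟨y, rfl⟩
    exact ⟨N.i0 C y, rfl⟩
  · rintro _ ⟨z, rfl⟩
    exact ⟨N.cap C a z, rfl⟩

/-- a manifold `Z` with some of the caps `b a` embedded, and `Z` minus the new points embedded in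
`X` minus the cores by `h`, embeds in the capped manifold (a PIECE of it when `Z` is closed) -/
theorem exists_isOE_into [Nonempty N.Cut] {β : Type} [Finite β] {u : β → S × Bool}
    (hu : Injective u) {b : ∀ i, (C (u i)).P.M → Z} (hb : ∀ i, IsOE (C (u i)).P.I J (b i))
    (hd : ∀ i k p q, b i p = b k q → i = k) (hc : ∀ i, IsClosed (b i '' (range (C (u i)).c)ᶜ))
    {h : Z → X.M} (hl : ∀ x, (∀ i p, b i p ≠ x) → IsLocalDiffeomorphAt J X.I ∞ h x)
    (hi : InjOn h (⋃ i, b i '' (range (C (u i)).c)ᶜ)ᶜ)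
    (hm : ∀ x ∉ ⋃ i, b i '' (range (C (u i)).c)ᶜ, h x ∉ N.cores)
    (hh : ∀ i p, h (b i ((C (u i)).c p)) = N.jc (u i) (p.1, -p.2)) :
    ∃ Ψ : Z → N.XS C, IsOE J 𝓘(ℝ, V) Ψ ∧ (∀ i z, Ψ (b i z) = N.cap C (u i) z) ∧
      ∀ x ∉ ⋃ i, b i '' (range (C (u i)).c)ᶜ, Ψ x = N.φ C (h x) := by
  have hK : ∀ i, ∀ p ∉ (range (C (u i)).c)ᶜ, N.cap C (u i) p = (N.φ C ∘ h) (b i p) := by
    intro i p hp
    obtain ⟨q, rfl⟩ := notMem_compl_iff.1 hp
    rw [comp_apply, hh, N.φ_val, N.cap_c]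
  have hs : ∀ x ∉ ⋃ i, b i '' (range (C (u i)).c)ᶜ, h x ∈ (N.φ C).source := fun x hx => by
    rw [N.φ_source]; exact hm x hx
  refine ⟨extF b (fun i => N.cap C (u i)) (N.φ C ∘ h), isOE_extF hb hd hc hK
    (fun i => N.isOE_cap C _) (fun x hx => ?_) (fun x hx y hy e => ?_) (fun i p hp x hx e => ?_)
    (fun i k p _ q _ e => hu (N.cap_disj C e)),
    extF_apply (fun i => (hb i).inj) hd _ _, fun x hx => extF_eq (fun i => (hb i).inj) hd hK hx⟩
  · refine ld_comp ((N.φ C).isLocalDiffeomorphAt _ _ _ (hs x fun h' => ?_)) (hl x hx)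
    obtain ⟨i, p, -, e⟩ := mem_iUnion.1 h'
    exact hx i p e
  · exact hi hx hy ((N.φ C).injOn (hs x hx) (hs y hy) e)
  · have h1 := (N.φ C).map_source (hs x hx)
    rw [N.φ_target] at h1
    exact h1 (mem_iUnion.2 ⟨u i, p, hp, e⟩)

end Nks

/-! ### more caps and manifolds with ends -/

section Assoc

variable {EA HA EB HB : Type*} [NormedAddCommGroup EA] [NormedSpace ℝ EA] [TopologicalSpace HA]
  [NormedAddCommGroup EB] [NormedSpace ℝ EB] [TopologicalSpace HB]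
  {IA : ModelWithCorners ℝ EA HA} {IB : ModelWithCorners ℝ EB HB}
  {A B : Type*} [TopologicalSpace A] [ChartedSpace HA A] [TopologicalSpace B] [ChartedSpace HB B]

theorem isOE_assoc : IsOE ((IA.prod IB).prod 𝓘(ℝ, ℝ)) (IA.prod (IB.prod 𝓘(ℝ, ℝ)))
    fun p : (A × B) × ℝ => (p.1.1, (p.1.2, p.2)) :=
  IsOE.of_diffeo (diffeoOf _ (fun q : A × B × ℝ => ((q.1, q.2.1), q.2.2))
    (contMDiff_fst.fst.prodMk (contMDiff_fst.snd.prodMk contMDiff_snd))
    ((contMDiff_fst.prodMk contMDiff_snd.fst).prodMk contMDiff_snd.snd) (fun _ => rfl) fun _ => rfl)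

end Assoc

/-- the product of two pieces -/
abbrev pcProd {U U' T : Type} [NormedAddCommGroup U] [NormedSpace ℝ U] [NormedAddCommGroup U']
    [NormedSpace ℝ U'] [NormedAddCommGroup T] [NormedSpace ℝ T] (A : Pc U) (B : Pc U')
    (L : (U × U') ≃L[ℝ] T) : Pc T :=
  Pc.of (A.I.prod B.I) (A.M × B.M) ((A.L.prodCongr B.L).trans L)

/-- the product of a closed manifold with a cap, e.g. `S¹ × D³` -/
def Cap.prod {U V' W' : Type} [NormedAddCommGroup U] [NormedSpace ℝ U] [NormedAddCommGroup V']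
    [NormedSpace ℝ V'] [NormedAddCommGroup W'] [NormedSpace ℝ W'] (Z : Pc U) [CompactSpace Z.M]
    [T2Space Z.M] [SecondCountableTopology Z.M] {Y : Pc W'} (C : Cap V' Y)
    (LV : (U × V') ≃L[ℝ] V) (LW : (U × W') ≃L[ℝ] W) : Cap V (pcProd Z Y LW) where
  P := pcProd Z C.P LV
  c p := (p.1.1, C.c (p.1.2, p.2))
  isEnd := by
    refine ⟨(IsOE.id.prodMap C.isEnd.oe).comp isOE_assoc, ?_⟩
    convert (isClosed_univ (X := Z.M)).prod C.isEnd.cl using 1
    ext x
    constructor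
    · rintro ⟨p, hp, rfl⟩
      exact ⟨mem_univ _, _, ⟨mem_univ _, hp.2⟩, rfl⟩
    · rintro ⟨-, p, hp, e⟩
      exact ⟨((x.1, p.1), p.2), ⟨mem_univ _, hp.2⟩, Prod.ext rfl e⟩
  cpt := by
    convert (isCompact_univ (X := Z.M)).prod C.cpt using 1
    ext x
    simp only [mem_compl_iff, mem_prod, mem_univ, true_and]
    refine not_congr ⟨?_, ?_⟩
    · rintro ⟨p, hp, rfl⟩
      exact ⟨_, ⟨mem_univ _, hp.2⟩, rfl⟩
    · rintro ⟨p, hp, e⟩
      exact ⟨((x.1, p.1), p.2), ⟨mem_univ _, hp.2⟩, Prod.ext rfl e⟩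

/-- change the cross-section of a cap by a diffeomorphism -/
def Cap.reparam {Y Y' : Pc W} (C : Cap V Y) (f : Y'.M ≃ₘ^∞⟮Y'.I, Y.I⟯ Y.M) : Cap V Y' where
  P := C.P
  c p := C.c (f p.1, p.2)
  isEnd := C.isEnd.reparam f
  cpt := by
    convert C.cpt using 2
    ext x
    constructor
    · rintro ⟨p, hp, rfl⟩
      exact ⟨_, ⟨mem_univ _, hp.2⟩, rfl⟩
    · rintro ⟨p, hp, rfl⟩
      exact ⟨(f.symm p.1, p.2), ⟨mem_univ _, hp.2⟩, by simp⟩

end Crest.Agent.X212.Cyl58
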