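import Crest.Agent.X212.Sep15.QD
import Crest.Agent.X212.Sep15.OpL
import Crest.Agent.X212.Weil93.Main
import Crest.Agent.X212.Tw39.Main
import Crest.Agent.X212.Mcg32.Crv

/-!
# X212/Cyl58/Hp: hyperbolic pairs

`hpOp : HpOp`, `hpJo : HpJo`, `hs` : a handle gives `HS`.
-/

set_option autoImplicit false
set_option linter.unusedSectionVars false

open Set Filter Topology Function
open scoped ContDiff Manifold
open Crest.Agent.R208.F Crest.Agent.X212.Dr59 Crest.Agent.X212.Int54 Crest.Agent.X212.Sep15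
open Crest.Agent.X212.Bb31 (Fm)

noncomputable section

namespace Crest.Agent.X212.Cyl58

section gen

variable {E : Type} [NormedAddCommGroup E] [NormedSpace ℝ E] [FiniteDimensional ℝ E]
  [MeasurableSpace E] [BorelSpace E]
  {H : Type} [TopologicalSpace H] {I : ModelWithCorners ℝ E H} [I.Boundaryless]
  {M : Type} [TopologicalSpace M] [ChartedSpace H M] [IsManifold I ∞ M] [T2Space M]
  [MeasurableSpace M] [BorelSpace M] [SecondCountableTopology M]
  {E' : Type} [NormedAddCommGroup E'] [NormedSpace ℝ E'] [FiniteDimensional ℝ E']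
  [MeasurableSpace E'] [BorelSpace E']
  {H' : Type} [TopologicalSpace H'] {J : ModelWithCorners ℝ E' H'} [J.Boundaryless]
  {N : Type} [TopologicalSpace N] [ChartedSpace H' N] [IsManifold J ∞ N]
  [MeasurableSpace N] [BorelSpace N]

theorem tp_pm_ne {f : N → M} {y : N} (hf : IsLocalDiffeomorphAt J I ∞ f y) (c : M → Ext E) :
    tp E' (pm J I f c y) ≠ 0 ↔ tp E (c (f y)) ≠ 0 := by
  rw [pm_apply, tp_pb (finrank_of_ld hf), mul_ne_zero_iff, and_iff_right (jac_of_ld hf)]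

variable (I) in
/-- a hyperbolic pair with support in `K` -/
def HPo (K : Set M) : Prop := ∃ a b : M → Ext E, Cs I 2 K a ∧ Cs I 2 K b ∧ a * a = 0 ∧ b * b = 0 ∧
  IsConnected {x | tp E (a x * b x) ≠ 0}

theorem HPo.mono {K L : Set M} (h : HPo I K) (s : K ⊆ L) : HPo I L :=
  let ⟨a, b, h1, h2, h3⟩ := h
  ⟨a, b, h1.mono s, h2.mono s, h3⟩

theorem psh_mul (φ : PartialDiffeomorph J I N M ∞) (a b : N → Ext E') :
    psh φ a * psh φ b = psh φ (a * b) := by
  funext x
  by_cases h : x ∈ φ.target <;> simp [psh, pm_mul, h]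

theorem HPo.psh [T2Space N] {S : Set N} (h : HPo J S) (φ : PartialDiffeomorph J I N M ∞)
    (hS : S ⊆ φ.source) : HPo I (φ '' S) := by
  obtain ⟨a, b, h1, h2, h3, h4, h5⟩ := h
  have z : Dr59.psh φ (0 : N → Ext E') = 0 := by rw [Dr59.psh, pm_zero, indicator_zero']
  have s : {y | tp E' (a y * b y) ≠ 0} ⊆ φ.source := fun y hy =>
    hS (by_contra fun k => hy (by rw [h1.eq_zero k, zero_mul, map_zero]))
  have e : ∀ y ∈ φ.source, tp E' (a y * b y) ≠ 0 ↔ tp E (Dr59.psh φ a (φ y) * Dr59.psh φ b (φ y)) ≠ 0 :=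
    fun y hy => by
      rw [← Pi.mul_apply (Dr59.psh φ a), ← tp_pm_ne (φ.isLocalDiffeomorphAt _ _ _ hy), psh_mul, pm_psh φ hy]; rfl
  refine ⟨_, _, h1.psh φ hS, h2.psh φ hS, by rw [psh_mul, h3, z], by rw [psh_mul, h4, z], ?_⟩
  convert h5.image φ (φ.contMDiffOn.continuousOn.mono s) using 1
  refine Set.ext fun x => ⟨fun hx => ?_, by rintro ⟨y, hy, rfl⟩; exact (e y (s hy)).1 hy⟩
  obtain ⟨y, hy, rfl⟩ : x ∈ φ '' S := by_contra fun k =>
    hx (by rw [(h1.psh φ hS).eq_zero k, zero_mul, map_zero])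
  exact ⟨y, (e y (hS hy)).2 hx, rfl⟩

theorem integ_pos {o c : M → Ext E} (ho : Ori I o) (hc : Sm I univ c) (hs : HasCompactSupport c)
    (h0 : ∀ x, 0 ≤ rat o c x) {x : M} (hx : rat o c x ≠ 0) : 0 < integ I o c := by
  have := ho.finCpt
  have := ho.openPos
  exact (ho.contMDiff_rat fun x => hc x trivial).continuous.integral_pos_of_hasCompactSupport_nonneg_nonzero
    (hcs_rat hs) h0 hx

/-- a hyperbolic pair gives a class of positive square -/
theorem HPo.exists_pos {K : Set M} (h : HPo I K) {o : M → Ext E} (ho : Ori I o) :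
    ∃ c, Cs I 2 K c ∧ 0 < ip I o c c := by
  obtain ⟨a, b, h1, h2, h3, h4, h5⟩ := h
  have c1 := (ho.contMDiff_rat fun x => (h1.cl.sm.mul h2.cl.sm) x trivial).continuous
  obtain ⟨x, hx⟩ := h5.nonempty
  have n : ∀ y, rat o (a * b) y ≠ 0 ↔ tp E (a y * b y) ≠ 0 := fun y => by
    rw [rat, div_ne_zero_iff, and_iff_left (ho.ne y)]; rfl
  have k : ∀ y, 0 ≤ rat o (a * b) x * rat o (a * b) y := fun y => by
    by_cases hy : tp E (a y * b y) ≠ 0
    · by_contra k
      obtain ⟨z, hz, e⟩ := h5.isPreconnected.intermediate_value hy hx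
        (f := fun y => rat o (a * b) x * rat o (a * b) y) (by fun_prop)
        ⟨(not_le.1 k).le, mul_self_nonneg _⟩
      exact mul_ne_zero ((n x).2 hx) ((n z).2 hz) e
    · rw [not_not.1 (mt (n y).1 hy), mul_zero]
  have hc := h1.add (h2.smul (rat o (a * b) x))
  have e : (a + rat o (a * b) x • b) * (a + rat o (a * b) x • b) = (2 * rat o (a * b) x) • (a * b) := by
    rw [add_mul, mul_add, mul_add, h3, smul_mul_smul_comm, h4, mul_smul_comm, smul_mul_assoc,
      show b * a = a * b from funext fun y => mul_comm_two (h2.cl.dg y trivial) a]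
    module
  refine ⟨_, hc, integ_pos ho (hc.cl.sm.mul hc.cl.sm) hc.hc.mul_left (fun y => ?_) (x := x) ?_⟩
  · rw [e, rat_smul, Pi.smul_apply, smul_eq_mul, mul_assoc]
    exact mul_nonneg zero_le_two (k y)
  · rw [e, rat_smul, Pi.smul_apply, smul_eq_mul, mul_assoc]
    exact mul_ne_zero two_ne_zero (mul_self_ne_zero.2 ((n x).2 hx))

theorem two_le_bp [CompactSpace M] {K L : Set M} (h : HPo I K) (h' : HPo I L) (d : Disjoint K L)
    {o : M → Ext E} (ho : Ori I o) : 2 ≤ Num57.bp ho := by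
  obtain ⟨c, c1, c2⟩ := h.exists_pos ho
  obtain ⟨e, e1, e2⟩ := h'.exists_pos ho
  have k : ∀ s t : ℝ, Num57.Qf ho (s • c1.cl.cls + t • e1.cl.cls) =
      s ^ 2 * ip I o c c + t ^ 2 * ip I o e e := fun s t => by
    have z1 : Num57.Q ho c1.cl.cls e1.cl.cls = 0 := c1.ip_disj e1 d
    have z2 : Num57.Q ho e1.cl.cls c1.cl.cls = 0 := e1.ip_disj c1 d.symm
    have z3 : Num57.Q ho c1.cl.cls c1.cl.cls = ip I o c c := rfl
    have z4 : Num57.Q ho e1.cl.cls e1.cl.cls = ip I o e e := rfl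
    simp only [Num57.Qf_apply, map_add, map_smul, LinearMap.add_apply, LinearMap.smul_apply, z1, z2,
      z3, z4, smul_eq_mul]
    ring
  have k0 : ∀ s t : ℝ, s ^ 2 * ip I o c c + t ^ 2 * ip I o e e ≤ 0 → s = 0 ∧ t = 0 := fun s t h => by
    have a := mul_nonneg (sq_nonneg s) c2.le
    have b := mul_nonneg (sq_nonneg t) e2.le
    exact ⟨pow_eq_zero_iff two_ne_zero |>.1 ((mul_eq_zero.1 (by linarith)).resolve_right c2.ne'),
      pow_eq_zero_iff two_ne_zero |>.1 ((mul_eq_zero.1 (by linarith)).resolve_right e2.ne')⟩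
  have li : LinearIndependent ℝ ![c1.cl.cls, e1.cl.cls] := LinearIndependent.pair_iff.2 fun s t h =>
    k0 s t (by rw [← k, h, map_zero])
  refine le_of_eq_of_le (by rw [finrank_span_eq_card li]; simp) (le_sigPos_of_posDef (Num57.Qf ho)
    (V := Submodule.span ℝ (range ![c1.cl.cls, e1.cl.cls])) ?_)
  rintro ⟨x, hx⟩ h0
  rw [Matrix.range_cons_cons_empty] at hx
  obtain ⟨s, t, rfl⟩ := Submodule.mem_span_pair.1 hx
  refine lt_of_lt_of_eq (not_le.1 fun h => h0 ?_) (k s t).symm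
  obtain ⟨rfl, rfl⟩ := k0 s t h
  simp

end gen

variable {Y Y' : CM 3} {R : CM 2}

theorem interior_K (C : End Y) (T : ℝ) : interior (C.K T) = (C.j '' (univ ×ˢ Ici T))ᶜ := by
  rw [End.K, interior_compl]
  refine congrArg compl (Subset.antisymm (closure_minimal (image_mono (prod_mono subset_rfl
    Ioi_subset_Ici_self)) (C.isClosed_Ici T)) ?_)
  refine Subset.trans (image_mono ?_) (image_closure_subset_closure_image C.oe.continuous)
  rw [closure_prod_eq, closure_univ, closure_Ioi]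

theorem hpOp : HpOp := by
  intro Y Y' R b₁ b₂ b₁' b₂' S C C' O h
  have s : interior (C.K 0) ⊆ O.i.source := by
    rw [interior_K, O.src]
    exact compl_subset_compl.2 (image_mono (prod_mono (subset_univ _) subset_rfl))
  refine (HPo.psh h O.i s).mono ?_
  rintro _ ⟨x, hx, rfl⟩
  rw [interior_K, mem_compl_iff, O.i_mem (s hx)]
  rw [interior_K] at hx
  exact fun k => hx (image_mono (prod_mono subset_rfl (by
    rintro _ ⟨t, -, rfl⟩; exact (Real.exp_pos t).le)) k)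

theorem hpJo : HpJo := by
  intro Y C₁ C₂ X J O hO h₁ h₂
  have n : ∀ C : End Y, HP C → Nonempty C.X := fun C ⟨_, _, _, _, _, _, ⟨x, _⟩, _⟩ => ⟨x⟩
  have := n _ h₁
  have := n _ h₂
  refine two_le_bp (HPo.psh h₁ J.o₁.pd (subset_univ _)) (HPo.psh h₂ J.o₂.pd (subset_univ _))
    (disjoint_left.2 ?_) hO
  rintro _ ⟨p, hp, rfl⟩ ⟨q, hq, e⟩
  obtain ⟨y, t, rfl, rfl⟩ := (J.eq p q).1 e.symm
  rw [interior_K] at hp hq
  rcases le_total 0 t with k | k
  · exact hp ⟨(y, t), ⟨trivial, k⟩, rfl⟩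
  · exact hq ⟨(y, -t), ⟨trivial, neg_nonneg.2 k⟩, rfl⟩

/-! ### a handle -/

theorem st_deriv_ne {x : ℝ} : deriv Real.smoothTransition x ≠ 0 ↔ 0 < x ∧ x < 1 := by
  refine ⟨fun h => ⟨not_le.1 fun k => h ?_, not_le.1 fun k => h ?_⟩,
    fun h => (Mcg32.st_deriv_pos h.1 h.2).ne'⟩
  · exact IsLocalMin.deriv_eq_zero (.of_forall fun y =>
      (Real.smoothTransition.zero_of_nonpos k).trans_le (Real.smoothTransition.nonneg y))
  · exact IsLocalMax.deriv_eq_zero (.of_forall fun y =>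
      (Real.smoothTransition.le_one y).trans_eq (Real.smoothTransition.one_of_one_le k).symm)

theorem hasDerivAt_st (x : ℝ) :
    HasDerivAt Real.smoothTransition (deriv Real.smoothTransition x) x :=
  ((Real.smoothTransition.contDiff (n := 1)).differentiable one_ne_zero x).hasDerivAt

theorem ka_deriv_ne {a x : ℝ} (ha : 0 < a) : deriv (Tw39.ka a) x ≠ 0 ↔ |x| < a := by
  have h : HasDerivAt (Tw39.ka a) _ x :=
    (hasDerivAt_st _).comp x (((hasDerivAt_id x).add_const a).div_const (2 * a))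
  rw [h.deriv, mul_ne_zero_iff, and_iff_left (by positivity), st_deriv_ne, abs_lt,
    div_pos_iff_of_pos_right (by positivity), div_lt_one (by positivity)]
  constructor <;> rintro ⟨h1, h2⟩ <;> constructor <;> linarith

open Tw39 Line51 in
theorem tp_ka {a : ℝ} (ha : 0 < a) (z : ℂ) :
    tp ℂ (ang 𝓘(ℝ, ℂ) (fun z : ℂ => ex (ka a z.im)) z *
      ang 𝓘(ℝ, ℂ) (fun z : ℂ => ex (ka a (-z.re))) z) ≠ 0 ↔ |z.re| < a ∧ |z.im| < a := by
  have dk : ∀ x, HasDerivAt (ka a) (deriv (ka a) x) x := fun x =>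
    ((ka_cd _).differentiable ne0 x).hasDerivAt
  have e1 : df 𝓘(ℝ, ℂ) (fun z : ℂ => ka a z.im) z = deriv (ka a) z.im • df 𝓘(ℝ, ℂ) Complex.im z :=
    df_comp (sm_im.contMDiff.mdifferentiableAt ne0) (dk _)
  have e2 : df 𝓘(ℝ, ℂ) (fun z : ℂ => ka a (-z.re)) z =
      (deriv (ka a) (-z.re) * -1) • df 𝓘(ℝ, ℂ) Complex.re z :=
    df_comp (g := fun x => ka a (-x)) (sm_re.contMDiff.mdifferentiableAt ne0)
      ((dk _).comp _ (hasDerivAt_neg _))
  have e3 : df 𝓘(ℝ, ℂ) Complex.im z * df 𝓘(ℝ, ℂ) Complex.re z = -Orx52.oZ z :=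
    Sym24.anti1 (dg_df _ _ (mem_univ _)) (dg_df _ _ (mem_univ _))
  rw [ang_ex (f := fun z : ℂ => ka a z.im) ((ka_cd _).comp sm_im).contMDiff.contMDiffAt,
    ang_ex (f := fun z : ℂ => ka a (-z.re)) ((ka_cd _).comp sm_re.neg).contMDiff.contMDiffAt,
    e1, e2, smul_smul, smul_smul, smul_mul_smul_comm, e3, map_smul, map_neg]
  simp only [smul_eq_mul, mul_ne_zero_iff, neg_ne_zero, ka_deriv_ne ha, abs_neg]
  exact ⟨fun k => ⟨k.1.2.2.1, k.1.1.2⟩, fun k => ⟨⟨⟨⟨two_ne_zero, Real.pi_ne_zero⟩, k.2⟩,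
    ⟨two_ne_zero, Real.pi_ne_zero⟩, k.1, one_ne_zero⟩, Orx52.ori_oZ.ne z⟩⟩

open Tw39 Line51 in
/-- a handle gives a hyperbolic pair of one-forms -/
theorem hs {o : Fm 2 R} {A B : ℂ → R} {δ : ℝ} (h : H7.Hd o A B δ) : HS R := by
  have hA : Ann (𝓡 2) A := ⟨h.hA.ld, h.hA.per⟩
  have hB : Ann (𝓡 2) B := ⟨h.hB.ld, h.hB.per⟩
  have ha := half_pos h.pos
  have hl := half_lt_self h.pos
  have key : ∀ z : ℂ, |z.re| < δ → |z.im| < δ →
      (tp (EE 2) (ang (𝓡 2) (del A (δ / 2)) (A z) * ang (𝓡 2) (del B (δ / 2)) (A z)) ≠ 0 ↔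
        |z.re| < δ / 2 ∧ |z.im| < δ / 2) := fun z h1 h2 => by
    have md := (hA.ld z).mdifferentiableAt ne0
    have e : del B (δ / 2) ∘ A =ᶠ[𝓝 z] fun w => ex (ka (δ / 2) (-w.re)) := by
      filter_upwards [(isOpen_lt Complex.continuous_re.abs continuous_const).mem_nhds h1,
        (isOpen_lt Complex.continuous_im.abs continuous_const).mem_nhds h2] with w w1 w2
      have := h.box (-Complex.I * w) (by simpa using w2) (by simpa using w1)
      rw [← mul_assoc, mul_neg, Complex.I_mul_I, neg_neg, one_mul] at this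
      rw [comp_apply, ← this, hB.del_apply]
      simp
    have e1 : pm 𝓘(ℝ, ℂ) (𝓡 2) A (ang (𝓡 2) (del A (δ / 2))) z =
        ang 𝓘(ℝ, ℂ) (fun z : ℂ => ex (ka (δ / 2) z.im)) z :=
      (pm_ang (hA.sm_del ha _) md).trans (ang_congr (.of_forall hA.del_apply))
    have e2 : pm 𝓘(ℝ, ℂ) (𝓡 2) A (ang (𝓡 2) (del B (δ / 2))) z = _ :=
      (pm_ang (hB.sm_del ha _) md).trans (ang_congr e)
    rw [← tp_ka ha z, ← e1, ← e2, ← Pi.mul_apply (pm _ _ _ _), ← pm_mul, tp_pm_ne (hA.ld z),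
      Pi.mul_apply]
  refine ⟨ang (𝓡 2) (del A (δ / 2)), ang (𝓡 2) (del B (δ / 2)), cl_ang fun x _ => hA.sm_del ha x,
    cl_ang fun x _ => hB.sm_del ha x, ?_⟩
  have c : Convex ℝ {z : ℂ | |z.re| < δ / 2 ∧ |z.im| < δ / 2} := by
    simp only [abs_lt]
    exact ((convex_halfSpace_re_gt _).inter (convex_halfSpace_re_lt _)).inter
      ((convex_halfSpace_im_gt _).inter (convex_halfSpace_im_lt _))
  have k := (c.isConnected ⟨0, by simpa using h.pos⟩).image A
    hA.ld.contMDiff.continuous.continuousOn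
  refine (congrArg IsConnected (Set.ext fun x => ⟨fun hx => ?_, ?_⟩)).mpr k
  · obtain ⟨z, hz, rfl⟩ : x ∈ strip A (δ / 2) := by_contra fun k =>
      hx (by rw [hA.ang_del_out ha k, zero_mul, map_zero])
    obtain ⟨w, hw, e⟩ : A z ∈ strip B (δ / 2) := by_contra fun k =>
      hx (by rw [hB.ang_del_out ha k, mul_zero, map_zero])
    obtain ⟨m, hm⟩ := h.only z w (lt_of_le_of_lt hz hl) (lt_of_le_of_lt hw hl) e.symm
    have w1 : |(w - m).im| < δ := by simpa using lt_of_le_of_lt hw hl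
    have e2 : A z = A (Complex.I * (w - m)) := by
      rw [← h.box _ (by simpa using hm) w1, ← e, ← hB.per (w - m) m, sub_add_cancel]
    rw [e2] at hx ⊢
    exact ⟨_, (key _ (by simpa using w1) (by simpa using hm)).1 hx, rfl⟩
  · rintro ⟨z, hz, rfl⟩
    exact (key z (hz.1.trans hl) (hz.2.trans hl)).2 hz

end Crest.Agent.X212.Cyl58
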