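import Crest.Agent.X212.Nt93.Defs
import Crest.Agent.X212.Pte3.Th
import Crest.Agent.X212.Mp86.St

/-! Row 212, NT-R, OUT-D (helper58): outer rows and inner rows onto give regularity. -/

set_option autoImplicit false
set_option linter.unusedSectionVars false
noncomputable section
open Set Function Filter

namespace Crest.Agent.X212.Cyl58.Oud
open An M Nd18 Mod61 Nk89 Cht98 Rf65 Nt93
open An.Job (Sol)
open Mp86.St (hp_some piece_hp eq_hp)

variable {Wi : Type} {X : Mf 4} {A κ lam : Type} [Fintype A] [Fintype κ] [Fintype lam]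
  [DecidableEq lam] {M : Mark X A κ} {W : World M} {N : ML M lam} {Λ : Lns W N}
  {A' h : Type} [Fintype A'] [DecidableEq A'] [Fintype h] {r n : ℕ}
  {J : Job Wi Λ A' h r n} {c : M.Cl} {δ : ℝ} {sh : Set A'} {σ : Cel A'} {q : Wi →₀ ℝ}
  {y : J.Obc c} {x : A} {n₀ : ℤ} {Adm : (Wi →₀ ℝ) → Prop}

/-- good charts have a map -/
theorem ex_map {P P' : Set (Reg A)} {Hs : Set h} {U : Type} [Fintype U] {μ : Ed c → Option U}
    {b : Bp J c} {E : EC b (J.prt sh σ c P P' Hs) U δ} {x' ψ} (H : AnH J c δ sh σ)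
    (hP : ∀ π ∈ P, M.sys.Piece c.1 π) (h' : P' ⊆ P) {q'} (g : E.Gd σ μ q' y x' ψ) (q : Wi →₀ ℝ) :
    ∃ f, E.Map q f :=
  have k : Pte3.CS σ E := ⟨⟨H.ok, H.mem, H.loc.pok σ H.mem c _ _ _ hP h'⟩, g.ch.ok, g.ch.ov, g.sm⟩
  ⟨_, k.map (k.th_ok (K := fun _ => True) (d := 0) (Adm := fun _ => False)
    (fun _ _ _ _ _ _ _ => trivial) (fun _ _ => .of_forall fun _ _ _ => trivial) fun _ _ => False.elim)⟩

theorem pc_two (e : c.1 = {x}) : ∀ π ∈ ({hp x true, hp x false} : Set (Reg A)), M.sys.Piece c.1 π := by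
  rintro _ (rfl | rfl) <;> exact e ▸ piece_hp _

theorem mem_out (e : c.1 = {x}) {z} (hz : z ∉ W.pc c (hp x false)) : z ∈ W.pc c (hp x true) := by
  obtain ⟨π, h1, h2⟩ := exists_pc W.toCaps z
  rcases eq_hp (e ▸ h1) with rfl | rfl
  exacts [h2, (hz h2).elim]

theorem U_sd (b : Bool) : M.sys.U (hp x b) = (M.sys.w x).sd b :=
  Subset.antisymm (fun _ k => k x b (hp_some.2 ⟨rfl, rfl⟩)) fun _ k _ _ e =>
    (hp_some.1 e).1 ▸ (hp_some.1 e).2 ▸ k

/-- a cut of the face is inside or outside -/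
theorem cut_out (H : LocP J sh) {l : h} (hl : l ∈ (pW J c sh σ x).H)
    (hI : ¬J.nb l ⊆ M.sys.U (hp x false)) : l ∈ (pO J c sh σ x).H := by
  have k := hl.2
  simp only [biUnion_pair, U_sd] at k hI
  refine ⟨trivial, ?_⟩
  rw [biUnion_singleton, U_sd]
  exact ((H.nb l).subset_or_subset ((M.sys.w x).op_sd _) ((M.sys.w x).op_sd _) (M.sys.w x).dj k).resolve_right hI

section gen
variable {p : Prt A A' h} {U : Type} [Fintype U] {b : Bp J c} (E : EC b p U δ)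

/-- the targets over `O` in the field rows are hit -/
def In (O : Set (W.Z c).M) (q : Wi →₀ ℝ) (x : Pnt E.o r) (ψ : E.K) : Prop :=
  ∀ f, E.Map q f → ∀ e : E.Y, (∀ z ∉ O, (b.F p U δ).F0.val 8 E.o.Pm e.1.1 z = 0) →
    (∀ z ∉ O, (b.F p U δ).F0.val 8 E.o.P2 e.1.2.1 z = 0) → e.1.2.2 = 0 → e.2 = 0 →
    e ∈ range (fderiv ℝ f (x.pt 8, ψ))

variable {E}

theorem reg_of {O O' : Set (W.Z c).M} {Hs : Set h} {x : Pnt E.o r} {ψ : E.K} (m : ∃ f, E.Map q f)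
    (hO : ∀ z ∉ O', z ∈ O) (hH : p.H ⊆ Hs) (hit : Hit E O Hs q x ψ) (t : In E O' q x ψ) :
    E.Reg q x ψ := by
  obtain ⟨f, hf⟩ := m
  refine ⟨f, hf, fun u => ?_⟩
  obtain ⟨v, -, -, h1, h2, h3⟩ := hit f hf u
  obtain ⟨w, hw⟩ := t f hf _ (fun z hz => (h1 z (hO z hz)).1) (fun z hz => (h1 z (hO z hz)).2) h2
    (Prod.ext (funext fun i => (h3 i (hH i.2)).1) (funext fun i => (h3 i (hH i.2)).2))
  exact ⟨v - w, by rw [map_sub, hw, sub_sub_cancel]⟩

end gen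

variable (J c δ sh σ q y x) in
/-- the inner rows are onto (`TAd`) -/
def Ind : Prop := (∀ l, ¬J.nb l ⊆ M.sys.U (hp x false)) ∧
  ∀ (b : Bp J c) (E : EC b (pW J c sh σ x) _ δ) x' ψ,
    E.Gd σ (muF J c {hp x true, hp x false}) q y x' ψ → In E (W.pc c (hp x false)) q x' ψ

/-- **OUT-D** -/
theorem outD (H : AnH J c δ sh σ) (e : c.1 = {x}) (ta : Ind J c δ sh σ q y x) {b : Bp J c}
    {E : EC b (pW J c sh σ x) _ δ} {x' ψ} (g : E.Gd σ (muF J c {hp x true, hp x false}) q y x' ψ)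
    (hit : Hit E (W.pc c (hp x true)) (pO J c sh σ x).H q x' ψ) : E.Reg q x' ψ :=
  reg_of (ex_map H (pc_two e) Subset.rfl g q) (fun _ => mem_out e)
    (fun l hl => cut_out H.loc hl (ta.1 l)) hit (ta.2 b E x' ψ g)

/-- **NT-R on the branch `TAd`** -/
theorem ntD (H : H1 J c δ sh σ Adm n₀) (R : RegTr J c δ sh σ n₀) (e : c.1 = {x}) :
    NtL J c δ sh σ Adm n₀ fun q y => Ok δ y (pO J c sh σ x) ∧ Ind J c δ sh σ q y x := by
  intro q y x₁ a s f o _ t b E x' ψ g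
  obtain rfl : x₁ = x := singleton_injective (f.1.2.1.symm.trans e)
  exact ⟨fun _ => q, ⟨∅, fun _ _ _ => rfl, fun _ => tendsto_const_nhds⟩, .of_forall fun _ => ⟨s, outD H.toAnH e t.2 g
    (R H.toAnH q y _ s f o ((H.num q y _ a s f.1).2.2 f.2.1 t.1).1 b E x' ψ g)⟩⟩

end Crest.Agent.X212.Cyl58.Oud
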