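import Crest.Agent.X212.Cyl58.PsA

/-! # Row 212, SW-PSY (helper58): compactness for a quadratic elliptic system in dimension three -/

set_option autoImplicit false
set_option linter.unusedSectionVars false
noncomputable section
open scoped Manifold ContDiff Topology InnerProductSpace
open MeasureTheory Set Function Filter Module Asymptotics

namespace Crest.Agent.X212.Cyl58
open An An.Pre Sob92 Ell97 Rdc90

section abs
variable {J X Y Z : Type} [NormedAddCommGroup X] [NormedSpace ℝ X] [NormedAddCommGroup Y]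
  [NormedSpace ℝ Y] [NormedAddCommGroup Z] [NormedSpace ℝ Z] {l : Filter J} {x : J → X} {y : J → Y}

theorem Bn.le {K : ℝ} (h : Bn l x) (k : ∀ i, ‖y i‖ ≤ K * (1 + ‖x i‖)) : Bn l y :=
  (IsBigO.of_bound |K| (.of_forall fun i => (k i).trans
    ((le_abs_self _).trans_eq (abs_mul _ _)))).trans ((isBigO_refl _ _).add h.norm_left)

theorem Bn.le' {K : ℝ} (h : Bn l x) (k : ∀ i, ‖y i‖ ≤ K * ‖x i‖) : Bn l y :=
  (IsBigO.of_bound K (.of_forall k)).trans h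

theorem Bn.smul {r : J → ℝ} (h : Bn l r) (k : Bn l x) : Bn l fun i => r i • x i :=
  Bn.bil (ContinuousLinearMap.lsmul ℝ ℝ) h k

theorem Bn.zero (B : X →L[ℝ] Y →L[ℝ] Z) (h : Tendsto x l (𝓝 0)) (k : Bn l y) :
    Tendsto (fun i => B (x i) (y i)) l (𝓝 0) :=
  (isLittleO_one_iff ℝ).1 <| IsBigO.trans_isLittleO (g := fun i => ‖B (x i)‖ * ‖y i‖)
    (IsBigO.of_bound' (.of_forall fun i => ((B (x i)).le_opNorm _).trans (le_abs_self _)))
    (by simpa only [mul_one, comp_def] using ((isLittleO_one_iff ℝ).2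
      (map_zero B ▸ (B.continuous.tendsto 0).comp h :)).norm_left.mul_isBigO k.norm_left)

theorem Bn.lim {𝒰 : Ultrafilter J} {r : J → ℝ} (h : Bn 𝒰 r) : ∃ z, Tendsto r 𝒰 (𝓝 z) :=
  h.cpt (T := ContinuousLinearMap.id ℝ ℝ) isCompactOperator_id

end abs

variable {E : Type} [NormedAddCommGroup E] [NormedSpace ℝ E] [FiniteDimensional ℝ E]
  [MeasurableSpace E] [BorelSpace E]
  {HM : Type} [TopologicalSpace HM] {I : ModelWithCorners ℝ E HM} [I.Boundaryless]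
  {M : Type} [TopologicalSpace M] [ChartedSpace HM M] [IsManifold I ∞ M]
  [MeasurableSpace M] {ι : Type} [Fintype ι]
  {U V W X : Type} [NormedAddCommGroup U] [InnerProductSpace ℝ U] [FiniteDimensional ℝ U]
  [NormedAddCommGroup V] [InnerProductSpace ℝ V] [FiniteDimensional ℝ V]
  [NormedAddCommGroup W] [InnerProductSpace ℝ W] [FiniteDimensional ℝ W]
  [NormedAddCommGroup X] [InnerProductSpace ℝ X] [FiniteDimensional ℝ X]
  [T2Space M] [BorelSpace M] [SecondCountableTopology M] [CompactSpace M]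
  {F : Fr I M ι} {p : M → V →L[ℝ] V} {q : M → W →L[ℝ] W} {k j l : ℕ} {J : Type}

/-- operators with values in a trivial bundle -/
abbrev Ot (p : M → V →L[ℝ] V) (σ : ι → M → V →L[ℝ] U) (B : M → V →L[ℝ] U) : Op M ι V U :=
  ⟨p, triv M U, σ, B⟩

/-- a smooth function as a section -/
abbrev sT {u : M → U} (h : Sm I u) : Sec I (triv M U) := ⟨u, mem_triv h hcs⟩

theorem fg_toH (u : Sec I p) : fg F.toPre k p (F.toH k p u) = F.toH k _ (sT u.2.1) :=
  RepT_toH' rep_fg u _ rfl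

theorem incl_fg (h : j ≤ k) (x : F.H k p) :
    F.incl k j _ (fg F.toPre k p x) = fg F.toPre j p (F.incl k j p x) :=
  Rep_incl rep_fg rep_fg h h x

theorem mulH_toH {f : M → V →L[ℝ] U} (hf : Sm I f) (u : Sec I p) :
    F.mulH k p (triv M U) f (F.toH k p u) = F.toH k _ (sT (hf.clm_apply u.2.1)) :=
  RepT_toH' (rep_mulH (Cb_of_compact hf) (Maps.triv f)) u _ rfl

theorem nrm0_sup (F : Pre I M ι) {β : M → V →L[ℝ] W →L[ℝ] U} (hβ : Sm I β) (S : ℝ) :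
    ∃ K, ∀ (u : M → V) (v : M → W), Sm I u → (∀ x, ‖v x‖ ≤ S) →
      F.nrm 0 (fun x => β x (u x) (v x)) ≤ K * F.nrm 0 u :=
  let ⟨B, b0, hB⟩ := sup_of hβ.continuous
  ⟨B * |S|, fun u v hu hv => nrm0_le F hu.continuous (by positivity) fun x =>
    ((β x).le_opNorm₂ _ _).trans <| by
      rw [mul_right_comm]
      gcongr
      exacts [hB x, (hv x).trans (le_abs_self S)]⟩

theorem nrm1_sup (F : Pre I M ι) {β : M → W →L[ℝ] W →L[ℝ] U} (hβ : Sm I β) (S : ℝ) :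
    ∃ K, ∀ u, Sm I u → (∀ x, ‖u x‖ ≤ S) →
      F.nrm 1 (fun x => β x (u x) (u x)) ≤ K * F.nrm 1 u := by
  obtain ⟨C, -, hC⟩ := Cb_of_compact (F := F) hβ
  let B := ContinuousLinearMap.id ℝ (W →L[ℝ] U)
  refine ⟨√((2 * Fintype.card ι + 3) ^ 1 * ‖B‖ ^ 2 * ((|C 1| * S) ^ 2 + S ^ 2 *
    (cK ι 1 * |C 1|) ^ 2)), fun u hu h => nrm_le_of_sq (mul_nonneg (by positivity)
    (nrm_nonneg _ _)) ((n2_bil F.sm B (A := |C 1| * S) 1 1 1 rfl (hβ.clm_apply hu) hu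
      ⟨fun x => ((β x).le_opNorm _).trans (mul_le_mul (CB_bound (CB_abs (hC 1)) x) (h x)
        (norm_nonneg _) (abs_nonneg _)), fun _ => trivial⟩ ⟨h, fun _ => trivial⟩
      (fun _ => FL_of_hcs 1 (hβ.clm_apply hu) hcs) fun _ => FL_of_hcs 1 hu hcs).2.trans ?_)⟩
  rw [mul_pow _ (F.nrm 1 u), Real.sq_sqrt (by positivity), nrm_sq, mul_assoc _ _ (N2 ..), add_mul,
    mul_assoc (S ^ 2)]
  gcongr
  exact N2_app hβ hu (hC 1) (FL_of_hcs 1 hu hcs)

theorem conv_all {𝒰 : Ultrafilter J} {u : J → Sec I p} {v : Sec I p}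
    (h : Tendsto (fun i => F.toH 1 p (u i)) 𝒰 (𝓝 (F.toH 1 p v)))
    (hb : Bn 𝒰 fun i => F.toH (k + 1) p (u i)) :
    Tendsto (fun i => F.toH k p (u i)) 𝒰 (𝓝 (F.toH k p v)) := by
  obtain ⟨z, hz⟩ := hb.cpt (Cht98.rellich k.lt_succ_self)
  have a := ((F.incl k 0 p).continuous.tendsto z).comp hz
  have b := ((F.incl 1 0 p).continuous.tendsto _).comp h
  simp only [comp_def, incl_toH k.le_succ, incl_toH k.zero_le, incl_toH zero_le_one] at hz a b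
  rwa [← incl_injective k.zero_le ((tendsto_nhds_unique a b).trans (incl_toH k.zero_le v).symm)]

variable (hn : finrank ℝ E ≤ 3) {C C₁ C₂ : ℕ → ℝ}
include hn

theorem eqH {r : M → X →L[ℝ] X} {σ : ι → M → X →L[ℝ] U} {B : M → X →L[ℝ] U}
    (hA : (Ot r σ B).Good F C) {β : M → V →L[ℝ] W →L[ℝ] U} (hβ : Sm I β) {u : Sec I r}
    {x : Sec I p} {y : Sec I q} {g : Sec I (triv M U)}
    (e : ∀ z, (Ot r σ B).app F u.1 z = β z (x.1 z) (y.1 z) + g.1 z) (h : Lv k j l) :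
    (Ot r σ B).H F l (F.toH (l + 1) r u) =
      F.bilH k j p q (triv M U) l β (F.toH k p x) (F.toH j q y) + F.toH l _ g := by
  rw [bil3_toH hn h hβ, ← map_add]
  exact (H_toH hA l u).trans (congrArg _ (Subtype.ext (funext e)))

variable {σ₁ : ι → M → V →L[ℝ] U} {B₁ : M → V →L[ℝ] U} {σ₂ : ι → M → W →L[ℝ] W}
  {B₂ : M → W →L[ℝ] W} {β₁ : M → W →L[ℝ] W →L[ℝ] U} {β₂ : M → V →L[ℝ] W →L[ℝ] W}
  (hF : F.Tame C) (g1 : (Ot p σ₁ B₁).Good F C₁) (c1 : (Ot p σ₁ B₁).CliffL F)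
  (g2 : (Ot q σ₂ B₂).Good F C₂) (c2 : (Ot q σ₂ B₂).CliffL F) (s1 : Sm I β₁) (s2 : Sm I β₂)
include hF g1 c1 g2 c2 s1 s2

/-- regularity -/
theorem ps_reg {x : F.H 1 p} {y : F.H 1 q} {g : Sec I (triv M U)} {r : ℝ} {x' : F.H 2 p}
    (hx : F.incl 2 1 p x' = x)
    (e1 : (Ot p σ₁ B₁).H F 0 x = F.bilH 1 1 q q (triv M U) 0 β₁ y y + F.toH 0 _ g)
    (e2 : (Ot q σ₂ B₂).H F 0 y = F.bilH 1 1 p q (triv M W) 0 β₂ x y +
      r • fg F.toPre 0 q (F.incl 1 0 q y)) :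
    (∃ a, F.toH 1 p a = x) ∧ ∃ b, F.toH 1 q b = y := by
  have h : ∀ k, ∃ (x' : F.H (k + 2) p) (y' : F.H (k + 1) q),
      F.incl _ 1 p x' = x ∧ F.incl _ 1 q y' = y := fun k => by
    induction k with
    | zero => exact ⟨x', y, hx, incl_self y⟩
    | succ k ih =>
      obtain ⟨x', y', rfl, rfl⟩ := ih
      obtain ⟨y'', h2, -⟩ := reg_up hF g2 c2 (k + 1).zero_le (w := F.bilH _ _ p q _ _ β₂ x' y' +
        r • fg F.toPre _ q y') (e2.trans (by
          rw [map_add, map_smul, incl_fg (by omega), incl_incl (by omega) (by omega), incl_bil3 hn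
            (k' := 1) (j' := 1) (by simp [Lv]; omega) (by simp [Lv]) (by omega) (by omega)
            (by omega) s2]))
      obtain ⟨x'', h1, -⟩ := reg_up hF g1 c1 (k + 2).zero_le (w := F.bilH _ _ q q _ _ β₁ y'' y'' +
        F.toH _ _ g) (e1.trans (by
          rw [map_add, incl_toH (by omega), incl_bil3 hn (k' := 1) (j' := 1) (by simp [Lv])
            (by simp [Lv]) (by omega) (by omega) (by omega) s1]
          exact congrArg (fun z => F.bilH 1 1 q q _ 0 β₁ z z + _) h2.symm))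
      exact ⟨x'', y'', h1, h2⟩
  refine ⟨sec_of_all hF fun j hj => ?_, sec_of_all hF fun j hj => ?_⟩ <;>
    obtain ⟨x', y', h1, h2⟩ := h j
  exacts [⟨F.incl _ _ _ x', (incl_incl (by omega) hj _).trans h1⟩,
    ⟨F.incl _ _ _ y', (incl_incl (by omega) hj _).trans h2⟩]

/-- **compactness** -/
theorem ps_core (𝒰 : Ultrafilter J) {a : J → Sec I p} {Φ : J → Sec I q} {g : J → Sec I (triv M U)}
    {h : J → Sec I (triv M W)} {r : J → ℝ} {S K r₀ : ℝ} {g₀ : Sec I (triv M U)}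
    (e1 : ∀ i z, (Ot p σ₁ B₁).app F (a i).1 z = β₁ z ((Φ i).1 z) ((Φ i).1 z) + (g i).1 z)
    (e2 : ∀ i z, (Ot q σ₂ B₂).app F (Φ i).1 z =
      β₂ z ((a i).1 z) ((Φ i).1 z) + (r i • sT (Φ i).2.1 + h i).1 z)
    (hs : ∀ i z, ‖(Φ i).1 z‖ ≤ S)
    (hb : ∀ i, F.nrm 1 (a i).1 ≤ K * (1 + F.nrm 0 ((Ot p σ₁ B₁).app F (a i).1)))
    (hg : Tendsto (fun i => F.toH 0 _ (g i)) 𝒰 (𝓝 (F.toH 0 _ g₀)))
    (hh : Tendsto (fun i => F.toH 0 _ (h i)) 𝒰 (𝓝 0)) (hr : Tendsto r 𝒰 (𝓝 r₀)) :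
    ∃ (a₀ : Sec I p) (Φ₀ : Sec I q), Tendsto (fun i => F.toH 1 p (a i)) 𝒰 (𝓝 (F.toH 1 p a₀)) ∧
      Tendsto (fun i => F.toH 1 q (Φ i)) 𝒰 (𝓝 (F.toH 1 q Φ₀)) ∧
      ((∀ k, Bn 𝒰 fun i => F.toH k _ (g i)) → (∀ i, h i = 0) → ∀ k,
        Tendsto (fun i => F.toH k p (a i)) 𝒰 (𝓝 (F.toH k p a₀)) ∧
        Tendsto (fun i => F.toH k q (Φ i)) 𝒰 (𝓝 (F.toH k q Φ₀))) := by
  choose K₁ G₁ using gard hF g1 c1
  choose K₂ G₂ using gard hF g2 c2
  let w : J → Sec I (triv M U) := fun i => sT ((s1.clm_apply (Φ i).2.1).clm_apply (Φ i).2.1)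
  have L0 : Lv 1 1 0 := by simp [Lv]
  have E1 : ∀ l i, (Ot p σ₁ B₁).H F l (F.toH (l + 1) p (a i)) = F.toH l _ (w i) + F.toH l _ (g i) :=
    fun l i => (H_toH g1 l _).trans ((congrArg _ (Subtype.ext (funext (e1 i)))).trans
      (map_add _ (w i) (g i)))
  have E2 := fun {k j l} (h : Lv k j l) i => eqH hn g2 s2 (e2 i) h
  simp only [map_add, map_smul, ← fg_toH] at E2
  have P0 : Bn 𝒰 fun i => F.toH 0 q (Φ i) := Bn.le' (isBigO_refl (fun _ => (1 : ℝ)) _)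
    (K := |S| * F.nrm 0 fun _ => (1 : ℝ)) fun i => by
      rw [norm_toH, norm_one, mul_one]
      exact nrm0_le _ continuous_const (abs_nonneg S) fun x => by
        simpa using (hs i x).trans (le_abs_self S)
  obtain ⟨T, hT⟩ := nrm0_sup F.toPre s1 S
  have w0 : Bn 𝒰 fun i => F.toH 0 _ (w i) := P0.le' fun i => by
    rw [norm_toH, norm_toH]; exact hT _ _ (Φ i).2.1 (hs i)
  have a1 : Bn 𝒰 fun i => F.toH 1 p (a i) := Bn.le (w0.add (hg.isBigO_one ℝ)) (K := K) fun i => by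
    rw [← E1, H_toH g1, norm_toH, norm_toH]; exact hb i
  have a0 : ∀ k, Bn 𝒰 fun i => F.incl k 0 p (F.toH k p (a i)) := fun k => by
    simpa only [incl_toH (Nat.zero_le _)] using a1.clm (F.incl 1 0 p)
  have P0' : ∀ k, Bn 𝒰 fun i => F.incl k 0 q (F.toH k q (Φ i)) := fun k => by
    simpa only [incl_toH (Nat.zero_le _)] using P0
  obtain ⟨T', hT'⟩ := nrm0_sup F.toPre s2 S
  have P1 : Bn 𝒰 fun i => F.toH 1 q (Φ i) := Bn.est (G₂ 0) (by
    simp only [E2 L0]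
    refine IsBigO.add ((a0 1).le' (K := T') fun i => ?_)
      ((Bn.smul (hr.isBigO_one ℝ) (P0.clm _)).add (hh.isBigO_one ℝ))
    rw [bil3_toH hn L0 s2, incl_toH zero_le_one, norm_toH, norm_toH]
    exact hT' _ _ (a i).2.1 (hs i)) (P0' 1)
  obtain ⟨T₁, hT₁⟩ := nrm1_sup F.toPre s1 S
  have w1 : Bn 𝒰 fun i => F.toH 1 _ (w i) := P1.le' fun i => by
    rw [norm_toH, norm_toH]; exact hT₁ _ (Φ i).2.1 (hs i)
  obtain ⟨w₀, hw⟩ := w1.cpt (Cht98.rellich zero_lt_one)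
  obtain ⟨α, hα⟩ := a1.cpt (Cht98.rellich zero_lt_one)
  obtain ⟨φ, hφ⟩ := P1.cpt (Cht98.rellich zero_lt_one)
  obtain ⟨R, hR⟩ := w1.bound
  obtain ⟨z, -, hz⟩ := exists_weak_lim hR
  obtain rfl := hz _ _ hw
  have t1 := hw.add hg
  simp only [incl_toH zero_le_one, ← E1] at t1
  obtain ⟨x, hx⟩ := conv_est (G₁ 0) t1 hα
  have cx := fun {Z : Type} [NormedAddCommGroup Z] [NormedSpace ℝ Z] (L : F.H 1 p →L[ℝ] Z) =>
    (L.continuous.tendsto x).comp hx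
  obtain ⟨x', hx', -⟩ := reg_up hF g1 c1 zero_le_one (w := z + F.toH 1 _ g₀)
    ((tendsto_nhds_unique (cx _) t1).trans (by rw [map_add, incl_toH zero_le_one]))
  have t2 := (Bn.zero (F.bilH 1 1 p q (triv M W) 0 β₂) (tendsto_sub_nhds_zero_iff.2 hx) P1).add
    (((F.bilH 2 0 p q (triv M W) 0 β₂ x').continuous.tendsto φ).comp hφ)
  have e3 : ∀ y, F.bilH 2 0 p q (triv M W) 0 β₂ x' (F.incl 1 0 q y) =
      F.bilH 1 1 p q (triv M W) 0 β₂ x y := fun y => by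
    have L1 : Lv 2 1 0 := by simp [Lv]
    have := (incl_bil3 hn L1 (by simp [Lv]) le_rfl zero_le_one le_rfl s2 x' y).symm.trans
      (incl_bil3 hn L1 L0 one_le_two le_rfl le_rfl s2 x' y)
    rwa [incl_self, incl_self, show F.incl 2 1 p x' = x from hx'] at this
  simp only [comp_def, e3, map_sub, sub_apply, sub_add_cancel] at t2
  have t3 := t2.add ((hr.smul (((fg F.toPre 0 q).continuous.tendsto φ).comp hφ)).add hh)
  simp only [comp_def, incl_toH zero_le_one, ← E2 L0] at t3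
  obtain ⟨y, hy⟩ := conv_est (G₂ 0) t3 hφ
  have cy := fun {Z : Type} [NormedAddCommGroup Z] [NormedSpace ℝ Z] (L : F.H 1 q →L[ℝ] Z) =>
    (L.continuous.tendsto y).comp hy
  obtain rfl := tendsto_nhds_unique (cy _) hφ
  obtain ⟨⟨a₀, rfl⟩, Φ₀, rfl⟩ := ps_reg hn hF g1 c1 g2 c2 s1 s2 (g := g₀) (r := r₀) (y := y) hx'
    (tendsto_nhds_unique (cx _) (by
      simp only [comp_def, fun i => eqH hn g1 s1 (e1 i) L0]
      exact ((F.bilH 1 1 q q _ 0 β₁).continuous₂.tendsto (y, y)).comp (hy.prodMk_nhds hy) |>.add hg))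
    ((tendsto_nhds_unique (cy _) t3).trans (by rw [e3, zero_add, add_zero]))
  refine ⟨a₀, Φ₀, hx, hy, fun gk h0 k => ?_⟩
  have b : ∀ k, (Bn 𝒰 fun i => F.toH (k + 2) p (a i)) ∧ Bn 𝒰 fun i => F.toH (k + 1) q (Φ i) := by
    intro k
    induction k with
    | zero => exact ⟨Bn.est (G₁ 1) (by simpa only [E1] using w1.add (gk 1)) (a0 _), P1⟩
    | succ k ih =>
      have b2 : Bn 𝒰 fun i => F.toH (k + 2) q (Φ i) := Bn.est (G₂ (k + 1)) (by
        simp only [E2 (k := k + 2) (j := k + 1) (l := k + 1) (by simp [Lv]; omega), h0, map_zero,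
          add_zero]
        exact (Bn.bil _ ih.1 ih.2).add (Bn.smul (hr.isBigO_one ℝ) (ih.2.clm _))) (P0' _)
      refine ⟨Bn.est (G₁ (k + 2)) ?_ (a0 _), b2⟩
      simp only [fun i => eqH hn g1 s1 (e1 i) (k := k + 2) (j := k + 2) (l := k + 2)
        (by simp [Lv])]
      exact (Bn.bil _ b2 b2).add (gk _)
  refine ⟨conv_all hx ?_, conv_all hy (b k).2⟩
  simpa only [incl_toH (Nat.le_succ _)] using (b k).1.clm (F.incl (k + 2) (k + 1) p)

end Crest.Agent.X212.Cyl58
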