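import Crest.Agent.X212.Cyl58.PsW
import Crest.Agent.X212.Cyl58.PsB

/-! # Row 212, SW-PSY (helper58): the gradient on Sobolev spaces, the Palais-Smale condition -/

set_option autoImplicit false
set_option linter.unusedSectionVars false
noncomputable section
open scoped Manifold ContDiff Topology InnerProductSpace
open MeasureTheory Set Function Filter Module Asymptotics ContinuousLinearMap

namespace Crest.Agent.X212.Cyl58
open An An.Pre Sob92 Ell97 Rdc90 Sw Sw.En3 Sep15.S Cyf70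
open Wz78 (SA)
open Map77 (P2 f2 s2 i1 i2 tp cut)

theorem sq_zero {J X : Type} [NormedAddCommGroup X] {l : Filter J} {x : J → X} {f : J → ℝ} {c : ℝ}
    (hc : 0 < c) (h : ∀ i, c * ‖x i‖ ^ 2 ≤ f i) (hf : Tendsto f l (𝓝 0)) : Tendsto x l (𝓝 0) :=
  squeeze_zero_norm (fun i => Real.le_sqrt_of_sq_le ((le_div_iff₀' hc).2 (h i)))
    (by simpa using (hf.div_const c).sqrt)

variable {κ lam ν : Type} [Fintype κ] [Fintype lam] [Fintype ν] [DecidableEq ν] (e : En3 κ lam ν)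

/-- positive spinors -/
abbrev pY (y : e.Y.M) : Eu ν →L[ℝ] Eu ν := e.cyl.pp (y, 0)

/-- the Dirac operator of the cross-section -/
def A2' : Op e.Y.M κ (Eu ν) (Eu ν) := cut e.D.F.toPre (pY e) (triv _ _)
  (fun k y => -(e.m.ρ none y * e.m.ρ (some k) y))
  fun y => -(e.m.ρ none y * (∑ k, e.m.ρ (some k) y * e.A k y + e.m.ρ none y * e.h y))

/-- the same, with reducible bundles -/
abbrev A2 : Op e.Y.M κ (Eu ν) (Eu ν) := Ot (pY e) (A2' e).σ (A2' e).B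

/-- Clifford multiplication -/
def β2 (y : e.Y.M) : Fm κ ℝ →L[ℝ] Eu ν →L[ℝ] Eu ν :=
  ∑ k, smulRightL ℝ _ _ (Map77.pj ℝ k) (e.m.ρ none y * (e.m.ρ (some k) y * e.m.J))

/-- the mixed components of a two-form -/
def πL : F2 κ →L[ℝ] Fm κ ℝ := tp fun k => (2 : ℝ) • Map77.pj ℝ (none, some k)

/-- a bilinear form from an endomorphism -/
def QL (s : Option κ × Option κ) : En ν →L[ℝ] Eu ν →L[ℝ] Eu ν →L[ℝ] F2 κ :=
  (compL ℝ _ (Eu ν) _ ∘L compL ℝ (Eu ν) ℝ _ (Map77.ij ℝ s) ∘L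
    (innerSL ℝ : Eu ν →L[ℝ] Eu ν →L[ℝ] ℝ)).flip

/-- the moment map -/
def β1 (y : e.Y.M) : Eu ν →L[ℝ] Eu ν →L[ℝ] Fm κ ℝ := compL ℝ _ _ _ (πL ∘L e.cyl.p2 (y, 0)) ∘L
  ∑ s, QL s ((-e.w / 8) • (e.m.J * (e.m.ρ s.1 y * e.m.ρ s.2 y)))

/-- the Hodge star -/
def Λ0 (y : e.Y.M) : P2 ℝ (Fm (κ × κ) ℝ) →L[ℝ] Fm κ ℝ :=
  tp fun k => ∑ s, (o3 e k s.1 s.2 y * (√2 / 2)) • (Map77.pj ℝ s ∘L s2 _ _)

/-- its inverse -/
def Λ1 (y : e.Y.M) : Fm κ ℝ →L[ℝ] P2 ℝ (Fm (κ × κ) ℝ) :=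
  i2 _ _ ∘L tp fun s => ∑ k, ((√2)⁻¹ * o3 e k s.1 s.2 y) • Map77.pj ℝ k

/-- the Sobolev space of configurations -/
abbrev HC : Type := e.D.F.H 1 (P1 e.D.F) × e.D.F.H 1 (pY e)

variable {e} {u v v' : e.YC}

/-- smooth tangent vectors -/
def Smv (v : e.YC) : Prop := (∀ k, Sm e.Y.I (v.a k)) ∧ Sm e.Y.I v.Φ

/-- the one-form -/
def Smv.a (h : Smv v) : Sec e.Y.I (triv e.Y.M (Fm κ ℝ)) :=
  sT (u := fun y => WithLp.toLp 2 fun k => v.a k y) fun y => sa_lp fun k => h.1 k y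

/-- the spinor of a configuration -/
def sp (hv : e.cyl.Adm (fz v)) : Sec e.Y.I (pY e) := ⟨v.Φ, sm_Φ hv, hcs, fun y => hv.pΦ (y, 0)⟩

/-- the point of the Sobolev space -/
def zH (hv : e.cyl.Adm (fz v)) : HC e := (e.D.F.toH 1 _ (sa hv), e.D.F.toH 1 _ (sp hv))

theorem ip_H (hu : Smv u) (hv : Smv v) : En3.ip u v =
    2 * ⟪e.D.F.toH 0 _ hu.a, e.D.F.toH 0 _ hv.a⟫_ℝ +
      e.w * ⟪e.D.F.toH 0 _ (sT hu.2), e.D.F.toH 0 _ (sT hv.2)⟫_ℝ := by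
  rw [inner_toH, inner_toH, Pre.ip, Pre.ip, ← integral_const_mul, ← integral_const_mul,
    ← integral_add ((e.D.F.integrable_inner hu.a.2.1.continuous hcs hv.a.2.1.continuous).const_mul _)
      ((e.D.F.integrable_inner hu.2.continuous hcs hv.2.continuous).const_mul _)]
  simp [En3.ip, Smv.a, PiLp.inner_apply, mul_comm]

theorem adm_smul (hv : e.cyl.Adm (fz v)) (r : ℝ) : e.cyl.Adm (fz (v.smul r)) :=
  adm_fz (fun k y => SA.mul contMDiffAt_const (sm_a hv k y))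
    (fun y => SA.smul contMDiffAt_const (sm_Φ hv y))
    (fun k y => by simp only [YC.smul, mul_left_comm _ r, ← Finset.mul_sum, a_P hv])
    fun y => (map_smul ..).trans (congrArg _ (hv.pΦ (y, 0)))

theorem zH_smul (hv : e.cyl.Adm (fz v)) (r : ℝ) : zH (adm_smul hv r) = r • zH hv :=
  Prod.ext (map_smul (e.D.F.toH 1 _) r (sa hv)) (map_smul (e.D.F.toH 1 _) r (sp hv))

theorem dist_le (hv : e.cyl.Adm (fz v)) (hv' : e.cyl.Adm (fz v')) (k : ℕ) : En3.dist k v v' ≤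
    Fintype.card κ * ‖e.D.F.toH k _ (sa hv) - e.D.F.toH k _ (sa hv')‖ +
      ‖e.D.F.toH k _ (sp hv) - e.D.F.toH k _ (sp hv')‖ := by
  rw [← map_sub, ← map_sub, norm_toH, norm_toH, ← nsmul_eq_mul, ← Finset.card_univ]
  exact add_le_add (Finset.sum_le_card_nsmul _ _ _ fun i _ =>
    nrm_pj _ k (sa hv - sa hv').2.1 i) le_rfl

variable (H : e.OK)
include H

theorem smY_ρ (i : Option κ) : Sm e.Y.I (e.m.ρ i) := sm_slice_fst (H.cyl.cc.sρ i) 0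

theorem good2 {C : ℕ → ℝ} (hF : e.D.F.Tame C) : ∃ C', (A2 e).Good e.D.F C' := by
  have sp : Sm e.Y.I (pY e) := sm_slice_fst (sa_pp H.cyl) 0
  have sσ : ∀ k, Sm e.Y.I fun y => -(e.m.ρ none y * e.m.ρ (some k) y) := fun k y =>
    (SA.mul (smY_ρ H _ y) (smY_ρ H _ y)).neg
  obtain ⟨C', -, h⟩ := Map77.good_of (A := A2' e) hF (Cb_of_compact sp) (Cb_const _)
    (fun k => Cb_of_compact (contMDiff_const.clm_comp ((sσ k).clm_comp sp)))
    (Cb_of_compact (contMDiff_const.clm_comp fun y => (SA.mul (smY_ρ H _ y) ((SA.sum _ fun k _ =>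
      SA.mul (smY_ρ H _ y) (sm_slice_fst (H.cyl.cc.sm (some k)) 0 y)).add
      (sm_slice_fst H.cyl.cms.choose_spec.1 0 y))).neg.add (SA.sum _ fun k _ =>
        (sσ k y).clm_comp (e.D.F.sm_D sp k y))))
    (Map77.Alg.cut _ ⟨fun y w => congrArg (· w) (p8 H.cyl (y, 0)).pp_pp,
      fun y => (p8 H.cyl (y, 0)).pp_s⟩ ⟨fun _ _ => rfl, fun _ _ _ => rfl⟩ fun k y => by
      have := (p8 H.cyl (y, 0)).cl.proj (some k)
      simp only [Fintype.sum_option, En3.cyl, Nd18.YD.B, cP, zero_smul, zero_add] at this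
      simp only [smul_neg, ← mul_smul_comm, Finset.sum_neg_distrib, ← Finset.mul_sum, this])
  exact ⟨C', h⟩

theorem cliff2 : (A2 e).CliffL e.D.F := fun a b y w w' => by
  have P := p8 H.cyl (y, 0)
  have h0 : ∀ a b x x', ⟪e.m.ρ none y (e.m.ρ a y x), e.m.ρ none y (e.m.ρ b y x')⟫_ℝ =
      -⟪x, e.m.ρ a y (e.m.ρ b y x')⟫_ℝ := fun a b x x' => by
    have h1 : e.m.ρ none y (e.m.ρ none y (e.m.ρ b y x')) = -e.m.ρ none y (e.m.ρ none y _) -
      (2 * 1 : ℝ) • e.m.p y (e.m.ρ b y x') := P.rel none none _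
    rw [show e.m.p y (e.m.ρ b y x') = e.m.ρ b y x' from congrArg (· x') (P.cl.pl b)] at h1
    have h2 := congrArg (⟪e.m.ρ a y x, ·⟫_ℝ) h1
    simp only [inner_sub_right, inner_neg_right, real_inner_smul_right] at h2
    linarith [show ⟪e.m.ρ none y (e.m.ρ a y x), e.m.ρ none y (e.m.ρ b y x')⟫_ℝ =
      -⟪_, e.m.ρ none y _⟫_ℝ from P.ρs .., show ⟪e.m.ρ a y x, e.m.ρ b y x'⟫_ℝ =
      -⟪_, e.m.ρ a y _⟫_ℝ from P.ρs ..]
  have h3 : e.m.ρ (some a) y (e.m.ρ (some b) y (pY e y w')) = -e.m.ρ (some b) y (e.m.ρ (some a) y _)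
    - (2 * e.D.F.P a b y) • e.m.p y (pY e y w') := P.rel (some a) (some b) _
  have h4 : ⟪pY e y w, e.m.p y (pY e y w')⟫_ℝ = ⟪pY e y w, w'⟫_ℝ := by
    rw [show e.m.p y (pY e y w') = pY e y w' from congrArg (· w') P.p_pp]
    exact (P.pp_s ..).symm.trans (congrArg (⟪·, w'⟫_ℝ) (congrArg (· w) P.pp_pp))
  show ⟪-e.m.ρ _ y (e.m.ρ _ y (pY e y w)), -e.m.ρ _ y (e.m.ρ _ y (pY e y w'))⟫_ℝ +
    ⟪-e.m.ρ _ y (e.m.ρ _ y (pY e y w)), -e.m.ρ _ y (e.m.ρ _ y (pY e y w'))⟫_ℝ = _ * ⟪pY e y w, _⟫_ℝ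
  rw [inner_neg_neg, inner_neg_neg, h0, h0, h3, inner_sub_right, inner_neg_right,
    real_inner_smul_right, h4]
  ring

theorem sm_β2 : Sm e.Y.I (β2 e) := fun y => SA.sum _ fun _ _ =>
  SA.clm _ (SA.mul (smY_ρ H _ y) (SA.mul (smY_ρ H _ y) contMDiffAt_const))

theorem sm_p2 : Sm e.Y.I fun y => e.cyl.p2 (y, 0) := sm_tp fun s y => SA.sum _ fun t _ =>
  SA.smul (sm_slice_fst (sa_sd H.cyl s t) 0 y) contMDiffAt_const

theorem sm_β1 : Sm e.Y.I (β1 e) := fun y =>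
  (SA.clm _ (contMDiffAt_const.clm_comp (sm_p2 H y))).clm_comp (SA.sum _ fun _ _ => SA.clm _
    (SA.smul contMDiffAt_const (SA.mul contMDiffAt_const (SA.mul (smY_ρ H _ y) (smY_ρ H _ y)))))

theorem sm_Λ0 : Sm e.Y.I (Λ0 e) := sm_tp fun _ y => SA.sum _ fun _ _ =>
  SA.smul (SA.mul (sm_o3 H _ _ _ y) contMDiffAt_const) contMDiffAt_const

theorem sm_Λ1 : Sm e.Y.I (Λ1 e) := contMDiff_const.clm_comp <| sm_tp fun _ y => SA.sum _ fun _ _ =>
  SA.smul (SA.mul contMDiffAt_const (sm_o3 H _ _ _ y)) contMDiffAt_const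

/-- the constant term -/
def c0 : Sec e.Y.I (triv e.Y.M (Fm κ ℝ)) := sT (u := fun y => πL (e.cyl.p2 (y, 0) (fc0 e y) - e.om y))
  fun y => SA.clm _ ((SA.app (sm_p2 H y) (sm_fc0 H y)).sub
    (sm_slice_fst H.cyl.com.choose_spec.1 0 y))

/-- the holonomy term -/
def c1 : Sec e.Y.I (triv e.Y.M (Fm κ ℝ)) := sT (u := fun y => πL (e.ζ y)) fun y => SA.clm _ (H.sζ y)

/-- the first component of the gradient -/
def GA (z : HC e) : e.D.F.H 0 (triv e.Y.M (Fm κ ℝ)) :=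
  e.D.F.mulH 0 _ _ (Λ0 e) ((A1 e.D.F).H e.D.F 0 z.1) + e.D.F.bilH 1 1 _ _ _ 0 (β1 e) z.2 z.2 +
    (e.D.F.toH 0 _ (c0 H) + deriv e.f (2 * ⟪e.D.F.toH 0 _ (c1 H),
      fg _ 0 _ (e.D.F.incl 1 0 _ z.1)⟫_ℝ) • e.D.F.toH 0 _ (c1 H))

omit H in
/-- the second component of the gradient -/
def GP (z : HC e) : e.D.F.H 0 (triv e.Y.M (Eu ν)) :=
  (A2 e).H e.D.F 0 z.2 - (e.D.F.bilH 1 1 _ _ _ 0 (β2 e) z.1 z.2 +
    e.b (‖e.D.F.incl 1 0 _ z.2‖ ^ 2) • fg _ 0 _ (e.D.F.incl 1 0 _ z.2))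

/-- the functional -/
def LH (z : HC e) : ℝ := ∫ r in (0 : ℝ)..1, (2 * ⟪GA H (r • z), fg _ 0 _ (e.D.F.incl 1 0 _ z.1)⟫_ℝ +
  e.w * ⟪GP (r • z), fg _ 0 _ (e.D.F.incl 1 0 _ z.2)⟫_ℝ)

theorem cont_GA : Continuous (GA H) := by
  have := H.sf.continuous_deriv (by simp)
  unfold GA; fun_prop

theorem cont_GP : Continuous (GP (e := e)) := by
  have := H.sb.continuous
  unfold GP; fun_prop

theorem cont_LH : Continuous (LH H) := by
  have := cont_GA H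
  have := cont_GP H
  exact intervalIntegral.continuous_parametric_intervalIntegral_of_continuous' (by fun_prop) _ _

section
variable (hv : e.cyl.Adm (fz v))
include hv

theorem smv_gr : Smv (gr v) := ⟨sm_gr_a H hv, sm_gr_Φ H hv⟩

theorem Λ0_app (y : e.Y.M) (k : κ) : Λ0 e y ((A1 e.D.F).app e.D.F (sa hv).1 y) k =
    (∑ i, ∑ j, o3 e k i j y * da e v.a i j y) / 2 := by
  have : √2 ≠ 0 := by positivity
  simp only [app1, Λ0, PiLp.add_apply, Map77.tp_apply, sum_apply, smul_apply, ContinuousLinearMap.comp_apply, map_add, Map77.s2_i1,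
    Map77.s2_i2, zero_add, Map77.pj_apply, Fintype.sum_prod_type, Finset.sum_div, PiLp.smul_apply,
    smul_eq_mul, PiLp.zero_apply, mul_zero, Finset.sum_const_zero]
  exact Finset.sum_congr rfl fun i _ => Finset.sum_congr rfl fun j _ => by
    show _ * (_ * da e v.a i j y) = _
    field_simp

theorem gr_a' (y : e.Y.M) : (smv_gr H hv).a.1 y = Λ0 e y ((A1 e.D.F).app e.D.F (sa hv).1 y) +
    β1 e y (v.Φ y) (v.Φ y) + ((c0 H).1 y + deriv e.f (hol v) • (c1 H).1 y) := by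
  have q : (∑ s, QL s ((-e.w / 8) • (e.m.J * (e.m.ρ s.1 y * e.m.ρ s.2 y)))) (v.Φ y) (v.Φ y) =
      -(e.w • e.cyl.qd (y, 0) (v.Φ y) (v.Φ y)) := by
    classical
    ext s
    have i : ∀ (p : Prop) [Decidable p] (t : ℝ),
        (if p then ContinuousLinearMap.id ℝ ℝ else 0) t = if p then t else 0 := fun p _ t => by
      split_ifs <;> rfl
    simp [QL, Map77.ij, Bg.qd, En3.cyl, i, real_inner_comm (v.Φ y)]
    rw [innerSL_apply_apply]
    ring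
  ext k
  simp only [Smv.a, gr_a H hv, PiLp.add_apply, Λ0_app H hv, β1, ContinuousLinearMap.comp_apply, compL_apply, q, c0, c1, πL,
    Map77.tp_apply, smul_apply, Map77.pj_apply, map_sub, map_neg, PiLp.sub_apply, PiLp.neg_apply,
    PiLp.smul_apply, smul_eq_mul]
  ring

theorem app_Λ (hd : ∀ y, dvS e.D.F (sa hv).1 y = 0) (y : e.Y.M) :
    (A1 e.D.F).app e.D.F (sa hv).1 y = Λ1 e y (Λ0 e y ((A1 e.D.F).app e.D.F (sa hv).1 y)) := by
  rw [Λ1, ContinuousLinearMap.comp_apply]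
  refine (app1 ..).trans ?_
  rw [hd, map_zero, zero_add]
  congr 1
  ext s
  simp only [Map77.tp_apply, sum_apply, smul_apply, Map77.pj_apply, Λ0_app H hv, smul_eq_mul,
    mul_assoc, ← Finset.mul_sum, o3_inv H (da_anti (a_P hv) · · y)
      (da_P (sm_a hv) (a_P hv) · · y)]
  rfl

theorem gr_P' (y : e.Y.M) : (A2 e).app e.D.F (sp hv).1 y = β2 e y ((sa hv).1 y) (v.Φ y) +
    (e.b (nm v) • v.Φ y + (gr v).Φ y) := by
  refine (Map77.op_cut _ (sm_slice_fst (sa_pp H.cyl) 0) (sm_Φ hv) (sp hv).2.2.2 y).trans ?_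
  simp [gr_P H hv, Pre.op, β2, sa, sec1, Finset.sum_add_distrib]
  abel

omit H in
theorem nm_H : nm v = ‖e.D.F.toH 0 _ (sp hv)‖ ^ 2 := by rw [norm_toH, nrm_sq]; rfl

theorem hol_H : hol v = 2 * ⟪e.D.F.toH 0 _ (c1 H), e.D.F.toH 0 _ (sT (sa hv).2.1)⟫_ℝ := by
  rw [inner_toH, Pre.ip, ← integral_const_mul]
  simp only [hol, c1, πL, sa, sec1, PiLp.inner_apply, Finset.mul_sum, Map77.tp_apply]
  exact congrArg _ (funext fun _ => Finset.sum_congr rfl fun _ _ => by simp; ring)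

theorem GA_zH : GA H (zH hv) = e.D.F.toH 0 _ (smv_gr H hv).a := by
  obtain ⟨C, hF⟩ := tame3 e
  obtain ⟨C', hA⟩ := good1 _ hF
  simp only [GA, zH, incl_toH zero_le_one, fg_toH, ← hol_H H hv,
    bil3_toH e.Y.dim.le (by simp [Lv] : Lv 1 1 0) (sm_β1 H)]
  rw [show (A1 e.D.F).H e.D.F 0 _ = e.D.F.toH 0 (triv _ _) _ from H_toH hA 0 (sa hv),
    mulH_toH (f := Λ0 e) (sm_Λ0 H), ← map_smul, ← map_add, ← map_add, ← map_add]
  exact congrArg _ (Subtype.ext (funext fun y => (gr_a' H hv y).symm))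

theorem GP_zH : GP (zH hv) = e.D.F.toH 0 _ (sT (smv_gr H hv).2) := by
  obtain ⟨C, hF⟩ := tame3 e
  obtain ⟨C', hA⟩ := good2 H hF
  simp only [GP, zH, incl_toH zero_le_one, fg_toH, ← nm_H hv]
  rw [eqH e.Y.dim.le hA (sm_β2 H) (x := sa hv) (y := sp hv) (g := e.b (nm v) • sT (sm_Φ hv) +
    sT (smv_gr H hv).2) (gr_P' H hv) (by simp [Lv] : Lv 1 1 0), map_add, map_smul, ← add_assoc]
  exact add_sub_cancel_left _ _

theorem L_zH : L v = LH H (zH hv) := by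
  simp only [L, LH, ← zH_smul hv, GA_zH, GP_zH H, fun r => ip_H (smv_gr H (adm_smul hv r))
    (show Smv v from ⟨sm_a hv, sm_Φ hv⟩)]
  simp only [zH, incl_toH zero_le_one, fg_toH]
  rfl

theorem gn_zH : gn v = 2 * ‖GA H (zH hv)‖ ^ 2 + e.w * ‖GP (zH hv)‖ ^ 2 := by
  rw [gn, ip_H (smv_gr H hv) (smv_gr H hv), GA_zH, GP_zH H, real_inner_self_eq_norm_sq,
    real_inner_self_eq_norm_sq]

end

/-- **Palais-Smale** -/
theorem ps (hw : 0 < e.w) (C : ℝ) (ι : Type) (𝒰 : Ultrafilter ι) (v : ι → e.YC)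
    (hv : ∀ i, e.cyl.Adm (fz (v i)) ∧ ∀ y, ‖(v i).Φ y‖ ≤ C)
    (hg : Tendsto (fun i => gn (v i)) 𝒰 (𝓝 0)) :
    ∃ (v₀ : e.YC) (v' : ι → e.YC), Crit v₀ ∧ (∀ i, Eqv (v i) (v' i)) ∧
      Tendsto (fun i => En3.dist 1 (v' i) v₀) 𝒰 (𝓝 0) ∧ Tendsto (fun i => L (v' i)) 𝒰 (𝓝 (L v₀)) ∧
      ((∀ i, Crit (v i)) → ∀ k, Tendsto (fun i => En3.dist k (v' i) v₀) 𝒰 (𝓝 0)) := by
  obtain ⟨C₀, hF⟩ := tame3 e
  obtain ⟨C₁, g1⟩ := good1 _ hF
  obtain ⟨C₂, g2⟩ := good2 H hF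
  obtain ⟨K, -, hK⟩ := wl0 H
  choose v' h hd hb using fun i => hK (v i) (hv i).1
  have a := fun i => eqv_adm H (hv i).1 (h i)
  have hs : ∀ i y, ‖(sp (a i)).1 y‖ ≤ C := fun i y =>
    (eqv_norm H (hv i).1 (h i) y).trans_le ((hv i).2 y)
  simp only [← fun i => eqv_gn H (hv i).1 (h i), fun i => gn_zH H (a i)] at hg
  have t1 := sq_zero two_pos (fun i => le_add_of_nonneg_right (by positivity)) hg
  have t2 := sq_zero hw (fun i => le_add_of_nonneg_left (by positivity)) hg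
  obtain ⟨B, hB⟩ := H.bf 1
  have bs : Bn 𝒰 fun i => deriv e.f (hol (v' i)) :=
    IsBigO.of_bound B (.of_forall fun i => by simpa using hB _)
  obtain ⟨s₀, hs₀⟩ := bs.lim
  obtain ⟨ρ, hρ⟩ := (Bn.le' (y := fun i => ‖e.D.F.toH 0 _ (sp (a i))‖)
    (isBigO_refl (fun _ => (1 : ℝ)) 𝒰) (K := |C| * e.D.F.nrm 0 fun _ => (1 : ℝ)) fun i => by
      rw [norm_norm, norm_toH, norm_one, mul_one]
      exact nrm0_le _ continuous_const (abs_nonneg C) fun x => by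
        simpa using (hs i x).trans (le_abs_self C)).lim
  have hr := (H.sb.continuous.tendsto _).comp (hρ.pow 2)
  simp only [comp_def, ← fun i => nm_H (a i)] at hr
  let m : Sec e.Y.I (triv _ (Fm κ ℝ)) → Sec e.Y.I (triv _ _) := fun u =>
    sT ((sm_Λ1 H).clm_apply u.2.1)
  have hm : ∀ k x s, e.D.F.toH k _ (m (x - (c0 H + s • c1 H))) = e.D.F.mulH k _ _ (Λ1 e)
      (e.D.F.toH k _ x - (e.D.F.toH k _ (c0 H) + s • e.D.F.toH k _ (c1 H))) := fun k x (s : ℝ) => by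
    rw [← map_smul, ← map_add, ← map_sub, mulH_toH (f := Λ1 e) (sm_Λ1 H)]
  obtain ⟨a₀, Φ₀, c1', c2, c3⟩ := ps_core e.Y.dim.le (β₁ := fun y => compL ℝ _ _ _ (-Λ1 e y) ∘L β1 e y)
    hF g1 (cliff1 _) g2 (cliff2 H) (fun y => (SA.clm _ (sm_Λ1 H y).neg).clm_comp (sm_β1 H y))
    (sm_β2 H) 𝒰 (a := fun i => sa (a i)) (Φ := fun i => sp (a i))
    (g := fun i => m ((smv_gr H (a i)).a - (c0 H + deriv e.f (hol (v' i)) • c1 H)))
    (h := fun i => sT (smv_gr H (a i)).2) (g₀ := m (0 - (c0 H + s₀ • c1 H)))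
    (fun i y => (app_Λ H (a i) (hd i) y).trans (by
      simp [m, gr_a' H (a i), sp])) (fun i => gr_P' H (a i)) hs (fun i => hb i 0)
    (by
      simp only [hm, ← fun i => GA_zH H (a i), map_zero]
      exact (ContinuousLinearMap.continuous _).continuousAt.tendsto.comp
        (t1.sub (tendsto_const_nhds.add (hs₀.smul_const _))))
    (by simpa only [GP_zH H] using t2) hr
  have a0 : e.cyl.Adm (fz ⟨fun k y => a₀.1 y k, Φ₀.1⟩) := adm_fz (sm_comp a₀.2.1) Φ₀.2.1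
    (fun k y => (idx_ap ..).symm.trans (congrArg (· k) (a₀.2.2.2 y))) Φ₀.2.2.2
  have z : Tendsto (fun i => zH (a i)) 𝒰 (𝓝 (zH a0)) := c1'.prodMk_nhds c2
  have d : ∀ k, Tendsto (fun i => e.D.F.toH k _ (sa (a i))) 𝒰 (𝓝 (e.D.F.toH k _ a₀)) ∧
      Tendsto (fun i => e.D.F.toH k _ (sp (a i))) 𝒰 (𝓝 (e.D.F.toH k _ Φ₀)) →
      Tendsto (fun i => En3.dist k (v' i) ⟨fun k y => a₀.1 y k, Φ₀.1⟩) 𝒰 (𝓝 0) := fun k c =>
    squeeze_zero (fun i => add_nonneg (Finset.sum_nonneg fun _ _ => nrm_nonneg _ _)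
      (nrm_nonneg _ _)) (fun i => dist_le (a i) a0 k) (by
        have := ((tendsto_iff_norm_sub_tendsto_zero.1 c.1).const_mul (Fintype.card κ : ℝ)).add
          (tendsto_iff_norm_sub_tendsto_zero.1 c.2)
        rw [mul_zero, add_zero] at this
        exact this)
  refine ⟨_, v', ⟨a0, fun k y => ?_, fun y => ?_⟩, h, d 1 ⟨c1', c2⟩, ?_, fun cr k => d k (c3
    (fun k => ?_) (fun i => Subtype.ext (funext (eqv_crit H (h i) (cr i)).2.2)) k)⟩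
  · exact congrArg (·.1 y k) (toH_inj _ 0 _ (((GA_zH H a0).symm.trans (tendsto_nhds_unique
      (((cont_GA H).tendsto _).comp z) t1)).trans (map_zero _).symm))
  · exact congrArg (·.1 y) (toH_inj _ 0 _ (((GP_zH H a0).symm.trans (tendsto_nhds_unique
      (((cont_GP H).tendsto _).comp z) t2)).trans (map_zero _).symm))
  · simpa only [comp_def, ← L_zH] using ((cont_LH H).tendsto _).comp z
  · simp only [hm, show ∀ i, (smv_gr H (a i)).a = 0 from fun i => Subtype.ext (funext fun y =>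
      PiLp.ext fun k => (eqv_crit H (h i) (cr i)).2.1 k y)]
    exact Bn.clm _ ((isBigO_const_one ..).sub ((isBigO_const_one ..).add
      (bs.smul (isBigO_const_one ..))))

omit H in
theorem psyStmt : Sw.PsyStmt κ lam ν :=
  ⟨fun _ H k => let ⟨C, h⟩ := wlD H; ⟨C k, fun v hv => let ⟨v', a, b, c⟩ := h v hv; ⟨v', a, b, c k⟩⟩,
    fun _ H => ps H⟩

end Crest.Agent.X212.Cyl58
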