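import Crest.Agent.X212.Sep15.SwB
import Crest.Agent.X212.Taub88.Pt8
import Crest.Agent.X212.Dfl49.Reg
import Crest.Agent.X212.Rdc90.El

/-! # Row 212, SW-PSY (helper58): gauge transformations, the equations on a cross-section -/

set_option autoImplicit false
set_option linter.unusedSectionVars false
noncomputable section
open scoped Manifold ContDiff Topology InnerProductSpace
open MeasureTheory Set Function Filter Module

namespace Crest.Agent.X212.Cyl58
open An Cyf70 Sw Sw.En3 Sob92 Wz78 Sep15.S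
open Taub88 (P8)

variable {κ lam ν : Type} [Fintype κ] [Fintype lam] [Fintype ν] [DecidableEq ν]

section bg
variable {E : Type} [NormedAddCommGroup E] [NormedSpace ℝ E] [FiniteDimensional ℝ E]
  [MeasurableSpace E] [BorelSpace E]
  {HM : Type} [TopologicalSpace HM] {I : ModelWithCorners ℝ E HM}
  {M : Type} [TopologicalSpace M] [ChartedSpace HM M] [IsManifold I ∞ M] [MeasurableSpace M]

section gau
variable {ι : Type} [Fintype ι] (F : Fr I M ι) {u v : M → ℂ}

/-- the one-form of a circle valued function -/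
def om (u : M → ℂ) (k : ι) (x : M) : ℝ := (star (u x) * F.D k u x).im

theorem mul_star_one {z : ℂ} (h : ‖z‖ = 1) : z * star z = 1 := by
  rw [Complex.star_def, Complex.mul_conj, Complex.normSq_eq_norm_sq, h]; simp

theorem sa_star {x : M} (hu : SA I u x) : SA I (fun y => star (u y)) x :=
  SA.clm Complex.conjCLE.toContinuousLinearMap hu

theorem om_of {k : ι} {x : M} {r : ℝ} (h1 : ‖u x‖ = 1) (h : F.D k u x = r • (Complex.I * u x)) :
    om F u k x = r := by
  rw [om, h, mul_smul_comm, mul_left_comm, mul_comm (star _), mul_star_one h1]; simp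

variable (hu : Gau I u)
include hu

theorem D_gau (k : ι) (x : M) : F.D k u x = om F u k x • (Complex.I * u x) := by
  have h := dv_mul (e := F.e k) (hu.1 x) (sa_star (hu.1 x))
  rw [funext fun y => mul_star_one (hu.2 y), dv_const,
    show dv I (F.e k) (fun y => star (u y)) x = star (F.D k u x) from
      dv_clm Complex.conjCLE.toContinuousLinearMap (SA.md (hu.1 x))] at h
  have h2 := congrArg Complex.re h
  have : star (u x) * F.D k u x = om F u k x • Complex.I := Complex.ext (by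
    simp [Pre.D_def] at h2 ⊢; linarith) (by simp [om])
  rw [← smul_mul_assoc, ← this, mul_right_comm, mul_comm (star _), mul_star_one (hu.2 x), one_mul]

theorem sm_om (k : ι) : Sm I (om F u k) := fun x =>
  SA.clm Complex.imCLM (SA.mul (sa_star (hu.1 x)) (F.sm_D hu.1 k x))

theorem om_P (k : ι) (x : M) : ∑ j, F.P k j x * om F u j x = om F u k x :=
  (om_of F (hu.2 x) (by
    rw [Pre.D_def, ← (frm F).projD]
    simp only [← Pre.D_def, D_gau F hu, smul_smul, Finset.sum_smul])).symm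

theorem d1_om (i j : ι) (x : M) : d1 I F.e F.c (om F u) i j x = 0 := by
  have h := (frm F).brV i j (hu.1 x)
  have e : ∀ i j, dv I (F.e i) (dv I (F.e j) u) x = dv I (F.e i) (om F u j) x • (Complex.I * u x) +
      om F u j x • (Complex.I * (om F u i x • (Complex.I * u x))) := fun i j => by
    rw [show dv I (F.e j) u = _ from funext (D_gau F hu j), dv_smul (SA.md (sm_om F hu j x))
      (SA.md (SA.mul contMDiffAt_const (hu.1 x))), ← D_gau F hu i x]
    exact congrArg (_ + _ • ·) (dv_clm (ContinuousLinearMap.mul ℝ ℂ Complex.I) (SA.md (hu.1 x)))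
  have e2 : ∀ k, dv I (F.e k) u x = _ := fun k => D_gau F hu k x
  simp only [e, e2, smul_smul, ← Finset.sum_smul, mul_smul_comm, mul_comm (om F u i x)] at h
  have h0 : Complex.I * u x ≠ 0 := mul_ne_zero Complex.I_ne_zero fun h => by
    simpa [h] using hu.2 x
  refine (smul_eq_zero.1 (?_ : _ • (Complex.I * u x) = 0)).resolve_right h0
  simp only [d1, sub_smul, smul_eq_mul, ← h]
  abel

theorem gau_mul (hv : Gau I v) : Gau I (fun x => u x * v x) ∧
    ∀ k x, om F (fun x => u x * v x) k x = om F u k x + om F v k x :=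
  have h : ∀ x, ‖u x * v x‖ = 1 := fun x => by rw [norm_mul, hu.2, hv.2, mul_one]
  ⟨⟨fun x => SA.mul (hu.1 x) (hv.1 x), h⟩, fun k x => om_of F (h x) <| by
    refine (dv_mul (hu.1 x) (hv.1 x)).trans ?_
    rw [← Pre.D_def, ← Pre.D_def, D_gau F hu, D_gau F hv]
    simp only [add_smul, Complex.real_smul]; ring⟩

theorem gau_star : Gau I (fun x => star (u x)) ∧
    ∀ k x, om F (fun x => star (u x)) k x = -om F u k x :=
  have h : ∀ x, ‖star (u x)‖ = 1 := fun x => by rw [norm_star, hu.2]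
  ⟨⟨fun x => sa_star (hu.1 x), h⟩, fun k x => om_of F (h x) <| by
    refine (dv_clm Complex.conjCLE.toContinuousLinearMap (SA.md (hu.1 x))).trans ?_
    rw [← Pre.D_def, D_gau F hu]
    simp⟩

omit hu in
theorem gau_exp {χ : M → ℝ} (h : Sm I χ) : Gau I (fun x => Complex.exp (χ x • Complex.I)) ∧
    ∀ k x, om F (fun x => Complex.exp (χ x • Complex.I)) k x = F.D k χ x :=
  have s : ∀ x, SA I (fun x => χ x • Complex.I) x := fun x => SA.smul (h x) contMDiffAt_const
  have n : ∀ x, ‖Complex.exp (χ x • Complex.I)‖ = 1 := fun x => by simp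
  ⟨⟨fun x => (Complex.contDiff_exp (𝕜 := ℝ)).contMDiff.contMDiffAt.comp x (s x), n⟩,
    fun k x => om_of F (n x) <| by
      refine (dv_comp (s x).md ((Complex.hasDerivAt_exp _).hasFDerivAt.restrictScalars ℝ)).trans ?_
      rw [dv_smul (SA.md (h x)) mdifferentiableAt_const, dv_const, ← Pre.D_def]
      simp [mul_assoc]⟩

end gau

/-- complex scalars as endomorphisms -/
def csL (J : En ν) : ℂ →L[ℝ] En ν := Complex.reCLM.smulRight 1 + Complex.imCLM.smulRight J

theorem csL_apply (J : En ν) (z : ℂ) (v : Eu ν) : csL J z v = cs J z v := by simp [csL, cs]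

theorem map_cs {J T : En ν} (h : J * T = T * J) (z : ℂ) (v : Eu ν) :
    T (cs J z v) = cs J z (T v) := by
  simp only [cs, map_add, map_smul, show T (J v) = J (T v) from (congrArg (· v) h).symm]

variable {nc : ℕ} {b : Bg I M κ lam ν nc} (hb : b.OK) {c : Sw.Cfg M κ ν} {x : M} {u : M → ℂ}
include hb

theorem p8 (x : M) : P8 (fun i j => b.B.P i j x) (fun i j k l => b.B.o i j k l x) (b.m.p x) b.m.J
    fun i => b.m.ρ i x :=
  ⟨⟨hb.B.pr x, b_on hb.B x, hb.m.cl x trivial, hb.m.psym x trivial, fun a => hb.m.ρsk a x trivial,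
    hb.m.Jsk, fun a => hb.m.Jρ a x trivial, hb.m.Jp x trivial, by rw [hb.m.Jsq, neg_one_mul]⟩,
    hb.m.prk x trivial⟩

theorem JJ (v : Eu ν) : b.m.J (b.m.J v) = -v := congrArg (· v) hb.m.Jsq

theorem inner_cs {z : ℂ} (hz : ‖z‖ = 1) (v w : Eu ν) :
    ⟪cs b.m.J z v, cs b.m.J z w⟫_ℝ = ⟪v, w⟫_ℝ := by
  have h := congrArg Complex.re (mul_star_one hz)
  simp only [cs, inner_add_left, inner_add_right, real_inner_smul_left, real_inner_smul_right,
    hb.m.Jsk v, JJ hb, inner_neg_right]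
  simp at h
  linear_combination ⟪v, w⟫_ℝ * h

theorem norm_cs {z : ℂ} (hz : ‖z‖ = 1) (v : Eu ν) : ‖cs b.m.J z v‖ = ‖v‖ := by
  rw [norm_eq_sqrt_real_inner, inner_cs hb hz, ← norm_eq_sqrt_real_inner]

theorem sa_pp (x : M) : SA I b.pp x :=
  SA.smul contMDiffAt_const ((hb.cc.sp x).sub (SA.smul contMDiffAt_const (SA.sum _ fun _ _ =>
    SA.sum _ fun _ _ => SA.sum _ fun _ _ => SA.sum _ fun _ _ => SA.smul (hb.B.so _ _ _ _ x)
      (SA.mul (SA.mul (SA.mul (hb.cc.sρ _ x) (hb.cc.sρ _ x)) (hb.cc.sρ _ x)) (hb.cc.sρ _ x)))))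

theorem jp_par (i : Option κ) (x : M) : nabE I b.F.e b.A i b.jp x = 0 := by
  have h := congrArg (b.m.J * ·) (hb.cc.par i x)
  rw [nabE, show dv I (b.F.e i) b.jp x = b.m.J * dv I (b.F.e i) b.m.p x from
    dv_clm (ContinuousLinearMap.mul ℝ _ b.m.J) (hb.cc.sp x).md, Bg.jp, ← mul_assoc, ← hb.AJ]
  simpa only [mul_add, mul_sub, mul_assoc, mul_zero] using h

theorem jp_sq (x : M) : ⟪hsL (b.jp x), hsL (b.jp x)⟫_ℝ = 8 := by
  have P := p8 hb x
  rw [inner_hsL_skw fun v w => by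
    rw [Bg.jp, mul_apply_eq_comp, P.Js, P.ps, P.Jp, mul_apply_eq_comp], Bg.jp, mul_assoc,
    ← mul_assoc (b.m.p x), ← P.Jp, mul_assoc, P.p_p, ← mul_assoc, P.JJ, map_neg, neg_neg, trE_eq]
  exact hb.m.prk x trivial

/-- the curvature is affine -/
theorem fc_eq (ha : ∀ i, SA I (c.a i) x) (s : Option κ × Option κ) :
    b.fc c x s = b.fc ⟨0, 0⟩ x s + d1 I b.F.e b.F.c c.a s.1 s.2 x := by
  have e0 : b.W ⟨0, 0⟩ = b.A := by funext i y; simp [Bg.W]
  simp only [Bg.fc, e0]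
  rw [show b.W c = b.A + fun i y => c.a i y • b.jp y from rfl, curv_add_smul
    (fun i => hb.cc.sm i x) ha (sa_jp hb x) fun i => jp_par hb i x, map_add, inner_add_right,
    map_smul, real_inner_smul_right, jp_sq hb]
  ring

variable (hc : b.Adm c) (hu : Gau I u)
include hc hu

theorem sm_act : Sm I (b.act u c).Φ := fun x =>
  (SA.app (SA.clm (csL b.m.J) (hu.1 x)) (hc.sΦ x)).congr_of_eventuallyEq
    (.of_forall fun _ => (csL_apply ..).symm)

theorem adm_act : b.Adm (b.act u c) :=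
  ⟨fun i => (hc.sa i).sub (sm_om b.F hu i), sm_act hb hc hu, fun i x => by
    have := om_P b.F hu i x
    rw [hb.G.P] at this
    exact (by simp only [mul_sub, Finset.sum_sub_distrib, hc.pa, this] :
      ∑ j, b.B.P i j x * (c.a j x - om b.F u j x) = c.a i x - om b.F u i x),
    fun x => (map_cs (p8 hb x).J_pp _ _).trans (congrArg _ (hc.pΦ x))⟩

theorem fc_act : b.fc (b.act u c) = b.fc c := by
  funext x; ext s
  have h := d1_om b.F hu s.1 s.2 x
  have e := fun i j => dv_sub' (e := b.F.e i) (hc.sa j x) (sm_om b.F hu j x)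
  rw [fc_eq hb fun i => (adm_act hb hc hu).sa i x, fc_eq hb fun i => hc.sa i x,
    show (b.act u c).a = fun j y => c.a j y - om b.F u j y from rfl]
  simp only [d1, e, smul_eq_mul, mul_sub, Finset.sum_sub_distrib] at h ⊢
  linarith

theorem nab_act (i : Option κ) (x : M) : nab I b.F.e (b.W (b.act u c)) i (b.act u c).Φ x =
    cs b.m.J (u x) (nab I b.F.e (b.W c) i c.Φ x) := by
  have P := p8 hb x
  have e := dv_app (e := b.F.e i) (SA.clm (csL b.m.J) (hu.1 x)).md (SA.md (hc.sΦ x))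
  rw [dv_clm _ (SA.md (hu.1 x)), ← Pre.D_def _ _ u, D_gau b.F hu] at e
  simp only [csL_apply] at e
  have h1 : b.m.p x (c.Φ x) = c.Φ x := P.p_of (hc.pΦ x)
  have h2 : b.A i x (b.m.J (c.Φ x)) = b.m.J (b.A i x (c.Φ x)) := 
    (congrArg (· (c.Φ x)) (hb.AJ i x)).symm
  have h3 : b.m.p x (b.m.J (c.Φ x)) = b.m.J (c.Φ x) :=
    (congrArg (· (c.Φ x)) P.Jp).symm.trans (congrArg b.m.J h1 :)
  simp only [nab, Bg.act, Bg.W, e, Bg.jp, add_apply, smul_apply, mul_apply_eq_comp]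
  simp only [cs, map_add, map_smul, h1, h2, h3, JJ hb, om, Complex.smul_re, Complex.smul_im,
    Complex.mul_re, Complex.mul_im, Complex.I_re, Complex.I_im, smul_eq_mul]
  module

theorem eD_act (x : M) : b.eD (b.act u c) x = cs b.m.J (u x) (b.eD c x) := by
  simp only [Bg.eD, dir, nab_act hb hc hu, ← csL_apply, map_add, map_sum]
  simp only [csL_apply, map_cs ((p8 hb x).Jρ _), Bg.act, map_cs (hb.msJ x)]

theorem eC_act : b.eC (b.act u c) = b.eC c := by
  funext x
  have : b.qd x ((b.act u c).Φ x) ((b.act u c).Φ x) = b.qd x (c.Φ x) (c.Φ x) := by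
    ext s
    simp only [Bg.qd, Bg.act, map_cs ((p8 hb x).Jρ _), map_cs (rfl : b.m.J * b.m.J = _),
      inner_cs hb (hu.2 x)]
  rw [Bg.eC, Bg.eC, fc_act hb hc hu, this]

end bg

/-! ### cross-sections -/

section cr
variable {e : En3 κ lam ν} {v v' : e.YC} {u : e.Y.M → ℂ} {a : κ → e.Y.M → ℝ}

/-- a two-form of the cross-section on the cylinder -/
def up2 (η : κ → κ → ℝ) : F2 κ := WithLp.toLp 2 fun
  | (some i, some j) => η i j
  | _ => 0

variable (e) in
/-- the orientation of the cross-section -/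
abbrev o3 (k i j : κ) (y : e.Y.M) : ℝ := e.D.o none (some k) (some i) (some j) y

variable (e) in
/-- the exterior derivative on the cross-section -/
abbrev da (a : κ → e.Y.M → ℝ) : κ → κ → e.Y.M → ℝ := d1 e.Y.I e.D.F.e e.D.F.c a

variable (e) in
/-- the curvature of the reference connection -/
abbrev fc0 (y : e.Y.M) : F2 κ := e.cyl.fc ⟨0, 0⟩ (y, 0)

/-- the gauge action on the cross-section -/
def act3 (u : e.Y.M → ℂ) (v : e.YC) : e.YC :=
  ⟨fun k y => v.a k y - om e.D.F u k y, fun y => cs e.m.J (u y) (v.Φ y)⟩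

section
variable {N : Type} [NormedAddCommGroup N] [NormedSpace ℝ N] {f : e.Y.M → N} (hf : Sm e.Y.I f)
include hf

theorem D0 (x : e.Y.M × ℝ) : dv (IC e.Y.I) (e.cyl.F.e none) (fun x => f x.1) x = 0 :=
  congrFun (D_none_fst e.D.F.toPre hf) x

theorem D1 (k : κ) (x : e.Y.M × ℝ) :
    dv (IC e.Y.I) (e.cyl.F.e (some k)) (fun x => f x.1) x = e.D.F.D k f x.1 :=
  congrFun (D_some_fst e.D.F.toPre hf k) x

end

theorem fz_act3 (hu : Gau e.Y.I u) (v : e.YC) :
    fz (act3 u v) = e.cyl.act (fun x => u x.1) (fz v) := by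
  ext i x
  · cases i
    · simp [fz, Bg.act, Nd18.ca, Pre.D_def, D0 hu.1]
    · simp only [fz, Bg.act, Nd18.ca, act3, om, Pre.D_def _ (some _), D1 hu.1]
  · rfl

theorem eqv_act3 (hu : Gau e.Y.I u) (v : e.YC) : Eqv v (act3 u v) := ⟨u, hu, fz_act3 hu v⟩

theorem eqv_ex (h : Eqv v v') : ∃ u, Gau e.Y.I u ∧ v' = act3 u v :=
  let ⟨u, hu, k⟩ := h
  ⟨u, hu, congrArg (sl · 0) (k.trans (fz_act3 hu v).symm)⟩

theorem gau_fst (hu : Gau e.Y.I u) : Gau (IC e.Y.I) fun x : e.Y.M × ℝ => u x.1 :=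
  ⟨sm_fst hu.1, fun x => hu.2 x.1⟩

theorem a_P (hv : e.cyl.Adm (fz v)) (k : κ) (y : e.Y.M) :
    ∑ j, e.D.F.P k j y * v.a j y = v.a k y := by
  simpa [En3.cyl, Nd18.YD.B, cP, fz, Nd18.ca] using hv.pa (some k) (y, 0)

theorem adm_fz (h1 : ∀ k, Sm e.Y.I (v.a k)) (h2 : Sm e.Y.I v.Φ)
    (h3 : ∀ k y, ∑ j, e.D.F.P k j y * v.a j y = v.a k y)
    (h4 : ∀ y, e.cyl.pp (y, 0) (v.Φ y) = v.Φ y) : e.cyl.Adm (fz v) :=
  ⟨fun i => by cases i; exacts [contMDiff_const, sm_fst (h1 _)], sm_fst h2, fun i x => by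
    cases i <;> simp [En3.cyl, Nd18.YD.B, cP, fz, Nd18.ca, h3], fun x => h4 x.1⟩

theorem da_anti (h : ∀ k y, ∑ j, e.D.F.P k j y * a j y = a k y) (i j : κ) (y : e.Y.M) :
    da e a i j y = -da e a j i y := by
  simpa only [Rdc90.ed, nab_zero, d1] using
    Dfl49.ed_anti (A := fun _ _ => 0) (lc_gam e.D.F) (h · y) i j

theorem da_P (s : ∀ k, Sm e.Y.I (a k)) (h : ∀ k y, ∑ j, e.D.F.P k j y * a j y = a k y) (i j : κ)
    (y : e.Y.M) : ∑ k, e.D.F.P i k y * da e a k j y = da e a i j y := by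
  simpa only [Rdc90.ed, nab_zero, d1, smul_eq_mul] using Dfl49.ed_proj (A := fun _ _ => 0)
    (lc_gam e.D.F) (frm e.D.F) (sep e.D.F) con_zero (fun k => s k y) (.of_forall fun y k => h k y) i j

theorem p2_up (η : κ → κ → ℝ) (k : κ) (y : e.Y.M) : 2 * e.cyl.p2 (y, 0) (up2 η) (none, some k) =
    (∑ i, ∑ j, o3 e k i j y * η i j) / 2 := by
  simp [Bg.p2, Fintype.sum_prod_type, up2, Base.sd, Base.a2, Base.st, En3.cyl, Nd18.YD.B,
    cP, Finset.mul_sum, Finset.sum_div]
  exact Finset.sum_congr rfl fun _ _ => Finset.sum_congr rfl fun _ _ => by ring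

variable (H : e.OK)
include H

theorem sm_o3 (k i j : κ) : Sm e.Y.I (o3 e k i j) := sm_slice_fst (H.cyl.B.so _ _ _ _) 0

theorem sm_fc0 : Sm e.Y.I (fc0 e) :=
  sm_slice_fst (fun _ => sa_fc H.cyl fun _ => contMDiffAt_const) 0

/-- the Hodge star of the cross-section is invertible -/
theorem o3_inv {η : κ → κ → ℝ} {y : e.Y.M} (h1 : ∀ i j, η i j = -η j i)
    (h2 : ∀ i j, ∑ k, e.D.F.P i k y * η k j = η i j) (l m : κ) :
    ∑ k, o3 e k l m y * ((∑ i, ∑ j, o3 e k i j y * η i j) / 2) = η l m := by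
  have B := H.cyl.B
  have V : Map77.Vol (fun a b => e.D.B.P a b (y, 0)) fun a b c d => e.D.o a b c d y :=
    ⟨B.pr _, B.rk _, fun _ _ _ _ => B.o12 _ _ _ _ (y, 0), fun _ _ _ _ => B.o23 _ _ _ _ (y, 0),
      fun _ _ _ _ => B.o34 _ _ _ _ (y, 0), fun _ _ _ _ => B.oP _ _ _ _ (y, 0), B.onm (y, 0)⟩
  have c : ∀ a k i j, e.D.o a k i j y = e.D.o a i j k y := fun a k i j => by
    rw [V.a2, V.a3, neg_neg]
  have z : ∀ i j, e.D.o none i j none y = 0 := fun i j => by
    linarith [c none none i j, V.a1 none none i j]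
  have t : ∀ i j, ∑ k, o3 e k l m y * o3 e k i j y =
      e.D.F.P l i y * e.D.F.P m j y - e.D.F.P m i y * e.D.F.P l j y := fun i j => by
    have := V.i3 none (some l) (some m) none (some i) (some j)
    simp only [Fintype.sum_option, z, mul_zero, zero_add, Map77.det3, Nd18.YD.B, cP] at this
    simp only [o3, fun k => c none (some k) (some l), fun k => c none (some k) (some i)]
    linarith
  have h3 : ∀ l m, ∑ i, ∑ j, e.D.F.P l i y * e.D.F.P m j y * η i j = η l m := fun l m => by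
    rw [← h2]
    refine Finset.sum_congr rfl fun i _ => ?_
    rw [h1, ← h2]
    simp only [h1 i, mul_neg, Finset.mul_sum, mul_assoc, Finset.sum_neg_distrib]
  simp only [← mul_div_assoc, ← Finset.sum_div, Finset.mul_sum, ← mul_assoc]
  rw [Finset.sum_comm]
  simp only [fun i => Finset.sum_comm (s := Finset.univ) (t := Finset.univ)
    (f := fun k j => o3 e k l m y * o3 e k i j y * η i j), ← Finset.sum_mul, t, sub_mul,
    Finset.sum_sub_distrib, h3]
  linarith [h1 l m]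

variable (hv : e.cyl.Adm (fz v))
include hv

theorem fc_fz (y : e.Y.M) :
    e.cyl.fc (fz v) (y, 0) = fc0 e y + up2 fun i j => da e v.a i j y := by
  ext ⟨s, t⟩
  rw [fc_eq H.cyl fun i => hv.sa i _]
  congr 1
  cases s <;> cases t <;> simp only [d1, fz, Nd18.ca, D0 (sm_a hv _), D1 (sm_a hv _), dv_const,
    up2, Fintype.sum_option, show e.cyl.F.c = cc e.D.F.c from rfl, cc] <;> simp [Pre.D_def]

theorem gr_a (k : κ) (y : e.Y.M) : (gr v).a k y = (∑ i, ∑ j, o3 e k i j y * da e v.a i j y) / 2 +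
    2 * (e.cyl.p2 (y, 0) (fc0 e y - e.w • e.cyl.qd (y, 0) (v.Φ y) (v.Φ y)) - e.om y +
      deriv e.f (hol v) • e.ζ y) (none, some k) := by
  rw [← p2_up]
  simp only [gr, Bg.eC, fc_fz H hv, map_sub, map_add, PiLp.add_apply, PiLp.sub_apply]
  show 2 * (_ + _ - e.cyl.p2 _ (e.w • e.cyl.qd _ (v.Φ y) (v.Φ y)) _ - e.om y _ + _) = _
  ring

theorem gr_P (y : e.Y.M) : (gr v).Φ y = -e.m.ρ none y (∑ k, e.m.ρ (some k) y (e.D.F.D k v.Φ y +
    e.A k y (v.Φ y) + v.a k y • e.m.J (v.Φ y)) + e.m.ρ none y (e.h y (v.Φ y))) -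
      e.b (nm v) • v.Φ y := by
  have h : e.m.p y (v.Φ y) = v.Φ y := (p8 H.cyl (y, 0)).p_of (hv.pΦ (y, 0))
  simp only [gr, Bg.eD, dir, nab, fz, Fintype.sum_option, D0 (sm_Φ hv), D1 (sm_Φ hv), Bg.W, Bg.jp]
  simp [En3.cyl, Nd18.ca, h, add_assoc]

theorem adm_act3 (hu : Gau e.Y.I u) : e.cyl.Adm (fz (act3 u v)) :=
  fz_act3 hu v ▸ adm_act H.cyl hv (gau_fst hu)

theorem nm_act3 (hu : Gau e.Y.I u) : nm (act3 u v) = nm v := by
  simp only [nm, act3, show ∀ y w, ‖cs e.m.J (u y) w‖ = ‖w‖ from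
    fun y => norm_cs H.cyl (hu.2 y)]

theorem gr_act3 (hu : Gau e.Y.I u) : gr (act3 u v) =
    ⟨(gr v).a, fun y => cs e.m.J (u y) ((gr v).Φ y)⟩ := by
  simp only [gr, fz_act3 hu, eC_act H.cyl hv (gau_fst hu), eD_act H.cyl hv (gau_fst hu),
    H.per v _ hv (eqv_act3 hu v), nm_act3 H hv hu, ← csL_apply, map_sub, map_neg, map_smul]
  simp only [csL_apply, act3]
  congr 1
  funext y
  exact congrArg (-· - _) (map_cs ((p8 H.cyl (y, 0)).Jρ none) _ _)

variable (h : Eqv v v')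
include h

theorem eqv_adm : e.cyl.Adm (fz v') := by
  obtain ⟨u, hu, rfl⟩ := eqv_ex h; exact adm_act3 H hv hu

theorem eqv_fc : e.cyl.fc (fz v') = e.cyl.fc (fz v) := by
  obtain ⟨u, hu, k⟩ := h; rw [k, fc_act H.cyl hv (gau_fst hu)]

theorem eqv_norm (y : e.Y.M) : ‖v'.Φ y‖ = ‖v.Φ y‖ := by
  obtain ⟨u, hu, rfl⟩ := eqv_ex h; exact norm_cs H.cyl (hu.2 y) _

theorem eqv_nm : nm v' = nm v := by simp only [nm, eqv_norm H hv h]

theorem eqv_gn : gn v' = gn v := by
  obtain ⟨u, hu, rfl⟩ := eqv_ex h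
  simp only [gn, ip, gr_act3 H hv hu, show ∀ y w w', ⟪cs e.m.J (u y) w, cs e.m.J (u y) w'⟫_ℝ = _
    from fun y => inner_cs H.cyl (hu.2 y)]

omit hv in
theorem eqv_crit (hv : Crit v) : Crit v' := by
  obtain ⟨u, hu, rfl⟩ := eqv_ex h
  exact ⟨adm_act3 H hv.1 hu, by simpa only [gr_act3 H hv.1 hu] using hv.2.1,
    fun y => by simp [gr_act3 H hv.1 hu, hv.2.2, cs]⟩

end cr

end Crest.Agent.X212.Cyl58
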