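import Crest.Agent.X212.Rdc90.El
import Crest.Agent.X212.Cht98.Rel
import Crest.Agent.X212.Sob92.Wk

/-! # Row 212, SW-PSY (helper58): Sobolev products in dimension three, an abstract compactness -/

set_option autoImplicit false
set_option linter.unusedSectionVars false
noncomputable section
open scoped Manifold ContDiff Topology InnerProductSpace
open MeasureTheory Set Function Filter Module Asymptotics

namespace Crest.Agent.X212.Cyl58
open An An.Pre Sob92 Ell97 Rdc90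

section abs
variable {J X Y Z : Type} [NormedAddCommGroup X] [NormedSpace ℝ X] [NormedAddCommGroup Y]
  [NormedSpace ℝ Y] [NormedAddCommGroup Z] [NormedSpace ℝ Z] {l : Filter J} {x : J → X}

/-- eventually bounded -/
abbrev Bn (l : Filter J) (x : J → X) : Prop := x =O[l] fun _ => (1 : ℝ)

theorem Bn.clm (L : X →L[ℝ] Y) (h : Bn l x) : Bn l fun i => L (x i) := (L.isBigO_comp x l).trans h

theorem Bn.bil (B : X →L[ℝ] Y →L[ℝ] Z) (h : Bn l x) {y : J → Y} (k : Bn l y) :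
    Bn l fun i => B (x i) (y i) :=
  IsBigO.trans (g := fun i => ‖B (x i)‖ * ‖y i‖)
    (IsBigO.of_bound' (.of_forall fun i => ((B (x i)).le_opNorm _).trans (le_abs_self _)))
    (by simpa only [mul_one] using (h.clm B).norm_left.mul k.norm_left)

theorem Bn.est {L : X →L[ℝ] Y} {K : X →L[ℝ] Z} {C : ℝ} (e : Fred93.Est L K C)
    (h : Bn l fun i => L (x i)) (k : Bn l fun i => K (x i)) : Bn l x :=
  (IsBigO.of_bound |C| (.of_forall fun i => (e (x i)).trans
    ((le_abs_self _).trans_eq (abs_mul _ _)))).trans (h.norm_left.add k.norm_left)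

theorem Bn.cpt {𝒰 : Ultrafilter J} (h : Bn 𝒰 x) {T : X →L[ℝ] Y} (hT : IsCompactOperator T) :
    ∃ z, Tendsto (fun i => T (x i)) 𝒰 (𝓝 z) := by
  obtain ⟨R, hR⟩ := h.bound
  obtain ⟨K, hK, k⟩ := IsCompactOperator.image_closedBall_subset_compact (f := T.toLinearMap) hT R
  obtain ⟨z, -, hz⟩ := hK.ultrafilter_le_nhds (𝒰.map fun i => T (x i))
    (le_principal_iff.2 (hR.mono fun i hi => k ⟨x i, by simpa using hi, rfl⟩))
  exact ⟨z, hz⟩

theorem conv_est [CompleteSpace X] [l.NeBot] {L : X →L[ℝ] Y} {K : X →L[ℝ] Z} {C : ℝ}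
    (e : Fred93.Est L K C) {y : Y} {z : Z} (h : Tendsto (fun i => L (x i)) l (𝓝 y))
    (k : Tendsto (fun i => K (x i)) l (𝓝 z)) : ∃ w, Tendsto x l (𝓝 w) := by
  have a : AntilipschitzWith (2 * |C|).toNNReal (L.prod K) :=
    AddMonoidHomClass.antilipschitz_of_bound _ fun v => (e v).trans <| by
      rw [Real.coe_toNNReal _ (by positivity)]
      nlinarith [norm_fst_le (L.prod K v), norm_snd_le (L.prod K v), le_abs_self C, abs_nonneg C,
        norm_nonneg (L v), norm_nonneg (K v), show (L.prod K v).1 = L v from rfl,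
        mul_le_mul_of_nonneg_left (norm_fst_le (L v, K v)) (abs_nonneg C),
        mul_le_mul_of_nonneg_left (norm_snd_le (L v, K v)) (abs_nonneg C),
        show ‖L.prod K v‖ = ‖(L v, K v)‖ from rfl]
  exact cauchy_map_iff_exists_tendsto.1 ((a.isUniformInducing
    (L.prod K).uniformContinuous).cauchy_map_iff.1 (h.prodMk_nhds k).cauchy_map)

theorem conv_near [CompleteSpace X] [l.NeBot] (h : ∀ ε > 0, ∃ c, ∀ᶠ i in l, ‖x i - c‖ < ε) :
    ∃ w, Tendsto x l (𝓝 w) :=
  cauchy_map_iff_exists_tendsto.1 (Metric.cauchy_iff.2 ⟨inferInstance, fun ε hε =>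
    let ⟨c, hc⟩ := h (ε / 2) (by positivity)
    ⟨Metric.ball c (ε / 2), hc.mono fun _ => mem_ball_iff_norm.2, fun _ a _ b =>
      (dist_triangle_right _ _ c).trans_lt (by linarith [Metric.mem_ball.1 a, Metric.mem_ball.1 b])⟩⟩)

end abs

variable {E : Type} [NormedAddCommGroup E] [NormedSpace ℝ E] [FiniteDimensional ℝ E]
  [MeasurableSpace E] [BorelSpace E]
  {HM : Type} [TopologicalSpace HM] {I : ModelWithCorners ℝ E HM} [I.Boundaryless]
  {M : Type} [TopologicalSpace M] [ChartedSpace HM M] [IsManifold I ∞ M]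
  [MeasurableSpace M] {ι : Type} [Fintype ι]
  {U V W : Type} [NormedAddCommGroup U] [InnerProductSpace ℝ U] [FiniteDimensional ℝ U]
  [NormedAddCommGroup V] [InnerProductSpace ℝ V] [FiniteDimensional ℝ V]
  [NormedAddCommGroup W] [InnerProductSpace ℝ W] [FiniteDimensional ℝ W]
  [T2Space M] [BorelSpace M] [SecondCountableTopology M] [CompactSpace M]

theorem hcs {N : Type} [Zero N] [TopologicalSpace N] {u : M → N} : HasCompactSupport u :=
  .of_compactSpace u

theorem sup_of {N : Type} [NormedAddCommGroup N] {u : M → N} (h : Continuous u) :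
    ∃ K, 0 ≤ K ∧ ∀ x, ‖u x‖ ≤ K :=
  let ⟨K, hK⟩ := isCompact_univ.exists_bound_of_continuousOn h.continuousOn
  ⟨|K|, abs_nonneg K, fun x => (hK x trivial).trans (le_abs_self K)⟩

section prod
variable (F : Pre I M ι) (hn : finrank ℝ E ≤ 3)

theorem nrm0_le {u : M → V} {v : M → W} {K : ℝ} (hv : Continuous v) (hK : 0 ≤ K)
    (h : ∀ x, ‖u x‖ ≤ K * ‖v x‖) : F.nrm 0 u ≤ K * F.nrm 0 v :=
  nrm_le_of_sq (mul_nonneg hK (nrm_nonneg 0 v)) <| by
    rw [mul_pow, nrm_sq]
    exact (integral_mono_of_nonneg (.of_forall fun _ => by positivity)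
      (((hv.norm.fun_pow 2).integrable_of_hasCompactSupport hcs).const_mul (K ^ 2))
      (.of_forall fun x => (pow_le_pow_left₀ (norm_nonneg _) (h x) 2).trans_eq
        (mul_pow _ _ _))).trans_eq (integral_const_mul _ _)

theorem nrm_succ_le (k : ℕ) (u : M → V) :
    F.nrm (k + 1) u ≤ F.nrm 0 u + ∑ a, F.nrm k (F.D a u) := by
  have h0 := nrm_nonneg (F := F) 0 u
  have h1 := Finset.sum_nonneg fun a (_ : a ∈ Finset.univ) => nrm_nonneg (F := F) k (F.D a u)
  refine (abs_le_of_sq_le_sq' ?_ (by positivity)).2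
  rw [nrm_succ_sq]
  nlinarith [Finset.sum_sq_le_sq_sum_of_nonneg
    fun a (_ : a ∈ Finset.univ) => nrm_nonneg (F := F) k (F.D a u)]

include hn

/-- `L²₂ ⊆ C⁰` -/
theorem sup2 : ∃ S, 0 ≤ S ∧ ∀ u : M → V, Sm I u → ∀ x, ‖u x‖ ≤ S * F.nrm 2 u := by
  obtain ⟨C1, h1⟩ := Cht98.eLp_four_le F (by omega) isCompact_univ
  have e := Cht98.ES_morrey (F := Cht98.Eu E) (p := 4)
    (by rw [Cht98.finrank_Eu]; exact_mod_cast (by omega)) (by norm_num)
  rw [show ENNReal.ofReal 4 = 4 by simp] at e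
  obtain ⟨C, h⟩ := Cht98.step F le_top (by norm_num) e isCompact_univ h1
  refine ⟨C, C.2, fun u hu x => ?_⟩
  obtain ⟨L, hL, hx⟩ := exists_dual_vector'' ℝ (u x)
  have s : Sm I fun y => L (u y) := L.contMDiff.comp hu
  have := Cht98.openPos F
  have h2 := (Cht98.enorm_le_top s.continuous x).trans (h _ s (subset_univ _))
  rw [← ofReal_norm, ← ENNReal.ofReal_coe_nnreal, ← ENNReal.ofReal_mul C.coe_nonneg,
    ENNReal.ofReal_le_ofReal_iff (mul_nonneg C.coe_nonneg (nrm_nonneg _ _)), hx] at h2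
  refine (by simpa using h2 : _ ≤ _).trans (mul_le_mul_of_nonneg_left (nrm_le_of_sq (nrm_nonneg _ _)
    ((n2_clm_le F.sm L 2 hu (FL_of_hcs 2 hu hcs)).trans ?_)) C.2)
  rw [nrm_sq]
  exact mul_le_of_le_one_left (n2_nonneg _ _) (pow_le_one₀ (norm_nonneg _) hL)

/-- `L²₁ ⊆ L⁴` -/
theorem l4v : ∃ S, 0 ≤ S ∧ ∀ u : M → V, Sm I u →
    F.nrm 0 (fun x => ‖u x‖ ^ 2) ≤ S * F.nrm 1 u ^ 2 := by
  obtain ⟨S, h0, hS⟩ := Cht98.l4On F (by omega) isCompact_univ
  let b := stdOrthonormalBasis ℝ V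
  refine ⟨∑ _i : Fin (finrank ℝ V), S, by positivity, fun u hu => ?_⟩
  have s : ∀ i, Sm I fun y => innerSL ℝ (b i) (u y) := fun i => (innerSL ℝ (b i)).contMDiff.comp hu
  rw [show (fun x => ‖u x‖ ^ 2) = fun x => ∑ i, innerSL ℝ (b i) (u x) ^ 2 from
    funext fun x => (b.sum_sq_inner_right _).symm, Finset.sum_mul]
  refine (nrm_sum_le _ 0 (fun i _ => (s i).pow 2) fun _ _ => hcs).trans
    (Finset.sum_le_sum fun i _ => le_trans (le_of_eq ?_) ((hS _ (s i) hcs (subset_univ _)).trans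
      (mul_le_mul_of_nonneg_left ?_ h0)))
  · simp only [nrm, ip, real_inner_self_eq_norm_sq, Real.norm_eq_abs, sq_abs, ← pow_mul]
  · rw [ip_eq, nrm_sq]
    simpa using n2_clm_le F.sm (innerSL ℝ (b i)) 1 hu (FL_of_hcs 1 hu hcs)

theorem nrm0_mul {k j : ℕ} (h : 2 ≤ k + j) : ∃ K, 0 ≤ K ∧ ∀ (u : M → V) (v : M → W), Sm I u →
    Sm I v → F.nrm 0 (fun x => ‖u x‖ * ‖v x‖) ≤ K * F.nrm k u * F.nrm j v := by
  rcases k with _ | k
  · obtain ⟨S, h0, hS⟩ := sup2 (V := W) F hn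
    refine ⟨S, h0, fun u v hu hv => (nrm0_le F hu.continuous (mul_nonneg h0 (nrm_nonneg j v))
      fun x => ?_).trans_eq (by ring)⟩
    rw [norm_mul, norm_norm, norm_norm, mul_comm]
    exact mul_le_mul_of_nonneg_right ((hS v hv x).trans
      (mul_le_mul_of_nonneg_left (nrm_mono (by omega) v) h0)) (norm_nonneg _)
  rcases j with _ | j
  · obtain ⟨S, h0, hS⟩ := sup2 (V := V) F hn
    refine ⟨S, h0, fun u v hu hv => nrm0_le F hv.continuous (mul_nonneg h0 (nrm_nonneg _ u))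
      fun x => ?_⟩
    rw [norm_mul, norm_norm, norm_norm]
    exact mul_le_mul_of_nonneg_right ((hS u hu x).trans
      (mul_le_mul_of_nonneg_left (nrm_mono (by omega) u) h0)) (norm_nonneg _)
  obtain ⟨S, h0, hS⟩ := l4v (V := V) F hn
  obtain ⟨T, k0, hT⟩ := l4v (V := W) F hn
  have a := fun u => nrm_nonneg (F := F) (V := V) (k + 1) u
  have b := fun u => nrm_nonneg (F := F) (V := W) (j + 1) u
  refine ⟨√(S * T), by positivity, fun u v hu hv => nrm_le_of_sq
    (mul_nonneg (mul_nonneg (by positivity) (a u)) (b v)) ?_⟩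
  have s : ∀ {V : Type} [NormedAddCommGroup V] [InnerProductSpace ℝ V] {u : M → V}, Sm I u →
      Sm I fun x => ‖u x‖ ^ 2 := fun hu => (contDiff_norm_sq ℝ).contMDiff.comp hu
  have := real_inner_le_norm (F.toH 0 _ ⟨_, mem_triv (s hu) hcs⟩) (F.toH 0 _ ⟨_, mem_triv (s hv) hcs⟩)
  rw [inner_toH, norm_toH, norm_toH] at this
  refine le_trans (le_of_eq ?_) (this.trans ((mul_le_mul (hS u hu) (hT v hv) (nrm_nonneg _ _)
    (by positivity)).trans ?_))
  · simp [ip, n2, mul_pow, mul_comm]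
  · rw [mul_pow, mul_pow, Real.sq_sqrt (by positivity), mul_mul_mul_comm, mul_assoc (S * T)]
    gcongr
    exacts [nrm_nonneg _ _, nrm_mono (by omega) u, nrm_nonneg _ _, nrm_mono (by omega) v]

omit hn in
/-- the levels for which `L²_k × L²_j → L²_l` is bounded in dimension three -/
def Lv (k j l : ℕ) : Prop := l ≤ k ∧ l ≤ j ∧ l + 2 ≤ k + j

theorem nrm_bil3 : ∀ (l : ℕ) {k j : ℕ}, Lv k j l → ∀ {β : M → V →L[ℝ] W →L[ℝ] U}, Sm I β →
    ∃ K, 0 ≤ K ∧ ∀ u v, Sm I u → Sm I v →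
      F.nrm l (fun x => β x (u x) (v x)) ≤ K * F.nrm k u * F.nrm j v := by
  have z : ∀ {k j : ℕ}, 2 ≤ k + j → ∀ {β : M → V →L[ℝ] W →L[ℝ] U}, Sm I β →
      ∃ K, 0 ≤ K ∧ ∀ u v, Sm I u → Sm I v →
        F.nrm 0 (fun x => β x (u x) (v x)) ≤ K * F.nrm k u * F.nrm j v := fun h β hβ => by
    obtain ⟨K, h0, hK⟩ := nrm0_mul (V := V) (W := W) F hn h
    obtain ⟨B, b0, hB⟩ := sup_of hβ.continuous
    refine ⟨B * K, by positivity, fun u v hu hv => (nrm0_le F (hu.continuous.norm.mul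
      hv.continuous.norm) b0 fun x => ((β x).le_opNorm₂ _ _).trans ?_).trans
      ((mul_le_mul_of_nonneg_left (hK u v hu hv) b0).trans_eq (by ring))⟩
    rw [mul_assoc]
    exact mul_le_mul (hB x) (le_abs_self _) (by positivity) b0
  intro l
  induction l with
  | zero => exact fun h => z (by simpa using h.2.2)
  | succ l ih =>
    intro k j h β hβ
    obtain ⟨h1, h2, h3⟩ := h
    obtain ⟨k, rfl⟩ : ∃ k', k = k' + 1 := ⟨k - 1, by omega⟩
    obtain ⟨j, rfl⟩ : ∃ j', j = j' + 1 := ⟨j - 1, by omega⟩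
    obtain ⟨K0, p0, H0⟩ := z (k := k + 1) (j := j + 1) (by omega) hβ
    choose K p H using fun a => ih (k := k + 1) (j := j + 1) ⟨by omega, by omega, by omega⟩
      (F.sm_D hβ a)
    obtain ⟨K1, p1, H1⟩ := ih (k := k) (j := j + 1) ⟨by omega, by omega, by omega⟩ hβ
    obtain ⟨K2, p2, H2⟩ := ih (k := k + 1) (j := j) ⟨by omega, by omega, by omega⟩ hβ
    refine ⟨K0 + ∑ a, (K a + K1 + K2), add_nonneg p0 (Finset.sum_nonneg fun a _ => by
      linarith [p a]), fun u v hu hv => (nrm_succ_le F l _).trans ?_⟩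
    rw [add_mul, add_mul, Finset.sum_mul, Finset.sum_mul]
    refine add_le_add (H0 u v hu hv) (Finset.sum_le_sum fun a _ => ?_)
    have du := F.sm_D hu a
    have dv' := F.sm_D hv a
    have e : F.D a (fun x => β x (u x) (v x)) = fun x =>
        (F.D a β x (u x) (v x) + β x (F.D a u x) (v x)) + β x (u x) (F.D a v x) := funext fun x => by
      have := dv_app (e := F.e a) ((hβ.clm_apply hu).mdifferentiableAt (x := x) (by simp))
        (hv.mdifferentiableAt (by simp))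
      rwa [dv_app (hβ.mdifferentiableAt (by simp)) (hu.mdifferentiableAt (by simp))] at this
    have s1 := ((F.sm_D hβ a).clm_apply hu).clm_apply hv
    have s2 := (hβ.clm_apply du).clm_apply hv
    rw [e]
    refine (nadd (s1.add s2) ((hβ.clm_apply hu).clm_apply dv')).trans
      ((add_le_add (nadd s1 s2) le_rfl).trans ?_)
    have a1 := mul_le_mul_of_nonneg_right (mul_le_mul_of_nonneg_left (nrm_D_le (F := F) k u a) p1)
      (nrm_nonneg (F := F) (j + 1) v)
    have a2 := mul_le_mul_of_nonneg_left (nrm_D_le (F := F) j v a)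
      (mul_nonneg p2 (nrm_nonneg (F := F) (k + 1) u))
    linarith [H a u v hu hv, H1 _ v du hv, H2 u _ hu dv']

variable {F} {k j l : ℕ} {p : M → V →L[ℝ] V} {q : M → W →L[ℝ] W} {β : M → V →L[ℝ] W →L[ℝ] U}

theorem bil3_toH (h : Lv k j l) (hβ : Sm I β) (u : Sec I p) (v : Sec I q) :
    F.bilH k j p q (triv M U) l β (F.toH k p u) (F.toH j q v) =
      F.toH l _ ⟨fun x => β x (u.1 x) (v.1 x), mem_triv ((hβ.clm_apply u.2.1).clm_apply v.2.1) hcs⟩ :=
  let ⟨_, h0, hK⟩ := nrm_bil3 F hn l h hβ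
  Rep₂_toH (rep_lift₂ (fun _ hu _ hv => mem_triv ((hβ.clm_apply hu.1).clm_apply hv.1) hcs)
    (fun _ _ _ _ _ _ => funext fun x => by simp) (fun _ _ _ _ _ => funext fun x => by simp)
    (fun _ _ _ _ _ _ => funext fun x => by simp) (fun _ _ _ _ _ => funext fun x => by simp)
    h0 fun _ hu _ hv => hK _ _ hu.1 hv.1).1 u v

theorem incl_bil3 {k' j' l' : ℕ} (h : Lv k j l) (h' : Lv k' j' l') (hk : k' ≤ k) (hj : j' ≤ j)
    (hl : l' ≤ l) (hβ : Sm I β) (x : F.H k p) (y : F.H j q) :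
    F.incl l l' _ (F.bilH k j p q (triv M U) l β x y) =
      F.bilH k' j' p q (triv M U) l' β (F.incl k k' p x) (F.incl j j' q y) := by
  induction x, y using H_ind₂ with
  | hP => exact isClosed_eq (by fun_prop) (by fun_prop)
  | h u v => rw [incl_toH hk, incl_toH hj, bil3_toH hn h hβ, bil3_toH hn h' hβ, incl_toH hl]

end prod

end Crest.Agent.X212.Cyl58
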