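import Crest.Agent.X212.End23.Crt
import Crest.Agent.X212.Dl42.Main
import Crest.Agent.X212.Op40.Main
import Crest.Agent.X212.Cyl58.PsA
import Crest.Agent.X212.Sep15.SwB

/-! # Row 212, ES-AH (helper58): the extended Hessian, explicitly -/

set_option autoImplicit false
set_option linter.unusedSectionVars false
noncomputable section
open scoped Manifold ContDiff Topology InnerProductSpace
open MeasureTheory Set Function Filter ContinuousLinearMap

namespace Crest.Agent.X212.Ah58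
open An An.Pre Sob92 Sw Sw.En3 End23 Cyf70
open Dl42 hiding dl
open Wz78 (SA)
open Cyl58 (hcs sup2 sup_of nrm0_le)
open Sep15.S (sa_lp)
open Map77 (P2 f2 s2 i1 i2 ext2 fm_ext)
open Map77.S (co sp)

variable {κ lam ν : Type} [Fintype κ] [Fintype lam] [Fintype ν] [DecidableEq ν]
  {e : En3 κ lam ν} {v v' t : e.YC} {u u' : e.Y.M → VV κ ν} {y : e.Y.M}

/-- a function and a one-form -/
abbrev oF (r : ℝ) (a : κ → ℝ) : Fm (Option κ) ℝ := WithLp.toLp 2 fun o => o.elim r a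

theorem fam_lin {N : Type} [NormedAddCommGroup N] [NormedSpace ℝ N] {f g : e.Y.M → N}
    (hf : Sm e.Y.I f) (hg : Sm e.Y.I g) : Fam e.Y.I (fun r y => f y + r • g y) fun _ => g :=
  ⟨(sm_fst hf).add (fam_sc hg).sm, fun s y => ((fam_sc hg).dr s y).const_add _⟩

theorem fy_vr (hv : Ay v) (ht : Ay t) : FY (v.vr t) fun _ => t :=
  ⟨fun k => fam_lin (hv.sa k) (ht.sa k), fam_lin hv.sΦ ht.sΦ, fun r =>
    ⟨fun k => (fam_lin (hv.sa k) (ht.sa k)).sm.sl r, (fam_lin hv.sΦ ht.sΦ).sm.sl r, fun k y => by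
      simp only [YC.vr, ← hv.pa k y, ← ht.pa k y, smul_eq_mul, mul_add, Finset.sum_add_distrib,
        Finset.mul_sum, mul_left_comm],
      fun y => by simp only [YC.vr, map_add, map_smul, hv.pΦ, ht.pΦ]⟩⟩

theorem vr_zero : v.vr t 0 = v := by simp [YC.vr]

theorem pV_iff (z : VV κ ν) : pV e y z = z ↔
    (∀ k, ∑ j, e.D.F.P k j y • f2 _ _ z (some j) = f2 _ _ z (some k)) ∧
      e.cyl.pp (y, 0) (sp z) = sp z := by
  have h : ∀ o, f2 _ _ (pV e y z) o =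
      o.elim (f2 _ _ z none) fun k => ∑ j, e.D.F.P k j y • f2 _ _ z (some j) := fun o => by
    cases o <;> simp [pV, Map77.sm2, Bg.p1, Fintype.sum_option, En3.cyl,
      Nd18.YD.B, cP]
  have h' : sp (pV e y z) = e.cyl.pp (y, 0) (sp z) := by simp [pV, Map77.sm2]
  refine ⟨fun H => ⟨fun k => (h (some k)).symm.trans (by rw [H]), h'.symm.trans (by rw [H])⟩,
    fun H => ext2 (fm_ext fun o => (h o).trans ?_) (h'.trans H.2)⟩
  cases o
  exacts [rfl, H.1 _]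

theorem sm_sp (hu : Sm e.Y.I u) : Sm e.Y.I fun y => sp (u y) := fun y => SA.clm _ (hu y)

theorem sm_co (hu : Sm e.Y.I u) (o) : Sm e.Y.I fun y => f2 _ _ (u y) o := fun y =>
  SA.clm (co o) (hu y)

theorem ay_tg (hu : u ∈ Sec e.Y.I (pV e)) : Ay (tg e u) :=
  ⟨fun _ => sm_co hu.1 _, fun y => SA.smul contMDiffAt_const (sm_sp hu.1 y),
    fun k y => ((pV_iff _).1 (hu.2.2 y)).1 k,
    fun y => (map_smul ..).trans (congrArg _ ((pV_iff _).1 (hu.2.2 y)).2)⟩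

variable (e) in
/-- the endomorphisms of the coupling -/
def TJ (o : Option κ) (y : e.Y.M) : En ν := o.elim e.m.J fun k => -(e.m.J * τ e k y)

/-- the coupling of a spinor -/
def E1 (o : Option κ) : Eu ν →L[ℝ] VV κ ν →L[ℝ] VV κ ν :=
  compL ℝ (VV κ ν) ℝ (VV κ ν) (i1 _ _ ∘L Map77.ij ℝ o) ∘L
    (compL ℝ (VV κ ν) (Eu ν) ℝ).flip sp ∘L (innerSL ℝ : Eu ν →L[ℝ] Eu ν →L[ℝ] ℝ) +
    smulRightL ℝ (VV κ ν) (VV κ ν) (co o) ∘L i2 _ _

/-- endomorphisms of the spinor part -/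
def E2 : En ν →L[ℝ] VV κ ν →L[ℝ] VV κ ν :=
  compL ℝ (VV κ ν) (Eu ν) (VV κ ν) (i2 _ _) ∘L (compL ℝ (VV κ ν) (Eu ν) (Eu ν)).flip sp

variable (e) in
/-- the coupling -/
def βV (y : e.Y.M) : VV κ ν →L[ℝ] VV κ ν →L[ℝ] VV κ ν :=
  ∑ o, (E1 o ∘L TJ e o y ∘L sp +
    smulRightL ℝ (VV κ ν) (VV κ ν →L[ℝ] VV κ ν) (co o) (E2 (TJ e o y)))

theorem βV_apply (z w : VV κ ν) : βV e y z w =
    i1 _ _ (WithLp.toLp 2 fun o => ⟪TJ e o y (sp z), sp w⟫_ℝ) +
      i2 _ _ (∑ o, (co o w • TJ e o y (sp z) + co o z • TJ e o y (sp w))) := by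
  classical
  refine ext2 (fm_ext fun o => ?_) ?_
  · simp [βV, E1, E2, -Fintype.sum_option, Map77.sum_ij, -WithLp.ofLp_sum]
    rfl
  · simp [βV, E1, E2]

/-- true variables -/
def zv (v : e.YC) (y : e.Y.M) : VV κ ν := i1 _ _ (oF 0 fun k => v.a k y) + i2 _ _ (dl e • v.Φ y)

/-- the local part -/
def Bv (v : e.YC) (y : e.Y.M) : VV κ ν →L[ℝ] VV κ ν := βV e y (zv v y) - e.b (nm v) • pS e y

variable (e) in
/-- the holonomy direction -/
def ξ1 (y : e.Y.M) : VV κ ν := i1 _ _ (oF 0 fun k => e.ζ y (none, some k))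

/-- the radial direction -/
def ξ2 (v : e.YC) (y : e.Y.M) : VV κ ν := i2 _ _ (v.Φ y)

/-- the terms of rank one -/
def rk (c : ℝ) (ξ u : e.Y.M → VV κ ν) (y : e.Y.M) : VV κ ν :=
  (c * ∫ z, ⟪ξ z, u z⟫_ℝ ∂e.D.F.μ) • ξ y

theorem inner_VV (z w : VV κ ν) : ⟪z, w⟫_ℝ = ∑ o, co o z * co o w + ⟪sp z, sp w⟫_ℝ := by
  rw [WithLp.prod_inner_apply, PiLp.inner_apply]
  simp only [RCLike.inner_apply, conj_trivial, mul_comm]
  rfl

variable (he : e.OK)
include he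

theorem ok0 : (lf (wh e 0 e.h)).OK :=
  have c := he.cyl
  ⟨⟨c.B, c.G, c.tame, c.m, c.cc, c.sk, c.AJ, c.co, c.cp, c.cρ, c.cA, c.cms, c.com, c.msJ, c.msp,
    c.omp, zero_le_two, fun j => j.elim0⟩, he.vol, he.hs, he.cl, he.sζ, he.pζ, he.clζ, contDiff_const,
    fun j => ⟨0, fun r => by simp⟩, fun _ _ _ _ => by simp,
    let ⟨n, u, h, h'⟩ := he.sp; ⟨n, u, h, fun a ha => h' a ⟨ha.1, ha.2, ha.3⟩⟩, contDiff_const,
    fun _ => le_rfl, fun _ _ => rfl, isCompact_empty, contDiff_const, monotone_const⟩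

theorem der_a (hv : Ay v) (ht : Ay t) (k : κ) (y : e.Y.M) :
    HasDerivAt (fun r => (gr (v.vr t r)).a k y) (sd e t.a k y / 2 - e.w / 2 * qq e k v.Φ t.Φ y +
      2 * (deriv (deriv e.f) (hol v) * hol t) * e.ζ y (none, some k)) 0 := by
  have F := fy_vr hv ht
  have h1 := (fam_sd he F.a k).dr 0 y
  have h2 := (fam_qq he F.Φ F.Φ k).dr 0 y
  have h3 : HasDerivAt (fun r => hol (v.vr t r)) (hol t) 0 := (F.hol he).int e.D.F.toPre 0
  have h4 := (((he.sf.iterate_deriv 1).differentiable (by simp)) (hol (v.vr t 0))).hasDerivAt.comp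
    0 h3
  simp only [vr_zero, qq_comm he k t.Φ] at h2 h4
  simp only [fun r => gr_a he (F.ay r), Ga]
  exact ((((h1.div_const 2).const_add _).sub (h2.const_mul (e.w / 4))).add
    ((h4.const_mul 2).mul_const _)).congr_deriv (by rw [iterate_one]; ring)

theorem der_Φ (hv : Ay v) (ht : Ay t) (y : e.Y.M) :
    HasDerivAt (fun r => (gr (v.vr t r)).Φ y) (D0 e t.Φ y -
      ∑ k, (v.a k y • e.m.J (τ e k y (t.Φ y)) + t.a k y • e.m.J (τ e k y (v.Φ y))) -
      (e.b (nm v) • t.Φ y +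
        (deriv e.b (nm v) * (2 * ∫ z, ⟪v.Φ z, t.Φ z⟫_ℝ ∂e.D.F.μ)) • v.Φ y)) 0 := by
  have F := fy_vr hv ht
  have h1 := (fam_D0 he F.Φ).dr 0 y
  have h2 := HasDerivAt.fun_sum (u := Finset.univ) fun k _ =>
    ((F.a k).dr 0 y).smul ((fam_Jτ he F.Φ k).dr 0 y)
  have h3 : HasDerivAt (fun r => nm (v.vr t r)) _ 0 := F.nm.int e.D.F.toPre 0
  have h4 := (((he.sb.differentiable (by simp)) (nm (v.vr t 0))).hasDerivAt.comp 0 h3).smul
    (F.Φ.dr 0 y)
  simp only [vr_zero, integral_const_mul, Function.comp_apply] at h2 h4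
  simp only [fun r => gr_Φ he (F.ay r), GP]
  exact (h1.sub h2).sub h4

theorem D0_smul {φ : e.Y.M → Eu ν} (h : Sm e.Y.I φ) (r : ℝ) :
    D0 e (fun y => r • φ y) y = r • D0 e φ y := by
  simp only [D0, Wz78.dop, fun a => Wz78.nab_csmul (e := e.D.F.e) (A := e.A) a r (h y), map_smul,
    smul_neg, smul_add, Finset.smul_sum]

theorem p2_qd' {x} {φ ψ : Eu ν} (h1 : e.cyl.pp x φ = φ) (h2 : e.cyl.pp x ψ = ψ) :
    e.cyl.p2 x (e.cyl.qd x φ ψ + e.cyl.qd x ψ φ) = e.cyl.qd x φ ψ + e.cyl.qd x ψ φ := by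
  have h := p2_qd he.cyl (v := φ + ψ) (by rw [map_add, h1, h2])
  simp only [← Op40.qL_eq, map_add, add_apply] at h ⊢
  simp only [Op40.qL_eq, p2_qd he.cyl h1, p2_qd he.cyl h2] at h ⊢
  linear_combination (norm := module) h

omit he in
/-- the base operator -/
def h0 (e : En3 κ lam ν) (u : e.Y.M → VV κ ν) (y : e.Y.M) : VV κ ν :=
  i1 _ _ (oF (dvg e (tg e u).a y) fun k => sd e (tg e u).a k y / 2 -
    e.D.F.D k (fun z => f2 _ _ (u z) none) y) + i2 _ _ (D0 e (fun z => sp (u z)) y)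

theorem dl_sq : dl e * dl e = e.w / 2 := Real.mul_self_sqrt (div_nonneg he.cyl.w zero_le_two)

theorem av_eq (hw : 0 < e.w) (hv : Ay v) (hu : u ∈ Sec e.Y.I (pV e)) (y : e.Y.M) :
    End23.av v u y = Bv v y (u y) + rk (8 * deriv (deriv e.f) (hol v)) (ξ1 e) u y +
      rk (-2 * deriv e.b (nm v)) (ξ2 v) u y := by
  have d : dl e ≠ 0 := (Real.sqrt_pos.2 (half_pos hw)).ne'
  have q := p2_qd' he ((ay_tg hu).pΦ y) (hv.pΦ y)
  have i1' : hol (tg e u) = 4 * ∫ z, ⟪ξ1 e z, u z⟫_ℝ ∂e.D.F.μ := by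
    simp only [inner_VV]
    simp [hol, ξ1, Map77.S.co_apply, tg, integral_const_mul]
  have i2' : ∫ z, ⟪v.Φ z, (tg e u).Φ z⟫_ℝ ∂e.D.F.μ = (dl e)⁻¹ * ∫ z, ⟪ξ2 v z, u z⟫_ℝ ∂e.D.F.μ := by
    simp only [inner_VV]
    simp [ξ2, Map77.S.co_apply, tg, integral_const_mul, real_inner_smul_right]
  have c := fun k => qq_comm he k v.Φ (fun z => sp (u z)) y
  rw [End23.av, q, i1', i2', Bv, sub_apply, βV_apply]
  refine ext2 (fm_ext fun o => ?_) ?_
  · cases o with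
    | none => simp [rk, ξ1, ξ2, zv, TJ, pS, Map77.sm2, real_inner_smul_left]
    | some k =>
      have := c k
      simp only [qq, τ, mul_apply_eq_comp] at this
      simp [rk, ξ1, ξ2, zv, TJ, pS, Map77.sm2, real_inner_smul_left, real_inner_smul_right, Bg.qd,
        tg, En3.cyl, τ, ← this, show e.w = 2 * (dl e * dl e) by rw [dl_sq he]; ring]
      field_simp
      ring
  · have := ((pV_iff _).1 (hu.2.2 y)).2
    have c : ∀ r, dl e * (r * (dl e)⁻¹) = r := fun r => by field_simp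
    simp [rk, ξ1, ξ2, zv, TJ, pS, Map77.sm2, tg, τ, Fintype.sum_option, Map77.S.co_apply, this,
      Jρ he, smul_sub, smul_add, Finset.smul_sum, smul_smul, Finset.sum_add_distrib, c,
      mul_comm _ (dl e)]
    match_scalars <;> field_simp

theorem hs_eq (hw : 0 < e.w) (hv : Ay v) (hu : u ∈ Sec e.Y.I (pV e)) (y : e.Y.M) :
    hs v u y = h0 e u y + End23.av v u y := by
  have d : dl e ≠ 0 := (Real.sqrt_pos.2 (half_pos hw)).ne'
  have t := ay_tg hu
  rw [hs, End23.av, p2_qd' he (t.pΦ y) (hv.pΦ y), (der_Φ he hv t y).deriv,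
    show (tg e u).Φ = fun y => (dl e)⁻¹ • sp (u y) from rfl, D0_smul he (sm_sp hu.1)]
  simp only [fun k => (der_a he hv t k y).deriv]
  refine ext2 (fm_ext fun o => ?_) ?_
  · cases o with
    | none => simp [h0]
    | some k =>
      have := qq_comm he k v.Φ (tg e u).Φ y
      simp only [qq, τ, mul_apply_eq_comp, tg, map_smul] at this
      simp [h0, qq, τ, Bg.qd, En3.cyl, tg, ← this]
      ring
  · simp [h0, τ, Jρ he, smul_sub, smul_add, Finset.smul_sum, smul_smul, Finset.sum_add_distrib, d]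
    abel

theorem hs0_eq (hu : u ∈ Sec e.Y.I (pV e)) (y : e.Y.M) : hs0 e u y = h0 e u y := by
  have z : Ay (⟨0, 0⟩ : (lf (wh e 0 e.h)).YC) :=
    ⟨fun _ => contMDiff_const, contMDiff_const, fun _ _ => by simp, fun _ => map_zero _⟩
  refine (hs_eq (ok0 he) two_pos z hu y).trans ?_
  rw [av_eq (ok0 he) two_pos z hu, Bv, show zv (⟨0, 0⟩ : (lf (wh e 0 e.h)).YC) y = 0 from
    ext2 (fm_ext fun o => by cases o <;> simp [zv]) (by simp [zv])]
  simp [rk]
  rfl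

theorem hs_sub (hw : 0 < e.w) (hv : Ay v) (hu : u ∈ Sec e.Y.I (pV e)) (y : e.Y.M) :
    hs v u y - hs0 e u y = End23.av v u y := by
  rw [hs_eq he hw hv hu, hs0_eq he hu, add_sub_cancel_left]

theorem sm_TJ (o) : Sm e.Y.I (TJ e o) := by
  cases o
  exacts [contMDiff_const, fun y => (SA.mul contMDiffAt_const ((sy he).sm _ y)).neg]

theorem sm_βV : Sm e.Y.I (βV e) := fun y => SA.sum _ fun o _ => (contMDiffAt_const.clm_comp
  ((sm_TJ he o y).clm_comp contMDiffAt_const)).add (SA.clm _ (SA.clm _ (sm_TJ he o y)))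

theorem sm_pS : Sm e.Y.I (pS e) := fun y => contMDiffAt_const.add (contMDiffAt_const.clm_comp
  ((sm_slice_fst (Op40.sa_pp he.cyl) 0 y).clm_comp contMDiffAt_const))

theorem pp_TJ (o) {φ : Eu ν} (h : e.cyl.pp (y, 0) φ = φ) :
    e.cyl.pp (y, 0) (TJ e o y φ) = TJ e o y φ := by
  have P := Op40.pc he.cyl (y, 0)
  cases o
  exacts [P.pp_J h, (map_neg ..).trans (congrArg _ (P.pp_J (P.pp_ρ (P.pm_ρ h _) _)))]

theorem maps_βV {z w : VV κ ν} (hz : pV e y z = z) (hw : pV e y w = w) :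
    pV e y (βV e y z w) = βV e y z w := by
  rw [pV_iff] at *
  rw [βV_apply]
  refine ⟨fun k => ?_, by simp [-Fintype.sum_option, pp_TJ he _ hz.2, pp_TJ he _ hw.2]⟩
  have := congrArg (fun T : En ν => ⟪e.m.J (T (sp z)), sp w⟫_ℝ) ((sy he).proj k y)
  simpa [TJ, sum_inner, real_inner_smul_left] using this

theorem βV_symm {z : VV κ ν} (hz : co none z = 0) (w w' : VV κ ν) :
    ⟪βV e y z w, w'⟫_ℝ = ⟪w, βV e y z w'⟫_ℝ := by
  have c : ∀ k φ ψ, ⟪e.m.J (τ e k y φ), ψ⟫_ℝ = ⟪φ, e.m.J (τ e k y ψ)⟫_ℝ := fun k φ ψ =>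
    (qq_comm he k (fun _ => φ) (fun _ => ψ) y).trans (real_inner_comm ..)
  simp only [inner_VV, βV_apply]
  simp [Map77.S.co_apply, inner_add_left, inner_add_right, sum_inner, inner_sum, TJ,
    real_inner_smul_left, real_inner_smul_right, Finset.sum_add_distrib, show f2 _ _ z none = 0 from hz,
    c _ (sp w), real_inner_comm (sp w), mul_comm]
  ring

omit he in
theorem pS_apply (z : VV κ ν) : pS e y z = i2 _ _ (e.cyl.pp (y, 0) (sp z)) := by
  simp [pS, Map77.sm2, Map77.pr2_apply]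

theorem maps_pS (z : VV κ ν) : pV e y (pS e y z) = pS e y z := by
  simp [pV_iff, pS_apply, (Op40.prjp he.cyl).idem]

theorem pS_symm (z w : VV κ ν) : ⟪pS e y z, w⟫_ℝ = ⟪z, pS e y w⟫_ℝ := by
  simp only [inner_VV, pS_apply]
  simp [Map77.S.co_apply, (Op40.prjp he.cyl).symm]

/-- the holonomy direction as a section -/
def s1 : Sec e.Y.I (pV e) := ⟨ξ1 e, fun y => SA.clm _ (sa_lp fun o => by
  cases o; exacts [contMDiffAt_const, sm_ζ he _ y]), hcs, fun y => (pV_iff _).2 ⟨fun k => by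
    have := (Op40.sd_p2 he.cyl (x := (y, 0)) (e.ζ y)).pr' none (some k)
    rw [he.pζ] at this
    simpa [ξ1, En3.cyl, Nd18.YD.B, cP] using this, by simp [ξ1]⟩⟩

omit he in
/-- the radial direction as a section -/
def sR (hv : Ay v) : Sec e.Y.I (pV e) := ⟨ξ2 v, fun y => SA.clm _ (hv.sΦ y), hcs,
  fun y => (pV_iff _).2 ⟨fun k => by simp [ξ2], hv.pΦ y⟩⟩

omit he in
/-- a configuration as a section -/
def sZ (hv : Ay v) : Sec e.Y.I (pV e) := ⟨zv v, fun y => (SA.clm _ (sa_lp fun o => by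
  cases o; exacts [contMDiffAt_const, hv.sa _ y])).add
    (SA.clm _ (SA.smul contMDiffAt_const (hv.sΦ y))), hcs,
  fun y => (pV_iff _).2 ⟨fun k => by simpa [zv] using hv.pa k y, by simp [zv, hv.pΦ]⟩⟩

omit he in
/-- terms of rank one on Sobolev spaces -/
def rkH (k : ℕ) (ξ : Sec e.Y.I (pV e)) : XH e k →L[ℝ] XH e k :=
  (innerSL ℝ (e.D.F.toH 0 _ ξ) ∘L e.D.F.incl k 0 _).smulRight (e.D.F.toH k _ ξ)

omit he in
theorem rep_rkH (k : ℕ) (c : ℝ) (ξ : Sec e.Y.I (pV e)) : e.D.F.Rep (c • rkH k ξ) (rk c ξ.1) :=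
  fun u => ⟨(c * e.D.F.ip 0 ξ.1 u.1) • ξ, rfl, by
    simp [rkH, incl_toH k.zero_le, innerSL_apply_apply, inner_toH, smul_smul]⟩

/-- the zero order part on Sobolev spaces -/
def AH (hv : Ay v) (k : ℕ) : XH e k →L[ℝ] XH e k :=
  e.D.F.mulH k _ _ (fun y => βV e y (zv v y)) - e.b (nm v) • e.D.F.mulH k _ _ (pS e) +
    (8 * deriv (deriv e.f) (hol v)) • rkH k (s1 he) + (-2 * deriv e.b (nm v)) • rkH k (sR hv)

theorem rep_β (hv : Ay v) (k : ℕ) : e.D.F.Rep (e.D.F.mulH k (pV e) (pV e) fun y => βV e y (zv v y))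
    fun u y => βV e y (zv v y) (u y) := rep_mulH (Cb_of_compact ((sm_βV he).clm_apply (sZ hv).2.1))
  fun y _ h => maps_βV he ((sZ hv).2.2.2 y) h

theorem rep_pS (k : ℕ) : e.D.F.Rep (e.D.F.mulH k (pV e) (pV e) (pS e)) fun u y => pS e y (u y) :=
  rep_mulH (Cb_of_compact (sm_pS he)) fun _ _ _ => maps_pS he _

theorem rep_AH (hw : 0 < e.w) (hv : Ay v) (k : ℕ) : e.D.F.Rep (AH he hv k) (End23.av v) :=
  RepT_congr (RepT_add (RepT_add (RepT_sub (rep_β he hv k) (RepT_smul _ (rep_pS he k)))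
    (rep_rkH _ _ _)) (rep_rkH _ _ _)) fun u => funext fun y => (av_eq he hw hv u.2 y).symm

theorem aH_eq (hw : 0 < e.w) (hv : Ay v) : aH v = AH he hv 0 :=
  (RepT_congr (rep_AH he hw hv 0) fun u => funext fun y => (hs_sub he hw hv u.2 y).symm).liftT_eq

omit he in
theorem symA_of {A : XH e 0 →L[ℝ] XH e 0} {B : e.Y.M → VV κ ν →L[ℝ] VV κ ν}
    (h : e.D.F.Rep A fun u y => B y (u y)) (hB : ∀ y z w, ⟪B y z, w⟫_ℝ = ⟪z, B y w⟫_ℝ) :
    A ∈ Crt72.symA (XH e 0) := fun x y => by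
  induction x, y using H_ind₂ with
  | hP => exact isClosed_eq (by fun_prop) (by fun_prop)
  | h u v => simp only [RepT_toH h, inner_toH, Pre.ip, hB]

omit he in
theorem symA_rk (ξ : Sec e.Y.I (pV e)) : rkH 0 ξ ∈ Crt72.symA (XH e 0) := fun x y => by
  simp [rkH, incl_self, innerSL_apply_apply, real_inner_smul_left, real_inner_smul_right,
    real_inner_comm x, mul_comm]

theorem symA_AH (hv : Ay v) : AH he hv 0 ∈ Crt72.symA (XH e 0) :=
  add_mem (add_mem (sub_mem (symA_of (rep_β he hv 0) fun y => βV_symm he (by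
    simp [zv, Map77.S.co_apply])) (Submodule.smul_mem _ _ (symA_of (rep_pS he 0) fun _ => pS_symm he)))
    (Submodule.smul_mem _ _ (symA_rk _))) (Submodule.smul_mem _ _ (symA_rk _))

section lim
variable {J : Type} {l : Filter J} {f : J → ℝ} {w : J → e.YC}

omit he in
theorem tend_toH {u : J → Sec e.Y.I (pV e)} {u₀ : Sec e.Y.I (pV e)} (hf : Tendsto f l (𝓝 0))
    (h0 : ∀ i, 0 ≤ f i) (h : ∀ i y, ‖(u i).1 y - u₀.1 y‖ ≤ f i) :
    Tendsto (fun i => e.D.F.toH 0 _ (u i)) l (𝓝 (e.D.F.toH 0 _ u₀)) :=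
  tendsto_iff_norm_sub_tendsto_zero.2 <| squeeze_zero (fun _ => norm_nonneg _)
    (g := fun i => f i * e.D.F.nrm 0 fun _ => (1 : ℝ)) (fun i => by
    rw [← map_sub, norm_toH]
    exact nrm0_le _ (v := fun _ => (1 : ℝ)) continuous_const (h0 i) fun y => by simpa using h i y)
    (by simpa using hf.mul_const _)

omit he in
theorem sup_dist : ∃ K, 0 ≤ K ∧ ∀ v v' : e.YC, Ay v → Ay v' → 0 ≤ En3.dist 2 v' v ∧ ∀ y,
    ‖zv v' y - zv v y‖ ≤ K * En3.dist 2 v' v ∧ ‖ξ2 v' y - ξ2 v y‖ ≤ K * En3.dist 2 v' v := by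
  obtain ⟨S, s0, hS⟩ := sup2 (V := ℝ) e.D.F.toPre e.Y.dim.le
  obtain ⟨S', s0', hS'⟩ := sup2 (V := Eu ν) e.D.F.toPre e.Y.dim.le
  let c : κ → VV κ ν := fun k => i1 _ _ (Map77.ij ℝ (some k) 1)
  let n := ‖i2 (Fm (Option κ) ℝ) (Eu ν)‖
  refine ⟨∑ k, S * ‖c k‖ + |dl e| * (n * S') + n * S', by positivity, fun v v' hv hv' => ?_⟩
  have p1 : 0 ≤ ∑ k, e.D.F.nrm 2 (v'.a k - v.a k) := Finset.sum_nonneg fun _ _ => nrm_nonneg ..
  have p2 := nrm_nonneg (F := e.D.F.toPre) 2 (v'.Φ - v.Φ)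
  have p0 : 0 ≤ En3.dist 2 v' v := add_nonneg p1 p2
  refine ⟨p0, fun y => ?_⟩
  have h1 : ∀ k, ‖(v'.a k y - v.a k y) • c k‖ ≤ S * ‖c k‖ * En3.dist 2 v' v := fun k => by
    rw [norm_smul, mul_right_comm]
    gcongr
    exact (hS _ ((hv'.sa k).sub (hv.sa k)) y).trans (mul_le_mul_of_nonneg_left
      ((Finset.single_le_sum (f := fun k => e.D.F.nrm 2 (v'.a k - v.a k))
        (fun _ _ => nrm_nonneg ..) (Finset.mem_univ k)).trans
        (le_add_of_nonneg_right p2)) s0)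
  have h2 : ‖ξ2 v' y - ξ2 v y‖ ≤ n * S' * En3.dist 2 v' v := by
    rw [ξ2, ξ2, ← map_sub, mul_assoc]
    exact (le_opNorm ..).trans (mul_le_mul_of_nonneg_left ((hS' _ (hv'.sΦ.sub hv.sΦ) y).trans
      (mul_le_mul_of_nonneg_left (le_add_of_nonneg_left p1) s0')) (norm_nonneg _))
  have h3 : zv v' y - zv v y = ∑ k, (v'.a k y - v.a k y) • c k + dl e • (ξ2 v' y - ξ2 v y) := by
    classical
    refine ext2 (fm_ext fun o => ?_) (by simp [zv, c, ξ2, smul_sub])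
    cases o <;> simp [zv, c, ξ2, Map77.ij, apply_ite (fun T : ℝ →L[ℝ] ℝ => T 1)]
  have h4 := (norm_sum_le ..).trans (Finset.sum_le_sum fun k (_ : k ∈ Finset.univ) => h1 k)
  have h5 := mul_le_mul_of_nonneg_left h2 (abs_nonneg (dl e))
  have h6 := norm_add_le (∑ k, (v'.a k y - v.a k y) • c k) (dl e • (ξ2 v' y - ξ2 v y))
  rw [← h3, norm_smul, Real.norm_eq_abs] at h6
  rw [← Finset.sum_mul] at h4
  have : 0 ≤ n * S' * En3.dist 2 v' v := by positivity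
  have : 0 ≤ (∑ k, S * ‖c k‖) * En3.dist 2 v' v := by positivity
  have : 0 ≤ |dl e| * (n * S' * En3.dist 2 v' v) := by positivity
  constructor <;> linarith

omit he in
theorem nm_eq (hv : Ay v) : nm v = ‖e.D.F.toH 0 _ (sR hv)‖ ^ 2 := by
  rw [← real_inner_self_eq_norm_sq, inner_toH]
  simp only [Pre.ip, inner_VV]
  simp [nm, sR, ξ2, Map77.S.co_apply]

theorem hol_eq (hv : Ay v) : hol v = 4 * ⟪e.D.F.toH 0 _ (s1 he), e.D.F.toH 0 _ (sZ hv)⟫_ℝ := by
  rw [inner_toH]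
  simp only [Pre.ip, inner_VV]
  simp [hol, s1, sZ, ξ1, zv, Map77.S.co_apply, integral_const_mul]

theorem tend_AH (hw : ∀ i, Ay (w i)) (hv : Ay v)
    (h : Tendsto (fun i => En3.dist 2 (w i) v) l (𝓝 0)) :
    Tendsto (fun i => AH he (hw i) 0) l (𝓝 (AH he hv 0)) := by
  obtain ⟨K, k0, hK⟩ := sup_dist (e := e)
  obtain ⟨K', k0', hK'⟩ := sup_of (sm_βV he).continuous
  have hf : Tendsto (fun i => K * En3.dist 2 (w i) v) l (𝓝 0) := by simpa using h.const_mul K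
  have f0 := fun i => mul_nonneg k0 (hK _ _ hv (hw i)).1
  have t1 := tend_toH (u := fun i => sZ (hw i)) (u₀ := sZ hv) hf f0
    fun i y => ((hK _ _ hv (hw i)).2 y).1
  have t2 := tend_toH (u := fun i => sR (hw i)) (u₀ := sR hv) hf f0
    fun i y => ((hK _ _ hv (hw i)).2 y).2
  have t3 : Tendsto (fun i => nm (w i)) l (𝓝 (nm v)) := by
    simpa only [← nm_eq] using t2.norm.pow 2
  have t4 : Tendsto (fun i => hol (w i)) l (𝓝 (hol v)) := by
    simpa only [← hol_eq he] using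
      ((tendsto_const_nhds (x := e.D.F.toH 0 _ (s1 he))).inner (𝕜 := ℝ) t1).const_mul 4
  refine (((tendsto_iff_norm_sub_tendsto_zero.2 <| squeeze_zero (fun _ => norm_nonneg _)
    (fun i => opNorm_le_bound _ (mul_nonneg k0' (f0 i)) (RepT_norm_le (RepT_sub (rep_β he (hw i) 0)
      (rep_β he hv 0)) fun u => nrm0_le _ u.2.1.continuous (mul_nonneg k0' (f0 i)) fun y => ?_))
    (by simpa using hf.const_mul K')).sub
    (((he.sb.continuous.tendsto _).comp t3).smul_const _)).add (((((he.sf.iterate_deriv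
      2).continuous.tendsto _).comp t4).const_mul 8).smul_const _)).add
    (((((he.sb.iterate_deriv 1).continuous.tendsto _).comp t3).const_mul (-2)).smul ?_)
  · rw [Pi.sub_apply, ← sub_apply, ← map_sub]
    exact (le_opNorm ..).trans (mul_le_mul_of_nonneg_right ((le_opNorm ..).trans
      (mul_le_mul (hK' y) ((hK _ _ hv (hw i)).2 y).1 (norm_nonneg _) k0')) (norm_nonneg _))
  · exact (Continuous.tendsto (f := fun x : XH e 0 => smulRightL ℝ _ _
      (innerSL ℝ x ∘L e.D.F.incl 0 0 _) x) (by fun_prop) _).comp t2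

end lim

omit he in
/-- **ES-AH** -/
theorem ahStmt : AhStmt κ lam ν := fun e he hw v hv => by
  have a := ay_of hv
  refine ⟨fun u hu y => hs_sub he hw a hu y, aH_eq he hw a ▸ rep_AH he hw a 0,
    aH_eq he hw a ▸ symA_AH he a, fun k => by
      rw [show e.D.F.lift k k (pV e) (pV e) (End23.av v) = AH he a k from
        (rep_AH he hw a k).liftT_eq]; exact rep_AH he hw a k, fun ε hε => ?_⟩
  have := tend_AH he (w := fun i : {v' : e.YC // Ay v'} => i.1) (fun i => i.2) a tendsto_comap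
  obtain ⟨s, hs, h⟩ := mem_comap.1 (Metric.tendsto_nhds.1 this ε hε)
  obtain ⟨η, h0, hη⟩ := Metric.mem_nhds_iff.1 hs
  refine ⟨η / 2, half_pos h0, fun v' hv' hd => ?_⟩
  rw [aH_eq he hw a, aH_eq he hw (ay_of hv'), ← dist_eq_norm]
  exact le_of_lt (h (a := ⟨v', ay_of hv'⟩) (hη (mem_ball_zero_iff.2 ((Real.norm_of_nonneg
    (sup_dist.choose_spec.2 _ _ a (ay_of hv')).1).trans_lt (by linarith)))))

end Crest.Agent.X212.Ah58
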