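import Crest.Agent.X212.Cyl58.Tr

/-!
# X212/Cyl58/Bal: an unmatched pinch wall that bounds a ball of `X'`

`exists_rad` : radial reparametrisation;  `BC` : a ball chart behind the half band `(a, b)`;
`BC.exists_ball` : the identification `ψ'` of the side `b` of `a` with a punctured region of `X'`, conical
on the half band (the input of `tr_ball`);  `BC.tr` : the capped side is identified with a region of `Z' c'`.
-/

set_option autoImplicit false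
set_option linter.unusedSectionVars false
noncomputable section
open Set Filter Topology Function Metric TopologicalSpace
open scoped ContDiff Manifold

namespace Crest.Agent.X212.Cyl58

open Glue52 M Cyf70 An

section Rad

variable {Y : Mf 3} {κ : Type} [Fintype κ] {F : Fr Y.I Y.M κ} {θ : Y.M → V4} (h : Round F θ)
include h

theorem rnd_polar {y y' : Y.M} {r r' : ℝ} (hr : 0 < r) (hr' : 0 < r') (e : r • θ y = r' • θ y') :
    y = y' ∧ r = r' := by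
  obtain rfl : r = r' := by rw [← rnd_norm h y hr.le, e, rnd_norm h y' hr'.le]
  exact ⟨rnd_inj h (smul_right_injective _ hr.ne' e), rfl⟩

/-- a radial embedding that is linear near `0` and has the profile `ρ` on `[1, ∞)` -/
theorem exists_rad {ρ : ℝ → ℝ} (hρ : Up ρ (Ioi 0)) (h0 : ∀ s, 0 < s → 0 < ρ s) :
    ∃ (Λ : V4 → V4) (l : ℝ → ℝ), IsOE 𝓘(ℝ, V4) 𝓘(ℝ, V4) Λ ∧ Λ 0 = 0 ∧ StrictMonoOn l (Ioi 0) ∧
      (∀ r, 0 < r → 0 < l r) ∧ (∀ y r, 0 < r → Λ (r • θ y) = l r • θ y) ∧ (∀ r, 1 ≤ r → l r = ρ r) ∧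
      ∀ s, 0 < s → s ≤ ρ 1 → ∃ r, 0 < r ∧ r ≤ 1 ∧ l r = s := by
  have hβ : Up (Real.log ∘ ρ ∘ Real.exp) univ :=
    Up.log.comp (hρ.comp (Up.exp univ) fun x _ => Real.exp_pos x) fun x _ => h0 _ (Real.exp_pos x)
  set c := (Real.log ∘ ρ ∘ Real.exp) 0 with hc
  obtain ⟨m, m1, m2, m3, -⟩ := exists_up_univ (a := -1) (b := 0) (by norm_num) (Up.add_const c univ)
    univ_mem (subset_univ _) hβ univ_mem (subset_univ _) (by linarith)
  let Λ : V4 → V4 := fun z => Real.exp (m (Real.log ‖z‖) - Real.log ‖z‖) • z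
  have k1 : ∀ y t, Λ (Real.exp t • θ y) = Real.exp (m t) • θ y := fun y t => by
    simp only [Λ, rnd_norm h y (Real.exp_pos t).le, Real.log_exp, smul_smul, ← Real.exp_add, sub_add_cancel]
  have k2 : IsOE (IC Y.I) 𝓘(ℝ, V4) (Λ ∘ fun p : Y.M × ℝ => Real.exp p.2 • θ p.1) := by
    rw [show (Λ ∘ fun p : Y.M × ℝ => Real.exp p.2 • θ p.1) =
      (fun p : Y.M × ℝ => Real.exp p.2 • θ p.1) ∘ Prod.map id m from funext fun p => k1 p.1 p.2]
    exact h.oe.comp (IsOE.id.prodMap m1.isOE)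
  have k3 : ∀ z : V4, z ≠ 0 → ∃ p : Y.M × ℝ, Real.exp p.2 • θ p.1 = z := fun z e => by
    obtain ⟨y, hy⟩ := rnd_exists h e
    exact ⟨(y, Real.log ‖z‖), by rw [Real.exp_log (norm_pos_iff.2 e), hy]⟩
  have k4 : ∀ z, Λ z = 0 → z = 0 := fun z e => (smul_eq_zero.1 e).resolve_left (Real.exp_pos _).ne'
  have k5 : Λ 0 = 0 := smul_zero _
  refine ⟨Λ, fun r => Real.exp (m (Real.log r)), ⟨fun z w e => ?_, fun z => ?_⟩, k5,
    fun r hr s _ e => Real.exp_lt_exp.2 (m1.strictMono (Real.log_lt_log hr e)), fun _ _ => Real.exp_pos _,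
    fun y r hr => by rw [← k1, Real.exp_log hr], fun r hr => ?_, fun s hs hs' => ?_⟩
  · by_cases e1 : z = 0
    · rw [e1, k4 w (by rw [← e, e1, k5])]
    · obtain ⟨p, rfl⟩ := k3 z e1
      obtain ⟨q, rfl⟩ := k3 w fun k => e1 (k4 _ (by rw [e, k, k5]))
      rw [k2.inj e]
  · by_cases e1 : z = 0
    · subst e1
      refine ld_congr (Glue52.ld_clm (ContinuousLinearEquiv.smulLeft (R₁ := ℝ) (M₁ := V4)
        (Units.mk0 (Real.exp c) (Real.exp_pos c).ne')) 0) ?_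
      filter_upwards [ball_mem_nhds (0 : V4) (Real.exp_pos (-1))] with z hz
      by_cases e : z = 0
      · simp [e, k5]
      · have := (Real.log_lt_iff_lt_exp (norm_pos_iff.2 e)).2 (mem_ball_zero_iff.1 hz)
        simp [Λ, m2 _ this.le]
    · obtain ⟨p, rfl⟩ := k3 z e1
      exact ld_of_comp (f := fun p : Y.M × ℝ => Real.exp p.2 • θ p.1) (x := p) (h.oe.loc p) (k2.loc p)
  · have h1 : 0 < r := one_pos.trans_le hr
    simp only [m3 _ (Real.log_nonneg hr), comp_apply, Real.exp_log h1, Real.exp_log (h0 r h1)]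
  · have h1 : Real.log s ≤ c := by
      simpa only [hc, comp_apply, Real.exp_zero] using Real.log_le_log hs hs'
    obtain ⟨t, ht, e⟩ : Real.log s ∈ m '' Icc (min (-1) (Real.log s - c)) 0 := by
      rw [m1.image_Icc (min_le_of_left_le (by norm_num)) (subset_univ _), m2 _ (min_le_left _ _),
        m3 _ le_rfl]
      exact ⟨by linarith [min_le_right (-1) (Real.log s - c)], h1⟩
    exact ⟨Real.exp t, Real.exp_pos t, Real.exp_le_one_iff.2 ht.2, by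
      simp only [Real.log_exp, e, Real.exp_log hs]⟩

end Rad

variable {X X' : Mf 4} {A A' A₀ κ : Type} [Fintype A] [Fintype A'] [Fintype A₀] [Fintype κ]
  {M : Mark X A κ} {M' : Mark X' A' κ}

/-- a ball chart `e` of `X'` behind the half band `(a, b)` of `M` -/
structure BC (I : MId M M' A₀) (a : A) (b : Bool) (e : V4 → X'.M) (ρ : ℝ → ℝ) (R : ℝ) : Prop where
  pin : M.pin a
  up : Up ρ (Ici 0)
  pos : 0 < ρ 0
  lt : ∀ r, 0 < r → ρ r < R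
  ld : ∀ z ∈ ball (0 : V4) R, IsLocalDiffeomorphAt 𝓘(ℝ, V4) X'.I ∞ e z
  inj : InjOn e (ball 0 R)
  sub : ∀ y r, 0 < r → (M.bn a).j (y, pm b * r) ∈ I.ψ.source
  rel : ∀ y r, 0 < r → e (ρ r • M.th a y) = I.ψ ((M.bn a).j (y, pm b * r))
  out : ∀ x ∈ I.ψ.source, x ∈ (M.sys.w a).sd b → I.ψ x ∉ e '' closedBall 0 (ρ 0)
  wal : ∀ a₀ q, (M.bn (I.f a₀)).j q ∈ (M.sys.w a).sd b \ range (M.bn a).j

namespace BC

variable {I : MId M M' A₀} {a : A} {b : Bool} {e : V4 → X'.M} {ρ : ℝ → ℝ} {R : ℝ} (h : BC I a b e ρ R)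
include h

theorem mono : StrictMonoOn ρ (Ici 0) := h.up.strictMonoOn ordConnected_Ici

theorem pos' {r : ℝ} (hr : 0 < r) : 0 < ρ r := h.pos.trans (h.mono self_mem_Ici hr.le hr)

theorem mem_sd (y) {r : ℝ} (hr : 0 < r) : (M.bn a).j (y, pm b * r) ∈ (M.sys.w a).sd b :=
  ((M.bn a).mem_half.2 ⟨y, r, hr, rfl⟩).2

/-- the points of the side `b` that are mapped into the ball -/
theorem key {x : X.M} (hx : x ∈ I.ψ.source) (hb : x ∈ (M.sys.w a).sd b) {s : ℝ} (hs : 0 < s) {z : V4}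
    (hz : ‖z‖ ≤ ρ s) (k : I.ψ x = e z) :
    ∃ y r, 0 < r ∧ r ≤ s ∧ x = (M.bn a).j (y, pm b * r) ∧ z = ρ r • M.th a y := by
  have h1 : ρ 0 < ‖z‖ := lt_of_not_ge fun l => h.out x hx hb ⟨z, mem_closedBall_zero_iff.2 l, k.symm⟩
  obtain ⟨r, hr, e1⟩ : ‖z‖ ∈ ρ '' Icc 0 s := by
    rw [h.up.image_Icc hs.le Icc_subset_Ici_self]
    exact ⟨h1.le, hz⟩
  have h2 : 0 < r := hr.1.lt_of_ne fun l => h1.ne (by rw [← e1, ← l])
  obtain ⟨y, hy⟩ := rnd_exists (M.rnd a h.pin) (norm_pos_iff.1 (h.pos.trans h1))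
  rw [← e1] at hy
  exact ⟨y, r, h2, hr.2, I.ψ.injOn hx (h.sub y r h2) (by rw [k, ← hy, h.rel y r h2]), hy.symm⟩

/-- BALL -/
theorem exists_ball : ∃ (I' : MId M M' A₀) (ε : V4 → X'.M), I'.f = I.f ∧ I'.f' = I.f' ∧ HEq I'.g I.g ∧
    I'.ψ.source = I.ψ.source ∩ (M.sys.w a).sd b ∧
    I'.ψ.target = (I.ψ '' (I.ψ.source ∩ (M.sys.w a).sd b) ∪ e '' closedBall 0 (ρ 0)) \ {e 0} ∧
    (∀ x, (∀ y r, 0 < r → r < 1 → x ≠ (M.bn a).j (y, pm b * r)) → I'.ψ x = I.ψ x) ∧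
    IsOE 𝓘(ℝ, V4) X'.I ε ∧ ε 0 = e 0 ∧ range ε ⊆ e '' ball 0 R ∧
    ε '' closedBall 0 1 = e '' closedBall 0 (ρ 1) ∧
    ∀ y r, 0 < r → ε (r • M.th a y) = I'.ψ ((M.bn a).j (y, pm b * r)) := by
  have := M.con
  have hR := M.rnd a h.pin
  obtain ⟨Λ, l, Λ1, Λ2, l1, l2, l3, l4, l5⟩ :=
    exists_rad hR (h.up.mono Ioi_subset_Ici_self) fun _ => h.pos'
  have R0 : 0 < R := (h.pos' one_pos).trans (h.lt 1 one_pos)
  have l6 : ∀ r, 0 < r → r ≤ 1 → l r ≤ ρ 1 := fun r hr k =>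
    l4 1 le_rfl ▸ l1.monotoneOn hr (mem_Ioi.2 one_pos) k
  have l7 : ∀ r, 0 < r → l r < R := fun r hr => (le_total r 1).elim
    (fun k => (l6 r hr k).trans_lt (h.lt 1 one_pos)) fun k => l4 r k ▸ h.lt r hr
  have pol : ∀ z : V4, z = 0 ∨ ∃ y, ∃ r : ℝ, 0 < r ∧ r • M.th a y = z := fun z => (em _).imp_right fun k =>
    (rnd_exists hR k).imp fun _ hy => ⟨‖z‖, norm_pos_iff.2 k, hy⟩
  have Λ3 : ∀ z, Λ z ∈ ball (0 : V4) R := fun z => by
    rcases pol z with rfl | ⟨y, r, hr, rfl⟩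
    · rw [Λ2]; exact mem_ball_self R0
    · rw [l3 y r hr, mem_ball_zero_iff, rnd_norm hR y (l2 r hr).le]; exact l7 r hr
  have ε1 : IsOE 𝓘(ℝ, V4) X'.I (e ∘ Λ) :=
    ⟨fun z w k => Λ1.inj (h.inj (Λ3 z) (Λ3 w) k), fun z => ld_comp (h.ld _ (Λ3 z)) (Λ1.loc z)⟩
  let jb : (M.bn a).Y.M × ℝ → X.M := (M.bn a).j ∘ Prod.map id (hx b ∘ fun t => -t)
  have j1 : IsOE (IC (M.bn a).Y.I) X.I jb :=
    (M.bn a).oe.comp (IsOE.id.prodMap ((isOE_hx b).comp isOE_neg))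
  have j2 : ∀ y r, 0 < r → jb (y, Real.log r) = (M.bn a).j (y, pm b * r) := fun y r hr => by
    simp only [jb, comp_apply, Prod.map_apply, id, hx_log b hr, pm_eq_sg]
  have j3 : ∀ p, jb p = (M.bn a).j (p.1, pm b * Real.exp p.2) := fun p => by
    rw [← j2 _ _ (Real.exp_pos _), Real.log_exp]
  let g : X.M → X'.M := extend jb ((e ∘ Λ) ∘ fun p => Real.exp p.2 • M.th a p.1) I.ψ
  have g1 : g ∘ jb = (e ∘ Λ) ∘ fun p => Real.exp p.2 • M.th a p.1 := funext (j1.inj.extend_apply _ _)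
  have g2 : ∀ y r, 0 < r → g ((M.bn a).j (y, pm b * r)) = e (l r • M.th a y) := fun y r hr => by
    rw [← j2 y r hr, ← l3 y r hr]
    exact (congrFun g1 _).trans (by simp only [comp_apply, Real.exp_log hr])
  have g3 : ∀ x, (∀ y r, 0 < r → r < 1 → x ≠ (M.bn a).j (y, pm b * r)) → g x = I.ψ x := fun x hx => by
    by_cases k : x ∈ range jb
    · obtain ⟨p, rfl⟩ := k
      have k : 1 ≤ Real.exp p.2 := le_of_not_gt fun k => hx p.1 _ (Real.exp_pos _) k (j3 p)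
      rw [j3, g2 p.1 _ (Real.exp_pos _), l4 _ k, h.rel _ _ (Real.exp_pos _)]
    · exact extend_apply' _ _ _ k
  have cs : ∀ x, (∃ y r, 0 < r ∧ r ≤ 1 ∧ x = (M.bn a).j (y, pm b * r)) ∨
      ((∀ y r, 0 < r → r ≤ 1 → x ≠ (M.bn a).j (y, pm b * r)) ∧ g x = I.ψ x) := fun x =>
    (em _).imp_right fun k => have k' := fun y r h1 h2 e => k ⟨y, r, h1, h2, e⟩
      ⟨k', g3 x fun y r h1 h2 => k' y r h1 h2.le⟩
  set S := I.ψ.source ∩ (M.sys.w a).sd b with hS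
  have S1 : IsOpen S := I.ψ.open_source.inter ((M.sys.w a).op_sd b)
  have S2 : ∀ y r, 0 < r → (M.bn a).j (y, pm b * r) ∈ S := fun y r hr => ⟨h.sub y r hr, h.mem_sd y hr⟩
  have K1 : IsClosed ((M.bn a).slab (Icc (-1) 1)) := ((M.bn a).isCompact_slab isCompact_Icc).isClosed
  have ev : ∀ x ∉ (M.bn a).slab (Icc (-1) 1), g =ᶠ[𝓝 x] I.ψ := fun x hx => by
    filter_upwards [K1.isOpen_compl.mem_nhds hx] with x' hx'
    refine g3 x' fun y r h1 h2 k => hx' (k ▸ (M.bn a).j_mem_slab.2 (abs_le.1 ?_))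
    rw [abs_mul, abs_pm, one_mul, abs_of_pos h1]
    exact h2.le
  have hf : ∀ x ∈ S, x ∈ range (M.bn a).j → ∃ y r, 0 < r ∧ (M.bn a).j (y, pm b * r) = x :=
    fun x hx k => (M.bn a).mem_half.1 ⟨k, hx.2⟩
  have gl : ∀ x ∈ S, IsLocalDiffeomorphAt X.I X'.I ∞ g x := fun x hx => by
    by_cases k : x ∈ range (M.bn a).j
    · obtain ⟨y, r, hr, rfl⟩ := hf x hx k
      rw [← j2 y r hr]
      exact ld_of_comp (j1.loc _) (g1 ▸ (ε1.comp hR.oe).loc _)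
    · exact ld_congr (Orx52.ldp _ hx.1) (ev x fun k' => k ((M.bn a).slab_subset _ k'))
  have nb : ∀ y r, 0 < r → r ≤ 1 → ‖l r • M.th a y‖ ≤ ρ 1 := fun y r h1 h2 =>
    (rnd_norm hR y (l2 r h1).le).trans_le (l6 r h1 h2)
  have bl : ∀ z : V4, ‖z‖ ≤ ρ 1 → z ∈ ball (0 : V4) R := fun z k =>
    mem_ball_zero_iff.2 (k.trans_lt (h.lt 1 one_pos))
  have sep : ∀ x ∈ S, (∀ y r, 0 < r → r ≤ 1 → x ≠ (M.bn a).j (y, pm b * r)) →
      ∀ z : V4, ‖z‖ ≤ ρ 1 → I.ψ x ≠ e z := fun x hx k z hz e1 => by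
    obtain ⟨y, r, h1, h2, h3, -⟩ := h.key hx.1 hx.2 one_pos hz e1
    exact k y r h1 h2 h3
  have gi : InjOn g S := fun x hx x' hx' k => by
    rcases cs x with ⟨y, r, h1, h2, rfl⟩ | ⟨h1, h2⟩ <;> rcases cs x' with ⟨y', r', h1', h2', rfl⟩ | ⟨h1', h2'⟩
    · rw [g2 y r h1, g2 y' r' h1'] at k
      have k' := rnd_polar hR (l2 r h1) (l2 r' h1')
        (h.inj (bl _ (nb y r h1 h2)) (bl _ (nb y' r' h1' h2')) k)
      rw [l1.injOn h1 h1' k'.2, k'.1]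
    · exact (sep x' hx' h1' _ (nb y r h1 h2) (by rw [← h2', ← k, g2 y r h1])).elim
    · exact (sep x hx h1 _ (nb y' r' h1' h2') (by rw [← h2, k, g2 y' r' h1'])).elim
    · exact I.ψ.injOn hx.1 hx'.1 (by rw [← h2, k, h2'])
  have w1 : ∀ a₀ q, g ((M.bn (I.f a₀)).j q) = I.ψ ((M.bn (I.f a₀)).j q) := fun a₀ q =>
    g3 _ fun y r _ _ k => (h.wal a₀ q).2 ⟨_, k.symm⟩
  have im : ∀ z : V4, z ≠ 0 → ‖z‖ ≤ ρ 1 → ∃ y r, 0 < r ∧ r ≤ 1 ∧ l r • M.th a y = z := fun z k hz => by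
    obtain ⟨y, hy⟩ := rnd_exists hR k
    obtain ⟨r, h1, h2, h3⟩ := l5 _ (norm_pos_iff.2 k) hz
    exact ⟨y, r, h1, h2, h3 ▸ hy⟩
  have r01 : ρ 0 ≤ ρ 1 := h.mono.monotoneOn self_mem_Ici (mem_Ici.2 zero_le_one) zero_le_one
  have p0 : Orx52.Pos X.I X'.I I.ψ I.ψ.source M.o M'.o := Orx52.same_symm I.ori
  have p1 : Orx52.Pos X.I X'.I g (S \ (M.bn a).slab (Icc (-1) 1)) M.o M'.o :=
    (p0.mono fun x hx => hx.1.1).congr' fun x hx => ev x hx.2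
  have p2 : Orx52.Pos X.I X'.I g ((M.sys.w a).half b) M.o M'.o := by
    refine Orx52.pos_of_pt ((M.sys.w a).conn_half b) (Orx52.oriOn M.ori _) (Orx52.oriOn M'.ori univ)
      (fun x hx => ?_) (mapsTo_univ _ _) ((M.bn a).mem_half.2 ⟨Classical.arbitrary _, 2, two_pos, rfl⟩)
      (p1.mono (singleton_subset_iff.2 ⟨S2 _ _ two_pos, fun k => ?_⟩))
    · obtain ⟨y, r, hr, rfl⟩ := (M.bn a).mem_half.1 hx
      exact gl _ (S2 y r hr)
    · have := abs_le.2 ((M.bn a).j_mem_slab.1 k)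
      rw [abs_mul, abs_pm] at this
      norm_num at this
  refine ⟨⟨pdS S1 gl gi, I.f, I.f', I.g, ?_, fun a₀ q => (w1 a₀ q).trans (I.jj a₀ q), ?_, I.pin, I.gY, I.th,
    Orx52.same_symm ((p1.union p2).mono fun x hx => ?_)⟩, e ∘ Λ, rfl, rfl, HEq.rfl, rfl, ?_, g3, ε1,
    congrArg e Λ2, ?_, ?_, fun y r hr => (congrArg e (l3 y r hr)).trans (g2 y r hr).symm⟩
  · rintro a₀ _ ⟨q, rfl⟩
    exact ⟨I.sub a₀ ⟨q, rfl⟩, (h.wal a₀ q).1⟩
  · intro a₀ b' x hx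
    change g x ∈ _ ↔ _
    rcases cs x with ⟨y, r, h1, h2, rfl⟩ | ⟨-, h2⟩
    · have c1 : IsPreconnected (e '' closedBall 0 (ρ 1)) :=
        (convex_closedBall _ _).isPreconnected.image _ fun z hz =>
          (h.ld z (bl z (mem_closedBall_zero_iff.1 hz))).contMDiffAt.continuousAt.continuousWithinAt
      have c2 : Disjoint (e '' closedBall 0 (ρ 1)) (M'.sys.w (I.f' a₀)).core := by
        refine disjoint_left.2 ?_
        rintro _ ⟨z, hz, rfl⟩ k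
        obtain ⟨y', k⟩ := (M'.bn _).mem_core.1 k
        obtain ⟨y', rfl⟩ := (I.g a₀).surjective y'
        exact sep _ ⟨I.sub a₀ ⟨(y', 0), rfl⟩, (h.wal a₀ _).1⟩ (fun y r _ _ k => (h.wal a₀ _).2 ⟨_, k.symm⟩) z
          (mem_closedBall_zero_iff.1 hz) ((I.jj a₀ (y', 0)).trans k)
      have c3 : Disjoint (M.sys.w a).band (M.sys.w (I.f a₀)).core := by
        refine disjoint_right.2 fun x k => ?_
        obtain ⟨y', rfl⟩ := (M.bn _).mem_core.1 k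
        exact (h.wal a₀ _).2
      have m1 : g ((M.bn a).j (y, pm b * r)) ∈ e '' closedBall 0 (ρ 1) :=
        ⟨_, mem_closedBall_zero_iff.2 (nb y r h1 h2), (g2 y r h1).symm⟩
      have m2 : I.ψ ((M.bn a).j (y, pm b * 1)) ∈ e '' closedBall 0 (ρ 1) :=
        ⟨_, mem_closedBall_zero_iff.2 (rnd_norm hR y (h.pos' one_pos).le).le, h.rel y 1 one_pos⟩
      have m3 := I.sd a₀ b' _ (h.sub y 1 one_pos)
      exact ⟨fun k => Wall.subset_sd _ (M.sys.w a).conn_band c3 ⟨_, rfl⟩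
          (m3.1 (Wall.subset_sd _ c1 c2 m1 k m2)) ⟨_, rfl⟩,
        fun k => Wall.subset_sd _ c1 c2 m2
          (m3.2 (Wall.subset_sd _ (M.sys.w a).conn_band c3 ⟨_, rfl⟩ k ⟨_, rfl⟩)) m1⟩
    · rw [h2]
      exact I.sd a₀ b' x hx.1
  · by_cases k : x ∈ (M.bn a).slab (Icc (-1) 1)
    · exact .inr ⟨(M.bn a).slab_subset _ k, hx.2⟩
    · exact .inl ⟨hx, k⟩
  · change g '' S = _
    have z0 : ‖(0 : V4)‖ ≤ ρ 1 := norm_zero.trans_le (h.pos' one_pos).le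
    refine Subset.antisymm ?_ ?_
    · rintro _ ⟨x, hx, rfl⟩
      rcases cs x with ⟨y, r, h1, h2, rfl⟩ | ⟨h1, h2⟩
      · rw [g2 y r h1]
        refine ⟨?_, fun k => rnd_ne hR y (l2 r h1) (h.inj (bl _ (nb y r h1 h2)) (bl _ z0) k)⟩
        rcases le_or_gt (l r) (ρ 0) with k | k
        · exact .inr ⟨_, mem_closedBall_zero_iff.2 ((rnd_norm hR y (l2 r h1).le).trans_le k), rfl⟩
        · obtain ⟨s, hs, e1⟩ : l r ∈ ρ '' Icc 0 1 := by
            rw [h.up.image_Icc zero_le_one Icc_subset_Ici_self]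
            exact ⟨k.le, l6 r h1 h2⟩
          have h3 : 0 < s := hs.1.lt_of_ne fun l => k.ne (by rw [← e1, ← l])
          exact .inl ⟨_, S2 y s h3, by rw [← e1, h.rel y s h3]⟩
      · rw [h2]
        exact ⟨.inl ⟨x, hx, rfl⟩, sep x hx h1 0 z0⟩
    · have k0 : ∀ z : V4, ‖z‖ ≤ ρ 1 → e z ≠ e 0 → e z ∈ g '' S := fun z hz k => by
        obtain ⟨y, r, h1, -, rfl⟩ := im z (fun l => k (l ▸ rfl)) hz
        exact ⟨_, S2 y r h1, g2 y r h1⟩
      rintro _ ⟨⟨x, hx, rfl⟩ | ⟨z, hz, rfl⟩, k⟩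
      · rcases cs x with ⟨y, r, h1, h2, rfl⟩ | ⟨-, h2⟩
        · rw [← h.rel y r h1] at k ⊢
          exact k0 _ ((rnd_norm hR y (h.pos' h1).le).trans_le
            (h.mono.monotoneOn h1.le (mem_Ici.2 zero_le_one) h2)) k
        · exact ⟨x, hx, h2⟩
      · exact k0 z ((mem_closedBall_zero_iff.1 hz).trans r01) k
  · rintro _ ⟨z, rfl⟩
    exact ⟨_, Λ3 z, rfl⟩
  · rw [image_comp]
    refine congrArg (e '' ·) (Subset.antisymm ?_ fun z hz => ?_)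
    · rintro _ ⟨z, hz, rfl⟩
      rcases pol z with rfl | ⟨y, r, hr, rfl⟩
      · rw [Λ2]; exact mem_closedBall_self (h.pos' one_pos).le
      · rw [mem_closedBall_zero_iff, rnd_norm hR y hr.le] at hz
        rw [l3 y r hr]
        exact mem_closedBall_zero_iff.2 (nb y r hr hz)
    · by_cases k : z = 0
      · exact ⟨0, mem_closedBall_self zero_le_one, k ▸ Λ2⟩
      · obtain ⟨y, r, h1, h2, rfl⟩ := im z k (mem_closedBall_zero_iff.1 hz)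
        exact ⟨_, mem_closedBall_zero_iff.2 ((rnd_norm hR y h1.le).trans_le h2), l3 y r h1⟩

/-- BALL, on the capped manifolds: `V` is a region on the side `b` of `a` that contains the half band -/
theorem tr (C : Caps M) (C' : Caps M') {c : M.Cl} {c' : M'.Cl} (ha : a ∈ c.1) (ha' : a ∉ range I.f) :
    ∃ (I' : MId M M' A₀) (ε : V4 → X'.M), I'.f = I.f ∧ I'.f' = I.f' ∧ HEq I'.g I.g ∧
    I'.ψ.source = I.ψ.source ∩ (M.sys.w a).sd b ∧
    (∀ x, (∀ y r, 0 < r → r < 1 → x ≠ (M.bn a).j (y, pm b * r)) → I'.ψ x = I.ψ x) ∧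
    IsOE 𝓘(ℝ, V4) X'.I ε ∧ ε 0 = e 0 ∧ ε '' closedBall 0 1 = e '' closedBall 0 (ρ 1) ∧
    (∀ y r, 0 < r → ε (r • M.th a y) = I'.ψ ((M.bn a).j (y, pm b * r))) ∧
    ∀ V : Set X.M, IsOpen V → V ⊆ I'.ψ.source → (M.sys.w a).half b ⊆ V → V ⊆ (M.sys.cores c.1)ᶜ →
      (∀ x ∈ V, I.ψ x ∉ M'.sys.cores c'.1) → Disjoint (e '' closedBall 0 (ρ 1)) (M'.sys.cores c'.1) →
      ∀ J : Set (A₀ × Bool), (∀ p ∈ J, Thin M c V (I.f p.1, p.2) ∧ I.f' p.1 ∈ c'.1) →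
      ∃ Ψ : PartialDiffeomorph (C.Z c).I (C'.Z c').I (C.Z c).M (C'.Z c').M ∞,
        Ψ.source = cext C c V (Prod.map I.f id '' J ∪ {(a, b)}) ∧
        Ψ.target = cext C' c' (I.ψ '' V ∪ e '' closedBall 0 (ρ 0)) (Prod.map I.f' id '' J) ∧
        (∀ x ∈ V, Ψ (C.φ c x) = C'.φ c' (I'.ψ x)) ∧
        (∀ p ∈ J, ∀ z, C.β c (I.f p.1) p.2 z ∈ Ψ.source →
          Ψ (C.β c (I.f p.1) p.2 z) = C'.β c' (I.f' p.1) p.2 z) ∧
        (∀ z, Ψ (C.β c a b z) = C'.φ c' (ε z)) ∧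
        Orx52.Pos (C.Z c).I (C'.Z c').I Ψ Ψ.source (C.o c) (C'.o c') := by
  obtain ⟨I', ε, k1, k2, k3, k4, k5, k6, k7, k8, -, k9, k10⟩ := h.exists_ball
  refine ⟨I', ε, k1, k2, k3, k4, k6, k7, k8, k9, k10, fun V hV hs hh hU hU' hB J hJ => ?_⟩
  have hR := M.rnd a h.pin
  have cs : ∀ x, (∃ y r, 0 < r ∧ r < 1 ∧ x = (M.bn a).j (y, pm b * r)) ∨ I'.ψ x = I.ψ x := fun x =>
    (em _).imp_right fun k => k6 x fun y r h1 h2 e => k ⟨y, r, h1, h2, e⟩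
  have m1 : ∀ y r, 0 < r → r ≤ 1 → I'.ψ ((M.bn a).j (y, pm b * r)) ∈ e '' closedBall 0 (ρ 1) :=
    fun y r h1 h2 => k9.subset ⟨_, mem_closedBall_zero_iff.2 ((rnd_norm hR y h1.le).trans_le h2), k10 y r h1⟩
  have m0 : ε 0 ∈ e '' closedBall 0 (ρ 1) := k9.subset ⟨0, mem_closedBall_self zero_le_one, rfl⟩
  have n0 : ε 0 ∉ I'.ψ '' V := fun ⟨x, hx, k⟩ =>
    (k5.subset (I'.ψ.map_source (hs hx))).2 (k.trans k8)
  obtain ⟨Ψ, l1, l2, l3, l4, l5, l6⟩ := tr_ball C C' I' (c' := c') hV hs hU (fun x hx => by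
      rcases cs x with ⟨y, r, h1, h2, rfl⟩ | k
      · exact disjoint_left.1 hB (m1 y r h1 h2.le)
      · exact k ▸ hU' x hx) (J := J) (k1 ▸ k2 ▸ hJ) (K := {(a, b)}) (e := fun _ => ε)
    (by rintro _ rfl; exact ⟨.of_half ha h.pin hh, k1 ▸ ha'⟩) (fun _ _ => k7.loc 0)
    (fun _ _ => ⟨disjoint_left.1 hB m0, n0⟩) (by rintro _ rfl y r hr -; exact k10 y r hr)
    fun _ hp _ hq _ => hp.trans hq.symm
  rw [k1] at l1 l4
  rw [k2] at l2 l4
  refine ⟨Ψ, l1, l2.trans (congrArg (cext C' c' · _) (Subset.antisymm ?_ ?_)), l3, l4, fun z =>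
    l5 _ rfl z (l1 ▸ β_mem_cext C (.inr rfl) ⟨ha, h.pin⟩ hh z), l6⟩
  · rintro _ (⟨x, hx, rfl⟩ | ⟨_, -, rfl⟩)
    · rcases cs x with ⟨y, r, h1, h2, rfl⟩ | k
      · obtain ⟨z, hz, k⟩ := m1 y r h1 h2.le
        rcases (k5.subset (I'.ψ.map_source (hs hx))).1 with ⟨x', hx', k'⟩ | k'
        · obtain ⟨y', r', h1', -, rfl, -⟩ :=
            h.key hx'.1 hx'.2 one_pos (mem_closedBall_zero_iff.1 hz) (k'.trans k.symm)
          exact .inl ⟨_, hh ((M.bn a).mem_half.2 ⟨y', r', h1', rfl⟩), k'⟩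
        · exact .inr k'
      · exact .inl ⟨x, hx, k.symm⟩
    · exact .inr ⟨0, mem_closedBall_self h.pos.le, k8.symm⟩
  · have k0 : ∀ z ∈ closedBall (0 : V4) (ρ 1), e z ∈ I'.ψ '' V ∪ {x | ∃ p ∈ ({(a, b)} : Set _), x = ε 0} :=
      fun z hz => by
        obtain ⟨w, -, k⟩ := k9.symm.subset ⟨z, hz, rfl⟩
        by_cases e1 : w = 0
        · exact .inr ⟨_, rfl, by rw [← k, e1]⟩
        · obtain ⟨y, hy⟩ := rnd_exists hR e1
          have h1 := norm_pos_iff.2 e1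
          exact .inl ⟨_, hh ((M.bn a).mem_half.2 ⟨y, _, h1, rfl⟩), by rw [← k10 y _ h1, hy, k]⟩
    rintro _ (⟨x, hx, rfl⟩ | ⟨z, hz, rfl⟩)
    · rcases cs x with ⟨y, r, h1, h2, rfl⟩ | k
      · rw [← h.rel y r h1]
        exact k0 _ (mem_closedBall_zero_iff.2 ((rnd_norm hR y (h.pos' h1).le).trans_le
          (h.mono.monotoneOn h1.le (mem_Ici.2 zero_le_one) h2.le)))
      · exact .inl ⟨x, hx, k⟩
    · exact k0 z (closedBall_subset_closedBall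
        (h.mono.monotoneOn self_mem_Ici (mem_Ici.2 zero_le_one) zero_le_one) hz)

end BC

end Crest.Agent.X212.Cyl58
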