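import Crest.Agent.X212.Map77.S1
import Crest.Agent.X212.Map77.Lin
import Crest.Agent.X212.Mod61.Hs
import Crest.Agent.X212.Gls64.Defs

/-! MS-BOOT, GL-BOOT: solutions with a smooth gauge row are smooth. -/

set_option autoImplicit false
set_option linter.unusedSectionVars false
noncomputable section
open scoped Manifold ContDiff Topology InnerProductSpace
open MeasureTheory Set Function Filter

namespace Crest.Agent.X212.Cyl58.Bt
open An An.Pre Sob92 Prm93 Sw Map77 Map77.S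
open M (Mf)

variable {κ lam ν : Type} [Fintype κ] [Fintype lam] [Fintype ν] [DecidableEq ν]
  {d : Dt κ lam ν} {N : Type} [Fintype N] {ty : N → d.𝓔} {X : Mf 4} {nc nr : ℕ}
  {T : Type} [NormedAddCommGroup T] [NormedSpace ℝ T] [FiniteDimensional ℝ T]
  {s : Pz X 0 fun i => d.e (ty i)} {σ : Cel s nc nr T} {k j l : ℕ} {t : T}

theorem iC_ap (v : σ.C k) : iC σ k j v =
    (s.bg.F.incl (k + 1) (j + 1) _ v.1, s.bg.F.incl (k + 1) (j + 1) _ v.2.1, v.2.2) := (rfl)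
theorem iC_mk (a b) (t : T) : iC σ k j (a, b, t) =
    (s.bg.F.incl (k + 1) (j + 1) _ a, s.bg.F.incl (k + 1) (j + 1) _ b, t) := (rfl)
theorem iY_ap (v : σ.Y k) : iY σ k j v =
    (s.bg.F.incl k j _ v.1, s.bg.F.incl k j _ v.2.1, v.2.2) := (rfl)
theorem iC_1 (v : σ.C k) : (iC σ k j v).1 = s.bg.F.incl (k + 1) (j + 1) _ v.1 := by rw [iC_ap]
theorem iC_2 (v : σ.C k) : (iC σ k j v).2.1 = s.bg.F.incl (k + 1) (j + 1) _ v.2.1 := by rw [iC_ap]
theorem snd3 {A B C : Type} {z : A × B × C} {a : A} {b : B} {c : C} (e : z = (a, b, c)) :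
    z.2.2 = c := e ▸ rfl
theorem iC_3 (v : σ.C k) : (iC σ k j v).2.2 = v.2.2 := snd3 (iC_ap v)
theorem iY_1 (v : σ.Y k) : (iY σ k j v).1 = s.bg.F.incl k j _ v.1 := by rw [iY_ap]
theorem iY_2 (v : σ.Y k) : (iY σ k j v).2.1 = s.bg.F.incl k j _ v.2.1 := by rw [iY_ap]
theorem iY_3 (v : σ.Y k) : (iY σ k j v).2.2 = v.2.2 := snd3 (iY_ap v)

theorem iC_U {v : σ.C k} : iC σ k j v ∈ σ.U j ↔ v ∈ σ.U k := by
  show (iC σ k j v).2.2 ∈ σ.Q ↔ v.2.2 ∈ σ.Q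
  rw [iC_3]

theorem iC_iC (h : j ≤ k) (h' : l ≤ j) (v : σ.C k) : iC σ j l (iC σ k j v) = iC σ k l v :=
  Prod.ext (by rw [iC_1, iC_1, iC_1, incl_incl (by omega) (by omega)]) (Prod.ext
    (by rw [iC_2, iC_2, iC_2, incl_incl (by omega) (by omega)]) (by rw [iC_3, iC_3, iC_3]))

theorem iC_self (v : σ.C k) : iC σ k k v = v :=
  Prod.ext (by rw [iC_1, incl_self]) (Prod.ext (by rw [iC_2, incl_self]) (iC_3 _))

theorem iC_inj (h : j ≤ k) : Injective (iC σ k j) := fun _ _ e =>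
  Prod.ext (incl_injective (Nat.succ_le_succ h) (by rw [← iC_1, e, iC_1])) (Prod.ext
    (incl_injective (Nat.succ_le_succ h) (by rw [← iC_2, e, iC_2])) (by rw [← iC_3, e, iC_3]))

theorem iY_inj (h : j ≤ k) : Injective (iY σ k j) := fun _ _ e =>
  Prod.ext (incl_injective h (by rw [← iY_1, e, iY_1])) (Prod.ext
    (incl_injective h (by rw [← iY_2, e, iY_2])) (by rw [← iY_3, e, iY_3]))

theorem jY_ap (z : σ.Y k) : jY σ k z = iH1 _ _ _ _ z.1 + iH2 _ _ _ _ z.2.1 := (rfl)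

theorem incl_jY (h : j ≤ k) (z : σ.Y k) :
    s.bg.F.incl k j _ (jY σ k z) = jY σ j (iY σ k j z) := by
  rw [jY_ap, jY_ap, map_add, incl_iH1 h, incl_iH2 h, iY_1, iY_2]

theorem row_ap (x v : σ.C k) : row σ k x v =
  (2 : ℝ) • sH _ _ _ _ (LF σ k x.2.2 (σ.bs x.2.2) (jC σ k x.2.2 v)) +
    s.bg.w • s.bg.F.incl (k + 1) k _ (s.bg.F.bilH (k + 1) (k + 1) s.bg.pp s.bg.pp (triv X.M ℝ)
      (k + 1) (fun _ => innerSL ℝ ∘L s.bg.m.J) x.2.1 v.2.1) := (rfl)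

theorem eC_ap (u : HC s (k + 1)) : eC σ k t u =
    (mS s (k + 1) (σ.Si t) (fH _ _ _ _ u), sH _ _ _ _ u, 0) := (rfl)

theorem incl_mS {S : X.M → Option κ → Option κ → ℝ} (h1 : ∀ a b, s.bg.F.Cb fun x => S x a b)
    (h2 : ∀ x a b, ∑ c, s.bg.B.P a c x * S x c b = S x a b) (h : j ≤ k) (u) :
    s.bg.F.incl k j _ (mS s k S u) = mS s j S (s.bg.F.incl k j _ u) :=
  incl_mulH (Cls.idx (K := Map77.cb (fun _ : Unit => s.bg.F.toPre) univ) (fun a b _ _ => h1 a b)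
    (fun _ _ => Cb_const _) () trivial) (fun x v _ => by rw [Bg.p1, idx_idx]; simp only [h2]; rfl) h u

variable (σ) in
/-- the point `y` moved to the parameter `t` -/
def mv (k : ℕ) (y : σ.Pnt) (t : T) : σ.C k := ((σ.pt k y).1, (σ.pt k y).2.1, t)

theorem mv_U {y : σ.Pnt} (ht : t ∈ σ.Q) : mv σ k y t ∈ σ.U k := ht

theorem U_Q {v : σ.C k} (hv : v ∈ σ.U k) : v.2.2 ∈ σ.Q := hv

theorem row_mv (y : σ.Pnt) (v : σ.C k) : ∃ b, row σ k (mv σ k y t) v =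
    (2 : ℝ) • sH _ _ _ _ (LF σ k t (σ.bs t) (jC σ k t v)) + s.bg.w • s.bg.F.incl (k + 1) k _ b :=
  ⟨_, row_ap _ _⟩

variable (h : Md σ)
include h

theorem sup : Sup s.bg.F.toPre (h.ok.site.bg.tame.choose 0) :=
  Sup.of_tame h.ok.site.bg.tame.choose_spec

theorem iC_eC (ht : t ∈ σ.Q) (hj : j ≤ k) (u : HC s (k + 1)) :
    iC σ k j (eC σ k t u) = eC σ j t (s.bg.F.incl (k + 1) (j + 1) _ u) := by
  rw [eC_ap, eC_ap, iC_mk, incl_mS (fun a b => (h.ok.sSi a b).cb t ht) (h.ok.PSi t ht) (by omega),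
    incl_fH (by omega), incl_sH (by omega)]

theorem iC_mv (hj : 7 ≤ j) (hk : j ≤ k) (y : σ.Pnt) : iC σ k j (mv σ k y t) = mv σ j y t := by
  rw [mv, mv, iC_mk, ← (h.lev k j hj hk).1 y, iC_1, iC_2]

theorem pt_of_all (hk : 7 ≤ k) {v : σ.C k} (hv : v ∈ σ.U k)
    (H : ∀ j, k ≤ j → ∃ v', iC σ j k v' = v) : ∃ y, σ.pt k y = v := by
  have a : ∀ j, k + 1 ≤ j → ∃ i, k ≤ i ∧ j = i + 1 := fun j _ => ⟨j - 1, by omega, by omega⟩
  obtain ⟨y, e⟩ := (h.pt.2 k (by omega)).2.2.2.2.2 _ hv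
    _ (Mod61.Hs_of_all (sup h) (h := v.1) (by omega) fun j hj => by
      obtain ⟨i, hi, rfl⟩ := a j hj
      exact (H i hi).elim fun w e => ⟨w.1, by rw [← iC_1, e]⟩)
    _ (Mod61.Hs_of_all (sup h) (h := v.2.1) (by omega) fun j hj => by
      obtain ⟨i, hi, rfl⟩ := a j hj
      exact (H i hi).elim fun w e => ⟨w.2.1, by rw [← iC_2, e]⟩)
  exact ⟨y, by rw [e, Mod61.ofV_eq (sup h) (by omega) rfl, Mod61.ofV_eq (sup h) (by omega) rfl]⟩

theorem val_mv (hk : 7 ≤ k) (y : σ.Pnt) (ht : t ∈ σ.Q) (v : σ.C k) :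
    s.bg.F.val k _ (row σ k (mv σ k y t) v) =
      σ.gro t y.1.2 (s.bg.F.val _ _ v.1) (s.bg.F.val _ _ v.2.1) := by
  obtain ⟨y', e⟩ := pt_of_all h hk (mv_U (y := y) ht) fun j hj => ⟨_, iC_mv h hk hj y⟩
  have e1 : y'.1.1 = t := congr($e.2.2)
  have p := (h.pt.2 k (by omega)).2.2.2.1
  have e2 : y'.1.2.Φ = y.1.2.Φ := sub_left_injective ((p y').symm.trans (e ▸ p y))
  rw [← e, (h.row k hk).2, e1]
  funext x
  simp only [Fam.gro, e2]

/-- regularity of the local operator -/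
theorem reg (y : σ.Pnt) {u : HC s (k + 1)} {w : HE s (k + 1)}
    (e : LF σ k y.1.1 y.1.2 u = s.bg.F.incl (k + 1) k _ w) :
    ∃ u' : HC s (k + 2), s.bg.F.incl (k + 2) (k + 1) _ u' = u :=
  (h.tw _ y.2.1).reg (h.op y).2 (h.op y).1.cl.1 (Nat.le_succ k) e

theorem reg0 (ht : t ∈ σ.Q) {u : HC s (k + 1)} {a b}
    (e : fH _ _ _ _ (LF σ k t (σ.bs t) u) = s.bg.F.incl (k + 1) k _ a)
    (e' : sH _ _ _ _ (LF σ k t (σ.bs t) u) = s.bg.F.incl (k + 1) k _ b) :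
    ∃ u' : HC s (k + 2), s.bg.F.incl (k + 2) (k + 1) _ u' = u :=
  reg h (h.toHy.y0 ht) (w := iH1 _ _ _ _ a + iH2 _ _ _ _ b) (H_ext2
    (e.trans (by rw [← incl_fH k.le_succ, map_add, fH_iH1, fH_iH2, add_zero]))
    (e'.trans (by rw [← incl_sH k.le_succ, map_add, sH_iH1, sH_iH2, zero_add])))

theorem step (hk : 7 ≤ k) (y : σ.Pnt) {q} {v : σ.C k} (hv : v ∈ σ.U k)
    (e : jY σ k (σ.F k q v) = 0) {w : HR s (k + 1)}
    (hw : row σ k (mv σ k y v.2.2) (v - σ.pt k y) = s.bg.F.incl (k + 1) k _ w) :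
    ∃ v', iC σ (k + 1) k v' = v := by
  obtain ⟨n, hn⟩ := h.gain k hk q
  have L := h.lev (k + 1) k hk k.le_succ
  have r := ((L.2 q (mv σ (k + 1) y v.2.2) (mv_U (U_Q hv))).2 (σ.pt (k + 1) y)).2.1
  obtain ⟨b, hb⟩ := row_mv (t := v.2.2) y v
  rw [iC_mv h hk k.le_succ, L.1] at r
  rw [map_sub, ← r, sub_eq_iff_eq_add, ← map_add, hb] at hw
  generalize w + _ = c at hw
  obtain ⟨u, hu⟩ := reg0 h (U_Q hv) (u := jC σ k v.2.2 v) (a := -n v)
    (b := (1 / 2 : ℝ) • (c - s.bg.w • b))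
    (by rw [map_neg]; exact eq_neg_of_add_eq_zero_left ((hn v hv).symm.trans e)) (by
      rw [map_smul, map_sub, ← hw, map_smul, add_sub_cancel_right, smul_smul,
        show (1 / 2 * 2 : ℝ) = 1 by norm_num, one_smul])
  refine ⟨eC σ (k + 1) v.2.2 u + (0, 0, v.2.2), ?_⟩
  rw [map_add, iC_eC h (U_Q hv) k.le_succ, hu, (h.je k _ (U_Q hv)).2, iC_mk, map_zero, map_zero,
    Prod.mk_add_mk, Prod.mk_add_mk, add_zero, add_zero, zero_add]

/-- **the bootstrap** -/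
theorem boot (hk : 7 ≤ k) (y : σ.Pnt) {q} {v : σ.C k} (hv : v ∈ σ.U k)
    (e : jY σ k (σ.F k q v) = 0) (hw : ∀ j, k ≤ j → ∃ w : HR s j,
      s.bg.F.incl j k _ w = row σ k (mv σ k y v.2.2) (v - σ.pt k y)) : ∃ y', σ.pt k y' = v := by
  refine pt_of_all h hk hv fun j hj => ?_
  induction j, hj using Nat.le_induction with
  | base => exact ⟨v, iC_self v⟩
  | succ j hj ih =>
    obtain ⟨u, rfl⟩ := ih
    obtain ⟨w, hw⟩ := hw (j + 1) (by omega)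
    have L := h.lev j k hk hj
    rw [iC_U] at hv
    obtain ⟨u', rfl⟩ := step h (hk.trans hj) y (q := q) hv (incl_injective hj (by
      rw [incl_jY hj, (L.2 q u hv).1, e, map_zero])) (w := w) (incl_injective hj (by
      rw [((L.2 q (mv σ j y u.2.2) (mv_U (U_Q hv))).2 _).2.1, iC_mv h hk hj, map_sub, L.1,
        incl_incl j.le_succ hj, hw, iC_3]))
    exact ⟨u', (iC_iC j.le_succ hj u').symm⟩

omit h in
/-- **MS-BOOT** -/
theorem bootS : BootS d ty X nc nr T := fun s σ h k hk y => by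
  obtain ⟨γ, h1, h2, h3, h4⟩ := exists_gam
    (ContinuousLinearMap.snd ℝ _ _ ∘L ContinuousLinearMap.snd ℝ _ _ : σ.C k →L[ℝ] T) h.ok.opn
    (R := fun t => row σ k (mv σ k y t)) ((h.row k hk).1.comp
      (contDiffOn_const.prodMk (contDiffOn_const.prodMk contDiffOn_id)) fun _ ht => ht)
    (x := σ.pt k y) y.2.1
  refine ⟨γ, h1, h3, h2.hasFDerivAt, h4.mono fun v hv q e e' => boot h hk y hv.1 e fun j _ => ?_⟩
  exact ⟨0, (map_zero _).trans (hv.2 e').symm⟩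

omit h in
/-- **GL-BOOT** -/
theorem bootStmt (hM : MdStmt d ty X nc nr T) : Gls64.BootStmt d ty X nc nr T :=
  fun s σ hσ k hk q y v hv e hs => by
  have h := hM s σ hσ
  refine boot h hk y hv (q := q) (by rw [e, map_zero]) fun j hj => ?_
  obtain ⟨w, hw⟩ := hs j (by omega)
  exact ⟨w, val_injective (sup h) (by omega) (by
    rw [val_incl (sup h) (by omega) hj, hw, val_mv h hk y (U_Q hv)])⟩

end Crest.Agent.X212.Cyl58.Bt
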