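import Crest.Agent.X212.Cyl58.Ext

/-!
# X212/Cyl58/Cap: polar coordinates, caps, cutting along necks, capped manifolds

* `pol : sphere × ℝ → E`, `(u, t) ↦ eᵗ u`;  `Cap V Y` : a manifold with the single end `Y`;
  `ballCap`, `Cap.prod` (`Z × ball`);
* `Nks X` : a finite family of disjoint necks of a closed manifold; `N.Cut`, `N.cut : ME`;
* `N.XS C` : cut along the cores and glue in the caps; `N.φ C : X ⇀ N.XS C`, `N.cap C a b`.
-/

set_option autoImplicit false
set_option linter.unusedSectionVars false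
noncomputable section
open Set Filter Topology Function Metric TopologicalSpace
open scoped ContDiff Manifold

namespace Crest.Agent.X212.Cyl58

open Glue52

theorem isOE_exp : IsOE 𝓘(ℝ, ℝ) 𝓘(ℝ, ℝ) Real.exp :=
  ⟨Real.exp_injective, fun t => ld_of_inverse (g := Real.log) isOpen_univ isOpen_Ioi
    Real.contDiff_exp.contMDiff.contMDiffOn
    ((Real.contDiffOn_log.mono fun _ hx => ne_of_gt hx).contMDiffOn)
    (fun x _ => Real.exp_pos x) (fun _ _ => mem_univ _) (fun x _ => Real.log_exp x)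
    (fun _ hy => Real.exp_log hy) (mem_univ t)⟩

/-- the sign of a side -/
def sg (b : Bool) : ℝ := if b then 1 else -1

@[simp] theorem sg_true : sg true = 1 := rfl
@[simp] theorem sg_false : sg false = -1 := rfl
theorem sg_mul_sg (b : Bool) : sg b * sg b = 1 := by cases b <;> simp
theorem abs_sg (b : Bool) : |sg b| = 1 := by cases b <;> simp
theorem sg_ne (b : Bool) : sg b ≠ 0 := by cases b <;> simp

theorem isOE_sg (b : Bool) : IsOE 𝓘(ℝ, ℝ) 𝓘(ℝ, ℝ) fun t : ℝ => sg b * t := by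
  cases b
  · simpa using isOE_neg
  · simp only [sg_true, one_mul]
    exact IsOE.id

/-- `t ↦ ± e⁻ᵗ` -/
def hx (b : Bool) (t : ℝ) : ℝ := sg b * Real.exp (-t)

theorem isOE_hx (b : Bool) : IsOE 𝓘(ℝ, ℝ) 𝓘(ℝ, ℝ) (hx b) :=
  (isOE_sg b).comp (isOE_exp.comp isOE_neg)

theorem hx_ne (b : Bool) (t : ℝ) : hx b t ≠ 0 := mul_ne_zero (sg_ne b) (Real.exp_ne_zero _)

theorem sg_mul_hx (b : Bool) (t : ℝ) : sg b * hx b t = Real.exp (-t) := by
  rw [hx, ← mul_assoc, sg_mul_sg, one_mul]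

theorem hx_log (b : Bool) {r : ℝ} (hr : 0 < r) : hx b (-Real.log r) = sg b * r := by
  rw [hx, neg_neg, Real.exp_log hr]

theorem hx_inj {b b' : Bool} {t t' : ℝ} (h : hx b t = hx b' t') : b = b' := by
  have h1 := Real.exp_pos (-t)
  have h2 := Real.exp_pos (-t')
  cases b <;> cases b' <;> simp only [hx, sg_true, sg_false] at h ⊢ <;> first | rfl | linarith

theorem exists_sg {s : ℝ} (hs : s ≠ 0) : ∃ b, s = sg b * |s| := by
  rcases hs.lt_or_gt with h | h
  · exact ⟨false, by simp [abs_of_neg h]⟩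
  · exact ⟨true, by simp [abs_of_pos h]⟩

section Polar

variable {E : Type} [NormedAddCommGroup E] [InnerProductSpace ℝ E] {n : ℕ}
  [Fact (Module.finrank ℝ E = n + 1)]

/-- polar coordinates -/
def pol (p : sphere (0 : E) 1 × ℝ) : E := Real.exp p.2 • (p.1 : E)

theorem norm_pol (p : sphere (0 : E) 1 × ℝ) : ‖pol p‖ = Real.exp p.2 := by
  rw [pol, norm_smul, norm_eq_of_mem_sphere, mul_one, Real.norm_of_nonneg (Real.exp_pos _).le]

theorem pol_ne (p : sphere (0 : E) 1 × ℝ) : pol p ≠ 0 := by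
  rw [← norm_ne_zero_iff, norm_pol]; exact Real.exp_ne_zero _

/-- the direction of a nonzero vector -/
def dirE {x : E} (hx : x ≠ 0) : sphere (0 : E) 1 :=
  ⟨‖x‖⁻¹ • x, by simp [norm_smul, inv_mul_cancel₀ (norm_ne_zero_iff.2 hx)]⟩

theorem pol_dirE {x : E} (hx : x ≠ 0) : pol (dirE hx, Real.log ‖x‖) = x := by
  simp only [pol, dirE, Real.exp_log (norm_pos_iff.2 hx), smul_smul,
    mul_inv_cancel₀ (norm_ne_zero_iff.2 hx), one_smul]

theorem pol_log (u : sphere (0 : E) 1) {r : ℝ} (hr : 0 < r) : pol (u, Real.log r) = r • (u : E) := by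
  rw [pol, Real.exp_log hr]

theorem range_pol : range (pol : sphere (0 : E) 1 × ℝ → E) = {0}ᶜ :=
  Subset.antisymm (range_subset_iff.2 pol_ne) fun _ hx => ⟨_, pol_dirE hx⟩

theorem image_pol (s : Set ℝ) :
    (pol : sphere (0 : E) 1 × ℝ → E) '' (univ ×ˢ s) = {x | ‖x‖ ∈ Real.exp '' s} := by
  ext x
  constructor
  · rintro ⟨p, hp, rfl⟩
    exact ⟨p.2, hp.2, (norm_pol p).symm⟩
  · rintro ⟨t, ht, e⟩
    have hx : x ≠ 0 := by rw [← norm_ne_zero_iff, ← e]; exact Real.exp_ne_zero _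
    exact ⟨_, ⟨mem_univ _, by rwa [← e, Real.log_exp]⟩, pol_dirE hx⟩

theorem contMDiff_pol : ContMDiff ((𝓡 n).prod 𝓘(ℝ, ℝ)) 𝓘(ℝ, E) ∞ (pol : sphere (0 : E) 1 × ℝ → E) :=
  (Real.contDiff_exp.contMDiff.comp contMDiff_snd).smul (contMDiff_coe_sphere.comp contMDiff_fst)

theorem isOE_pol : IsOE ((𝓡 n).prod 𝓘(ℝ, ℝ)) 𝓘(ℝ, E) (pol : sphere (0 : E) 1 × ℝ → E) := by
  let U : Opens E := ⟨{0}ᶜ, isOpen_compl_singleton⟩
  have hn : ContMDiff 𝓘(ℝ, E) 𝓘(ℝ, ℝ) ∞ fun x : U => ‖(x : E)‖ := fun x =>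
    (contDiffAt_norm ℝ x.2).contMDiffAt.comp x contMDiff_subtype_val.contMDiffAt
  let φ : (sphere (0 : E) 1 × ℝ) ≃ₘ^∞⟮(𝓡 n).prod 𝓘(ℝ, ℝ), 𝓘(ℝ, E)⟯ U :=
    { toFun := fun p => ⟨pol p, pol_ne p⟩
      invFun := fun x => (dirE x.2, Real.log ‖(x : E)‖)
      left_inv := fun p => by
        refine Prod.ext (Subtype.ext ?_) ?_
        · simp only [dirE, norm_pol]
          rw [pol, smul_smul, inv_mul_cancel₀ (Real.exp_ne_zero _), one_smul]
        · simp only [norm_pol, Real.log_exp]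
      right_inv := fun x => Subtype.ext (pol_dirE x.2)
      contMDiff_toFun := (ContMDiff.subtypeVal_comp_iff U _).1 contMDiff_pol
      contMDiff_invFun := by
        refine ContMDiff.prodMk ?_ fun x => ?_
        · exact ((hn.inv₀ fun x => norm_ne_zero_iff.2 x.2).smul
            contMDiff_subtype_val).codRestrict_sphere fun x => (dirE x.2).2
        · exact (Real.contDiffAt_log.2 (norm_ne_zero_iff.2 x.2)).contMDiffAt.comp x (hn x) }
  exact (isOE_val U).comp (IsOE.of_diffeo φ)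

theorem isEnd_pol : IsEnd (𝓡 n) 𝓘(ℝ, E) (pol : sphere (0 : E) 1 × ℝ → E) := by
  refine ⟨isOE_pol, ?_⟩
  rw [image_pol, Real.image_exp_Ici]
  exact isClosed_Ici.preimage continuous_norm

theorem compl_image_pol (T : ℝ) :
    ((pol : sphere (0 : E) 1 × ℝ → E) '' (univ ×ˢ Ioi T))ᶜ = closedBall 0 (Real.exp T) := by
  rw [image_pol, Real.image_exp_Ioi]
  ext x
  simp

end Polar

variable {V W : Type} [NormedAddCommGroup V] [NormedSpace ℝ V] [NormedAddCommGroup W]
  [NormedSpace ℝ W]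

variable (V) in
/-- a manifold with a single end, of cross-section `Y` -/
structure Cap (Y : Pc W) : Type 1 where
  P : Pc V
  [t2 : T2Space P.M]
  [sc : SecondCountableTopology P.M]
  c : Y.M × ℝ → P.M
  isEnd : IsEnd Y.I P.I c
  cpt : IsCompact (c '' (univ ×ˢ Ioi 0))ᶜ

attribute [instance] Cap.t2 Cap.sc

/-- a cap as a manifold with ends -/
def Cap.me {Y : Pc W} [CompactSpace Y.M] (C : Cap V Y) : ME V W where
  P := C.P
  α := Unit
  Y _ := Y
  j _ := C.c
  isEnd _ := C.isEnd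
  disj _ _ _ _ _ := rfl
  cpt := by simpa only [iUnion_const] using C.cpt

/-- the unit sphere as a piece -/
abbrev sph (E : Type) [NormedAddCommGroup E] [InnerProductSpace ℝ E] (n : ℕ)
    [Fact (Module.finrank ℝ E = n + 1)] : Pc (EuclideanSpace ℝ (Fin n)) :=
  Pc.of (𝓡 n) (sphere (0 : E) 1) (ContinuousLinearEquiv.refl ℝ _)

/-- the ball caps the sphere -/
def ballCap {E : Type} [NormedAddCommGroup E] [InnerProductSpace ℝ E] (n : ℕ)
    [h : Fact (Module.finrank ℝ E = n + 1)] (L : E ≃L[ℝ] V) : Cap V (sph E n) :=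
  have : FiniteDimensional ℝ E := Module.finite_of_finrank_eq_succ h.out
  have : ProperSpace E := FiniteDimensional.proper ℝ E
  { P := Pc.of 𝓘(ℝ, E) E L
    c := pol
    isEnd := isEnd_pol
    cpt := by
      have h := compl_image_pol (E := E) 0
      exact h ▸ isCompact_closedBall _ _ }

variable (W) in
/-- finitely many disjoint necks in a manifold -/
structure Nks (X : Pc V) (S : Type) : Type 1 where
  Y : S → Pc W
  [cY : ∀ a, CompactSpace (Y a).M]
  n : ∀ a, (Y a).M × ℝ → X.M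
  oe : ∀ a, IsOE ((Y a).I.prod 𝓘(ℝ, ℝ)) X.I (n a)
  disj : ∀ a b p q, n a p = n b q → a = b

attribute [instance] Nks.cY

namespace Nks

variable {X : Pc V} {S : Type} (N : Nks W X S)

/-- the union of the central hypersurfaces -/
def cores : Set X.M := ⋃ a, N.n a '' (univ ×ˢ {0})

theorem n_mem_cores {a : S} {p : (N.Y a).M × ℝ} : N.n a p ∈ N.cores ↔ p.2 = 0 := by
  refine ⟨fun h => ?_, fun h => mem_iUnion.2 ⟨a, p, ⟨mem_univ _, h⟩, rfl⟩⟩
  obtain ⟨b, q, hq, e⟩ := mem_iUnion.1 h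
  obtain rfl := N.disj _ _ _ _ e
  rw [← (N.oe b).inj e]
  exact hq.2

variable [Finite S] [T2Space X.M]

theorem isCompact_cores : IsCompact N.cores :=
  isCompact_iUnion fun a => (isCompact_univ.prod isCompact_singleton).image (N.oe a).continuous

/-- the complement of the cores -/
def Cut : Opens X.M := ⟨N.coresᶜ, N.isCompact_cores.isClosed.isOpen_compl⟩

/-- the end of the cut manifold on the side `b` of the neck `a` -/
def jc (a : S × Bool) (p : (N.Y a.1).M × ℝ) : N.Cut :=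
  ⟨N.n a.1 (p.1, hx a.2 p.2), fun h => hx_ne _ _ (N.n_mem_cores.1 h)⟩

theorem isOE_jc (a : S × Bool) : IsOE ((N.Y a.1).I.prod 𝓘(ℝ, ℝ)) X.I (N.jc a) :=
  (isOE_val N.Cut).of_comp_left ((N.oe a.1).comp (IsOE.id.prodMap (isOE_hx a.2)))

theorem jc_log (a : S) (b : Bool) (y : (N.Y a).M) {r : ℝ} (hr : 0 < r) :
    (N.jc (a, b) (y, -Real.log r) : X.M) = N.n a (y, sg b * r) := by
  simp only [jc, hx_log b hr]

theorem image_jc (a : S × Bool) : N.jc a '' (univ ×ˢ Ici 0) =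
    Subtype.val ⁻¹' (N.n a.1 '' (univ ×ˢ ((fun r => sg a.2 * r) '' Icc 0 1))) := by
  ext x
  constructor
  · rintro ⟨p, hp, rfl⟩
    exact ⟨(p.1, hx a.2 p.2), ⟨mem_univ _, Real.exp (-p.2), ⟨(Real.exp_pos _).le,
      Real.exp_le_one_iff.2 (neg_nonpos.2 hp.2)⟩, rfl⟩, rfl⟩
  · rintro ⟨⟨y, _⟩, ⟨-, r, hr, rfl⟩, e⟩
    have h0 : 0 < r := hr.1.lt_of_ne fun h => x.2 (e ▸ N.n_mem_cores.2 (by simp [← h]))
    exact ⟨(y, -Real.log r), ⟨mem_univ _, show 0 ≤ -Real.log r from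
      neg_nonneg.2 (Real.log_nonpos hr.1 hr.2)⟩, Subtype.ext ((N.jc_log a.1 a.2 y h0).trans e)⟩

theorem isEnd_jc (a : S × Bool) : IsEnd (N.Y a.1).I X.I (N.jc a) := by
  refine ⟨N.isOE_jc a, ?_⟩
  rw [N.image_jc]
  exact ((isCompact_univ.prod (isCompact_Icc.image (continuous_const.mul continuous_id))).image
    (N.oe a.1).continuous).isClosed.preimage continuous_subtype_val

theorem compl_jc : (⋃ a, N.jc a '' (univ ×ˢ Ioi 0))ᶜ =
    Subtype.val ⁻¹' (⋃ a, N.n a '' (univ ×ˢ Ioo (-1) 1))ᶜ := by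
  rw [preimage_compl]
  congr 1
  ext x
  simp only [mem_iUnion, mem_preimage]
  constructor
  · rintro ⟨a, p, hp, rfl⟩
    refine ⟨a.1, (p.1, hx a.2 p.2), ⟨mem_univ _, abs_lt.1 ?_⟩, rfl⟩
    rw [hx, abs_mul, abs_sg, one_mul, abs_of_pos (Real.exp_pos _)]
    exact Real.exp_lt_one_iff.2 (neg_neg_of_pos hp.2)
  · rintro ⟨a, ⟨y, s⟩, hp, e⟩
    have h0 : s ≠ 0 := fun h => x.2 (e ▸ N.n_mem_cores.2 h)
    obtain ⟨b, hb⟩ := exists_sg h0
    refine ⟨(a, b), (y, -Real.log |s|), ⟨mem_univ _, show 0 < -Real.log |s| from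
      neg_pos.2 (Real.log_neg (abs_pos.2 h0) (abs_lt.2 hp.2))⟩, Subtype.ext ?_⟩
    rw [N.jc_log a b y (abs_pos.2 h0), ← hb, e]

variable [CompactSpace X.M] [SecondCountableTopology X.M]

/-- the cut manifold with its ends -/
def cut : ME V W where
  P := Pc.of X.I N.Cut X.L
  α := S × Bool
  Y a := N.Y a.1
  j := N.jc
  isEnd := N.isEnd_jc
  disj := by
    rintro ⟨a, b⟩ ⟨a', b'⟩ p q e
    have e' := congrArg Subtype.val e
    obtain rfl : a = a' := N.disj _ _ _ _ e'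
    rw [show b = b' from hx_inj (Prod.mk.inj ((N.oe a).inj e')).2]
  cpt := by
    rw [N.compl_jc]
    refine IsInducing.subtypeVal.isCompact_preimage_iff ?_ |>.2 (isOpen_iUnion fun a =>
      (N.oe a).isOpen_image (isOpen_univ.prod isOpen_Ioo)).isClosed_compl.isCompact
    intro x hx
    refine ⟨⟨x, fun h => hx ?_⟩, rfl⟩
    obtain ⟨a, p, hp, e⟩ := mem_iUnion.1 h
    exact mem_iUnion.2 ⟨a, p, ⟨mem_univ _, by rw [show p.2 = 0 from hp.2]; constructor <;> norm_num⟩, e⟩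

variable (C : ∀ a : S × Bool, Cap V (N.Y a.1))

/-- the junction graph of the capped manifold -/
def jg : JG V W (Option (S × Bool)) (S × Bool) where
  M i := match i with
    | none => N.cut
    | some a => (C a).me
  s a := ⟨none, a⟩
  t a := ⟨some a, ()⟩
  s_inj _ _ h := eq_of_heq (Sigma.mk.inj h).2
  t_inj _ _ h := Option.some.inj (congrArg Sigma.fst h)
  s_ne_t _ _ h := by cases congrArg Sigma.fst h
  f _ := Diffeomorph.refl _ _ _

/-- the capped manifold -/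
abbrev XS : Type := (N.jg C).X

instance : CompactSpace (N.XS C) := (N.jg C).compactSpace (by
  rintro ⟨_ | a, b⟩ h
  exacts [h.1 b rfl, h.2 a rfl])

/-- the cut manifold in the capped manifold -/
def i0 (x : N.Cut) : N.XS C := (N.jg C).inc none x

/-- the cap on the side `a.2` of the neck `a.1` -/
def cap (a : S × Bool) (z : (C a).P.M) : N.XS C := (N.jg C).inc (some a) z

theorem isOE_i0 : IsOE X.I 𝓘(ℝ, V) (N.i0 C) := (N.jg C).isOE_inc (i := none) fun _ _ h => by cases h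

theorem isOE_cap (a : S × Bool) : IsOE (C a).P.I 𝓘(ℝ, V) (N.cap C a) :=
  (N.jg C).isOE_inc (i := some a) fun _ h => by cases h

theorem cap_c (a : S × Bool) (p : (N.Y a.1).M × ℝ) :
    N.cap C a ((C a).c p) = N.i0 C (N.jc a (p.1, -p.2)) := (N.jg C).inc_t' a p

theorem surj (x : N.XS C) : (∃ y, N.i0 C y = x) ∨ ∃ a z, N.cap C a z = x := by
  obtain ⟨_ | a, p, rfl⟩ := (N.jg C).surj x
  exacts [.inl ⟨p, rfl⟩, .inr ⟨a, p, rfl⟩]

theorem cap_eq_i0 {a : S × Bool} {z : (C a).P.M} {y : N.Cut} :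
    N.cap C a z = N.i0 C y ↔ ∃ p, (C a).c p = z ∧ N.jc a (p.1, -p.2) = y := by
  refine ⟨fun h => ?_, ?_⟩
  · by_cases h1 : ∀ e p, (N.jg C).inc (some a) z ≠ (N.jg C).neck e p
    · cases congrArg Sigma.fst ((N.jg C).eq_of_inc_eq h h1)
    push Not at h1
    obtain ⟨e, p, h1⟩ := h1
    rcases (N.jg C).inc_eq_neck.1 h1 with h2 | h2
    · cases congrArg Sigma.fst h2
    obtain rfl : a = e := Option.some.inj (congrArg Sigma.fst h2)
    have h3 : z = (C a).c (p.1, -p.2) := eq_of_heq (Sigma.mk.inj h2).2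
    exact ⟨_, h3.symm, (N.isOE_i0 C).inj ((N.cap_c C a _).symm.trans (h3 ▸ h))⟩
  · rintro ⟨p, rfl, rfl⟩
    exact N.cap_c C a p

theorem cap_disj {a b : S × Bool} {z : (C a).P.M} {w : (C b).P.M}
    (h : N.cap C a z = N.cap C b w) : a = b := by
  by_cases h1 : ∀ e p, (N.jg C).inc (some a) z ≠ (N.jg C).neck e p
  · exact Option.some.inj (congrArg Sigma.fst ((N.jg C).eq_of_inc_eq h h1))
  push Not at h1
  obtain ⟨e, p, h1⟩ := h1
  have key : ∀ (c : S × Bool) (z : (C c).P.M), N.cap C c z = (N.jg C).neck e p → c = e := by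
    intro c z h
    rcases (N.jg C).inc_eq_neck.1 h with h2 | h2
    · cases congrArg Sigma.fst h2
    · exact Option.some.inj (congrArg Sigma.fst h2)
  rw [key a z h1, key b w (h.symm.trans h1)]

/-- the new points: the parts of the caps off their ends -/
def pts : Set (N.XS C) := ⋃ a, N.cap C a '' (range (C a).c)ᶜ

theorem range_i0 : range (N.i0 C) = (N.pts C)ᶜ := by
  ext x
  constructor
  · rintro ⟨y, rfl⟩ h
    obtain ⟨a, z, hz, e⟩ := mem_iUnion.1 h
    obtain ⟨p, rfl, -⟩ := (N.cap_eq_i0 C).1 e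
    exact hz ⟨p, rfl⟩
  · intro hx
    rcases N.surj C x with h | ⟨a, z, rfl⟩
    · exact h
    · by_cases hz : z ∈ range (C a).c
      · obtain ⟨p, rfl⟩ := hz
        exact ⟨_, (N.cap_c C a p).symm⟩
      · exact (hx (mem_iUnion.2 ⟨a, z, hz, rfl⟩)).elim

variable [Nonempty N.Cut]

/-- the identification of `X` minus the cores with the capped manifold minus the new points -/
def φ : PartialDiffeomorph X.I 𝓘(ℝ, V) X.M (N.XS C) ∞ := (isOE_val N.Cut).span (N.isOE_i0 C)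

theorem φ_source : (N.φ C).source = N.coresᶜ :=
  (IsOE.span_source _ _).trans Subtype.range_coe

theorem φ_target : (N.φ C).target = (N.pts C)ᶜ := (IsOE.span_target _ _).trans (N.range_i0 C)

theorem φ_val (y : N.Cut) : N.φ C y = N.i0 C y := IsOE.span_apply _ _ y

theorem φ_symm_i0 (y : N.Cut) : (N.φ C).symm (N.i0 C y) = y := IsOE.span_symm_apply _ _ y

/-- radial coordinate `r` on the side `b` of a neck = height `log r` on the end of the cap -/
theorem φ_n (a : S) (b : Bool) (y : (N.Y a).M) {r : ℝ} (hr : 0 < r) :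
    N.φ C (N.n a (y, sg b * r)) = N.cap C (a, b) ((C (a, b)).c (y, Real.log r)) := by
  rw [N.cap_c, ← N.φ_val, N.jc_log a b y hr]

end Nks

end Crest.Agent.X212.Cyl58
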