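import Crest.Agent.X212.Cyl58.Jn

/-!
# X212/Cyl58/Chn: chains of timed pieces

`Wd V` : letters `A 0, …, A n` with junctions `g i` over `(a i, b i)`.  `Chn w X` : `X` is the chain,
with charts `k i` over `w.J i`.  Existence `Wd.X`/`Wd.chn`, maps out of a chain `exists_iso_on`,
`lift`, compactness, connectedness.
-/

set_option autoImplicit false
set_option linter.unusedSectionVars false
noncomputable section
open Set Filter Topology Function Metric TopologicalSpace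
open scoped ContDiff Manifold

namespace Crest.Agent.X212.Cyl58

open Glue52

variable {V V' V'' W : Type} [NormedAddCommGroup V] [NormedSpace ℝ V] [NormedAddCommGroup V']
  [NormedSpace ℝ V'] [NormedAddCommGroup V''] [NormedSpace ℝ V''] [NormedAddCommGroup W]
  [NormedSpace ℝ W]

variable (V) in
/-- a word: letters and junctions -/
structure Wd : Type 1 where
  n : ℕ
  A : ℕ → TP V
  a : ℕ → ℝ
  b : ℕ → ℝ
  g : ∀ i, i < n → TIso (A i) (A (i + 1)) (Ioo (a i) (b i))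
  lt : ∀ i, i < n → a i < b i
  le : ∀ i, i + 1 < n → b i ≤ a (i + 1)
  ne : 0 < n → ∃ p, (A 0).τ p < b 0

namespace Wd

variable (w : Wd V)

/-- the times of the letter `i` -/
def J (i : ℕ) : Set ℝ := {t | (∀ j, j + 1 = i → w.a j < t) ∧ (i < w.n → t < w.b i)}

theorem isOpen_J (i : ℕ) : IsOpen (w.J i) := by
  refine IsOpen.inter (s := {t | ∀ j, j + 1 = i → w.a j < t}) (t := {t | i < w.n → t < w.b i}) ?_ ?_
  · rcases i with _ | i
    · simp
    · simpa using isOpen_lt continuous_const continuous_id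
  · by_cases h : i < w.n
    · simpa [h] using isOpen_lt continuous_id continuous_const
    · simp [h]

theorem ordConnected_J (i : ℕ) : OrdConnected (w.J i) :=
  ⟨fun _ hx _ hy _ hz => ⟨fun j e => (hx.1 j e).trans_le hz.1, fun e => hz.2.trans_lt (hy.2 e)⟩⟩

theorem mem_J_zero {t : ℝ} : t ∈ w.J 0 ↔ (0 < w.n → t < w.b 0) := by simp [J]

theorem mem_J_succ {i : ℕ} {t : ℝ} : t ∈ w.J (i + 1) ↔ w.a i < t ∧ (i + 1 < w.n → t < w.b (i + 1)) := by
  simp [J]

theorem J_zero (h : 0 < w.n) : w.J 0 = Iio (w.b 0) := by ext t; simp [mem_J_zero, h]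

theorem J_last {i : ℕ} (h : i + 1 = w.n) : w.J (i + 1) = Ioi (w.a i) := by
  ext t; rw [mem_J_succ]; simp [h]

theorem J_mid {i : ℕ} (h : i + 1 < w.n) : w.J (i + 1) = Ioo (w.a i) (w.b (i + 1)) := by
  ext t; simp [mem_J_succ, h]

theorem b_le_a {i j : ℕ} (h : i < j) (hj : j < w.n) : w.b i ≤ w.a j := by
  induction j, h using Nat.le_induction with
  | base => exact w.le i hj
  | succ j h ih => exact ((ih (by omega)).trans (w.lt j (by omega)).le).trans (w.le j hj)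

theorem b_mono {i j : ℕ} (h : i ≤ j) (hj : j < w.n) : w.b i ≤ w.b j :=
  h.eq_or_lt.elim (fun e => e ▸ le_rfl) fun e => (w.b_le_a e hj).trans (w.lt j hj).le

theorem a_mono {i j : ℕ} (h : i ≤ j) (hj : j < w.n) : w.a i ≤ w.a j :=
  h.eq_or_lt.elim (fun e => e ▸ le_rfl) fun e => (w.lt i (by omega)).le.trans (w.b_le_a e hj)

theorem sub_l {i : ℕ} (h : i < w.n) : Ioo (w.a i) (w.b i) ⊆ w.J i := fun _ ht =>
  ⟨fun j e => (w.a_mono (by omega) h).trans_lt ht.1, fun _ => ht.2⟩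

theorem sub_r {i : ℕ} (_h : i < w.n) : Ioo (w.a i) (w.b i) ⊆ w.J (i + 1) := fun _ ht =>
  w.mem_J_succ.2 ⟨ht.1, fun e => ht.2.trans_le (w.b_mono (by omega) e)⟩

theorem inter {i : ℕ} (h : i < w.n) {t : ℝ} (h1 : t ∈ w.J i) (h2 : t ∈ w.J (i + 1)) :
    t ∈ Ioo (w.a i) (w.b i) := ⟨h2.1 i rfl, h1.2 h⟩

/-- only neighbours overlap -/
theorem near {i j : ℕ} (hj : j ≤ w.n) {t : ℝ} (h1 : t ∈ w.J i) (h2 : t ∈ w.J j) : j ≤ i + 1 := by
  by_contra h
  obtain ⟨j, rfl⟩ : ∃ k, j = k + 1 := ⟨j - 1, by omega⟩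
  exact (h1.2 (by omega)).not_ge ((w.b_le_a (by omega) hj).trans (h2.1 j rfl).le)

theorem cover (t : ℝ) : ∃ i ≤ w.n, t ∈ w.J i := by
  have h : ∃ i, i < w.n → t < w.b i := ⟨w.n, fun h => (lt_irrefl _ h).elim⟩
  classical
  have h0 : Nat.find h ≤ w.n := Nat.find_min' h fun h => (lt_irrefl _ h).elim
  refine ⟨Nat.find h, h0, fun j e => ?_, Nat.find_spec h⟩
  have := Nat.find_min h (m := j) (by omega)
  push Not at this
  exact (w.lt j this.1).trans_le this.2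

/-- the first `m` junctions -/
def take (m : ℕ) (h : m ≤ w.n) : Wd V where
  n := m
  A := w.A
  a := w.a
  b := w.b
  g i hi := w.g i (hi.trans_le h)
  lt i hi := w.lt i (hi.trans_le h)
  le i hi := w.le i (hi.trans_le h)
  ne hi := w.ne (hi.trans_le h)

end Wd

/-- `X` is the chain of the word `w` -/
structure Chn (w : Wd V) (X : TP V') where
  k : ∀ i, i ≤ w.n → TIso (w.A i) X (w.J i)
  eq : ∀ i (h : i < w.n) p, (w.A i).τ p ∈ Ioo (w.a i) (w.b i) → k (i + 1) h (w.g i h p) = k i h.le p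

namespace Wd

variable (w : Wd V)

theorem exists_chn_take (m : ℕ) (h : m ≤ w.n) : ∃ X : TP V, Nonempty (Chn (w.take m h) X) := by
  induction m with
  | zero =>
    refine ⟨w.A 0, ⟨fun i hi => ?_, fun i hi => (Nat.not_lt_zero _ hi).elim⟩⟩
    obtain rfl : i = 0 := Nat.le_zero.1 hi
    exact TIso.refl _ ((w.take 0 h).isOpen_J 0)
  | succ m ih =>
    obtain ⟨X, ⟨c⟩⟩ := ih (Nat.le_of_succ_le h)
    have h1 : Ioo (w.a m) (w.b m) ⊆ (w.take m (Nat.le_of_succ_le h)).J m := fun t ht =>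
      ⟨fun j e => (w.a_mono (by omega) h).trans_lt ht.1, fun e => (lt_irrefl _ e).elim⟩
    obtain ⟨p, hp⟩ := w.ne (Nat.succ_pos m |>.trans_le h)
    have hp' : (w.A 0).τ p ∈ (w.take m (Nat.le_of_succ_le h)).J 0 := (Wd.mem_J_zero _).2 fun _ => hp
    obtain ⟨X', ⟨j⟩⟩ := exists_jn (w.lt m h) (((c.k m le_rfl).restr isOpen_Ioo h1).symm.trans (w.g m h))
      ⟨c.k 0 (Nat.zero_le _) p, ((c.k 0 _).tm p hp').trans_lt (hp.trans_le (w.b_mono (Nat.zero_le m) h))⟩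
    have h2 : ∀ i ≤ m, (w.take (m + 1) h).J i ⊆ (w.take m (Nat.le_of_succ_le h)).J i :=
      fun i _ t ht => ⟨ht.1, fun e => ht.2 (Nat.lt_succ_of_lt e)⟩
    have h3 : ∀ i ≤ m, (w.take (m + 1) h).J i ⊆ Iio (w.b m) := fun i hi t ht =>
      (ht.2 (Nat.lt_succ_of_le hi)).trans_le (w.b_mono hi h)
    let k : ∀ i ≤ m, TIso (w.A i) X' ((w.take (m + 1) h).J i) := fun i hi =>
      ((c.k i hi).restr (Wd.isOpen_J _ i) (h2 i hi)).trans (j.l.restr (Wd.isOpen_J _ i) (h3 i hi))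
    let r : TIso (w.A (m + 1)) X' ((w.take (m + 1) h).J (m + 1)) :=
      j.r.cast ((w.take (m + 1) h).J_last rfl).symm
    obtain ⟨K, K1, K2⟩ : ∃ K : ∀ i ≤ m + 1, TIso (w.A i) X' ((w.take (m + 1) h).J i),
        (∀ i hi e, K i hi = k i e) ∧ ∀ hi, K (m + 1) hi = r :=
      ⟨fun i hi => if e : i ≤ m then k i e else (show m + 1 = i from le_antisymm (not_le.1 e) hi) ▸ r,
        fun i _ e => dif_pos e, fun _ => dif_neg (Nat.not_succ_le_self m)⟩
    refine ⟨X', ⟨K, fun i (hi : i < m + 1) (p : (w.A i).P.M) hp => ?_⟩⟩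
    have hi' : i ≤ m := Nat.le_of_lt_succ hi
    change K (i + 1) hi (w.g i (hi.trans_le h) p) = K i hi.le p
    rw [K1 i _ hi']
    rcases hi'.eq_or_lt with rfl | e
    · rw [K2]
      refine Eq.trans ?_ (j.eq (c.k i le_rfl p) (by rw [(c.k i le_rfl).tm p (h1 hp)]; exact hp))
      exact congrArg (fun q => j.r (w.g i h q))
        (((c.k i le_rfl).restr isOpen_Ioo h1).symm_apply hp).symm
    · rw [K1 _ _ (Nat.succ_le_of_lt e)]
      exact congrArg j.l (c.eq i e p hp)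

/-- EXISTENCE of the chain -/
theorem exists_chn : ∃ X : TP V, Nonempty (Chn w X) := w.exists_chn_take w.n le_rfl

/-- the chain of a word -/
def X : TP V := w.exists_chn.choose

/-- its charts -/
def chn : Chn w w.X := w.exists_chn.choose_spec.some

end Wd

namespace Chn

variable {w : Wd V} {X : TP V'} {X' : TP V''} (c : Chn w X)
include c

theorem surj (x : X.P.M) : ∃ i h p, (w.A i).τ p ∈ w.J i ∧ c.k i h p = x := by
  obtain ⟨i, h, hx⟩ := w.cover (X.τ x)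
  obtain ⟨p, h1, h2⟩ := (c.k i h).surj hx
  exact ⟨i, h, p, h1 ▸ hx, h2⟩

theorem k_eq_succ {i : ℕ} (h : i < w.n) {p : (w.A i).P.M} {q : (w.A (i + 1)).P.M}
    (hp : (w.A i).τ p ∈ w.J i) (hq : (w.A (i + 1)).τ q ∈ w.J (i + 1)) :
    c.k i h.le p = c.k (i + 1) h q ↔ (w.A i).τ p ∈ Ioo (w.a i) (w.b i) ∧ w.g i h p = q := by
  refine ⟨fun e => ?_, fun e => by rw [← e.2, c.eq i h p e.1]⟩
  have h1 := w.inter h hp (by rwa [← (c.k i h.le).tm p hp, e, (c.k _ h).tm q hq])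
  exact ⟨h1, (c.k _ h).inj (w.sub_r h ((w.g i h).mem h1)) hq ((c.eq i h p h1).trans e)⟩

/-- a relation between points of letters that holds along the junctions holds for equal points -/
theorem ind {P : ∀ i, i ≤ w.n → (w.A i).P.M → Prop} {Z : Type*}
    {F : ∀ i (h : i ≤ w.n) p, P i h p → Z}
    (hF : ∀ i (h : i < w.n) p hp hq, (w.A i).τ p ∈ Ioo (w.a i) (w.b i) →
      F (i + 1) h (w.g i h p) hq = F i h.le p hp)
    {i j : ℕ} {hi : i ≤ w.n} {hj : j ≤ w.n} {p : (w.A i).P.M} {q : (w.A j).P.M}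
    (hp : (w.A i).τ p ∈ w.J i) (hq : (w.A j).τ q ∈ w.J j) (e : c.k i hi p = c.k j hj q)
    (h1 : P i hi p) (h2 : P j hj q) : F i hi p h1 = F j hj q h2 := by
  have ht : (w.A i).τ p = (w.A j).τ q := by rw [← (c.k i hi).tm p hp, e, (c.k j hj).tm q hq]
  have k1 := w.near hj hp (ht ▸ hq)
  have k2 := w.near hi hq (ht ▸ hp)
  obtain rfl | rfl | rfl : j = i ∨ j = i + 1 ∨ i = j + 1 := by omega
  · obtain rfl := (c.k _ hi).inj hp hq e
    rfl
  · obtain ⟨h3, rfl⟩ := (c.k_eq_succ hj hp hq).1 e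
    exact (hF i hj p h1 h2 h3).symm
  · obtain ⟨h3, rfl⟩ := (c.k_eq_succ hi hq hp).1 e.symm
    exact hF j hi q h2 h1 h3

/-- MAPS OUT OF A CHAIN over the times `L`, using the letters in `I` -/
theorem exists_iso_on {L : Set ℝ} (hL : IsOpen L) {I : ℕ → Prop}
    (hI : ∀ t ∈ L, ∃ i ≤ w.n, I i ∧ t ∈ w.J i)
    (l : ∀ i, i ≤ w.n → I i → TIso (w.A i) X' (w.J i ∩ L))
    (h : ∀ i (h : i < w.n) h1 h2 p, (w.A i).τ p ∈ Ioo (w.a i) (w.b i) → (w.A i).τ p ∈ L →
      l (i + 1) h h2 (w.g i h p) = l i h.le h1 p) :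
    ∃ K : TIso X X' L, ∀ i hi h1 p, (w.A i).τ p ∈ w.J i → (w.A i).τ p ∈ L →
      K (c.k i hi p) = l i hi h1 p := by
  obtain ⟨K, hK⟩ := TIso.exists_of_charts (ι := {i // i ≤ w.n ∧ I i}) (M := fun i => w.A i)
    (J := fun i => w.J i ∩ L) (L := L) (fun i => (w.isOpen_J i).inter hL)
    (Subset.antisymm (iUnion_subset fun _ => inter_subset_right) fun t ht => by
      obtain ⟨i, h1, h2, h3⟩ := hI t ht
      exact mem_iUnion.2 ⟨⟨i, h1, h2⟩, h3, ht⟩)
    (fun i => (c.k i i.2.1).restr ((w.isOpen_J i).inter hL) inter_subset_left)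
    (fun i => l i i.2.1 i.2.2) fun i j p q hp hq e =>
      c.ind (P := fun i _ p => I i ∧ (w.A i).τ p ∈ L) (F := fun i hi p hp => l i hi hp.1 p)
        (fun i hi p h1 h2 h3 => h i hi h1.1 h2.1 p h3 h1.2) hp.1 hq.1 e ⟨i.2.2, hp.2⟩ ⟨j.2.2, hq.2⟩
  exact ⟨K, fun i hi h1 p h2 h3 => hK ⟨i, hi, h1⟩ p ⟨h2, h3⟩⟩

theorem exists_iso' (l : ∀ i, i ≤ w.n → TIso (w.A i) X' (w.J i))
    (h : ∀ i (h : i < w.n) p, (w.A i).τ p ∈ Ioo (w.a i) (w.b i) → l (i + 1) h (w.g i h p) = l i h.le p) :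
    ∃ K : TIso X X' univ, ∀ i hi p, (w.A i).τ p ∈ w.J i → K (c.k i hi p) = l i hi p := by
  obtain ⟨K, hK⟩ := c.exists_iso_on (X' := X') isOpen_univ (I := fun _ => True)
    (fun t _ => (w.cover t).imp fun _ h => ⟨h.1, trivial, h.2⟩)
    (fun i hi _ => (l i hi).cast (inter_univ _).symm) fun i hi _ _ p hp _ => h i hi p hp
  exact ⟨K, fun i hi p hp => hK i hi trivial p hp trivial⟩

/-- UNIQUENESS of the chain -/
theorem exists_iso (c' : Chn w X') :
    ∃ K : TIso X X' univ, ∀ i hi p, (w.A i).τ p ∈ w.J i → K (c.k i hi p) = c'.k i hi p :=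
  c.exists_iso' c'.k c'.eq

/-- transport along an isomorphism -/
def map (K : TIso X X' univ) : Chn w X' where
  k i h := (c.k i h).trans (K.restr (w.isOpen_J i) (subset_univ _))
  eq i h p hp := congrArg K (c.eq i h p hp)

/-- the function on the chain given by functions on the letters -/
def lift {Z : Type*} (F : ∀ i, i ≤ w.n → (w.A i).P.M → Z) (x : X.P.M) : Z :=
  F _ (c.surj x).choose_spec.choose (c.surj x).choose_spec.choose_spec.choose

theorem lift_k {Z : Type*} {F : ∀ i, i ≤ w.n → (w.A i).P.M → Z}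
    (hF : ∀ i (h : i < w.n) p, (w.A i).τ p ∈ Ioo (w.a i) (w.b i) → F (i + 1) h (w.g i h p) = F i h.le p)
    {i : ℕ} (hi : i ≤ w.n) {p : (w.A i).P.M} (hp : (w.A i).τ p ∈ w.J i) :
    c.lift F (c.k i hi p) = F i hi p :=
  have h := (c.surj (c.k i hi p)).choose_spec.choose_spec.choose_spec
  c.ind (P := fun _ _ _ => True) (F := fun i hi p _ => F i hi p) (fun i h p _ _ => hF i h p)
    h.1 hp h.2 trivial trivial

variable {EZ HZ : Type*} [NormedAddCommGroup EZ] [NormedSpace ℝ EZ] [TopologicalSpace HZ]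
  {IZ : ModelWithCorners ℝ EZ HZ} {Z : Type*} [TopologicalSpace Z] [ChartedSpace HZ Z]

theorem contMDiff_of {F : X.P.M → Z}
    (h : ∀ i hi p, (w.A i).τ p ∈ w.J i → ContMDiffAt (w.A i).P.I IZ ∞ (F ∘ c.k i hi) p) :
    ContMDiff X.P.I IZ ∞ F := by
  intro x
  obtain ⟨i, hi, p, hp, rfl⟩ := c.surj x
  exact ((c.k i hi).contMDiffAt_iff hp).1 (h i hi p hp)

theorem lift_comp {Z : Type*} {F : ∀ i, i ≤ w.n → (w.A i).P.M → Z}
    (hF : ∀ i (h : i < w.n) p, (w.A i).τ p ∈ Ioo (w.a i) (w.b i) → F (i + 1) h (w.g i h p) = F i h.le p)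
    {i : ℕ} (hi : i ≤ w.n) {p : (w.A i).P.M} (hp : (w.A i).τ p ∈ w.J i) :
    c.lift F ∘ c.k i hi =ᶠ[𝓝 p] F i hi := by
  filter_upwards [((w.isOpen_J i).preimage (w.A i).cont).mem_nhds hp] with z hz
  exact c.lift_k hF hi hz

theorem contMDiff_lift {F : ∀ i, i ≤ w.n → (w.A i).P.M → Z}
    (hF : ∀ i (h : i < w.n) p, (w.A i).τ p ∈ Ioo (w.a i) (w.b i) → F (i + 1) h (w.g i h p) = F i h.le p)
    (h : ∀ i hi p, (w.A i).τ p ∈ w.J i → ContMDiffAt (w.A i).P.I IZ ∞ (F i hi) p) :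
    ContMDiff X.P.I IZ ∞ (c.lift F) :=
  c.contMDiff_of fun i hi p hp => (h i hi p hp).congr_of_eventuallyEq (c.lift_comp hF hi hp)

theorem lower {s : ℝ} (hA : ∀ p, s ≤ (w.A 0).τ p) (x : X.P.M) : min s (w.a 0) ≤ X.τ x := by
  obtain ⟨i, hi, p, hp, rfl⟩ := c.surj x
  rw [(c.k i hi).tm p hp]
  rcases i with _ | i
  · exact min_le_of_left_le (hA p)
  · exact min_le_of_right_le ((w.a_mono (Nat.zero_le i) hi).trans (hp.1 i rfl).le)

theorem upper {t : ℝ} (hA : ∀ p, (w.A w.n).τ p ≤ t) (x : X.P.M) : X.τ x ≤ max t (w.b (w.n - 1)) := by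
  obtain ⟨i, hi, p, hp, rfl⟩ := c.surj x
  rw [(c.k i hi).tm p hp]
  rcases hi.eq_or_lt with rfl | e
  · exact le_max_of_le_left (hA p)
  · exact le_max_of_le_right ((hp.2 e).le.trans (w.b_mono (by omega) (by omega)))

/-- time bounded on both ends: the chain is closed -/
theorem compactSpace {s t : ℝ} (h0 : ∀ p, s ≤ (w.A 0).τ p) (h1 : ∀ p, (w.A w.n).τ p ≤ t) :
    CompactSpace X.P.M :=
  X.compactSpace fun x => ⟨c.lower h0 x, c.upper h1 x⟩

theorem image_J {i : ℕ} (hi : i ≤ w.n) : c.k i hi '' ((w.A i).τ ⁻¹' w.J i) = X.τ ⁻¹' w.J i :=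
  (c.k i hi).image_preimage subset_rfl

/-- connected letters with non-empty junctions give a connected chain -/
theorem preconnectedSpace (h : ∀ i ≤ w.n, IsPreconnected ((w.A i).τ ⁻¹' w.J i))
    (hn : ∀ i < w.n, ∃ p, (w.A i).τ p ∈ Ioo (w.a i) (w.b i)) : PreconnectedSpace X.P.M := by
  have h1 : ∀ i ≤ w.n, IsPreconnected (X.τ ⁻¹' w.J i) := fun i hi => by
    rw [← c.image_J hi]
    exact (h i hi).image _ ((c.k i hi).src ▸ (c.k i hi).φ.contMDiffOn.continuousOn)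
  have h2 : ∀ m ≤ w.n, IsPreconnected (⋃ i ≤ m, X.τ ⁻¹' w.J i) := fun m hm => by
    induction m with
    | zero => simpa using h1 0 hm
    | succ m ih =>
      obtain ⟨p, hp⟩ := hn m hm
      have h3 : X.τ (c.k m (Nat.le_of_succ_le hm) p) ∈ Ioo (w.a m) (w.b m) := by
        rwa [(c.k m _).tm p (w.sub_l hm hp)]
      rw [biUnion_le_succ]
      exact (ih (Nat.le_of_succ_le hm)).union _ (mem_biUnion (le_refl m) (w.sub_l hm h3))
        (w.sub_r hm h3) (h1 _ hm)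
  refine ⟨?_⟩
  rw [← eq_univ_of_forall (s := ⋃ i ≤ w.n, X.τ ⁻¹' w.J i) fun x =>
    (w.cover (X.τ x)).elim fun i hi => mem_biUnion hi.1 hi.2]
  exact h2 _ le_rfl

end Chn

section Junc

variable {W' : Type} [NormedAddCommGroup W'] [NormedSpace ℝ W'] {Y : Pc W} {Y' : Pc W'}
  [CompactSpace Y.M] [T2Space Y.M] [SecondCountableTopology Y.M] [Nonempty Y.M]
  [CompactSpace Y'.M] [T2Space Y'.M] [SecondCountableTopology Y'.M] [Nonempty Y'.M] {J : Set ℝ}
  {M : TP V} {M' : TP V'}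

/-- points over a product region -/
theorem TIso.exists_cyl (k : TIso (cylT Y) M J) {x : M.P.M} (hx : M.τ x ∈ J) :
    ∃ y, k (y, M.τ x) = x := by
  obtain ⟨⟨y, t⟩, h1, h2⟩ := k.surj hx
  obtain rfl : t = M.τ x := h1
  exact ⟨y, h2⟩

/-- two isomorphisms that agree on a product region -/
theorem TIso.eq_of_cyl (k : TIso (cylT Y) M J) {Z : Type*} {F G : M.P.M → Z} {s : Set ℝ} (hs : s ⊆ J)
    (h : ∀ y, ∀ t ∈ s, F (k (y, t)) = G (k (y, t))) {x : M.P.M} (hx : M.τ x ∈ s) : F x = G x := by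
  obtain ⟨y, e⟩ := k.exists_cyl (hs hx)
  rw [← e]
  exact h y _ hx

/-- `f` followed by `f⁻¹` cancels -/
theorem junc_junc (k : TIso (cylT Y) M J) (k' : TIso (cylT Y') M' J)
    (f : Y.M ≃ₘ^∞⟮Y.I, Y'.I⟯ Y'.M) (hJ : IsOpen J) {x : M.P.M} (hx : M.τ x ∈ J) :
    junc k' k f.symm hJ (junc k k' f hJ x) = x :=
  k.eq_of_cyl (F := fun x => junc k' k f.symm hJ (junc k k' f hJ x)) (G := id) subset_rfl
    (fun y t ht => by
      rw [junc_apply k k' f hJ y ht, junc_apply k' k f.symm hJ _ ht, f.symm_apply_apply]; rfl) hx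

end Junc

end Crest.Agent.X212.Cyl58
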