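import Crest.Agent.X212.Cyl58.PsC
import Crest.Agent.X212.Es42.Nb
import Crest.Agent.X212.Sw88.C0
import Crest.Agent.X212.Map44.Crit

/-! # Row 212, ES-CPT (helper58): critical points of small norm -/

set_option autoImplicit false
set_option linter.unusedSectionVars false
noncomputable section
open scoped Manifold ContDiff Topology InnerProductSpace
open MeasureTheory Set Function Filter Module Asymptotics ContinuousLinearMap

namespace Crest.Agent.X212.Cpt58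
open An An.Pre Sob92 Ell97 Rdc90 Sw Sw.En3 Sep15.S Cyf70 Cyl58 End23
open Wz78 (SA)
open Sw88 (kB)

variable {κ lam ν : Type} [Fintype κ] [Fintype lam] [Fintype ν] [DecidableEq ν] {e : En3 κ lam ν}

theorem kB_sc (n : ℝ) (C : ℕ → ℝ) {w : ℝ} (hw : 0 < w) (A G R : ℝ) :
    √w * kB n C w A G R = kB n C 1 A G R := by
  have e := Real.exp_pos (-2 * G)
  have h : √(Sw88.kL n C R ^ 2 / (w * Real.exp (-2 * G)) / (w / 4 * Real.exp (-2 * G))) =
      √(Sw88.kL n C R ^ 2 / (1 * Real.exp (-2 * G)) / (1 / 4 * Real.exp (-2 * G))) / w := by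
    rw [← Real.sqrt_sq hw.le, ← Real.sqrt_div' _ (sq_nonneg w), Real.sqrt_sq hw.le]
    congr 1; field_simp
  rw [kB, kB, ← Real.sqrt_mul hw.le, h]
  congr 1; field_simp

variable (H : e.OK)
include H

theorem bd_cyl : ∃ C, Bg.Bd (X := e.Z) e.cyl C := by
  have h := H.cyl
  obtain ⟨C, hC⟩ := h.tame
  obtain ⟨C1, h1⟩ := h.cms
  obtain ⟨C2, h2⟩ := h.com
  obtain ⟨C3, h3⟩ := Prm93.Cb_unif fun i => Cb_add (Cb_D h.cms i)
    (Cb_sub (Cb_bil (.mul ℝ _) (h.cA i) h.cms) (Cb_bil (.mul ℝ _) h.cms (h.cA i)))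
  refine ⟨fun j => max (C j) (max (C1 0) (max (C2 0) (C3 0))),
    Ell97.Tame_mono hC fun _ => le_max_left _ _, fun x => ?_, fun i x => ?_, fun x => ?_⟩
  · exact (CB_bound (h1.2 0) x).trans (by simp)
  · exact (CB_bound ((h3 i).2 0) x).trans (by simp)
  · exact (CB_bound (h2.2 0) x).trans (by simp)

/-- the spinors of critical points are bounded in true variables -/
theorem sup_crit (B : ℝ) : ∃ K, ∀ w > 0, ∀ b S ψ, (∀ r, |b r| ≤ B) → (e.re w b S ψ).OK →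
    ∀ v : (e.re w b S ψ).YC, Crit v → ∀ y, √w * ‖v.Φ y‖ ≤ K := by
  obtain ⟨C, hC⟩ := bd_cyl H
  obtain ⟨R, -, hR⟩ := Sw88.hl_le e
  let φ : ContDiffBump (0 : ℝ) := ⟨1, 2, one_pos, one_lt_two⟩
  have s : Sm (IC e.Y.I) fun x : e.Y.M × ℝ => φ x.2 := sm_snd φ.contDiff
  have t : tsupport (fun x : e.Y.M × ℝ => φ x.2) ⊆ univ ×ˢ Metric.closedBall 0 2 :=
    closure_minimal (fun x hx => ⟨trivial, Metric.ball_subset_closedBall
      (φ.support_eq ▸ (hx : x.2 ∈ support φ))⟩) (isClosed_univ.prod Metric.isClosed_closedBall)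
  have k : HasCompactSupport fun x : e.Y.M × ℝ => φ x.2 :=
    (isCompact_univ.prod (isCompact_closedBall _ _)).of_isClosed_subset (isClosed_tsupport _) t
  obtain ⟨A, -, hA⟩ := Cb_of_hcs (F := e.cyl.F.toPre) s k
  refine ⟨_, fun w hw b S ψ hb he v hv y => (mul_le_mul_of_nonneg_left
    (Sw88.c0_core (X := e.Z) he.cyl (C := C) ⟨hC.tame, hC.ms, hC.dms, hC.om⟩ hw hv.1
      (g := fun x => b (nm v) * x.2) (G := B * 2) (R := R) (sm_snd (by fun_prop)) (fun x => ?_)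
      (fun x => ?_) s (hA 2) k (fun x => ⟨φ.nonneg, φ.le_one⟩) (fun x hx => ?_) (x₀ := (y, 0))
      (φ.one_of_mem_closedBall (by simp [φ]))) w.sqrt_nonneg).trans_eq (kB_sc _ _ hw ..)⟩
  · have c : ContDiff ℝ ∞ fun t : ℝ => b (nm v) * t := by fun_prop
    have h1 := congrFun (D_none_snd e.D.F.toPre c) x
    have h2 := fun a => congrFun (D_some_snd e.D.F.toPre c a) x
    rw [Map44.crit_D he hv, Fintype.sum_option]
    erw [h1]
    simp only [show ∀ a, (e.re w b S ψ).cyl.F.D (some a) (fun x => b (nm v) * x.2) x = 0 from h2]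
    simp
    rfl
  · rw [Map44.crit_C he hv, neg_smul, norm_neg]
    exact hR H _ _
  · rw [abs_mul]
    exact mul_le_mul (hb _) (by simpa using (t hx).2) (abs_nonneg _) ((abs_nonneg _).trans (hb 0))

omit H in
/-- the divergence on Sobolev spaces -/
theorem dv_lim {ι : Type} {l : Filter ι} [l.NeBot] {a : ι → Sec e.Y.I (P1 e.D.F)}
    {a₀ : Sec e.Y.I (P1 e.D.F)} (h : Tendsto (fun i => e.D.F.toH 1 _ (a i)) l (𝓝 (e.D.F.toH 1 _ a₀)))
    (h0 : ∀ i y, dvS e.D.F (a i).1 y = 0) (i : ι) (y : e.Y.M) : dvS e.D.F (a i - a₀).1 y = 0 := by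
  obtain ⟨C, hF⟩ := tame3 e
  obtain ⟨C', hA⟩ := good1 _ hF
  let T := e.D.F.mulH 0 (triv _ _) (triv _ ℝ) (fun _ => Map77.f2 _ _) ∘L (A1 e.D.F).H e.D.F 0
  have k : ∀ a : Sec e.Y.I (P1 e.D.F), T (e.D.F.toH 1 _ a) = 0 ↔ ∀ y, dvS e.D.F a.1 y = 0 := fun a => by
    rw [ContinuousLinearMap.comp_apply, show (A1 e.D.F).H e.D.F 0 _ = e.D.F.toH 0 (triv _ _) _ from
      H_toH hA 0 a, mulH_toH (f := fun _ => Map77.f2 ℝ (Fm (κ × κ) ℝ)) contMDiff_const,
      ← map_zero (e.D.F.toH 0 _), (toH_inj _ 0 _).eq_iff, Subtype.ext_iff, funext_iff]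
    refine forall_congr' fun y => ?_
    show Map77.f2 _ _ ((A1 e.D.F).app e.D.F a.1 y) = 0 ↔ _
    rw [app1]
    simp
  have t := (T.continuous.tendsto _).comp h
  simp only [comp_def, fun i => (k _).2 (h0 i)] at t
  refine (k _).1 ?_ y
  rw [map_sub, map_sub, (k _).2 (h0 i), ← tendsto_nhds_unique tendsto_const_nhds t, sub_zero]

/-- compactness of eigenspinors of small norm -/
theorem ps_mass {ι : Type} (𝒰 : Ultrafilter ι) {v : ι → e.YC} {r : ι → ℝ} {C B : ℝ}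
    (hv : ∀ i, e.cyl.Adm (fz (v i))) (hC : ∀ i y, ‖(v i).Φ y‖ ≤ C) (hB : ∀ i, |r i| ≤ B)
    (ha : ∀ i k y, (gr (v i)).a k y = 0) (hΦ : ∀ i y, (gr (v i)).Φ y = r i • (v i).Φ y)
    (hn : Tendsto (fun i => nm (v i)) 𝒰 (𝓝 0)) :
    ∃ θ : e.YC, Red θ ∧ ∃ g : ι → e.Y.M → ℂ, (∀ i, Gau e.Y.I (g i)) ∧
      (∀ i y, dvg e ((act3 (g i) (v i)).a - θ.a) y = 0) ∧
      ∀ k j, Tendsto (fun i => e.D.F.nrm k ((act3 (g i) (v i)).a j - θ.a j)) 𝒰 (𝓝 0) := by
  obtain ⟨C₀, hF⟩ := tame3 e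
  obtain ⟨C₁, g1⟩ := good1 _ hF
  obtain ⟨C₂, g2⟩ := good2 H hF
  obtain ⟨K, -, hK⟩ := wl0 H
  choose v' h hd hb using fun i => hK (v i) (hv i)
  have a := fun i => eqv_adm H (hv i) (h i)
  choose g hg ev using fun i => eqv_ex (h i)
  have hs : ∀ i y, ‖(sp (a i)).1 y‖ ≤ C := fun i y => (eqv_norm H (hv i) (h i) y).trans_le (hC i y)
  have e1 : ∀ i, (smv_gr H (a i)).a = 0 := fun i => Subtype.ext (funext fun y => PiLp.ext fun k =>
    show (gr (v' i)).a k y = 0 by rw [ev, gr_act3 H (hv i) (hg i)]; exact ha i k y)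
  have e2 : ∀ i y, (gr (v' i)).Φ y = r i • (v' i).Φ y := fun i y => by
    rw [ev, gr_act3 H (hv i) (hg i)]
    simp only [act3, hΦ, ← csL_apply, map_smul]
  have br : Bn 𝒰 r := IsBigO.of_bound B (.of_forall fun i => by simpa using hB _)
  obtain ⟨r₀, hr₀⟩ := br.lim
  have t2 : Tendsto (fun i => e.D.F.toH 0 _ (sp (a i))) 𝒰 (𝓝 0) := sq_zero one_pos
    (fun i => ((one_mul _).trans ((nm_H (a i)).symm.trans (eqv_nm H (hv i) (h i)))).le) hn
  obtain ⟨B', hB'⟩ := H.bf 1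
  have bs : Bn 𝒰 fun i => deriv e.f (hol (v' i)) :=
    IsBigO.of_bound B' (.of_forall fun i => by simpa using hB' _)
  obtain ⟨s₀, hs₀⟩ := bs.lim
  have hr := ((H.sb.continuous.tendsto _).comp hn).add hr₀
  simp only [comp_def, ← fun i => eqv_nm H (hv i) (h i)] at hr
  let m : Sec e.Y.I (triv _ (Fm κ ℝ)) → Sec e.Y.I (triv _ _) := fun u =>
    sT ((sm_Λ1 H).clm_apply u.2.1)
  have hm : ∀ k s, e.D.F.toH k _ (m (-(c0 H + s • c1 H))) = e.D.F.mulH k _ _ (Λ1 e)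
      (-(e.D.F.toH k _ (c0 H) + s • e.D.F.toH k _ (c1 H))) := fun k (s : ℝ) => by
    rw [← map_smul, ← map_add, ← map_neg, mulH_toH (f := Λ1 e) (sm_Λ1 H)]
  obtain ⟨a₀, Φ₀, c1', c2, c3⟩ := ps_core e.Y.dim.le (β₁ := fun y => compL ℝ _ _ _ (-Λ1 e y) ∘L β1 e y)
    hF g1 (cliff1 _) g2 (cliff2 H) (fun y => (SA.clm _ (sm_Λ1 H y).neg).clm_comp (sm_β1 H y))
    (sm_β2 H) 𝒰 (a := fun i => sa (a i)) (Φ := fun i => sp (a i))
    (g := fun i => m (-(c0 H + deriv e.f (hol (v' i)) • c1 H)))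
    (h := fun _ => 0) (g₀ := m (-(c0 H + s₀ • c1 H)))
    (fun i y => (app_Λ H (a i) (hd i) y).trans (by
      have := gr_a' H (a i) y
      rw [e1, add_assoc] at this
      rw [eq_neg_of_add_eq_zero_left this.symm, neg_add, map_add, map_neg]
      rfl))
    (fun i y => (gr_P' H (a i) y).trans (by simp [e2, sp, add_smul])) hs (fun i => hb i 0)
    (by
      simp only [hm]
      exact (ContinuousLinearMap.continuous _).continuousAt.tendsto.comp
        (tendsto_const_nhds.add (hs₀.smul_const _)).neg)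
    (by simp) hr
  have a0 : e.cyl.Adm (fz ⟨fun k y => a₀.1 y k, Φ₀.1⟩) := adm_fz (sm_comp a₀.2.1) Φ₀.2.1
    (fun k y => (idx_ap ..).symm.trans (congrArg (· k) (a₀.2.2.2 y))) Φ₀.2.2.2
  have z : Tendsto (fun i => zH (a i)) 𝒰 (𝓝 (zH a0)) := c1'.prodMk_nhds c2
  have p0 : Φ₀ = 0 := by
    have := ((e.D.F.incl 1 0 _).continuous.tendsto _).comp c2
    simp only [comp_def, incl_toH zero_le_one] at this
    exact toH_inj _ 0 _ ((tendsto_nhds_unique this t2).trans (map_zero _).symm)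
  have t1 : Tendsto (fun i => GA H (zH (a i))) 𝒰 (𝓝 0) := by simp [GA_zH, e1]
  refine ⟨_, ⟨⟨a0, fun k y => ?_, fun y => ?_⟩, congrArg (·.1) p0⟩, g, hg, fun i y => ?_, fun k j => ?_⟩
  · exact congrArg (·.1 y k) (toH_inj _ 0 _ (((GA_zH H a0).symm.trans (tendsto_nhds_unique
      (((cont_GA H).tendsto _).comp z) t1)).trans (map_zero _).symm))
  · subst p0
    have d : ∀ k, e.D.F.D k (0 : e.Y.M → Eu ν) y = 0 := fun k =>
      congrFun (dv_zero (I := e.Y.I) (e := e.D.F.e k)) y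
    rw [gr_P H a0]
    simpa using Finset.sum_eq_zero fun k _ => by rw [d, map_zero, map_zero]
  · rw [← ev]; exact dv_lim c1' hd i y
  · have c := (c3 (fun k => by
      simp only [hm]
      exact Bn.clm _ ((isBigO_const_one ..).add (bs.smul (isBigO_const_one ..))).neg_left)
      (fun _ => rfl) k).1
    simp only [← ev]
    refine squeeze_zero (fun i => nrm_nonneg _ _) (fun i => ?_) (tendsto_iff_norm_sub_tendsto_zero.1 c)
    rw [← map_sub, norm_toH]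
    exact nrm_pj _ k (sa (a i) - a₀).2.1 j

omit H in
theorem core (he : (lf e).OK) {c : ℝ} (hc : 0 ≤ c) {w : ℕ → ℝ} {S : ℕ → Set ℝ} {ψ : ℕ → ℝ → ℝ}
    (hw : ∀ n : ℕ, w n ∈ Ioc 0 (1 / (n + 1 : ℝ))) (H : ∀ n, (lv e c (w n) (S n) (ψ n)).OK)
    (v : ∀ n, (lv e c (w n) (S n) (ψ n)).YC) (hv : ∀ n, Crit (v n)) (h1 : ∀ n, nm (v n) ≤ 1) :
    ∃ θ : (lf e).YC, Red θ ∧ ∃ g : ℕ → e.Y.M → ℂ, (∀ i, Gau e.Y.I (g i)) ∧
      (∀ i y, dvg e ((act3 (e := lv e c _ _ _) (g i) (v i)).a - θ.a) y = 0) ∧ ∀ k j, Tendsto (fun i =>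
        e.D.F.nrm k ((act3 (e := lv e c _ _ _) (g i) (v i)).a j - θ.a j)) (hyperfilter ℕ) (𝓝 0) := by
  have b : ∀ r, |c * prf r| ≤ c * 3 := fun r => by
    rw [abs_of_nonneg (mul_nonneg hc (Es42.prf_mem r).1)]
    exact mul_le_mul_of_nonneg_left (Es42.prf_mem r).2 hc
  obtain ⟨K, hK⟩ := sup_crit he (c * 3)
  have y := fun n => Dl42.ay_of (hv n).1
  refine ps_mass he (hyperfilter ℕ) (v := fun n => tv (e := lv e c _ _ _) (v n)) (r := fun n => c * prf (nm (v n)))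
    (C := K) (fun n => (Es42.ay_tv (y n)).adm) (fun n z => le_trans ?_
      (hK _ (hw n).1 _ _ _ b (H n) (v n) (hv n) z)) (fun n => b _)
    (fun n k z => (Es42.gr_tv_a (H n) (y n) k z).trans ((hv n).2.1 k z))
    (fun n z => (Es42.gr_tv_Φ (H n) (y n) z).trans (by
      rw [(hv n).2.2, zero_add]; exact smul_comm ..))
    (squeeze_zero (fun n => integral_nonneg fun _ => sq_nonneg _) (fun n => ?_)
      (tendsto_one_div_add_atTop_nhds_zero_nat.mono_left Nat.hyperfilter_le_atTop))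
  · rw [tv, norm_smul, End23.dl, Real.norm_of_nonneg (Real.sqrt_nonneg _)]
    exact mul_le_mul_of_nonneg_right (Real.sqrt_le_sqrt (half_le_self (hw n).1.le)) (norm_nonneg _)
  · have : nm (tv (e := lv e c _ _ _) (v n)) = w n / 2 * nm (v n) := by
      simp only [nm, tv, norm_smul, mul_pow, integral_const_mul, Real.norm_eq_abs, sq_abs,
        End23.dl]
      rw [Real.sq_sqrt (half_pos (hw n).1).le]
    rw [this]
    nlinarith [hw n |>.1, hw n |>.2, h1 n]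

omit H in
variable (κ lam ν) in
/-- **ES-CPT** -/
theorem cptStmt : CptStmt κ lam ν where
  mo e M h c hc k ε hε := by
    by_contra! H
    choose w hw S ψ he v hv h1 H using fun n : ℕ => H (1 / (n + 1)) (by positivity)
    obtain ⟨θ, hθ, g, hg, hd, ht⟩ := core h.ok hc hw he v hv h1
    obtain ⟨_ | j, ho⟩ := h.all θ hθ.1
    · obtain ⟨y, hy⟩ := h.irr _
      exact hy (norm_eq_zero.1 ((eqv_norm h.ok (h.crit _).1 ho y).symm.trans (by simp [hθ.2])))
    obtain ⟨u, hu, rfl⟩ := eqv_ex ho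
    obtain ⟨n, hn⟩ := (eventually_all.2 fun i => (ht k i).eventually_le_const hε).exists
    have m := gau_mul e.D.F (hg n) (gau_star e.D.F hu).1
    have q : (act3 (e := lv e c _ _ _) (fun y => g n y * star (u y)) (v n)).a - (M.θ j).a =
        (act3 (e := lv e c _ _ _) (g n) (v n)).a - (act3 u (M.pt (.inr j))).a := by
      funext i y
      simp only [act3, Pi.sub_apply, m.2, (gau_star e.D.F hu).2, Gen.pt, Sum.elim_inr]
      ring
    obtain ⟨i, hi⟩ := H n j _ (eqv_act3 (e := lv e c _ _ _) m.1 (v n)) fun y => by rw [q]; exact hd n y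
    exact hi.not_ge ((congrArg _ (congrFun q i)).trans_le (hn i))
  dead e h c hc := by
    by_contra! H
    choose w hw S ψ he v hv using fun n : ℕ => H (1 / (n + 1)) (by positivity)
    obtain ⟨θ, hθ, -⟩ := core h.1 hc hw he v hv fun n => not_lt.1 fun k =>
      h.2.2.2 _ ((Es42.crit_tv (he n) (hw n).1 (hv n).1 k.le).1.1 (hv n))
    exact h.2.2.2 θ hθ.1

end Crest.Agent.X212.Cpt58
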