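import Crest.Agent.X212.Dfl49.Dfd
import Crest.Agent.X212.Mp86.St

/-!
# Row 212, RFACE: uniqueness of the outer part of a face object; the side `S¹ × D³` (D-UQ)
-/

set_option autoImplicit false
set_option linter.unusedSectionVars false
noncomputable section
open scoped Manifold ContDiff Topology
open Set Function Filter

namespace Crest.Agent.X212.Cyl58.Duq
open An M Nd18 Rf65 Mp86.St
open An.Job (Sol StrOn Str Obc)

section job
variable {Wi : Type} {X : Mf 4} {A κ lam : Type} [Fintype A] [Fintype κ] [Fintype lam]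
  [DecidableEq lam] {M : Mark X A κ} {W : World M} {N : ML M lam} {Λ : Lns W N}
  {A' h : Type} [Fintype A'] [DecidableEq A'] [Fintype h] {r n : ℕ}
  {J : Job Wi Λ A' h r n} {c : M.Cl} {δ : ℝ} {σ : Cel A'} {sh : Set A'} {n₀ : ℤ}
  {Adm : (Wi →₀ ℝ) → Prop} {x : A}

theorem cw {y : J.Obc c} (f : Fc J c σ n₀ y x) : x ∈ cylW c := ⟨f.2.1.ge rfl, f.2.2.1⟩

theorem edP (hx : x ∈ cylW c) : EdP c {hp x true} = {(⟨x, hx⟩, true)} := by
  refine Set.ext fun ⟨⟨a, ha⟩, b⟩ => ⟨?_, ?_⟩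
  · rintro ⟨_, rfl, k⟩
    obtain ⟨rfl, rfl⟩ := hp_some.1 k
    rfl
  · rintro ⟨⟩
    exact ⟨_, rfl, by simp [hp]⟩

theorem stbO {y : J.Obc c} (hx : x ∈ cylW c) :
    stb y {hp x true} = dz (J.xs x).D (y.β x true) := by
  rw [stb]
  exact (congrArg (fun s : Set (Ed c) => ∑ᶠ i ∈ s, dz (J.xs i.1).D (y.β i.1 i.2)) (edP hx)).trans
    finsum_mem_singleton

variable (H : H1 J c δ sh σ Adm n₀)
include H

section one
variable {q : Wi →₀ ℝ} {y : J.Obc c}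

theorem hH (ha : Adm q) (hy : Sol σ q y) (f : Fc J c σ n₀ y x) : y.H = univ ∧ jz y = cylW c :=
  ⟨(hy.H_eq f.2.2.2.1.1).trans (H.num q y x ha hy f).1, sep_eq_self_iff_mem_true.2 f.2.2.2.1.2⟩

/-- a non-central limit has the type of the face -/
theorem zz (hy : Sol σ q y) (f : Fc J c σ n₀ y x) (e : dz (J.xs x).D (y.β x true) = 1) :
    ∀ i ∈ EdP c {hp x true}, i ∈ cz y → i ∈ zw J c := by
  rw [edP (cw f)]
  rintro _ rfl k β hβ
  obtain ⟨b, -, h7, h8⟩ := (wl H).num (cw f)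
  have h9 := (h8 _ (h7 _ (hy.crit _ (cw f) true))).1
  have h10 : dh (J.xs x).D (y.β x true) = 0 := k.resolve_right fun e' =>
    absurd (e.symm.trans e') (by decide)
  rw [h10, e, mul_one] at h9
  exact (h8 β hβ).1.trans (by rw [← h9, zero_mul])

/-- face objects seen by the outer part -/
theorem sE (ha : Adm q) (hy : Sol σ q y) (f : Fc J c σ n₀ y x) (nt : ¬y.TF (hp x false))
    (z : ∀ i ∈ EdP c {hp x true}, i ∈ cz y → i ∈ zw J c) :
    SolE (pO J c sh σ x) (muF J c {hp x true}) σ q y :=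
  solE0 (p := pO J c sh σ x) (wl H) ⟨hy.cell, hy.inf, hy.sol.toAdm, fun z hz => by
      obtain ⟨π, h1, h2⟩ := Cyl58.exists_pc W.toCaps z
      refine Obc.zero (fun t => ?_) h2
      rcases eq_hp (f.2.1 ▸ h1) with rfl | rfl
      exacts [hz (mem_un.2 ⟨_, rfl, h2⟩), nt t],
    fun z _ => hy.sol.D z, fun z _ => hy.sol.C z, hy.sol.S,
    fun i _ => hy.cut i ((hH H ha hy f).1.ge trivial), fun a b ha _ => hy.lim a b ha,
    fun a ha b _ => hy.crit a ha b, hy.int.integrableOn⟩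
    (fun _ (e : _ = _) => .inr (.inl (e ▸ f.2.2.2.2))) (fun i hi => ⟨fun e => zw_cz H hy e, z i hi⟩)
    (hH H ha hy f).2 (bk hy)

theorem pmO {y : J.Obc c} (f : Fc J c σ n₀ y x) : Pm J c δ σ (pO J c sh σ x) :=
  pmF H (singleton_subset_iff.2 (hp_mem f.2.1 true)) univ

theorem dm_eq (ha : Adm q) (hy : Sol σ q y) (f : Fc J c σ n₀ y x)
    (z : ∀ i ∈ EdP c {hp x true}, i ∈ cz y → i ∈ zw J c) :
    dm δ y (pO J c sh σ x) (Fintype.card (UU {hp x true} (zw J c) (cylW c))) =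
      dmy δ y (pO J c sh σ x) :=
  have e : UU {hp x true} (zw J c) (cylW c) ≃ UU {hp x true} (cz y) (jz y) :=
    Equiv.subtypeEquivRight fun u => exists_congr fun i => and_congr_right fun hi => by
      rw [show i ∈ zw J c ↔ i ∈ cz y from ⟨fun e => zw_cz H hy e, z i hi⟩, (hH H ha hy f).2]
  congrArg _ (Fintype.card_congr e)

/-- regularity gives the inequality if the limit has the type of the face -/
theorem ok_of (ha : Adm q) (hy : Sol σ q y) (f : Fc J c σ n₀ y x) (nt : ¬y.TF (hp x false))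
    (z : ∀ i ∈ EdP c {hp x true}, i ∈ cz y → i ∈ zw J c) (ro : RegO J c δ sh σ q y x) :
    Ok δ y (pO J c sh σ x) :=
  let ⟨b, E, x', ψ, g, k⟩ := ro
  (H.sym σ _ _ _ b δ E q y x' ψ {hp x true} (pmO H f).ph H.spl (sE H ha hy f nt z) g.ch g.sm k
    subset_rfl fun _ (e : _ = _) => .inl (e ▸ f.2.2.2.2)).1.trans_eq (dm_eq H ha hy f z)

end one

variable {α : Type} {𝒰 : Ultrafilter α} {q₀ : Wi →₀ ℝ} {q : α → Wi →₀ ℝ} {y y' : α → J.Obc c}
  {y₀ : J.Obc c}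

theorem cz_ev (s : Sol σ q₀ y₀) (d : ∀ᶠ k in (𝒰 : Filter α), Sol σ (q k) (y k)) (l : Str 𝒰 y y₀) :
    ∀ᶠ k in (𝒰 : Filter α), cz (y k) ⊆ cz y₀ :=
  eventually_all.2 fun i => (em (i ∈ cz y₀)).elim (fun e => .of_forall fun _ _ => e) fun e =>
    (Ultrafilter.eventually_not.2 (mt (H.ccl α 𝒰 q y q₀ y₀ d s l i) e)).mono fun _ k t => (k t).elim

theorem son (a : Adm q₀) (s : Sol σ q₀ y₀) (f : Fc J c σ n₀ y₀ x) (l : Str 𝒰 y y₀) :
    StrOn (pO J c sh σ x) 𝒰 y y₀ := by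
  have := l.on (sh := sh) (σ := σ) {hp x true} {hp x true}
  rwa [(hH H a s f).1] at this

/-- **the outer part near a regular face object is unique** -/
theorem out (a : Adm q₀) (s : Sol σ q₀ y₀) (f : Fc J c σ n₀ y₀ x) (nt : ¬y₀.TF (hp x false))
    (ok : Ok δ y₀ (pO J c sh σ x)) (ro : RegO J c δ sh σ q₀ y₀ x) (cv : St.Cv (𝒰 : Filter α) q q₀)
    (d : ∀ᶠ k in (𝒰 : Filter α), Adm (q k) ∧ (Sol σ (q k) (y k) ∧ FA J c σ n₀ (y k) x) ∧
      Sol σ (q k) (y' k) ∧ FA J c σ n₀ (y' k) x) (l : Str 𝒰 y y₀) (l' : Str 𝒰 y' y₀) :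
    ∀ᶠ k in (𝒰 : Filter α), EqP (pO J c sh σ x) (y k) (y' k) := by
  obtain ⟨b, E, x', ψ, g, k⟩ := ro
  have t := (H.num q₀ y₀ x a s f).2.2 nt ok
  have z := zz H s f t.1
  refine (H.sym σ _ _ _ b δ E q₀ y₀ x' ψ {hp x true} (pmO H f).ph H.spl (sE H a s f nt z) g.ch g.sm k
    subset_rfl fun _ (e : _ = _) => .inl (e ▸ f.2.2.2.2)).2 g.nr ?_ α 𝒰 q y y' cv ?_
    (son H a s f l) (son H a s f l')
  · rw [dm_eq H a s f z, t.2.1, stbO (cw f), t.1, min_eq_right (Nat.one_le_iff_ne_zero.2 H.r0)]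
    rfl
  · filter_upwards [d, cz_ev H s (d.mono fun _ k => k.2.1.1) l, cz_ev H s (d.mono fun _ k => k.2.2.1) l']
      with k a1 a2 a3
    exact ⟨sE H a1.1 a1.2.1.1 a1.2.1.2.1 a1.2.1.2.2.1 fun i hi e => z i hi (a2 e),
      sE H a1.1 a1.2.2.1 a1.2.2.2.1 a1.2.2.2.2.1 fun i hi e => z i hi (a3 e)⟩

end job

section scene
open G75 Dfl49
variable {κ lam : Type} [Fintype κ] [Fintype lam] [DecidableEq lam] {Lm : LM κ lam}
  {S : Scene Lm} {D : S.Dat} {i : S.L} {Wi : Type} {r n : ℕ}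
  {J : Job Wi (D.Λ i) (S.A ⊕ Unit) S.ls r n} {c : S.M.Cl} {R : S.A} {j : ℕ} {n₀ : ℤ} {T ε δ : ℝ}
  {Adm : (Wi →₀ ℝ) → Prop} {σ : Cel (S.A ⊕ Unit)} {q : Wi →₀ ℝ} {y : J.Obc c}

theorem fs (G : HD J c R j n₀ T) (he : EpsAt J ε Adm) (hσ : σ ∈ J.𝒦) (ha : Adm q) (hy : Sol σ q y)
    (f : FA J c σ n₀ y R) (k : y.kap (D.W.pc c (hp R false)) = 0) : FS J c R σ q y :=
  ⟨hy, f.1.2.2.2.1, f.2.1, (he σ hσ c q y _ ha hy (hp_mem G.c1 false) f.2.1
    fun a _ => G.jr.gx.nil a nofun).2.2 k⟩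

theorem kap_int (G : HD J c R j n₀ T) (H : H1R J c δ σ Adm R ∅ 0 0 n₀) (ha : Adm q)
    (hy : Sol σ q y) : ∃ m : ℤ, y.kap (D.W.pc c (hp R false)) = m := by
  obtain ⟨m, k⟩ := (H.inn q y ha hy _ (hp_mem G.c1 false) fun _ hz => hz R false (by simp [hp])).2.2
  exact ⟨m, by simpa [zc] using k⟩

theorem kap_ev (G : HD J c R j n₀ T) (H : H1R J c δ σ Adm R ∅ 0 0 n₀) {α : Type} {l : Filter α}
    {q : α → Wi →₀ ℝ} {y : α → J.Obc c} {y₀ : J.Obc c}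
    (d : ∀ᶠ k in l, Adm (q k) ∧ Sol σ (q k) (y k)) (s : Str l y y₀)
    (e : y₀.kap (D.W.pc c (hp R false)) = 0) : ∀ᶠ k in l, (y k).kap (D.W.pc c (hp R false)) = 0 := by
  have t := s.kap _ (hp_mem G.c1 false)
  rw [e] at t
  filter_upwards [d, t (Ioo_mem_nhds neg_one_lt_zero zero_lt_one)] with k a b
  obtain ⟨m, hm⟩ := kap_int G H a.1 a.2
  have b1 : (-1 : ℝ) < m := hm ▸ b.1
  have b2 : (m : ℝ) < 1 := hm ▸ b.2
  have : m = 0 := by
    have : (-1 : ℤ) < m := by exact_mod_cast b1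
    have : m < 1 := by exact_mod_cast b2
    omega
  rw [hm, this, Int.cast_zero]

variable (Lm) in
/-- **LEAF D-UQ** with the inequality outside -/
def DuqStmt : Prop := AllD Lm fun {S} _ _ _ _ _ J c R n₀ => InjD J c R →
  ∀ ε Adm δ σ, EpsAt J ε Adm → H1R J c δ σ Adm R ∅ 0 0 n₀ →
    UqL J c δ (shX S {R}) σ Adm n₀ (fun _ y => Ok δ y (pO J c (shX S {R}) σ R)) ∧
      ∀ q y x, Adm q → Sol σ q y → FA J c σ n₀ y x → Ok δ y (pO J c (shX S {R}) σ R) →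
        x = R ∧ FS J c R σ q y

variable (Lm) in
theorem duq : DuqStmt Lm := fun S D i Wi r n J c R j n₀ T G inj ε Adm δ σ he H => by
  have ex : ∀ {y : J.Obc c} {x}, FA J c σ n₀ y x → x = R := fun f =>
    singleton_injective (f.1.2.1.symm.trans G.c1)
  have k0 : ∀ {q y}, Adm q → Sol σ q y → FA J c σ n₀ y R → Ok δ y (pO J c (shX S {R}) σ R) →
      y.kap (D.W.pc c (hp R false)) = 0 := fun a s f o => by
    simpa using (H.qr _ _ _ a s f.1 f.2.1 o).2.1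
  refine ⟨fun q₀ y₀ x a s f ro _ o α 𝒰 q y y' cv d l l' => ?_, fun q y x a s f o => ?_⟩
  · obtain rfl := ex f
    filter_upwards [d, out H.toH1 a s f.1 f.2.1 o ro cv d l l',
      kap_ev G H (d.mono fun _ k => ⟨k.1, k.2.1.1⟩) l (k0 a s f o),
      kap_ev G H (d.mono fun _ k => ⟨k.1, k.2.2.1⟩) l' (k0 a s f o)] with k a1 a2 a3 a4
    exact inj σ H.mem _ _ _ (fs G he H.mem a1.1 a1.2.1.1 a1.2.1.2 a3)
      (fs G he H.mem a1.1 a1.2.2.1 a1.2.2.2 a4) a2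
  · obtain rfl := ex f
    exact ⟨rfl, fs G he H.mem a s f (k0 a s f o)⟩

end scene
end Crest.Agent.X212.Cyl58.Duq
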