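import Crest.Agent.X212.Gl67.Brg
import Crest.Agent.X212.End3.Pt
import Crest.Agent.X212.Bki64.Cls

/-!
# Row 212, DG-FIN (helper58), part 1: a configuration which is close in a gauge is a small point
-/

set_option autoImplicit false
set_option linter.unusedSectionVars false
noncomputable section
open scoped Manifold ContDiff Topology InnerProductSpace ENNReal NNReal
open MeasureTheory Set Function Filter Real

namespace Crest.Agent.X212.Fin58
open An Sob92 Prm93 Mod61 Pj41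
open Map77 (Cf fa fp i1 i2 P2 f2 s2)
open Gl67 (Sid Cm PP g0 ka)
open Wz78 (idx_apply)

/-- the diagonal choice -/
theorem diag {α : Type} {l : Filter α} {γ : α → Type} [∀ i, Nonempty (γ i)]
    {P : ∀ i, γ i → ℝ → Prop} {ν : α → ℝ} (hν : Tendsto ν l (𝓝 0)) (h0 : ∀ᶠ i in l, 0 < ν i)
    (h : ∀ ε > 0, ∀ᶠ i in l, ∃ D, P i D ε) : ∃ (D : ∀ i, γ i) (e : α → ℝ),
      Tendsto e l (𝓝 0) ∧ ∀ᶠ i in l, 0 < e i ∧ P i (D i) (e i) := by
  let S : α → Set ℝ := fun i => {ε | 0 < ε ∧ ∃ D, P i D ε}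
  have k : ∀ i, ∃ (D : γ i) (e : ℝ), (S i).Nonempty → 0 < ν i →
      0 < e ∧ P i D e ∧ e < sInf (S i) + ν i := fun i => by
    by_cases h1 : (S i).Nonempty ∧ 0 < ν i
    · obtain ⟨e, ⟨h2, D, h3⟩, h4⟩ := Real.lt_sInf_add_pos h1.1 h1.2
      exact ⟨D, e, fun _ _ => ⟨h2, h3, h4⟩⟩
    · exact ⟨Classical.arbitrary _, 0, fun a b => (h1 ⟨a, b⟩).elim⟩
  choose D e k using k
  have k1 : ∀ᶠ i in l, 0 < e i ∧ P i (D i) (e i) ∧ e i < sInf (S i) + ν i :=
    ((h 1 one_pos).and h0).mono fun i hi => k i ⟨1, one_pos, hi.1⟩ hi.2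
  refine ⟨D, e, tendsto_order.2 ⟨fun a ha => k1.mono fun i hi => ha.trans hi.1, fun a ha => ?_⟩,
    k1.mono fun i hi => ⟨hi.1, hi.2.1⟩⟩
  filter_upwards [k1, h (a / 2) (half_pos ha), hν.eventually_lt_const (half_pos ha)] with i h1 h2 h3
  have : sInf (S i) ≤ a / 2 := csInf_le ⟨0, fun _ h => h.1.le⟩ ⟨half_pos ha, h2⟩
  linarith [h1.2.2]

variable {E : Type} [NormedAddCommGroup E] [NormedSpace ℝ E] [FiniteDimensional ℝ E]
  [MeasurableSpace E] [BorelSpace E]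
  {HM : Type} [TopologicalSpace HM] {I : ModelWithCorners ℝ E HM} [I.Boundaryless]
  {M : Type} [TopologicalSpace M] [ChartedSpace HM M] [IsManifold I ∞ M]
  [MeasurableSpace M] [T2Space M] [BorelSpace M] [SecondCountableTopology M]
  {ι lam h : Type} [Fintype ι] [Fintype lam] [Fintype h]

open Classical in
/-- the inclusion of a component -/
def sg {V : Type} [NormedAddCommGroup V] [InnerProductSpace ℝ V] (a : ι) : CL V (Fm ι V) :=
  (PiLp.continuousLinearEquiv 2 ℝ fun _ : ι => V).symm.toContinuousLinearMap ∘L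
    ContinuousLinearMap.single ℝ (fun _ : ι => V) a

theorem sum_sg {V : Type} [NormedAddCommGroup V] [InnerProductSpace ℝ V] (v : Fm ι V) :
    ∑ a, sg a (v a) = v := by
  classical
  ext1 b
  simp [sg, Pi.single_apply]

/-! ### bounds in families of frames -/

section fam
variable {V V' V'' : Type} [NormedAddCommGroup V] [NormedSpace ℝ V] [NormedAddCommGroup V']
  [NormedSpace ℝ V'] [NormedAddCommGroup V''] [NormedSpace ℝ V''] {α : Type}

/-- bounded in `C^k` -/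
def BC (l : Filter α) (F : α → Pre I M ι) (k : ℕ) (f : α → M → V) : Prop :=
  ∃ C, ∀ᶠ i in l, Sm I (f i) ∧ (F i).CB k (f i) C

/-- tends to zero in `C^k` -/
def ZC (l : Filter α) (F : α → Pre I M ι) (k : ℕ) (f : α → M → V) : Prop :=
  ∀ η > 0, ∀ᶠ i in l, Sm I (f i) ∧ (F i).CB k (f i) η

variable {l : Filter α} {F : α → Pre I M ι} {k : ℕ} {f f' : α → M → V} {g : α → M → V'}

theorem BC.const (c : V) : BC l F k fun _ _ => c :=
  ⟨_, .of_forall fun _ => ⟨contMDiff_const, CB_const k c⟩⟩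

theorem BC.bil (β : V →L[ℝ] V' →L[ℝ] V'') (a : BC l F k f) (b : BC l F k g) :
    BC l F k fun i x => β (f i x) (g i x) :=
  let ⟨_, a⟩ := a; let ⟨_, b⟩ := b
  ⟨_, (a.and b).mono fun _ k => ⟨(β.contMDiff.comp k.1.1).clm_apply k.2.1,
    CB_bil β k.1.1 k.2.1 k.1.2 k.2.2⟩⟩

theorem ZC.congr (a : ZC l F k f) (e : ∀ᶠ i in l, f' i = f i) : ZC l F k f' :=
  fun η hη => ((a η hη).and e).mono fun _ k => k.2 ▸ k.1

theorem ZC.of {e : α → ℝ} (he : Tendsto e l (𝓝 0))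
    (a : ∀ᶠ i in l, Sm I (f i) ∧ (F i).CB k (f i) (e i)) : ZC l F k f :=
  fun _ hη => (a.and (he.eventually_le_const hη)).mono fun _ k => ⟨k.1.1, CB_mono k.1.2 k.2⟩

theorem ZC.consts {c : α → V} (hc : Tendsto (fun i => ‖c i‖) l (𝓝 0)) : ZC l F k fun i _ => c i :=
  .of hc (.of_forall fun _ => ⟨contMDiff_const, CB_const k _⟩)

theorem ZC.add (a : ZC l F k f) (b : ZC l F k f') : ZC l F k fun i x => f i x + f' i x :=
  fun η hη => ((a _ (half_pos hη)).and (b _ (half_pos hη))).mono fun _ k =>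
    ⟨k.1.1.add k.2.1, add_halves η ▸ CB_add k.1.1 k.2.1 k.1.2 k.2.2⟩

theorem ZC.bil (β : V →L[ℝ] V' →L[ℝ] V'') (a : ZC l F k f) (b : BC l F k g) :
    ZC l F k fun i x => β (f i x) (g i x) := fun η hη => by
  obtain ⟨C, b⟩ := b
  have c0 : 0 < 2 ^ (k + 1) * ‖β‖ * |C| + 1 := by positivity
  refine ((a _ (div_pos hη c0)).and b).mono fun i k => ⟨(β.contMDiff.comp k.1.1).clm_apply k.2.1,
    CB_mono (CB_bil β k.1.1 k.2.1 k.1.2 k.2.2) ?_⟩
  rw [abs_of_pos (div_pos hη c0), mul_right_comm, mul_div_assoc', div_le_iff₀ c0]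
  nlinarith

theorem BC.bilZ (β : V →L[ℝ] V' →L[ℝ] V'') (a : BC l F k f) (b : ZC l F k g) :
    ZC l F k fun i x => β (f i x) (g i x) := b.bil β.flip a

theorem ZC.clm (L : V →L[ℝ] V') (a : ZC l F k f) : ZC l F k fun i x => L (f i x) :=
  (BC.const L).bilZ (.id ℝ _) a

theorem ZC.neg (a : ZC l F k f) : ZC l F k fun i x => -f i x := a.clm (-.id ℝ V)

theorem ZC.sum {K : Type} [Fintype K] {f : K → α → M → V} (a : ∀ j, ZC l F k (f j)) :
    ZC l F k fun i x => ∑ j, f j i x := by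
  classical
  have : ∀ s : Finset K, ZC l F k fun i x => ∑ j ∈ s, f j i x := fun s => by
    induction s using Finset.induction_on with
    | empty => exact ZC.consts (c := fun _ => (0 : V)) (by simpa using tendsto_const_nhds)
    | insert j s hj ih => simpa only [Finset.sum_insert hj] using (a j).add ih
  exact this _

theorem ZC.smul {r : α → M → ℝ} (a : ZC l F k r) (b : BC l F k f) :
    ZC l F k fun i x => r i x • f i x := a.bil (.lsmul ℝ ℝ) b

theorem BC.smulZ {r : α → M → ℝ} (a : BC l F k r) (b : ZC l F k f) :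
    ZC l F k fun i x => r i x • f i x := a.bilZ (.lsmul ℝ ℝ) b

theorem BC.mul {κ : Type} [Fintype κ] {f g : α → M → En κ} (a : BC l F k f) (b : BC l F k g) :
    BC l F k fun i x => f i x * g i x := a.bil (.mul ℝ _) b

theorem ZC.mul {κ : Type} [Fintype κ] {f g : α → M → En κ} (a : ZC l F k f) (b : BC l F k g) :
    ZC l F k fun i x => f i x * g i x := a.bil (.mul ℝ _) b

/-- pointwise bounds -/
def PB (F : Pre I M ι) (k : ℕ) (f : M → V) (x : M) (b : ℝ) : Prop :=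
  ∀ w : List ι, w.length ≤ k → ‖F.Dw w f x‖ ≤ b

theorem J_le {F : Pre I M ι} {x : M} {b : ℝ} : ∀ (k : ℕ) {u : M → V}, PB F k u x b →
    Gl67.J F k u x ≤ (Fintype.card ι + 1) ^ k * b ^ 2
  | 0, _, h => (pow_le_pow_left₀ (norm_nonneg _) (h [] le_rfl) 2).trans_eq (by simp)
  | k + 1, u, h => by
    have h1 := Finset.sum_le_card_nsmul Finset.univ _ _ fun a _ =>
      J_le k (u := F.D a u) fun w hw => h (a :: w) (Nat.succ_le_succ hw)
    have h2 : ‖u x‖ ^ 2 ≤ b ^ 2 := pow_le_pow_left₀ (norm_nonneg _) (h [] (Nat.zero_le _)) 2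
    have h3 : b ^ 2 ≤ (Fintype.card ι + 1) ^ k * b ^ 2 := le_mul_of_one_le_left (sq_nonneg b)
      (one_le_pow₀ (by linarith [Nat.cast_nonneg (α := ℝ) (Fintype.card ι)]))
    rw [nsmul_eq_mul, Finset.card_univ] at h1
    rw [Gl67.J, pow_succ (_ + 1 : ℝ)]
    linarith

theorem PB.clm {F : Pre I M ι} {x : M} {a : ℝ} {u : M → V} (L : V →L[ℝ] V') (hu : Sm I u)
    (h : PB F k u x a) : PB F k (fun y => L (u y)) x (‖L‖ * a) := fun w hw => by
  rw [Dw_clm L w hu]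
  exact L.le_opNorm_of_le (h w hw)

section prod
variable {Y Z : Type} [NormedAddCommGroup Y] [InnerProductSpace ℝ Y] [NormedAddCommGroup Z]
  [InnerProductSpace ℝ Z]

theorem ZC.pi {f : α → M → Fm ι Y} (a : ∀ j, ZC l F k fun i x => f i x j) : ZC l F k f :=
  (ZC.sum fun j => (a j).clm (sg j)).congr (.of_forall fun _ => funext fun _ => (sum_sg _).symm)

theorem ZC.p2 {f : α → M → P2 Y Z} (a : ZC l F k fun i x => f2 Y Z (f i x))
    (b : ZC l F k fun i x => s2 Y Z (f i x)) : ZC l F k f :=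
  ((a.clm (i1 Y Z)).add (b.clm (i2 Y Z))).congr
    (.of_forall fun _ => funext fun _ => (Map77.i1_add_i2 _).symm)

theorem PB.pi {F : Pre I M ι} {x : M} {a : ℝ} {u : M → Fm ι Y} (hu : Sm I u)
    (h : ∀ j, PB F k (fun y => u y j) x a) : PB F k u x ((∑ j : ι, ‖(sg j : CL Y _)‖) * a) :=
  fun w hw => by
    rw [← sum_sg (F.Dw w u x), Finset.sum_mul]
    refine norm_sum_le_of_le _ fun j _ => (sg j).le_opNorm_of_le ?_
    exact (congrArg norm (congrFun (Dw_clm (PiLp.proj 2 (fun _ : ι => Y) j) w hu) x)).ge.trans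
      (h j w hw)

theorem PB.p2 {F : Pre I M ι} {x : M} {a b : ℝ} {u : M → P2 Y Z} (hu : Sm I u)
    (h : PB F k (fun y => f2 Y Z (u y)) x a) (h' : PB F k (fun y => s2 Y Z (u y)) x b) :
    PB F k u x (‖i1 Y Z‖ * a + ‖i2 Y Z‖ * b) := fun w hw => by
  rw [← Map77.i1_add_i2 (F.Dw w u x)]
  exact norm_add_le_of_le ((i1 Y Z).le_opNorm_of_le
    ((congrArg norm (congrFun (Dw_clm (f2 Y Z) w hu) x)).ge.trans (h w hw)))
    ((i2 Y Z).le_opNorm_of_le
      ((congrArg norm (congrFun (Dw_clm (s2 Y Z) w hu) x)).ge.trans (h' w hw)))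

end prod

/-- weighted norms from pointwise bounds -/
theorem N_small {ht : α → M → ℝ} {δ e K : ℝ} {ε : α → ℝ} {Vo : ℝ≥0} (hδ : 0 ≤ δ)
    (hε : Tendsto ε l (𝓝 0)) (z : ZC l F k f)
    (hv : ∀ᶠ i in l, (∀ x, 0 ≤ ht i x) ∧
      ∫⁻ x, ENNReal.ofReal (exp (-(2 * (e - δ)) * ht i x)) ∂(F i).μ ≤ Vo ∧
      ∀ x, 0 < ht i x → PB (F i) k (f i) x (K * (ε i * exp (-e * ht i x)))) :
    Tendsto (fun i => Gl67.N (F i) (fun x => g0 δ (ht i x)) univ k (f i)) l (𝓝 0) := by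
  set c : ℝ := (Fintype.card ι + 1) ^ k
  have c0 : 0 ≤ c := by positivity
  have t : Tendsto (fun η : ℝ => ENNReal.ofReal (c * η ^ 2) * Vo) (𝓝[>] 0) (𝓝 0) := by
    have : Tendsto (fun η : ℝ => c * η ^ 2) (𝓝[>] 0) (𝓝 (c * 0 ^ 2)) :=
      (Continuous.tendsto (by fun_prop) 0).mono_left nhdsWithin_le_nhds
    simpa using ENNReal.Tendsto.mul_const (ENNReal.tendsto_ofReal this) (.inr ENNReal.coe_ne_top)
  refine ENNReal.tendsto_nhds_zero.2 fun a ha => ?_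
  obtain ⟨η, h1, h2⟩ := ((ENNReal.tendsto_nhds_zero.1 t a ha).and self_mem_nhdsWithin).exists
  have hK : Tendsto (fun i => K * ε i) l (𝓝 0) := by simpa using hε.const_mul K
  filter_upwards [z η h2, hv, hK.eventually_le_const h2] with i z hv hK
  refine le_trans ?_ ((mul_le_mul_right hv.2.1 _).trans h1)
  rw [Gl67.N, Measure.restrict_univ, ← lintegral_const_mul' _ _ ENNReal.ofReal_ne_top]
  refine lintegral_mono fun x => ?_
  rw [← ENNReal.ofReal_mul (by positivity)]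
  refine ENNReal.ofReal_le_ofReal ?_
  have p : PB (F i) k (f i) x (η * exp (-e * ht i x)) := fun w hw => by
    rcases (hv.1 x).eq_or_lt with k | k
    · simpa [← k] using z.2 w hw x
    · refine (hv.2.2 x k w hw).trans ?_
      rw [← mul_assoc]
      exact mul_le_mul_of_nonneg_right hK (exp_pos _).le
  have q : g0 δ (ht i x) ≤ δ * ht i x := by
    rw [Gl67.g0_eq]
    refine mul_le_mul_of_nonneg_left ?_ hδ
    simpa [Gl67.ka_zero le_rfl] using Gl67.ka_lip (hv.1 x)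
  calc _ ≤ exp (2 * (δ * ht i x)) * (c * (η * exp (-e * ht i x)) ^ 2) :=
      mul_le_mul (exp_le_exp.2 (by linarith)) (J_le k p) (Gl67.J_nonneg _ _) (exp_pos _).le
    _ = c * η ^ 2 * (exp (2 * (δ * ht i x)) * exp (-e * ht i x) * exp (-e * ht i x)) := by ring
    _ = _ := by rw [← exp_add, ← exp_add]; ring_nf

end fam

variable {T U Up R : Type} [NormedAddCommGroup T] [NormedSpace ℝ T] [NormedAddCommGroup U]
  [NormedSpace ℝ U] [NormedAddCommGroup Up] [NormedSpace ℝ Up] [NormedAddCommGroup R]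
  [NormedSpace ℝ R] {N r : ℕ} {Jc : En (Fin N)}

section one
variable {𝔉 : Fam I M ι lam T} (s : Sid 𝔉 N Jc U Up R)

variable (t : T) (c : Cfg M ι lam r) (g : M → CL c.m.V (Eu (Fin N))) (u : U) (θ : Circle)

/-- the distance of the connections -/
def xA (a : ι) (x : M) : En (Fin N) :=
  ((𝔉.G t).F.D a g x + (s.A0 a x + opL (s.b x u a)) ∘L g x - g x ∘L c.W a x) ∘L trn (g x)

/-- the distance of the spinors -/
def xP (x : M) : Eu (Fin N) := cs Jc θ (g x (c.Φ x)) - s.Φ0 x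

/-- the difference of the connections -/
def eta (x : M) : Fm ι (HS (Fin N)) := WithLp.toLp 2 fun a =>
  hsL (-((𝔉.G t).F.D a g x + 𝔉.W0 s.md s.A0 t a x ∘L g x - g x ∘L c.W a x) ∘L trn (g x))

/-- the point -/
def wv (x : M) : Cf ι (Fin N) := i1 _ _ (idx (𝔉.Si t x) (.id ℝ _) (eta s t c g x) - s.b x u) +
  i2 _ _ (xP s c g θ x)

theorem fa_wv (x : M) (a : ι) : fa (wv s t c g u θ x) a =
    ∑ b, 𝔉.Si t x a b • eta s t c g x b - s.b x u a := by
  simp [wv]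

theorem fp_wv (x : M) : fp (wv s t c g u θ x) = xP s c g θ x := by simp [wv]

variable {s t c g} (H : s.OK) (ht : t ∈ 𝔉.Q) (hc : Eqv71.Ad0 c 𝔉.B (𝔉.G t))
  (hg : Iso0 I c.m s.md univ g)
include H

theorem b_mem (x : M) (a : ι) : s.b x u a ∈ s.md.gS x := by
  rw [← H.pb x u, Md.p1, idx_apply]
  exact Submodule.sum_mem _ fun b _ => Submodule.smul_mem _ _ (Wz78.pg_mem x _)

theorem b_proj (x : M) (a : ι) : ∑ b, 𝔉.B.P a b x • s.b x u b = s.b x u a := by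
  conv_rhs => rw [← H.pb x u, Md.p1, idx_apply]
  simp only [Wz78.pg_of_mem (b_mem u H x _)]

include ht hc hg

theorem eta_g (x : M) : (∀ a, eta s t c g x a ∈ s.md.gS x) ∧
    (∀ a, ∑ b, 𝔉.B.P a b x • eta s t c g x b = eta s t c g x a) ∧
    ∀ a, (𝔉.G t).F.D a g x + (𝔉.W0 s.md s.A0 t a x + opL (eta s t c g x a)) ∘L g x -
      g x ∘L c.W a x = 0 :=
  End3.cov_g (H.fam.G t ht).P isOpen_univ (OK.on hc.ok _) (OK.on H.ok _) hg (IsConn.on hc.conn _)
    (IsConn.on (H.fam.conn _ _ H.ok H.conn t ht) _) (mem_univ x) (η := fun a => eta s t c g x a)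
    fun _ => rfl

theorem wv_pC (x : M) : s.bd.pC x (wv s t c g u θ x) = wv s t c g u θ x := by
  have k := eta_g H ht hc hg x
  refine Map77.ext2 ((Map77.f2_ps x _).trans ?_) ((Map77.s2_ps x _).trans ?_)
  · refine idx_of (o := s.o H) (H.om.1 ▸ mem_univ x) (fun a => ?_) fun a => ?_
    · rw [fa_wv]
      exact sub_mem (Submodule.sum_mem _ fun b _ => Submodule.smul_mem _ _ (k.1 b)) (b_mem u H x a)
    · simp only [fa_wv, smul_sub, Finset.sum_sub_distrib, b_proj u H, Finset.smul_sum, smul_smul]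
      rw [Finset.sum_comm]
      simp only [← Finset.sum_smul, H.fam.PSi t ht]
  · show 𝔉.Om'.indicator (s.md.pp 𝔉.B) x (fp _) = fp _
    rw [H.om.2, indicator_univ, fp_wv, xP, map_sub, H.pos, End3.pp_cs H.ok, hg.pp (mem_univ x), hc.pos]

/-- the configuration is isomorphic to the point -/
theorem ceq (c0 : Cm N r h R) (ψ : h → L2c (Fin N)) :
    CEq (𝔉.G t).F c (s.cfg c0 (wv s t c g u θ) (t, u, ((θ : ℂ) ^ 2) • c.z - c0.z0, ψ)) univ id
      (fun x b a => 𝔉.B.P b a x) 𝔉.B.l g θ := by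
  refine ⟨hg.mEq (OK.on hc.ok _) (OK.on H.ok _), fun x _ a => ?_, fun x _ => ?_, add_sub_cancel _ _⟩
  · have k := eta_g H ht hc hg x
    have e : ∀ a, (s.cfg c0 (wv s t c g u θ) (t, u, ((θ : ℂ) ^ 2) • c.z - c0.z0, ψ)).W a x =
        𝔉.W0 s.md s.A0 t a x + opL (eta s t c g x a) := fun a => by
      show _ + opL (idx (𝔉.S t x) (.id ℝ _) (fa (wv s t c g u θ x) + s.b x u) a) = _
      rw [← k.2.1 a]
      simp only [idx_apply, PiLp.add_apply, fa_wv, sub_add_cancel, ContinuousLinearMap.id_apply,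
        Finset.smul_sum, smul_smul]
      rw [Finset.sum_comm]
      simp only [← Finset.sum_smul, H.fam.SSi t ht]
    have e' : ∑ b, 𝔉.B.P a b x • (𝔉.W0 s.md s.A0 t b x + opL (eta s t c g x b)) =
        𝔉.W0 s.md s.A0 t a x + opL (eta s t c g x a) := by
      simp only [smul_add, Finset.sum_add_distrib, ← map_smul, ← map_sum, k.2.1,
        (H.fam.conn _ _ H.ok H.conn t ht).cc.proj a x]
    simp only [id, e, fun b => (H.fam.B.pr x).symm b a]
    exact e' ▸ k.2.2 a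
  · show s.Φ0 x + fp (wv s t c g u θ x) = _
    rw [fp_wv, xP, add_sub_cancel]; rfl

omit ht hc in
theorem eta_eq (x : M) (a : ι) : eta s t c g x a =
    -hsL (xA s t c g u a x) +
      hsL ((s.A0 a x - 𝔉.W0 s.md s.A0 t a x) * s.p x) + s.b x u a := by
  have e : g x ∘L trn (g x) = s.p x := by rw [← ad_trn]; exact (hg.iso x trivial).tgt
  have e' : opL (s.b x u a) * s.p x = opL (s.b x u a) := (Wz78.g_p' H.ok (b_mem u H x a) :)
  rw [← Wz78.hsL_opL (s.b x u a), ← e', ← map_neg, ← map_add, ← map_add, ← e]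
  refine congrArg hsL (ContinuousLinearMap.ext fun v => ?_)
  simp only [xA, ContinuousLinearMap.comp_apply, neg_apply,
    add_apply, sub_apply, mul_apply_eq_comp]
  abel

omit ht hc hg in
theorem A_sub (x : M) (a : ι) : s.A0 a x - 𝔉.W0 s.md s.A0 t a x =
    -(∑ b, (𝔉.S t x a b - 𝔉.B.P a b x) • s.A0 b x +
      ∑ b, ∑ k, 𝔉.cf t x a b k • (s.ρ b x * s.ρ k x) + 𝔉.la t x a • (Jc * s.p x)) := by
  simp only [Fam.W0, sub_smul, Finset.sum_sub_distrib, H.conn.cc.proj a x]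
  abel

omit hc hg in
theorem Si_sub (x : M) (a b : ι) : 𝔉.Si t x a b - 𝔉.B.P a b x =
    -∑ k, 𝔉.Si t x a k • (𝔉.S t x k b - 𝔉.B.P k b x) := by
  simp only [smul_eq_mul, mul_sub, Finset.sum_sub_distrib, H.fam.SiS t ht, H.fam.SiP t ht, neg_sub]

/-- on the neck -/
theorem wv_nk {x : M} (e : ∀ a, (∀ b, 𝔉.S t x a b = 𝔉.B.P a b x) ∧
    (∀ b k, 𝔉.cf t x a b k = 0) ∧ 𝔉.la t x a = 0) (a : ι) :
    fa (wv s t c g u θ x) a = (-hsL : CL (En (Fin N)) _) (xA s t c g u a x) := by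
  have e1 : ∀ b, 𝔉.Si t x a b = 𝔉.B.P a b x := fun b => by
    rw [← sub_eq_zero, Si_sub H ht]; simp [(e _).1]
  simp only [fa_wv, e1, (eta_g H ht hc hg x).2.1]
  rw [eta_eq u H hg, A_sub H]
  simp [(e _).1, (e _).2.1, (e _).2.2]

omit ht in
theorem sm_xA (a : ι) : Sm I (xA s t c g u a) :=
  fun x => Bki64.fsm_dA (c' := (⟨s.md, fun i x => s.A0 i x + opL (s.b x u i), 0, c.z⟩ : Cfg _ _ _ _))
    (hg.su x trivial) (hc.conn.cc.sm a x) (((Cb.sm (H.cA a)).add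
    ((opL ∘L PiLp.proj 2 (fun _ : ι => HS (Fin N)) a).contMDiff.comp
      ((Cb.sm H.cb).clm_apply contMDiff_const))) x)

omit ht in
theorem sm_xP : Sm I (xP s c g θ) :=
  ((Bki64.csB Jc θ).contMDiff.comp (ContMDiff.clm_apply (fun x => hg.su x trivial) hc.sm)).sub
    (Cb.sm H.cΦ)

end one

/-- **the points are small** -/
theorem small {α : Type} {l : Filter α} {𝔉 : α → Fam I M ι lam T}
    {s : ∀ i, Sid (𝔉 i) N Jc U Up R} {t : α → T} {c : α → Cfg M ι lam r}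
    {g : ∀ i, M → CL (c i).m.V (Eu (Fin N))} {u : α → U} {θ : α → Circle}
    {δ e : ℝ} {ε : α → ℝ} {Vo : ℝ≥0} {k : ℕ} (hδ : 0 ≤ δ)
    (he : 0 ≤ e) (hε : Tendsto ε l (𝓝 0))
    (H : ∀ᶠ i in l, (s i).OK ∧ t i ∈ (𝔉 i).Q ∧ Eqv71.Ad0 (c i) (𝔉 i).B ((𝔉 i).G (t i)) ∧
      Iso0 I (c i).m (s i).md univ (g i) ∧ ‖u i‖ ≤ ε i ∧
      (∀ a x, PB (𝔉 i).F0.toPre k (xA (s i) (t i) (c i) (g i) (u i) a) x
        (ε i * exp (-e * (s i).ht x))) ∧
      (∀ x, PB (𝔉 i).F0.toPre k (xP (s i) (c i) (g i) (θ i)) x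
        (ε i * exp (-e * (s i).ht x))) ∧
      ∫⁻ x, ENNReal.ofReal (exp (-(2 * (e - δ)) * (s i).ht x)) ∂(𝔉 i).F0.μ ≤ Vo ∧
      ∀ x, 0 < (s i).ht x → ∀ a, (∀ b, (𝔉 i).S (t i) x a b = (𝔉 i).B.P a b x) ∧
        (∀ b j, (𝔉 i).cf (t i) x a b j = 0) ∧ (𝔉 i).la (t i) x a = 0)
    (bp : BC l (fun i => (𝔉 i).F0.toPre) k fun i => (s i).p)
    (bρ : ∀ a, BC l (fun i => (𝔉 i).F0.toPre) k fun i => (s i).ρ a)
    (bA : ∀ a, BC l (fun i => (𝔉 i).F0.toPre) k fun i => (s i).A0 a)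
    (bb : BC l (fun i => (𝔉 i).F0.toPre) k fun i => (s i).b)
    (bS : ∀ a b, BC l (fun i => (𝔉 i).F0.toPre) k fun i x => (𝔉 i).Si (t i) x a b)
    (zS : ∀ a b, ZC l (fun i => (𝔉 i).F0.toPre) k fun i x => (𝔉 i).S (t i) x a b - (𝔉 i).B.P a b x)
    (zc : ∀ a b j, ZC l (fun i => (𝔉 i).F0.toPre) k fun i x => (𝔉 i).cf (t i) x a b j)
    (zl : ∀ a, ZC l (fun i => (𝔉 i).F0.toPre) k fun i x => (𝔉 i).la (t i) x a) :
    (∀ᶠ i in l, Sm I (wv (s i) (t i) (c i) (g i) (u i) (θ i))) ∧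
    Tendsto (fun i => Gl67.N (𝔉 i).F0.toPre (fun x => g0 δ ((s i).ht x)) univ k
      (wv (s i) (t i) (c i) (g i) (u i) (θ i))) l (𝓝 0) := by
  have e1 : ∀ {i}, (s i).OK → ‖u i‖ ≤ ε i → ∀ x, ε i * exp (-e * (s i).ht x) ≤ ε i :=
    fun H hu x => mul_le_of_le_one_right ((norm_nonneg _).trans hu)
      (exp_le_one_iff.2 (by nlinarith [H.h0 x]))
  have zA : ∀ a, ZC l (fun i => (𝔉 i).F0.toPre) k
      fun i => xA (s i) (t i) (c i) (g i) (u i) a := fun a =>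
    .of hε (H.mono fun i ⟨h1, _, h3, h4, h5, h6, _⟩ => ⟨sm_xA _ h1 h3 h4 a,
      fun w hw x => (h6 a x w hw).trans (e1 h1 h5 x)⟩)
  have zP : ZC l (fun i => (𝔉 i).F0.toPre) k fun i => xP (s i) (c i) (g i) (θ i) :=
    .of hε (H.mono fun i ⟨h1, _, h3, h4, h5, _, h6, _⟩ => ⟨sm_xP _ h1 h3 h4,
      fun w hw x => (h6 x w hw).trans (e1 h1 h5 x)⟩)
  have zu : ZC l (fun i => (𝔉 i).F0.toPre) k fun i _ => u i := .consts
    (squeeze_zero' (.of_forall fun _ => norm_nonneg _) (H.mono fun _ h => h.2.2.2.2.1) hε)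
  have z1 : ∀ b, ZC l (fun i => (𝔉 i).F0.toPre) k
      fun i x => (s i).A0 b x - (𝔉 i).W0 (s i).md (s i).A0 (t i) b x := fun b =>
    (ZC.neg (((ZC.sum fun j => (zS b j).smul (bA j)).add (ZC.sum fun j => ZC.sum fun j' =>
      (zc b j j').smul ((bρ j).mul (bρ j')))).add ((zl b).smul ((BC.const Jc).mul bp)))).congr
      (H.mono fun i h => funext fun x => A_sub h.1 x b)
  have z2 : ∀ b, ZC l (fun i => (𝔉 i).F0.toPre) k fun i x => (s i).b x (u i) b := fun b =>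
    (bb.bilZ (.id ℝ _) zu).clm (PiLp.proj 2 (fun _ : ι => HS (Fin N)) b)
  have z3 : ∀ b, ZC l (fun i => (𝔉 i).F0.toPre) k fun i x => eta (s i) (t i) (c i) (g i) x b :=
    fun b => ((((zA b).clm hsL).neg.add (((z1 b).mul bp).clm hsL)).add (z2 b)).congr
      (H.mono fun i h => funext fun x => eta_eq _ h.1 h.2.2.2.1 x b)
  have z4 : ∀ a, ZC l (fun i => (𝔉 i).F0.toPre) k
      fun i x => fa (wv (s i) (t i) (c i) (g i) (u i) (θ i) x) a := fun a =>
    ((ZC.sum fun b => (bS a b).smulZ (z3 b)).add (z2 a).neg).congr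
      (.of_forall fun i => funext fun x => (fa_wv ..).trans (sub_eq_add_neg _ _))
  have z : ZC l (fun i => (𝔉 i).F0.toPre) k fun i => wv (s i) (t i) (c i) (g i) (u i) (θ i) :=
    .p2 (.pi z4) (zP.congr (.of_forall fun i => funext (fp_wv _ _ _ _ _ _)))
  refine ⟨(z 1 one_pos).mono fun _ k => k.1, N_small (e := e) (Vo := Vo)
    (K := ‖i1 (Fm ι (HS (Fin N))) (Eu (Fin N))‖ * ((∑ j : ι, ‖(sg j : CL (HS (Fin N)) _)‖) *
      ‖(-hsL : CL (En (Fin N)) _)‖) + ‖i2 (Fm ι (HS (Fin N))) (Eu (Fin N))‖) hδ hε z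
    ((H.and (z 1 one_pos)).mono fun i ⟨⟨h1, h2, h3, h4, _, h6, h7, h8, h9⟩, sm, _⟩ =>
      ⟨h1.h0, h8, fun x hx => ?_⟩)⟩
  rw [add_mul, mul_assoc, mul_assoc]
  refine PB.p2 sm (PB.pi (fa.contMDiff.comp sm) fun a w hw => ?_) fun w hw => ?_
  · rw [Dw_congr w (((s i).sh.continuous.continuousAt.eventually (lt_mem_nhds hx)).mono
      fun y hy => wv_nk _ _ h1 h2 h3 h4 (h9 y hy) a)]
    exact PB.clm _ (sm_xA _ h1 h3 h4 a) (h6 a x) w hw
  · rw [funext (fp_wv _ _ _ _ _ _)]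
    exact h7 x w hw

end Crest.Agent.X212.Fin58
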