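import Crest.Agent.X212.Cyl58.OE
import Crest.Agent.X212.Glue52.Cov

/-!
# X212/Cyl58/Gr: graphs of manifolds

Pieces `P i`, overlaps `A e`, two smooth open embeddings `j0 e : A e → P (s e)`,
`j1 e : A e → P (t e)` with pairwise disjoint images and closed graph.  `G.M` is the glued manifold:
junctions along product ends, self-junctions, linear and cyclic chains, connected and fibre sums.
-/

set_option autoImplicit false
set_option linter.unusedSectionVars false
noncomputable section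
open Set Filter Topology Function
open scoped ContDiff Manifold

namespace Crest.Agent.X212.Cyl58

open Glue52

/-- the graph of a span is closed when the source is covered by a part that is closed on the left
and a part that is closed on the right -/
theorem isClosed_graph {A B C : Type*} [TopologicalSpace A] [TopologicalSpace B]
    [TopologicalSpace C] [T2Space B] [T2Space C] {f : A → B} {g : A → C} (hf : IsEmbedding f)
    (hg : IsEmbedding g) {s t : Set A} (hst : s ∪ t = univ) (hs : IsClosed (f '' s))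
    (ht : IsClosed (g '' t)) : IsClosed (range fun a => (f a, g a)) := by
  have h0 : Continuous fun a => (f a, g a) := hf.continuous.prodMk hg.continuous
  have h1 : IsProperMap (fun a : s => (f a, g a)) :=
    isProperMap_of_comp_of_t2 (g := Prod.fst) (h0.comp continuous_subtype_val) continuous_fst
      (IsClosedEmbedding.isProperMap ⟨hf.comp .subtypeVal, by
        rwa [show range (Prod.fst ∘ fun a : s => (f a, g a)) = f '' s from
          (image_eq_range f s).symm]⟩)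
  have h2 : IsProperMap (fun a : t => (f a, g a)) :=
    isProperMap_of_comp_of_t2 (g := Prod.snd) (h0.comp continuous_subtype_val) continuous_snd
      (IsClosedEmbedding.isProperMap ⟨hg.comp .subtypeVal, by
        rwa [show range (Prod.snd ∘ fun a : t => (f a, g a)) = g '' t from
          (image_eq_range g t).symm]⟩)
  have h3 := h1.isClosed_range.union h2.isClosed_range
  rwa [← image_eq_range (fun a => (f a, g a)) s, ← image_eq_range (fun a => (f a, g a)) t,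
    ← image_union, hst, image_univ] at h3

/-- a graph of manifolds -/
structure Gr (V V' : Type) [NormedAddCommGroup V] [NormedSpace ℝ V] [NormedAddCommGroup V']
    [NormedSpace ℝ V'] (ι κ : Type) : Type 1 where
  P : ι → Pc V
  A : κ → Pc V'
  s : κ → ι
  t : κ → ι
  j0 : ∀ e, (A e).M → (P (s e)).M
  j1 : ∀ e, (A e).M → (P (t e)).M
  o0 : ∀ e, IsOE (A e).I (P (s e)).I (j0 e)
  o1 : ∀ e, IsOE (A e).I (P (t e)).I (j1 e)
  d00 : ∀ e e' a a', (⟨s e, j0 e a⟩ : Σ i, (P i).M) = ⟨s e', j0 e' a'⟩ → e = e'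
  d11 : ∀ e e' a a', (⟨t e, j1 e a⟩ : Σ i, (P i).M) = ⟨t e', j1 e' a'⟩ → e = e'
  d01 : ∀ e e' a a', (⟨s e, j0 e a⟩ : Σ i, (P i).M) ≠ ⟨t e', j1 e' a'⟩
  cl : ∀ e, IsClosed (range fun a => (j0 e a, j1 e a))
  fin : ∀ i, {e | s e = i ∨ t e = i}.Finite

namespace Gr

variable {V V' : Type} [NormedAddCommGroup V] [NormedSpace ℝ V] [NormedAddCommGroup V']
  [NormedSpace ℝ V'] {ι κ : Type} (G : Gr V V' ι κ)

/-- the disjoint union of the pieces -/
abbrev S : Type := Σ i, (G.P i).M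

/-- left copy of an overlap point -/
abbrev J0 (e : κ) (a : (G.A e).M) : G.S := ⟨G.s e, G.j0 e a⟩

/-- right copy of an overlap point -/
abbrev J1 (e : κ) (a : (G.A e).M) : G.S := ⟨G.t e, G.j1 e a⟩

theorem mk_inj {i : ι} {p q : (G.P i).M} (h : (⟨i, p⟩ : G.S) = ⟨i, q⟩) : p = q :=
  sigma_mk_injective (β := fun i => (G.P i).M) h

theorem J0_inj {e : κ} {a a' : (G.A e).M} (h : G.J0 e a = G.J0 e a') : a = a' :=
  (G.o0 e).inj (G.mk_inj h)

theorem J1_inj {e : κ} {a a' : (G.A e).M} (h : G.J1 e a = G.J1 e a') : a = a' :=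
  (G.o1 e).inj (G.mk_inj h)

/-- the oriented relation -/
def R (x y : G.S) : Prop := ∃ e a, x = G.J0 e a ∧ y = G.J1 e a

theorem R_R {x y z : G.S} (h : G.R x y) (h' : G.R y z) : False := by
  obtain ⟨e, a, -, rfl⟩ := h
  obtain ⟨e', a', h, -⟩ := h'
  exact G.d01 e' e a' a h.symm

theorem R_left {x y z : G.S} (h : G.R x y) (h' : G.R x z) : y = z := by
  obtain ⟨e, a, rfl, rfl⟩ := h
  obtain ⟨e', a', h, rfl⟩ := h'
  obtain rfl := G.d00 e e' a a' h
  rw [G.J0_inj h]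

theorem R_right {x y z : G.S} (h : G.R x z) (h' : G.R y z) : x = y := by
  obtain ⟨e, a, rfl, rfl⟩ := h
  obtain ⟨e', a', rfl, h⟩ := h'
  obtain rfl := G.d11 e e' a a' h
  rw [G.J1_inj h]

/-- the equivalence relation -/
def r : Setoid G.S where
  r x y := x = y ∨ G.R x y ∨ G.R y x
  iseqv := by
    refine ⟨fun _ => .inl rfl, ?_, ?_⟩
    · rintro x y (h | h | h)
      exacts [.inl h.symm, .inr (.inr h), .inr (.inl h)]
    · rintro x y z (rfl | h | h) (rfl | h' | h')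
      exacts [.inl rfl, .inr (.inl h'), .inr (.inr h'), .inr (.inl h), (G.R_R h h').elim,
        .inl (G.R_right h h'), .inr (.inr h), .inl (G.R_left h h'), (G.R_R h' h).elim]

theorem r_iff {x y : G.S} : G.r x y ↔ x = y ∨ G.R x y ∨ G.R y x := Iff.rfl

theorem isClosed_R (i j : ι) :
    IsClosed {x : (G.P i).M × (G.P j).M | G.R ⟨i, x.1⟩ ⟨j, x.2⟩} := by
  have h : {x : (G.P i).M × (G.P j).M | G.R ⟨i, x.1⟩ ⟨j, x.2⟩} =
      ⋃ e ∈ {e | G.s e = i ∨ G.t e = i},
        (Prod.map (Sigma.mk (β := fun i => (G.P i).M) i) (Sigma.mk (β := fun i => (G.P i).M) j)) ⁻¹'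
        (Prod.map (Sigma.mk (β := fun i => (G.P i).M) (G.s e))
          (Sigma.mk (β := fun i => (G.P i).M) (G.t e)) ''
          range fun a => (G.j0 e a, G.j1 e a)) := by
    ext x
    simp only [mem_ofPred_eq, mem_iUnion, mem_preimage, exists_prop]
    constructor
    · rintro ⟨e, a, h0, h1⟩
      exact ⟨e, .inl (congrArg Sigma.fst h0).symm, _, ⟨a, rfl⟩, Prod.ext h0.symm h1.symm⟩
    · rintro ⟨e, -, _, ⟨a, rfl⟩, h⟩
      exact ⟨e, a, (congrArg Prod.fst h).symm, (congrArg Prod.snd h).symm⟩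
  rw [h]
  refine (G.fin i).isClosed_biUnion fun e _ => IsClosed.preimage
    (continuous_sigmaMk.prodMap continuous_sigmaMk) ?_
  have h1 : IsClosedEmbedding (Sigma.mk (β := fun i => (G.P i).M) (G.s e)) :=
    ⟨.sigmaMk, isClosed_range_sigmaMk⟩
  have h2 : IsClosedEmbedding (Sigma.mk (β := fun i => (G.P i).M) (G.t e)) :=
    ⟨.sigmaMk, isClosed_range_sigmaMk⟩
  exact (h1.isProperMap.prodMap h2.isProperMap).isClosedMap _ (G.cl e)

theorem not_R_self (x : G.S) : ¬ G.R x x := fun h => G.R_R h h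

/-- the gluing data -/
def gd : GD V ι where
  P := G.P
  r := G.r
  etale := by
    have key : ∀ x y : G.S, G.R x y →
        ∃ φ : PartialDiffeomorph (G.P x.1).I (G.P y.1).I (G.P x.1).M (G.P y.1).M ∞,
          x.2 ∈ φ.source ∧ φ x.2 = y.2 ∧ ∀ z ∈ φ.source, G.R ⟨x.1, z⟩ ⟨y.1, φ z⟩ := by
      rintro _ _ ⟨e, a, rfl, rfl⟩
      have : Nonempty (G.A e).M := ⟨a⟩
      refine ⟨(G.o0 e).span (G.o1 e), ?_, IsOE.span_apply _ _ a, fun z hz => ?_⟩
      · rw [IsOE.span_source]; exact ⟨a, rfl⟩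
      · rw [IsOE.span_source] at hz
        obtain ⟨b, rfl⟩ := hz
        exact ⟨e, b, rfl, by rw [IsOE.span_apply]⟩
    rintro i j p q (h | h | h)
    · obtain rfl : i = j := congrArg Sigma.fst h
      obtain rfl : p = q := G.mk_inj h
      exact ⟨pdRefl _ _, mem_univ _, rfl, fun z _ => .inl rfl⟩
    · obtain ⟨φ, h1, h2, h3⟩ := key _ _ h
      exact ⟨φ, h1, h2, fun z hz => .inr (.inl (h3 z hz))⟩
    · obtain ⟨φ, h1, h2, h3⟩ := key _ _ h
      dsimp only at φ h1 h2 h3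
      refine ⟨φ.symm, h2 ▸ φ.map_source h1, h2 ▸ φ.left_inv h1, fun z hz => .inr (.inr ?_)⟩
      have h4 := h3 _ (φ.map_target hz)
      rwa [show φ (φ.toPartialEquiv.symm z) = z from φ.right_inv hz] at h4
  inj i p := by
    have h1 : {x : (G.P i).M × (G.P i).M | G.R ⟨i, x.1⟩ ⟨i, x.2⟩}ᶜ ∈ 𝓝 (p, p) :=
      (G.isClosed_R i i).isOpen_compl.mem_nhds (G.not_R_self _)
    obtain ⟨s, hs, t, ht, hst⟩ := mem_nhds_prod_iff.1 h1
    refine ⟨s ∩ t, inter_mem hs ht, ?_⟩
    rintro z hz w hw (h | h | h)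
    exacts [G.mk_inj h, (hst (mk_mem_prod hz.1 hw.2) h).elim,
      (hst (mk_mem_prod hw.1 hz.2) h).elim]

/-- the glued manifold -/
abbrev M : Type := G.gd.M

/-- the map of the `i`-th piece -/
def inc (i : ι) (p : (G.P i).M) : G.M := G.gd.inc i p

theorem inc_eq_inc {i j : ι} {p : (G.P i).M} {q : (G.P j).M} :
    G.inc i p = G.inc j q ↔
      (⟨i, p⟩ : G.S) = ⟨j, q⟩ ∨ G.R ⟨i, p⟩ ⟨j, q⟩ ∨ G.R ⟨j, q⟩ ⟨i, p⟩ := G.gd.inc_eq_inc

theorem surj (x : G.M) : ∃ i p, G.inc i p = x := G.gd.surj x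

theorem ld (i : ι) : IsLocalDiffeomorph (G.P i).I 𝓘(ℝ, V) ∞ (G.inc i) := G.gd.ld i

theorem continuous_inc (i : ι) : Continuous (G.inc i) := G.gd.continuous_inc i

theorem isOpenMap_inc (i : ι) : IsOpenMap (G.inc i) := G.gd.isOpenMap_inc i

theorem inc_j1 (e : κ) (a : (G.A e).M) : G.inc _ (G.j1 e a) = G.inc _ (G.j0 e a) :=
  (G.inc_eq_inc.2 (.inr (.inl ⟨e, a, rfl, rfl⟩))).symm

/-- a piece without loop embeds -/
theorem isOE_inc {i : ι} (h : ∀ e, G.s e = i → G.t e ≠ i) : IsOE (G.P i).I 𝓘(ℝ, V) (G.inc i) := by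
  refine ⟨fun p q hpq => ?_, G.ld i⟩
  rcases G.inc_eq_inc.1 hpq with h1 | ⟨e, a, h1, h2⟩ | ⟨e, a, h1, h2⟩
  · exact G.mk_inj h1
  all_goals exact (h e (congrArg Sigma.fst h1).symm (congrArg Sigma.fst h2).symm).elim

/-- the neck of an edge -/
def neck (e : κ) (a : (G.A e).M) : G.M := G.inc _ (G.j0 e a)

theorem inc_j0 (e : κ) (a : (G.A e).M) : G.inc _ (G.j0 e a) = G.neck e a := rfl

theorem inc_j1' (e : κ) (a : (G.A e).M) : G.inc _ (G.j1 e a) = G.neck e a := G.inc_j1 e a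

/-- the points over a neck point -/
theorem inc_eq_neck {i : ι} {p : (G.P i).M} {e : κ} {a : (G.A e).M} :
    G.inc i p = G.neck e a ↔ (⟨i, p⟩ : G.S) = G.J0 e a ∨ (⟨i, p⟩ : G.S) = G.J1 e a := by
  refine G.inc_eq_inc.trans ⟨?_, ?_⟩
  · rintro (h | h | h)
    exacts [.inl h, (G.R_R h ⟨e, a, rfl, rfl⟩).elim, .inr (G.R_left h ⟨e, a, rfl, rfl⟩)]
  · rintro (h | h)
    exacts [.inl h, .inr (.inr ⟨e, a, rfl, h⟩)]

theorem neck_eq_neck {e e' : κ} {a : (G.A e).M} {a' : (G.A e').M} (h : G.neck e a = G.neck e' a') :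
    (⟨e, a⟩ : Σ e, (G.A e).M) = ⟨e', a'⟩ := by
  rcases G.inc_eq_neck.1 h with h | h
  · obtain rfl := G.d00 _ _ _ _ h
    rw [G.J0_inj h]
  · exact (G.d01 _ _ _ _ h).elim

theorem isOE_neck (e : κ) : IsOE (G.A e).I 𝓘(ℝ, V) (G.neck e) :=
  ⟨fun _ _ h => sigma_mk_injective (β := fun e => (G.A e).M) (G.neck_eq_neck h),
    fun a => ld_comp (g := G.inc _) (G.ld _ _) ((G.o0 e).loc a)⟩

theorem disjoint_neck {e e' : κ} (h : e ≠ e') : Disjoint (range (G.neck e)) (range (G.neck e')) := by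
  rw [disjoint_left]
  rintro _ ⟨a, rfl⟩ ⟨a', h'⟩
  exact h (congrArg Sigma.fst (G.neck_eq_neck h')).symm

/-- off the necks, points of the pieces are not identified -/
theorem eq_of_inc_eq {i j : ι} {p : (G.P i).M} {q : (G.P j).M} (h : G.inc i p = G.inc j q)
    (hp : ∀ e a, G.inc i p ≠ G.neck e a) : (⟨i, p⟩ : G.S) = ⟨j, q⟩ := by
  rcases G.inc_eq_inc.1 h with h1 | ⟨e, a, h1, -⟩ | ⟨e, a, -, h1⟩
  exacts [h1, (hp e a (G.inc_eq_neck.2 (.inl h1))).elim, (hp e a (G.inc_eq_neck.2 (.inr h1))).elim]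

instance [∀ i, T2Space (G.P i).M] : T2Space G.M := by
  refine G.gd.t2Space fun i j => ?_
  have h1 : IsClosed {x : (G.P i).M × (G.P j).M | (⟨i, x.1⟩ : G.S) = ⟨j, x.2⟩} :=
    isClosed_eq (continuous_sigmaMk.comp continuous_fst) (continuous_sigmaMk.comp continuous_snd)
  exact h1.union ((G.isClosed_R i j).union ((G.isClosed_R j i).preimage continuous_swap))

instance [Countable ι] [h : ∀ i, SecondCountableTopology (G.P i).M] :
    SecondCountableTopology G.M :=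
  @GD.secondCountable _ _ _ _ G.gd _ h

/-- maps out of the glued manifold -/
def lift {Z : Sort*} (g : ∀ i, (G.P i).M → Z) (h : ∀ e a, g _ (G.j0 e a) = g _ (G.j1 e a)) :
    G.M → Z :=
  G.gd.lift g (by
    have key : ∀ x y : G.S, G.R x y → g x.1 x.2 = g y.1 y.2 := by
      rintro _ _ ⟨e, a, rfl, rfl⟩
      exact h e a
    rintro i j p q (h1 | h1 | h1)
    exacts [congrArg (fun x : G.S => g x.1 x.2) h1, key _ _ h1, (key _ _ h1).symm])

@[simp] theorem lift_inc {Z : Sort*} (g : ∀ i, (G.P i).M → Z)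
    (h : ∀ e a, g _ (G.j0 e a) = g _ (G.j1 e a)) (i : ι) (p : (G.P i).M) :
    G.lift g h (G.inc i p) = g i p := rfl

@[simp] theorem lift_neck {Z : Sort*} (g : ∀ i, (G.P i).M → Z)
    (h : ∀ e a, g _ (G.j0 e a) = g _ (G.j1 e a)) (e : κ) (a : (G.A e).M) :
    G.lift g h (G.neck e a) = g _ (G.j0 e a) := rfl

theorem continuous_iff {Z : Type*} [TopologicalSpace Z] {g : G.M → Z} :
    Continuous g ↔ ∀ i, Continuous (g ∘ G.inc i) := G.gd.continuous_iff

section Out

variable {E' : Type*} [NormedAddCommGroup E'] [NormedSpace ℝ E'] {H' : Type*} [TopologicalSpace H']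
  {J : ModelWithCorners ℝ E' H'} {N : Type*} [TopologicalSpace N] [ChartedSpace H' N]

theorem contMDiff_iff {g : G.M → N} :
    ContMDiff 𝓘(ℝ, V) J ∞ g ↔ ∀ i, ContMDiff (G.P i).I J ∞ (g ∘ G.inc i) := G.gd.contMDiff_iff

theorem ld_iff {g : G.M → N} :
    IsLocalDiffeomorph 𝓘(ℝ, V) J ∞ g ↔ ∀ i, IsLocalDiffeomorph (G.P i).I J ∞ (g ∘ G.inc i) :=
  G.gd.ld_iff

theorem contMDiff_lift {g : ∀ i, (G.P i).M → N} (h : ∀ e a, g _ (G.j0 e a) = g _ (G.j1 e a))
    (hg : ∀ i, ContMDiff (G.P i).I J ∞ (g i)) : ContMDiff 𝓘(ℝ, V) J ∞ (G.lift g h) :=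
  G.contMDiff_iff.2 hg

/-- local diffeomorphisms of the pieces whose only coincidences are the prescribed ones embed the
glued manifold -/
theorem isOE_lift {g : ∀ i, (G.P i).M → N} (h : ∀ e a, g _ (G.j0 e a) = g _ (G.j1 e a))
    (hg : ∀ i, IsLocalDiffeomorph (G.P i).I J ∞ (g i))
    (hi : ∀ i j p q, g i p = g j q → G.inc i p = G.inc j q) : IsOE 𝓘(ℝ, V) J (G.lift g h) := by
  refine ⟨fun x y hxy => ?_, G.ld_iff.2 hg⟩
  obtain ⟨i, p, rfl⟩ := G.surj x
  obtain ⟨j, q, rfl⟩ := G.surj y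
  exact hi i j p q hxy

theorem range_lift {Z : Type*} {g : ∀ i, (G.P i).M → Z}
    (h : ∀ e a, g _ (G.j0 e a) = g _ (G.j1 e a)) : range (G.lift g h) = ⋃ i, range (g i) := by
  ext z
  simp only [mem_range, mem_iUnion]
  constructor
  · rintro ⟨x, rfl⟩
    obtain ⟨i, p, rfl⟩ := G.surj x
    exact ⟨i, p, rfl⟩
  · rintro ⟨i, p, rfl⟩
    exact ⟨G.inc i p, rfl⟩

end Out

/-- a set is closed when its traces on the pieces are -/
theorem isClosed_iff {s : Set G.M} : IsClosed s ↔ ∀ i, IsClosed (G.inc i ⁻¹' s) := by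
  simp only [← isOpen_compl_iff, ← preimage_compl]
  exact G.gd.isOpen_iff

/-- a closed subset of a piece that misses the overlaps stays closed -/
theorem isClosed_image {i : ι} {s : Set (G.P i).M} (hs : IsClosed s)
    (h : ∀ p ∈ s, ∀ e a, G.inc i p ≠ G.neck e a) : IsClosed (G.inc i '' s) := by
  rw [G.isClosed_iff]
  intro j
  have h1 : G.inc j ⁻¹' (G.inc i '' s) =
      Sigma.mk j ⁻¹' (Sigma.mk (β := fun i => (G.P i).M) i '' s) := by
    ext q
    constructor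
    · rintro ⟨p, hp, e⟩
      exact ⟨p, hp, G.eq_of_inc_eq e (h p hp)⟩
    · rintro ⟨p, hp, e⟩
      exact ⟨p, hp, G.inc_eq_inc.2 (.inl e)⟩
  rw [h1]
  exact (isClosedMap_sigmaMk (σ := fun i => (G.P i).M) s hs).preimage continuous_sigmaMk

theorem compactSpace [Finite ι] (K : ∀ i, Set (G.P i).M) (hK : ∀ i, IsCompact (K i))
    (h : ∀ i p, ∃ j, ∃ q ∈ K j, G.inc i p = G.inc j q) : CompactSpace G.M :=
  G.gd.compactSpace K hK fun i p => by
    obtain ⟨j, q, hq, e⟩ := h i p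
    exact ⟨j, q, hq, G.gd.inc_eq_inc.1 e⟩

end Gr

end Crest.Agent.X212.Cyl58
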