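import Crest.Agent.X212.Cyl58.Hp
import Crest.Agent.X212.Int54.Prod

/-!
# X212/Cyl58/Hpb: the trivial commutator creates a hyperbolic pair (`hpBase : HpBase`)
-/

set_option autoImplicit false
set_option linter.unusedSectionVars false

open Set Filter Topology Function
open scoped ContDiff Manifold
open Crest.Agent.R208.F Crest.Agent.X212.Dr59 Crest.Agent.X212.Int54 Crest.Agent.X212.Sep15
open Crest.Agent.X212.Bb31 (Fm OE)
open Real (smoothTransition)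

noncomputable section

namespace Crest.Agent.X212.Cyl58

section gen

variable {E : Type} [NormedAddCommGroup E] [NormedSpace ℝ E] [FiniteDimensional ℝ E]
  {H : Type} [TopologicalSpace H] {I : ModelWithCorners ℝ E H} [I.Boundaryless]
  {M : Type} [TopologicalSpace M] [ChartedSpace H M] [IsManifold I ∞ M] [T2Space M]
  {E' : Type} [NormedAddCommGroup E'] [NormedSpace ℝ E'] [FiniteDimensional ℝ E']
  {H' : Type} [TopologicalSpace H'] {J : ModelWithCorners ℝ E' H'} [J.Boundaryless]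
  {N : Type} [TopologicalSpace N] [ChartedSpace H' N] [IsManifold J ∞ N]
  {E'' : Type} [NormedAddCommGroup E''] [NormedSpace ℝ E''] [FiniteDimensional ℝ E'']
  {H'' : Type} [TopologicalSpace H''] {K : ModelWithCorners ℝ E'' H''} [K.Boundaryless]
  {P : Type} [TopologicalSpace P] [ChartedSpace H'' P] [IsManifold K ∞ P]

theorem oe_comp {g : P → N} {f : N → M} {U : Set N} {V : Set P} (h : OE J I U f) (hg : OE K J V g)
    (m : MapsTo g V U) : OE K I V (f ∘ g) :=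
  ⟨hg.op, fun z hz => ld_comp (h.ld _ (m hz)) (hg.ld z hz), h.inj.comp hg.inj m⟩

/-- the form `π^* θ ∧ dF`, given in two charts -/
theorem exists_form [Nonempty P] {f g : N → M} {U V : Set N} (hf : OE J I U f) (hg : OE J I V g)
    {π : N → P} (hπ : ContMDiff J K ∞ π) {F : N → ℝ} (hF : ContMDiff J 𝓘(ℝ, ℝ) ∞ F)
    (cmp : ∀ p ∈ U, ∀ q ∈ V, f p = g q → π p = π q ∧ F p = F q) {A B : Set N} (hA : IsCompact A)
    (hB : IsCompact B) (sA : A ⊆ U) (sB : B ⊆ V)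
    (zf : ∀ p ∈ U, df J F p ≠ 0 → f p ∈ f '' A ∪ g '' B)
    (zg : ∀ p ∈ V, df J F p ≠ 0 → g p ∈ f '' A ∪ g '' B) {θ : P → Ext E''} (hθ : Cl K 1 univ θ) :
    ∃ e : M → Ext E, Cs I 2 (f '' A ∪ g '' B) e ∧ e * e = 0 ∧
      (∀ p ∈ U, pm J I f e p = pm J K π θ p * df J F p) ∧
      ∀ p ∈ V, pm J I g e p = pm J K π θ p * df J F p := by
  have : Inhabited P := Classical.inhabited_of_nonempty inferInstance
  obtain ⟨u, u1, u2⟩ := exists_fun2 hf.inj hg.inj (a := fun p => (π p, F p)) (c := fun p => (π p, F p))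
    fun p hp q hq e => Prod.ext (cmp p hp q hq e).1 (cmp p hp q hq e).2
  have hW := hf.isOpen_image.union hg.isOpen_image
  have key : ∀ {f : N → M} {U : Set N}, OE J I U f → (∀ p ∈ U, u (f p) = (π p, F p)) → ∀ p ∈ U,
      ContMDiffAt I (K.prod 𝓘(ℝ, ℝ)) ∞ u (f p) ∧
      pm J I f (pm I K (Prod.fst ∘ u) θ * df I (Prod.snd ∘ u)) p = pm J K π θ p * df J F p :=
    fun {f U} hf u1 p hp => by
      have e : u ∘ f =ᶠ[𝓝 p] fun p => (π p, F p) := eventually_of_mem (hf.op.mem_nhds hp) u1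
      have s := contMDiffAt_of_comp (hf.ld p hp) (((hπ p).prodMk (hF p)).congr_of_eventuallyEq e)
      have d := (hf.ld p hp).mdifferentiableAt ne0
      refine ⟨s, ?_⟩
      rw [pm_mul, Pi.mul_apply, pm_comp ((contMDiffAt_fst.comp _ s).mdifferentiableAt ne0) d,
        pm_df d ((contMDiffAt_snd.comp _ s).mdifferentiableAt ne0),
        pm_congr (f := (Prod.fst ∘ u) ∘ f) (g := π) (b := θ)
          (e.mono fun _ h => congrArg Prod.fst h) rfl, df, df,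
        mf_congr (f := (Prod.snd ∘ u) ∘ f) (g := F) (e.mono fun _ h => congrArg Prod.snd h)]
  have sm : ∀ x ∈ f '' U ∪ g '' V, ContMDiffAt I (K.prod 𝓘(ℝ, ℝ)) ∞ u x := by
    rintro _ (⟨p, hp, rfl⟩ | ⟨p, hp, rfl⟩)
    exacts [(key hf u1 p hp).1, (key hg u2 p hp).1]
  have c1 : Cl I 1 (f '' U ∪ g '' V) (pm I K (Prod.fst ∘ u) θ) :=
    hθ.pm ⟨fun x hx => contMDiffAt_fst.comp _ (sm x hx), mapsTo_univ _ _⟩
  have c2 : Cl I 1 (f '' U ∪ g '' V) (df I (Prod.snd ∘ u)) :=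
    cl_df fun x hx => contMDiffAt_snd.comp _ (sm x hx)
  refine ⟨(f '' U ∪ g '' V).indicator (pm I K (Prod.fst ∘ u) θ * df I (Prod.snd ∘ u)),
    cs_indicator hW (c1.mul c2) ((hf.isCompact_image hA sA).union (hg.isCompact_image hB sB))
    (union_subset_union (image_mono sA) (image_mono sB)) ?_, funext fun x => ?_, fun p hp => ?_,
    fun p hp => ?_⟩
  · rintro _ (⟨p, hp, rfl⟩ | ⟨p, hp, rfl⟩) h
    · exact Bb31.zero_of_pm (hf.ld p hp) (by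
        rw [(key hf u1 p hp).2, not_not.1 (mt (zf p hp) h), mul_zero])
    · exact Bb31.zero_of_pm (hg.ld p hp) (by
        rw [(key hg u2 p hp).2, not_not.1 (mt (zg p hp) h), mul_zero])
  · by_cases h : x ∈ f '' U ∪ g '' V
    · rw [Pi.mul_apply, indicator_of_mem h, Pi.mul_apply, mul_assoc, ← mul_assoc (df _ _ _),
        Sym24.anti1 (c2.dg x h) (c1.dg x h), neg_mul, mul_assoc, Sym24.sq1 (c2.dg x h)]
      simp
    · rw [Pi.mul_apply, indicator_of_notMem h, mul_zero]; rfl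
  · rw [← (key hf u1 p hp).2]
    exact pm_congr_right (indicator_of_mem (mem_union_left _ (mem_image_of_mem f hp)) _)
  · rw [← (key hg u2 p hp).2]
    exact pm_congr_right (indicator_of_mem (mem_union_right _ (mem_image_of_mem g hp)) _)

end gen

variable {Y Y' : CM 3} {R : CM 2}

/-- the model of `R × ℝ × ℝ` -/
abbrev J4 := (IR 2).prod 𝓘(ℝ, ℝ)

theorem sm_x : ContMDiff J4 (𝓡 2) ∞ fun p : (R × ℝ) × ℝ => p.1.1 := contMDiff_fst.fst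
theorem sm_v : ContMDiff J4 𝓘(ℝ, ℝ) ∞ fun p : (R × ℝ) × ℝ => p.1.2 := contMDiff_fst.snd
theorem sm_t : ContMDiff J4 𝓘(ℝ, ℝ) ∞ fun p : (R × ℝ) × ℝ => p.2 := contMDiff_snd

theorem tp4 {θ₁ θ₂ : Fm 2 R} (h : Dg 1 univ θ₂) (p : (R × ℝ) × ℝ) (r s : ℝ) :
    tp _ (pm J4 (𝓡 2) (fun p => p.1.1) θ₁ p * (r • df J4 (fun p : (R × ℝ) × ℝ => p.2) p) *
      (pm J4 (𝓡 2) (fun p => p.1.1) θ₂ p * (s • df J4 (fun p : (R × ℝ) × ℝ => p.1.2) p))) ≠ 0 ↔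
      (tp _ (θ₁ p.1.1 * θ₂ p.1.1) ≠ 0 ∧ s ≠ 0) ∧ r ≠ 0 := by
  have e : pr (pr (θ₁ * θ₂) dt) dt p = pm J4 (𝓡 2) (fun p => p.1.1) θ₁ p *
      pm J4 (𝓡 2) (fun p => p.1.1) θ₂ p * df J4 (fun p : (R × ℝ) × ℝ => p.1.2) p *
      df J4 (fun p : (R × ℝ) × ℝ => p.2) p := by
    rw [pr_eq (IR 2) 𝓘(ℝ, ℝ), pr_eq (𝓡 2) 𝓘(ℝ, ℝ), ← df_id, pm_mul, pm_mul, pm_mul]
    simp only [Pi.mul_apply]
    rw [pm_comp mdifferentiableAt_fst mdifferentiableAt_fst,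
      pm_comp mdifferentiableAt_fst mdifferentiableAt_fst,
      pm_comp mdifferentiableAt_snd mdifferentiableAt_fst,
      pm_df mdifferentiableAt_snd mdifferentiableAt_id,
      pm_df (mdifferentiableAt_snd.comp _ mdifferentiableAt_fst) mdifferentiableAt_id]
    rfl
  have d := fun g : (R × ℝ) × ℝ → ℝ => dg_df (I := J4) (U := univ) g p trivial
  have k := tp_pr (pr (θ₁ * θ₂) dt) dt p
  rw [e, tp_pr] at k
  simp only [mul_smul_comm, smul_mul_assoc, map_smul, smul_eq_mul]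
  rw [mul_assoc (pm _ _ _ θ₁ p), ← mul_assoc (df _ _ _),
    Sym24.anti1 (d _) (h.pm (mapsTo_univ _ univ) p trivial),
    neg_mul, mul_assoc (pm _ _ _ θ₂ p), Sym24.anti1 (d _) (d _), mul_neg (pm _ _ _ θ₂ p), neg_neg,
    ← mul_assoc (pm _ _ _ θ₂ p), ← mul_assoc (pm _ _ _ θ₁ p), ← mul_assoc (pm _ _ _ θ₁ p), k]
  simp only [mul_ne_zero_iff, kap_ne, ori_dt.ne, ne_eq, not_false_eq_true, true_and, and_true,
    Pi.mul_apply]
  tauto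

/-- the cut-off of the first form -/
def Fa (p : (R × ℝ) × ℝ) : ℝ := smoothTransition (4 * p.2 - 1)

/-- the cut-off of the second form -/
def Fb (p : (R × ℝ) × ℝ) : ℝ := smoothTransition (2 - p.1.2) * smoothTransition (2 + p.1.2) *
  (smoothTransition (p.2 + 2) * smoothTransition (5 - 2 * p.2))

theorem sm_Fa : ContMDiff J4 𝓘(ℝ, ℝ) ∞ (Fa (R := R)) :=
  (show ContDiff ℝ ∞ fun t : ℝ => smoothTransition (4 * t - 1) by fun_prop).comp_contMDiff sm_t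

theorem sm_Fb : ContMDiff J4 𝓘(ℝ, ℝ) ∞ (Fb (R := R)) :=
  ((show ContDiff ℝ ∞ fun t : ℝ => smoothTransition (2 - t) * smoothTransition (2 + t) by
    fun_prop).comp_contMDiff sm_v).mul ((show ContDiff ℝ ∞ fun t : ℝ => smoothTransition (t + 2) *
      smoothTransition (5 - 2 * t) by fun_prop).comp_contMDiff sm_t)

theorem df_Fa (p : (R × ℝ) × ℝ) : df J4 Fa p =
    (deriv smoothTransition (4 * p.2 - 1) * 4) • df J4 (fun p : (R × ℝ) × ℝ => p.2) p :=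
  Tw39.df_comp (g := fun t => smoothTransition (4 * t - 1)) (sm_t.mdifferentiableAt ne0)
    ((hasDerivAt_st _).comp _ (by simpa using ((hasDerivAt_id p.2).const_mul 4).sub_const 1))

theorem df_Fa_ne {p : (R × ℝ) × ℝ} (h : df J4 Fa p ≠ 0) : p.2 ∈ Icc (1 / 4 : ℝ) (1 / 2) := by
  rw [df_Fa] at h
  have := st_deriv_ne.1 (left_ne_zero_of_mul (left_ne_zero_of_smul h))
  constructor <;> linarith [this.1, this.2]

theorem df_Fb {p : (R × ℝ) × ℝ} (h : 0 < p.1.2) (h' : p.2 ∈ Ioo (0 : ℝ) 1) : df J4 Fb p =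
    (deriv smoothTransition (2 - p.1.2) * -1) • df J4 (fun p : (R × ℝ) × ℝ => p.1.2) p := by
  rw [← Tw39.df_comp (g := fun t => smoothTransition (2 - t)) (sm_v.mdifferentiableAt ne0)
    ((hasDerivAt_st _).comp _ ((hasDerivAt_id p.1.2).const_sub 2)), df, df, mf_congr]
  filter_upwards [(isOpen_Ioi.preimage sm_v.continuous).mem_nhds h,
    (isOpen_Ioo.preimage continuous_snd).mem_nhds h'] with q h1 h2
  rw [Fb, smoothTransition.one_of_one_le (x := 2 + _) (by linarith [show 0 < q.1.2 from h1]),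
    smoothTransition.one_of_one_le (x := _ + 2) (by linarith [h2.1]),
    smoothTransition.one_of_one_le (x := 5 - _) (by linarith [h2.2])]
  simp

variable (R) in
/-- the support of the second cut-off form -/
def Kb : Set ((R × ℝ) × ℝ) :=
  (univ ×ˢ Icc (-2) 2) ×ˢ Icc (-2) (5 / 2) \ (univ ×ˢ Ioo (-1) 1) ×ˢ Ioo (-1) 2

theorem isCompact_Kb : IsCompact (Kb R) := ((isCompact_univ.prod isCompact_Icc).prod
  isCompact_Icc).diff ((isOpen_univ.prod isOpen_Ioo).prod isOpen_Ioo)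

theorem df_Fb_ne {p : (R × ℝ) × ℝ} (h : df J4 Fb p ≠ 0) : p ∈ Kb R := by
  refine ⟨by_contra fun k => h (df_eq_zero (c := 0) ?_), fun k => h (df_eq_zero (c := 1) ?_)⟩
  · filter_upwards [((isClosed_univ.prod isClosed_Icc).prod isClosed_Icc).isOpen_compl.mem_nhds k]
      with q hq
    by_contra e
    simp only [Fb, mul_eq_zero, smoothTransition.zero_iff_nonpos, not_or, not_le] at e
    exact hq ⟨⟨trivial, by linarith [e.1.2], by linarith [e.1.1]⟩, by linarith [e.2.1],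
      by linarith [e.2.2]⟩
  · filter_upwards [((isOpen_univ.prod isOpen_Ioo).prod isOpen_Ioo).mem_nhds k] with q hq
    rw [Fb, smoothTransition.one_of_one_le (by linarith [hq.1.2.2]),
      smoothTransition.one_of_one_le (by linarith [hq.1.2.1]),
      smoothTransition.one_of_one_le (by linarith [hq.2.1]),
      smoothTransition.one_of_one_le (by linarith [hq.2.2])]
    simp

section op

variable {b₁ b₂ : R × ℝ → Y} {b₁' b₂' : R × ℝ → Y'} {S : Sw b₁ b₂ b₁' b₂'} {C : End Y} {C' : End Y'}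
  (O : Op S C C')

theorem i_log {y : Y} (hy : y ∈ S.φ.source) {t : ℝ} (ht : 0 < t) :
    O.i (C.j (y, t)) = C'.j (S.φ y, Real.log t) := by rw [O.ej y hy, Real.exp_log ht]

theorem j₁_not (x : R) (s : ℝ) : C'.j (b₁' (x, 0), s) ∉ O.i.target := by
  rw [O.j₁, O.raw.e_mem, not_not, Complex.neg_im, rt_im_zero rfl, neg_zero]

theorem j₂_not (x : R) (s : ℝ) : C'.j (b₂' (x, 0), s) ∉ O.i.target := by
  rw [O.j₂, O.raw.e_mem, not_not, rt_im_zero rfl]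

theorem b₁_mem (S : Sw b₁ b₂ b₁' b₂') {p : R × ℝ} (h : p.2 ≠ 0) : b₁ p ∈ S.φ.source := by
  rw [S.src]
  rintro (k | ⟨q, -, k⟩)
  exacts [h ((mem_slab S.o₁).1 k), S.dj _ _ k.symm]

theorem b₂_mem (S : Sw b₁ b₂ b₁' b₂') {p : R × ℝ} (h : p.2 ≠ 0) : b₂ p ∈ S.φ.source := by
  rw [S.src]
  rintro (⟨q, -, k⟩ | k)
  exacts [S.dj _ _ k, h ((mem_slab S.o₂).1 k)]

end op

theorem oe_log : OE 𝓘(ℝ, ℝ) 𝓘(ℝ, ℝ) (Ioi 0) Real.log :=
  ⟨isOpen_Ioi, fun _ h => Up.log.ld isOpen_Ioi h, Real.log_injOn_pos⟩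

theorem oe_map {c : R × ℝ → Y} (hc : Box c) {τ : ℝ → ℝ} {s : Set ℝ} (h : OE 𝓘(ℝ, ℝ) 𝓘(ℝ, ℝ) s τ) :
    OE J4 (IR 3) (univ ×ˢ s) (Prod.map c τ) :=
  ⟨isOpen_univ.prod h.op, fun p hp => ld_prodMap (hc.loc p.1) (h.ld _ hp.2), fun _ hp _ hq e =>
    Prod.ext (hc.inj (congrArg Prod.fst e)) (h.inj hp.2 hq.2 (congrArg Prod.snd e))⟩

theorem hpBase : HpBase := by
  intro Y Y' R b b' G σ₁ σ₂ M C C₁ C₂ ⟨θ₁, θ₂, t1, t2, hc⟩ O₁ O₂
  have : Nonempty R := let ⟨x, _⟩ := hc.nonempty; ⟨x⟩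
  have m₁ := M.lv.u₁.strictMono
  have m₂ := M.lv.u₂.strictMono
  have lt := M.lv.lt
  -- the part of `C` in `C₂`
  set Φ : Y × ℝ → C₂.X := O₂.i ∘ O₁.i ∘ C.j
  have s2 : O₁.i.target ⊆ O₂.i.source := by
    rw [O₂.src]
    rintro _ h ⟨⟨_, s⟩, ⟨⟨⟨x, _⟩, ⟨-, rfl⟩, rfl⟩ | ⟨⟨x, _⟩, ⟨-, rfl⟩, rfl⟩, -⟩, rfl⟩
    exacts [j₁_not O₁ x s h, j₂_not O₁ x s h]
  have oΦ : OE (IR 3) (𝓡 4) (C.j ⁻¹' O₁.i.source) Φ :=
    oe_comp (.of_pd O₂.i) ((OE.of_pd O₁.i).comp C.oe) fun _ h => s2 (O₁.i.map_source h)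
  have mid : ∀ p : R × ℝ, p.2 ∈ Ioo (σ₁ 0) (σ₂ 0) → b p ∈ M.S₁.φ.source := fun p hp => by
    rw [M.S₁.src]
    rintro (⟨q, ⟨-, h⟩, e⟩ | ⟨q, ⟨-, h⟩, e⟩)
    · exact hp.1.ne ((congrArg σ₁ h).symm.trans (congrArg Prod.snd (G.o.inj e)))
    · exact hp.2.ne' ((congrArg σ₂ h).symm.trans (congrArg Prod.snd (G.o.inj e)))
  -- the charts
  set f₁ : (R × ℝ) × ℝ → C₂.X := Φ ∘ Prod.map b id
  set f₂ : (R × ℝ) × ℝ → C₂.X := (O₂.i ∘ C₁.j) ∘ Prod.map M.c₂ Real.log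
  set g₁ : (R × ℝ) × ℝ → C₂.X := Φ ∘ Prod.map (b ∘ Prod.map id σ₁) id
  set g₂ : (R × ℝ) × ℝ → C₂.X := C₂.j ∘ Prod.map (b' ∘ Prod.map id σ₁) (Real.log ∘ Real.log)
  have n2 : ∀ p : (R × ℝ) × ℝ, p.2 ∈ Ioo (0 : ℝ) 1 →
      C₁.j (M.c₂ p.1, Real.log p.2) ∈ O₂.i.source := fun p hp =>
    O₂.raw.j_mem.2 (.inr (Real.log_neg hp.1 hp.2))
  have o1 : OE J4 (𝓡 4) ((univ ×ˢ Ioo (σ₁ 0) (σ₂ 0)) ×ˢ Ioo 0 1) f₁ :=
    (oΦ.comp (IsOE.prodMap G.o IsOE.id)).mono ((isOpen_univ.prod isOpen_Ioo).prod isOpen_Ioo)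
      fun p hp => O₁.raw.j_mem.2 (.inl (mid _ hp.1.2))
  have o2 : OE J4 (𝓡 4) (univ ×ˢ Ioo 0 1) f₂ := oe_comp ((OE.of_pd O₂.i).comp C₁.oe)
    (oe_map M.S₁.o₂' (oe_log.mono isOpen_Ioo Ioo_subset_Ioi_self)) fun p hp => n2 p hp.2
  have n3 : ∀ p : (R × ℝ) × ℝ, p.1.2 ≠ 0 ∨ p.2 < 0 →
      C.j (b (p.1.1, σ₁ p.1.2), p.2) ∈ O₁.i.source := fun p hp =>
    O₁.raw.j_mem.2 (hp.imp_left fun h => b₁_mem M.S₁ h)
  have o3 : OE J4 (𝓡 4) {p | p.1.2 ≠ 0 ∨ p.2 < 0} g₁ :=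
    (oΦ.comp (IsOE.prodMap M.S₁.o₁ IsOE.id)).mono ((isOpen_ne_fun sm_v.continuous
      continuous_const).union (isOpen_lt continuous_snd continuous_const)) n3
  have o4 : OE J4 (𝓡 4) (univ ×ˢ Ioi 1) g₂ := oe_comp (.of_oe C₂.oe) (oe_map M.S₂.o₁'
    (oe_comp oe_log (oe_log.mono isOpen_Ioi (Ioi_subset_Ioi zero_le_one)) fun _ h => Real.log_pos h))
    (mapsTo_univ _ _)
  -- the relations
  have r1 : ∀ x v t, 0 < v → 0 < t → f₂ ((x, v), t) = f₁ ((x, σ₁ v), t) := fun x v t hv ht =>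
    congrArg O₂.i ((i_log O₁ (b₁_mem M.S₁ (p := (x, v)) hv.ne') ht).trans
      (by rw [M.S₁.hi₁ _ hv]; rfl)).symm
  have r2 : ∀ x v t, v < 0 → 0 < t → f₂ ((x, v), t) = f₁ ((x, σ₂ v), t) := fun x v t hv ht =>
    congrArg O₂.i ((i_log O₁ (b₂_mem M.S₁ (p := (x, v)) hv.ne) ht).trans
      (by rw [M.S₁.lo₂ _ hv]; rfl)).symm
  have r3 : ∀ p : (R × ℝ) × ℝ, p.1.2 ≠ 0 → 1 < p.2 → g₂ p = g₁ p := fun p hv ht => by
    refine Eq.symm ((congrArg O₂.i (i_log O₁ (b₁_mem M.S₁ hv) (one_pos.trans ht))).trans ?_)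
    rcases hv.lt_or_gt with h | h
    · rw [M.S₁.lo₁ _ h, i_log O₂ (b₁_mem M.S₂ hv) (Real.log_pos ht), M.S₂.lo₁ _ h]; rfl
    · rw [M.S₁.hi₁ _ h]
      exact (i_log O₂ (b₂_mem M.S₂ hv) (Real.log_pos ht)).trans (by rw [M.S₂.hi₂ _ h]; rfl)
  have r4 : ∀ p ∈ univ ×ˢ Ioo (0 : ℝ) 1, ∀ q, C.j q ∈ O₁.i.source → f₂ p = Φ q →
      ∃ h ∈ Ioo (σ₁ 0) (σ₂ 0), q = (b (p.1.1, h), p.2) := by
    rintro ⟨⟨x, v⟩, t⟩ ⟨-, hp⟩ q hq e
    have k : ∀ h ∈ Ioo (σ₁ 0) (σ₂ 0), f₁ ((x, h), t) = Φ q → q = (b (x, h), t) := fun h hh e =>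
      (oΦ.inj (O₁.raw.j_mem.2 (.inl (mid _ hh))) hq e).symm
    rcases lt_trichotomy v 0 with h | rfl | h
    · exact ⟨_, ⟨lt _ _, m₂ h⟩, k _ ⟨lt _ _, m₂ h⟩ ((r2 x v t h hp.1).symm.trans e)⟩
    · exact (j₂_not O₁ x _ (O₂.i.injOn (n2 _ hp) (s2 (O₁.i.map_source hq)) e ▸
        O₁.i.map_source hq)).elim
    · exact ⟨_, ⟨m₁ h, lt _ _⟩, k _ ⟨m₁ h, lt _ _⟩ ((r1 x v t h hp.1).symm.trans e)⟩
  have sI : Icc (1 / 4 : ℝ) (1 / 2) ⊆ Ioo 0 1 := Icc_subset_Ioo (by norm_num) (by norm_num)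
  have sA : (univ ×ˢ Icc (σ₁ 1) (σ₂ (-1))) ×ˢ Icc (1 / 4 : ℝ) (1 / 2) ⊆
      ((univ : Set R) ×ˢ Ioo (σ₁ 0) (σ₂ 0)) ×ˢ Ioo 0 1 := prod_mono (prod_mono subset_rfl
    (Icc_subset_Ioo (m₁ one_pos) (m₂ neg_one_lt_zero))) sI
  have sB : (univ ×ˢ Icc (-1) 1) ×ˢ Icc (1 / 4 : ℝ) (1 / 2) ⊆ (univ : Set (R × ℝ)) ×ˢ Ioo 0 1 :=
    prod_mono (subset_univ _) sI
  obtain ⟨a, a1, a2, -, a4⟩ := exists_form o1 o2 sm_x sm_Fa (fun p hp q hq e => by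
      obtain ⟨h, -, k⟩ := r4 q hq _ (O₁.raw.j_mem.2 (.inl (mid _ hp.1.2))) e.symm
      have k1 : p.1 = (q.1.1, h) := G.o.inj (congrArg Prod.fst k)
      have k2 : p.2 = q.2 := (congrArg Prod.snd k :)
      exact ⟨by rw [k1], by rw [Fa, Fa, k2]⟩)
    ((isCompact_univ.prod isCompact_Icc).prod isCompact_Icc)
    ((isCompact_univ.prod isCompact_Icc).prod isCompact_Icc) sA sB
    (by
      rintro ⟨⟨x, h⟩, t⟩ ⟨⟨-, h1, h2⟩, h3⟩ k
      have k := df_Fa_ne k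
      rcases lt_or_ge h (σ₁ 1) with c | c
      · obtain ⟨v, hv, rfl⟩ := intermediate_value_Ioo zero_le_one
          M.lv.u₁.continuous.continuousOn ⟨h1, c⟩
        exact .inr ⟨((x, v), t), ⟨⟨trivial, by linarith [hv.1], hv.2.le⟩, k⟩, r1 x v t hv.1 h3.1⟩
      rcases lt_or_ge (σ₂ (-1)) h with c' | c'
      · obtain ⟨v, hv, rfl⟩ := intermediate_value_Ioo neg_one_lt_zero.le
          M.lv.u₂.continuous.continuousOn ⟨c', h2⟩
        exact .inr ⟨((x, v), t), ⟨⟨trivial, hv.1.le, by linarith [hv.2]⟩, k⟩, r2 x v t hv.2 h3.1⟩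
      exact .inl ⟨_, ⟨⟨trivial, c, c'⟩, k⟩, rfl⟩)
    (by
      rintro ⟨⟨x, v⟩, t⟩ ⟨-, h3⟩ k
      have k := df_Fa_ne k
      rcases lt_or_ge 1 v with c | c
      · exact .inl ⟨((x, σ₁ v), t), ⟨⟨trivial, (m₁ c).le, (lt _ _).le⟩, k⟩,
          (r1 x v t (one_pos.trans c) h3.1).symm⟩
      rcases lt_or_ge v (-1) with c' | c'
      · exact .inl ⟨((x, σ₂ v), t), ⟨⟨trivial, (lt _ _).le, (m₂ c').le⟩, k⟩,
          (r2 x v t (c'.trans neg_one_lt_zero) h3.1).symm⟩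
      exact .inr ⟨_, ⟨⟨trivial, c', c⟩, k⟩, rfl⟩) t1
  have v0 : ∀ p ∈ Kb R, p.2 ≤ 3 / 2 → p.1.2 ≠ 0 ∨ p.2 < 0 := fun p hp h => by
    by_contra k
    rw [not_or, not_not, not_lt] at k
    exact hp.2 ⟨⟨trivial, by rw [k.1]; norm_num⟩, by linarith [k.2], by linarith⟩
  have sC : Kb R ∩ {p | p.2 ≤ 3 / 2} ⊆ {p | p.1.2 ≠ 0 ∨ p.2 < 0} := fun p hp => v0 p hp.1 hp.2
  have sD : Kb R ∩ {p | 3 / 2 ≤ p.2} ⊆ univ ×ˢ Ioi 1 := fun p hp =>
    ⟨trivial, lt_of_lt_of_le (show (1 : ℝ) < 3 / 2 by norm_num) hp.2⟩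
  obtain ⟨c, c1, c2, c3, -⟩ := exists_form o3 o4 sm_x sm_Fb (fun p hp q hq e => by
      by_cases k : q.1.2 = 0
      · obtain ⟨⟨x, v⟩, t⟩ := q
        obtain rfl : v = 0 := k
        have k : g₁ p ∈ O₂.i.target := O₂.i.map_source (s2 (O₁.i.map_source (n3 p hp)))
        rw [e] at k
        exact (j₁_not O₂ x _ k).elim
      · rw [o3.inj hp (.inl k) (e.trans (r3 q k hq.2))]
        exact ⟨rfl, rfl⟩)
    (isCompact_Kb.inter_right (isClosed_le continuous_snd continuous_const))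
    (isCompact_Kb.inter_right (isClosed_le continuous_const continuous_snd)) sC sD
    (fun p hp k => (le_or_gt p.2 (3 / 2)).imp (fun h => ⟨p, ⟨df_Fb_ne k, h⟩, rfl⟩) fun h =>
      ⟨p, ⟨df_Fb_ne k, h.le⟩, r3 p (hp.resolve_right (by linarith)) (by linarith)⟩)
    (fun p hp k => (le_total p.2 (3 / 2)).imp (fun h => ⟨p, ⟨df_Fb_ne k, h⟩, (r3 p ((v0 p (df_Fb_ne k)
      h).resolve_right (by linarith [mem_Ioi.1 hp.2])) hp.2).symm⟩) fun h =>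
      ⟨p, ⟨df_Fb_ne k, h⟩, rfl⟩) t2
  have na : ∀ z ∈ f₁ '' ((univ ×ˢ Ioo (σ₁ 0) (σ₂ 0)) ×ˢ Ioo 0 1) ∪ f₂ '' (univ ×ˢ Ioo 0 1),
      z ∉ C₂.j '' (univ ×ˢ univ) := by
    have k : ∀ y t, t ∈ Ioo (0 : ℝ) 1 → O₂.i (C₁.j (y, Real.log t)) ∉ C₂.j '' (univ ×ˢ univ) :=
      fun y t ht h => by
        obtain ⟨q, ⟨-, s, -, h1⟩, h2⟩ := (O₂.i_mem (O₂.raw.j_mem.2 (.inr (Real.log_neg ht.1 ht.2)))).1 h
        rw [C₁.oe.inj h2] at h1
        exact (Real.exp_pos s).not_gt (h1.trans_lt (Real.log_neg ht.1 ht.2))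
    rintro _ (⟨p, hp, rfl⟩ | ⟨p, hp, rfl⟩)
    · rw [show f₁ p = _ from congrArg O₂.i (i_log O₁ (mid _ hp.1.2) hp.2.1)]
      exact k _ _ hp.2
    · exact k _ _ hp.2
  have key : ∀ p : (R × ℝ) × ℝ, 0 < p.1.2 → p.2 ∈ Ioo (0 : ℝ) 1 →
      (tp (EE 4) (a (f₂ p) * c (f₂ p)) ≠ 0 ↔ p ∈ ({x | tp (EE 2) (θ₁ x * θ₂ x) ≠ 0} ×ˢ Ioo 1 2) ×ˢ
        Ioo (1 / 4 : ℝ) (1 / 2)) := fun p hv ht => by
    have e : f₂ =ᶠ[𝓝 p] g₁ := by
      filter_upwards [(isOpen_Ioi.preimage sm_v.continuous).mem_nhds hv,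
        (isOpen_Ioi.preimage continuous_snd).mem_nhds ht.1] with q h1 h2 using r1 _ _ _ h1 h2
    have e' : pm J4 (𝓡 4) f₂ c p = _ := (pm_congr e rfl).trans (c3 p (.inl hv.ne'))
    rw [← Pi.mul_apply a, ← tp_pm_ne (o2.ld p ⟨trivial, ht⟩), pm_mul, Pi.mul_apply,
      a4 p ⟨trivial, ht⟩, e', df_Fa, df_Fb hv ht, tp4 t2.dg]
    simp only [mul_ne_zero_iff, st_deriv_ne, mem_prod, mem_Ioo, mem_ofPred_eq]
    refine and_congr (and_congr_right fun _ => ?_) ?_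
    · exact ⟨fun h => ⟨by linarith [h.1.2], by linarith [h.1.1]⟩,
        fun h => ⟨⟨by linarith [h.2], by linarith [h.1]⟩, by norm_num⟩⟩
    · exact ⟨fun h => ⟨by linarith [h.1.1], by linarith [h.1.2]⟩,
        fun h => ⟨⟨by linarith [h.1], by linarith [h.2]⟩, by norm_num⟩⟩
  have sa := union_subset_union (image_mono (f := f₁) sA) (image_mono (f := f₂) sB)
  have e1 := Real.exp_one_gt_d9
  refine ⟨a, c, a1.mono ?_, c1.mono ?_, a2, c2, ?_⟩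
  · rw [interior_K]
    exact fun z hz h => na z (sa hz) (image_mono (prod_mono subset_rfl (subset_univ _)) h)
  · rw [interior_K]
    rintro _ (⟨p, hp, rfl⟩ | ⟨p, hp, rfl⟩) h
    · obtain ⟨q, ⟨-, _, ⟨s, hs, rfl⟩, h1⟩, h2⟩ := (O₁.i_mem (n3 p (sC hp))).1
        ((O₂.i_mem (s2 (O₁.i.map_source (n3 p (sC hp))))).1 h)
      rw [C.oe.inj h2] at h1
      have := Real.exp_le_exp.2 (Real.one_le_exp hs)
      linarith [show Real.exp (Real.exp s) = p.2 from h1, show p.2 ≤ 3 / 2 from hp.2]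
    · obtain ⟨q, ⟨-, h1⟩, h2⟩ := h
      rw [C₂.oe.inj h2] at h1
      have h3 : (1 : ℝ) < p.2 := (sD hp).2
      refine (Real.log_neg (Real.log_pos h3) ?_).not_ge h1
      rw [Real.log_lt_iff_lt_exp (one_pos.trans h3)]
      linarith [hp.1.1.2.2]
  · have s3 : ∀ p ∈ ({x | tp (EE 2) (θ₁ x * θ₂ x) ≠ 0} ×ˢ Ioo (1 : ℝ) 2) ×ˢ Ioo (1 / 4 : ℝ) (1 / 2),
        p.2 ∈ Ioo (0 : ℝ) 1 := fun p hp => sI (Ioo_subset_Icc_self hp.2)
    have k := ((hc.prod (isConnected_Ioo one_lt_two)).prod (isConnected_Ioo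
      (show (1 / 4 : ℝ) < 1 / 2 by norm_num))).image f₂ fun p hp =>
        (o2.ld p ⟨trivial, s3 p hp⟩).contMDiffAt.continuousAt.continuousWithinAt
    refine (congrArg IsConnected (Set.ext fun z => ⟨fun hz => ?_, ?_⟩)).mpr k
    · have h1 := sa (by_contra fun k => hz (by rw [a1.eq_zero k, zero_mul, map_zero]))
      obtain ⟨p, hp, rfl⟩ | ⟨p, hp, rfl⟩ : z ∈ g₁ '' _ ∪ g₂ '' _ :=
        by_contra fun k => hz (by rw [c1.eq_zero k, mul_zero, map_zero])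
      · obtain ⟨x, h, t, h2, h3, e⟩ : ∃ x h t, σ₁ 0 < h ∧ t ∈ Ioo (0 : ℝ) 1 ∧
            (b (p.1.1, σ₁ p.1.2), p.2) = (b (x, h), t) := by
          rcases h1 with ⟨q, hq, e⟩ | ⟨q, hq, e⟩
          · exact ⟨_, _, _, hq.1.2.1, hq.2, oΦ.inj (n3 p (sC hp))
              (O₁.raw.j_mem.2 (.inl (mid _ hq.1.2))) e.symm⟩
          · obtain ⟨h, hh, k⟩ := r4 q hq _ (n3 p (sC hp)) e
            exact ⟨_, _, _, hh.1, hq.2, k⟩
        have h4 : 0 < p.1.2 := m₁.lt_iff_lt.1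
          (h2.trans_eq (congrArg Prod.snd (G.o.inj (congrArg Prod.fst e))).symm)
        have h5 : p.2 ∈ Ioo (0 : ℝ) 1 := (congrArg Prod.snd e : p.2 = t) ▸ h3
        have h6 : f₂ p = g₁ p := r1 _ _ _ h4 h5.1
        exact ⟨p, (key p h4 h5).1 (h6 ▸ hz), h6⟩
      · exact (na _ h1 ⟨_, ⟨trivial, trivial⟩, rfl⟩).elim
    · rintro ⟨p, hp, rfl⟩
      exact (key p (one_pos.trans hp.1.2.1) (s3 p hp)).2 hp

end Crest.Agent.X212.Cyl58
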