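import Crest.Agent.X212.Cyl58.Tr
import Crest.Agent.X212.M.Lit
import Crest.Agent.X212.M.Trn
import Crest.Agent.X212.Line51.Exl
import Crest.Agent.X212.Pj41.Mid

/-!
# X212/Cyl58/Ind: the line half of IND

`mix` : convex combination of two families of connections on one world;
`pull` : transport of a family of connections along a global identification, to any world.
-/

set_option autoImplicit false
set_option linter.unusedSectionVars false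
noncomputable section
open Set Filter Topology Function Matrix
open scoped ContDiff Manifold
open Crest.Agent.R208.F (Ext)

namespace Crest.Agent.X212.Cyl58

open M Cyf70 Pj41
open Line51 (Ln Uni Iso th J1)
open Dr59 (Mp)

section gen

variable {E : Type} [NormedAddCommGroup E] [NormedSpace ℝ E] [FiniteDimensional ℝ E]
  {H : Type} [TopologicalSpace H] {I : ModelWithCorners ℝ E H} [I.Boundaryless]
  {Q : Type} [TopologicalSpace Q] [ChartedSpace H Q] [IsManifold I ∞ Q]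
  {k l : Type} [Fintype k] [Fintype l] {p : Q → Matrix k k ℂ} {q : Q → Matrix l l ℂ}
  {a a' b b' : Q → Ext E} {u : Q → Matrix l k ℂ} {U : Set Q} (r : ℝ)

theorem on_mix (h : Ln.On I ⟨p, a⟩ U) (h' : Ln.On I ⟨p, a'⟩ U) :
    Ln.On I ⟨p, (1 - r) • a + r • a'⟩ U :=
  ⟨h.sm, h.prj, h.tr, (h.sa.smul _).add (h'.sa.smul _), (h.dg.smul _).add (h'.dg.smul _)⟩

theorem iso_mix (h : Iso I ⟨p, a⟩ ⟨q, b⟩ u U) (h' : Iso I ⟨p, a'⟩ ⟨q, b'⟩ u U) :
    Iso I ⟨p, (1 - r) • a + r • a'⟩ ⟨q, (1 - r) • b + r • b'⟩ u U :=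
  ⟨h.toUni, fun x hx => by
    change th I u x + ((1 - r) • b x + r • b' x) = (1 - r) • a x + r • a' x
    rw [← show th I u x + b x = a x from h.par x hx, ← show th I u x + b' x = a' x from h'.par x hx]
    module⟩

theorem iso_re (h : Uni I p q u U) (b : Q → Ext E) : Iso I ⟨p, th I u + b⟩ ⟨q, b⟩ u U :=
  ⟨h, fun _ _ => rfl⟩

theorem iso_ev {L : Ln E Q k} {L' : Ln E Q l} {u' : Q → Matrix l k ℂ} (h : Iso I L L' u U)
    (e : ∀ x ∈ U, u' =ᶠ[𝓝 x] u) : Iso I L L' u' U :=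
  ⟨⟨fun x hx => (h.sm x hx).congr (e x hx), fun x hx => (e x hx).self_of_nhds ▸ h.iso x hx⟩,
    fun x hx => by rw [Line51.th_congr (e x hx)]; exact h.par x hx⟩

end gen

variable {X₀ X X' : Mf 4} {A₀ A A' B κ lam : Type} [Fintype A₀] [Fintype A] [Fintype A'] [Fintype B]
  [Fintype κ] [Fintype lam] {M₀ : Mark X₀ A₀ κ} {M : Mark X A κ} {M' : Mark X' A' κ}

theorem mp_φ (C : Caps M) (c : M.Cl) : Mp X.I (C.Z c).I (C.φ c).source univ (C.φ c) :=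
  ⟨fun _ h => (Orx52.ldp _ h).contMDiffAt, mapsTo_univ _ _⟩

theorem j1_a {W : World M} {N : ML M lam} (Λ : Lns W N) (m c : M.Cl) (p : Prm A) (z : (W.Z c).M) :
    J1 (W.Z c).I (Λ.Λ m c).a p z := fun e he => by
  classical exact (Λ.Λ m c).jAt_a (w := fun _ => e) (.of_fixed he)

section mix

variable {W : World M} {N : ML M lam} (Λ₁ Λ₂ : Lns W N) (m c : M.Cl)

open Classical in
/-- the isometry between the two lines on `Z c` -/
def mw (z : (W.Z c).M) : Matrix lam lam ℂ :=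
  if z ∈ (W.φ c).target then Λ₂.v m c ((W.φ c).symm z) * (Λ₁.v m c ((W.φ c).symm z))ᴴ
  else (Λ₁.Λ m c).p z

theorem mw_φ {x : X.M} (h : x ∈ (W.φ c).source) :
    mw Λ₁ Λ₂ m c (W.φ c x) = Λ₂.v m c x * (Λ₁.v m c x)ᴴ := by
  rw [mw, if_pos ((W.φ c).map_source h), show (W.φ c).symm (W.φ c x) = x from (W.φ c).left_inv h]

theorem uni_mw : Uni (W.Z c).I (Λ₁.Λ m c).p (Λ₂.Λ m c).p (mw Λ₁ Λ₂ m c) univ := by
  classical
  have u1 := Λ₁.uni m c
  have u2 := Λ₂.uni m c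
  suffices h : ∀ z, MSm (W.Z c).I (mw Λ₁ Λ₂ m c) z ∧
      PIso (mw Λ₁ Λ₂ m c z) ((Λ₁.Λ m c).p z) ((Λ₂.Λ m c).p z) from
    ⟨fun z _ => (h z).1, fun z _ => (h z).2⟩
  intro z
  rcases caps_surj W.toCaps z with ⟨x, hx, rfl⟩ | ⟨a, ha, hp, b, rfl⟩
  · have hx' := (W.mem_src c).2 hx
    refine ⟨MSm.of_comp (W.ld hx) (((u1.symm.trans u2).sm x hx').congr ?_),
      mw_φ Λ₁ Λ₂ m c hx' ▸ (u1.symm.trans u2).iso x hx'⟩
    exact eventually_of_mem ((W.φ c).open_source.mem_nhds hx') fun y => mw_φ Λ₁ Λ₂ m c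
  · have h0 : mw Λ₁ Λ₂ m c (W.β c a b 0) = (Λ₁.Λ m c).p (W.β c a b 0) :=
      if_neg fun k => by rw [W.tgt] at k; exact k a ha hp b rfl
    have h1 : ∀ᶠ y in 𝓝 (W.β c a b 0), mw Λ₁ Λ₂ m c y = (Λ₁.Λ m c).p y ∧
        (y ≠ W.β c a b 0 → (Λ₁.Λ m c).p y = (Λ₂.Λ m c).p y) := by
      refine (Line51.ev_cap W.toCaps ha hp b).mono ?_
      rintro _ (rfl | ⟨q, q1, q2, rfl⟩)
      · exact ⟨h0, fun k => (k rfl).elim⟩
      · have hl : M.Lit m.1 c.1 a q.2 := ⟨q2.le, .inl ⟨ha, q1⟩⟩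
        have hs := Line51.j_mem_src W.toCaps ha q1
        refine ⟨?_, fun _ => (Λ₁.p_lit hl).trans (Λ₂.p_lit hl).symm⟩
        rw [mw_φ _ _ _ _ hs, Λ₂.lit m c a q hl, ← Λ₁.lit m c a q hl, (u1.iso _ hs).tgt]
    have h2 : ∃ᶠ y in 𝓝 (W.β c a b 0), y ∈ W.φ c '' (M.sys.cores c.1)ᶜ :=
      mem_closure_iff_frequently.1 (cext_subset_closure W.toCaps (J := {(a, b)}) (by
        rintro _ rfl
        exact ⟨ha, hp, 1, one_pos, fun y _ hr _ => half_not_mem ha _ y hr⟩) (.inr ⟨_, rfl, rfl⟩))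
    have s1 := ((Λ₁.Λ m c).ok 0).sm (W.β c a b 0) trivial
    refine ⟨s1.congr (h1.mono fun _ k => k.1), ?_⟩
    rw [h0, ← mat_cl (v := (Λ₂.Λ m c).p) s1 (((Λ₂.Λ m c).ok 0).sm _ trivial)
      ((h2.and_eventually h1).mono ?_)]
    · exact (((Λ₁.Λ m c).ok 0).prj _ trivial).refl
    · rintro _ ⟨⟨x, hx, rfl⟩, k⟩
      exact k.2 (caps_ne W.toCaps hx ha hp b)

theorem iso_mw {p : Prm A} (hp : p ∈ M.Br c.1) : Iso X.I ⟨N.p, Λ₂.a0 p⟩
    (Ln.pull X.I (W.Z c).I (W.φ c) ⟨(Λ₁.Λ m c).p, th (W.Z c).I (mw Λ₁ Λ₂ m c) + (Λ₂.Λ m c).a p⟩)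
    (Λ₁.v m c) (W.φ c).source := by
  classical
  refine ((Λ₂.iso m c p hp).trans ((iso_re (uni_mw Λ₁ Λ₂ m c) _).symm.pull
    (mp_φ W.toCaps c))).congr (W.φ c).open_source fun x hx => ?_
  simp only [mw_φ Λ₁ Λ₂ m c hx, conjTranspose_mul, conjTranspose_conjTranspose, Matrix.mul_assoc,
    ((Λ₂.uni m c).iso x hx).src, ((Λ₁.uni m c).iso x hx).idem]

/-- the convex combination of two families of connections -/
def mix {σ : ℝ → ℝ} (hσ : ContDiff ℝ ∞ σ) (u₁ u₂ : ℝ) : Lns W N where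
  a0 p := (1 - σ p.1) • Λ₁.a0 (u₁, p.2) + σ p.1 • Λ₂.a0 (u₂, p.2)
  Λ m c :=
    { p := (Λ₁.Λ m c).p
      a p := (1 - σ p.1) • (Λ₁.Λ m c).a (u₁, p.2) +
        σ p.1 • (th (W.Z c).I (mw Λ₁ Λ₂ m c) + (Λ₂.Λ m c).a (u₂, p.2))
      ok p := on_mix _ ((Λ₁.Λ m c).ok _)
        ((iso_re (uni_mw Λ₁ Λ₂ m c) _).symm.on isOpen_univ ((Λ₂.Λ m c).ok _))
      sm k p z := by
        have h (u : ℝ) : ContDiffAt ℝ ∞ (fun p : Prm A => ((u, p.2) : Prm A)) p := by fun_prop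
        have h' : ContDiffAt ℝ ∞ (fun p : Prm A => σ p.1) p := (hσ.comp contDiff_fst).contDiffAt
        exact (((J1.reparam (h u₁) (j1_a Λ₁ m c _ z)).smul (.of_par (contDiffAt_const.sub h'))).add
          (((Line51.j1_fixed ((uni_mw Λ₁ Λ₂ m c).sm_th z trivial) (.of_forall fun _ =>
            Dr59.isDeg_io _)).add (J1.reparam (h u₂) (j1_a Λ₂ m c _ z))).smul (.of_par h'))) _
          ((W.L m c).F0.sm k z) }
  v := Λ₁.v
  ok0 p := on_mix _ (Λ₁.ok0 _) (Λ₂.ok0 _)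
  loc m c u t t' z h := by
    simp only [Pi.add_apply, Pi.smul_apply, Λ₁.loc m c u₁ t t' z h, Λ₂.loc m c u₂ t t' z h]
  iso m c p hp := (iso_mix (σ p.1) (Λ₁.iso m c (u₁, p.2) hp) (iso_mw Λ₁ Λ₂ m c (p := (u₂, p.2)) hp)).of_eq
    (fun _ _ => rfl) (fun _ _ => rfl) (fun _ _ => rfl) fun x _ => by
      change Dr59.pm _ _ _ (_ + _) x = _
      rw [Dr59.pm_add, Dr59.pm_smul, Dr59.pm_smul]; rfl
  neck a p hp h := (iso_mix (σ p.1) (Λ₁.neck a (u₁, p.2) hp h) (Λ₂.neck a (u₂, p.2) hp h)).of_eq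
    (fun _ _ => rfl) (fun x _ => by
      change Dr59.pm _ _ _ (_ + _) x = _
      rw [Dr59.pm_add, Dr59.pm_smul, Dr59.pm_smul]) (fun _ _ => rfl) fun x _ => by
      rw [← add_smul, sub_add_cancel, one_smul]; rfl
  lit := Λ₁.lit

end mix

section pull

variable (I : MId M₀ M B)

theorem cmp_of {b b' : B} (h : M₀.sys.Cmp (I.f b) (I.f b')) : M.sys.Cmp (I.f' b) (I.f' b') := by
  refine Mark.cmp_iff.2 (disjoint_left.2 ?_)
  rintro _ ⟨q, rfl⟩ ⟨q', e⟩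
  rw [← I.jj', ← I.jj'] at e
  exact Mark.not_cmp ⟨_, rfl⟩ ⟨_, I.ψ.injOn (I.sub _ ⟨_, rfl⟩) (I.sub _ ⟨_, rfl⟩) e⟩ h

theorem cmp_iff {b b' : B} : M.sys.Cmp (I.f' b) (I.f' b') ↔ M₀.sys.Cmp (I.f b) (I.f b') :=
  ⟨cmp_of I.symm, cmp_of I⟩

/-- the matched parameter -/
def xt (t : A₀ → ℝ) : A → ℝ := extend I.f' (fun b => t (I.f b)) 0

theorem xt_f (t : A₀ → ℝ) (b : B) : xt I t (I.f' b) = t (I.f b) := I.f'.injective.extend_apply _ _ b

theorem xt_off (t : A₀ → ℝ) {a : A} (h : a ∉ range I.f') : xt I t a = 0 := extend_apply' _ _ _ h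

theorem cell_of {σ : Set A₀} (h : M₀.sys.Cell σ) : M.sys.Cell (I.f' '' (I.f ⁻¹' σ)) := by
  rintro _ ⟨b, hb, rfl⟩ _ ⟨b', hb', rfl⟩ e
  exact cmp_of I (h hb hb' fun k => e (congrArg _ (I.f.injective k)))

/-- the matched cell -/
def xc (c : M₀.Cl) : M.Cl := ⟨_, cell_of I c.2⟩

theorem mem_xc {c : M₀.Cl} {b : B} : I.f' b ∈ (xc I c).1 ↔ I.f b ∈ c.1 :=
  I.f'.injective.mem_set_image

theorem contDiff_xt : ContDiff ℝ ∞ fun p : Prm A₀ => ((p.1, xt I p.2) : Prm A) := by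
  refine contDiff_fst.prodMk (contDiff_pi.2 fun a => ?_)
  by_cases h : a ∈ range I.f'
  · obtain ⟨b, rfl⟩ := h
    simp only [xt_f]; fun_prop
  · simp only [xt_off I _ h]; exact contDiff_const

theorem xt_par {t : A₀ → ℝ} (h : t ∈ M₀.sys.Par) : xt I t ∈ M.sys.Par := by
  refine ⟨fun a => ?_, (cell_of I h.2).mono fun a k => ?_⟩ <;> by_cases e : a ∈ range I.f'
  · obtain ⟨b, rfl⟩ := e
    exact xt_f I t b ▸ h.1 _
  · exact (xt_off I t e).symm ▸ ⟨le_rfl, zero_le_one⟩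
  · obtain ⟨b, rfl⟩ := e
    exact ⟨b, fun k' => k ((xt_f I t b).trans k'), rfl⟩
  · exact (k (xt_off I t e)).elim

theorem xt_br {c : M₀.Cl} {p : Prm A₀} (h : p ∈ M₀.Br c.1) :
    ((p.1, xt I p.2) : Prm A) ∈ M.Br (xc I c).1 :=
  ⟨xt_par I h.1, by rintro _ ⟨b, hb, rfl⟩; exact (xt_f I _ b).trans (h.2 hb)⟩

variable {I} (hI : I.Glob) (hf : Surjective I.f)

include hf in
theorem fr_xc {c : M₀.Cl} {b : B} : I.f' b ∈ M.sys.fr (xc I c).1 ↔ I.f b ∈ M₀.sys.fr c.1 := by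
  refine and_congr (not_congr (mem_xc I)) ⟨fun h a ha => ?_, ?_⟩
  · obtain ⟨b', rfl⟩ := hf a
    exact (cmp_iff I).1 (h _ ((mem_xc I).2 ha))
  · rintro h _ ⟨b', hb, rfl⟩
    exact cmp_of I (h _ hb)

include hI in
theorem xt_eq {t : A₀ → ℝ} {t' : A → ℝ} (h : I.Rel univ t t') : xt I t = t' := by
  funext a
  by_cases e : a ∈ range I.f'
  · obtain ⟨b, rfl⟩ := e
    exact (xt_f I t b).trans (h.eq b).symm
  · rw [xt_off I t e]
    by_contra k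
    have := h.off' a e (Ne.symm k)
    rw [hI.image, disjoint_univ, range_eq_empty_iff] at this
    exact this.false (Classical.arbitrary _, 0)

include hI in
theorem mp_ψ (U : Set X₀.M) : Mp X₀.I X.I U univ I.ψ :=
  ⟨fun x _ => (Orx52.ldp I.ψ (hI.1 ▸ mem_univ x)).contMDiffAt, mapsTo_univ _ _⟩

include hI hf in
theorem exists_Ψ (C₀ : Caps M₀) (C : Caps M) (c : M₀.Cl) :
    ∃ Ψ : (C₀.Z c).M ≃ₘ^∞⟮(C₀.Z c).I, (C.Z (xc I c)).I⟯ (C.Z (xc I c)).M, ∀ x ∈ (C₀.φ c).source,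
      I.ψ x ∈ (C.φ (xc I c)).source ∧ Ψ (C₀.φ c x) = C.φ (xc I c) (I.ψ x) := by
  have h1 : c.1 ⊆ range I.f := fun a _ => hf a
  have h2 : (xc I c).1 ⊆ range I.f' := image_subset_range _ _
  obtain ⟨Ψ, h, -⟩ := tr_glob C₀ C I hI h1 h2 fun _ => (mem_xc I).symm
  exact ⟨Ψ, fun x hx => ⟨(C.mem_src _).2 (mt (cores_iff I h1 h2 (fun _ => (mem_xc I).symm)
    (hI.1 ▸ mem_univ x)).1 ((C₀.mem_src c).1 hx)), h x ((C₀.mem_src c).1 hx)⟩⟩

variable {W : World M} {N₀ : ML M₀ lam} {N : ML M lam} {w : X₀.M → Matrix lam lam ℂ}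
  (h : LId N₀ N I univ w) (Λ : Lns W N) (W₀ : World M₀)

include hI hf h in
/-- transport of a family of connections along a global identification -/
theorem exists_pull : ∃ Λ₀ : Lns W₀ N₀, ∀ u, CId Λ₀ Λ I univ w u u := by
  classical
  choose Ψ h1 h2 using exists_Ψ hI hf W₀.toCaps W.toCaps
  have mΨ : ∀ c, Mp _ _ univ univ (Ψ c) := fun c => ⟨fun z _ => (Ψ c).contMDiff z, mapsTo_univ _ _⟩
  have i0 : ∀ p : Prm A, Iso X₀.I ⟨N₀.p, th X₀.I w + Dr59.pm X₀.I X.I I.ψ (Λ.a0 p)⟩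
      (Ln.pull X₀.I X.I I.ψ ⟨N.p, Λ.a0 p⟩) w univ := fun p => iso_re h.uni _
  refine ⟨{
    a0 p := th X₀.I w + Dr59.pm X₀.I X.I I.ψ (Λ.a0 (p.1, xt I p.2))
    Λ m c :=
      { p z := (Λ.Λ (xc I m) (xc I c)).p (Ψ c z)
        a p := Dr59.pm _ _ (Ψ c) ((Λ.Λ (xc I m) (xc I c)).a (p.1, xt I p.2))
        ok p := ((Λ.Λ _ _).ok _).pull (mΨ c)
        sm k p z := J1.pm (Ψ c).toPartialDiffeomorph trivial
          (J1.reparam (contDiff_xt I).contDiffAt (j1_a Λ _ _ _ _)) _ ((W₀.L m c).F0.sm k z) }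
    v m c x := Λ.v (xc I m) (xc I c) (I.ψ x) * w x
    ok0 p := (i0 _).symm.on isOpen_univ ((Λ.ok0 _).pull (mp_ψ hI _))
    loc m c u t t' z k := Dr59.pm_congr_right (Λ.loc _ _ u _ _ _ fun a ha hz => ?_)
    iso m c p hp := ?_
    neck a p hp k := ?_
    lit m c a q k := ?_ }, fun u t t' k => by obtain rfl := xt_eq hI k; exact i0 _⟩
  · by_cases e : a ∈ range I.f'
    · obtain ⟨b, rfl⟩ := e
      have hb := (fr_xc hf).1 ha
      rw [← I.image_slab] at hz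
      obtain ⟨_, ⟨x, hx, rfl⟩, e⟩ := hz
      rw [← h2 c x ((W₀.mem_src c).2 (Mark.fr_not_mem hb ((M₀.bn _).slab_subset _ hx)))] at e
      exact (xt_f I t b).trans ((k _ hb ⟨x, hx, (Ψ c).injective e⟩).trans (xt_f I t' b).symm)
    · rw [xt_off I _ e, xt_off I _ e]
  · refine (((i0 _).mono (subset_univ _)).trans ((Λ.iso _ _ _ (xt_br I hp)).pull
      ⟨(mp_ψ hI _).sm, h1 c⟩)).of_eq (fun _ _ => rfl) (fun _ _ => rfl)
      (fun x hx => congrArg (Λ.Λ _ _).p (h2 c x hx)) fun x hx => ?_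
    have e : Ψ c ∘ W₀.φ c =ᶠ[𝓝 x] W.φ (xc I c) ∘ I.ψ :=
      eventually_of_mem ((W₀.φ c).open_source.mem_nhds hx) (h2 c)
    exact (Dr59.pm_comp ((Ψ c).mdifferentiable (by simp) _)
      ((Orx52.ldp _ hx).mdifferentiableAt (by simp))).trans ((Dr59.pm_congr e rfl).trans
      (Dr59.pm_comp ((Orx52.ldp _ (h1 c x hx)).mdifferentiableAt (by simp))
        (I.md (hI.1 ▸ mem_univ x))).symm)
  · obtain ⟨b, rfl⟩ := hf a
    have sG : ContMDiff (IC (M₀.bn (I.f b)).Y.I) (IC (M.bn (I.f' b)).Y.I) ∞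
        fun q : (M₀.bn (I.f b)).Y.M × ℝ => (I.g b q.1, q.2) :=
      ((I.g b).contMDiff.comp contMDiff_fst).prodMk contMDiff_snd
    have dG := sG.mdifferentiable (by simp)
    refine iso_ev (((i0 _).pull ⟨fun q _ => (M₀.bn _).oe.contMDiff q, mapsTo_univ _ _⟩).trans
      (((Λ.neck (I.f' b) (p.1, xt I p.2) (xt_par I hp) (k.trans_eq (xt_f I _ b).symm)).pull
        ⟨fun q _ => sG q, fun _ hq => hq⟩).of_eq (fun q _ => congrArg N.p (I.jj b q)) (fun q _ => ?_)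
        (fun q _ => congrArg (·.p q.1) (h.LY b).symm) fun q _ => ?_)) fun q hq => ?_
    · exact (Dr59.pm_comp (I.md (hI.1 ▸ mem_univ _)) (((M₀.bn _).oe.contMDiff q).mdifferentiableAt
        (by simp))).trans ((Dr59.pm_congr (.of_forall (I.jj b)) rfl).trans (Dr59.pm_comp
          (((M.bn _).oe.contMDiff _).mdifferentiableAt (by simp)) (dG q)).symm)
    · refine Eq.trans ?_ (Dr59.pm_comp mdifferentiableAt_fst (dG q)).symm
      change Dr59.pm _ _ _ (N₀.LY (I.f b)).a q = _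
      rw [← h.LY b]
      exact Dr59.pm_comp (md_dif _ _) mdifferentiableAt_fst
    · refine eventually_of_mem ((isOpen_lt (f := fun q : _ × ℝ => |q.2|) (by fun_prop)
        continuous_const).mem_nhds (lt_of_le_of_lt hq (by norm_num : (1 : ℝ) < 3))) fun q' hq' => ?_
      exact (h.m b q' (le_of_lt hq') trivial).symm
  · obtain ⟨b, rfl⟩ := hf a
    have k' : M.Lit (xc I m).1 (xc I c).1 (I.f' b) q.2 := ⟨k.1, k.2.imp (And.imp_left (mem_xc I).2)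
      (And.imp (mem_xc I).2 (fr_xc hf).2)⟩
    change Λ.v _ _ (I.ψ _) * _ = _
    rw [I.jj, Λ.lit _ _ _ (I.g b q.1, q.2) k', h.m b q (k.1.trans (by norm_num)) trivial]

end pull

/-- IND, the line half, on ANY world over the matched walls -/
theorem ind_lns (I : MId M M' B) (hI : I.Glob) {W : World M} {W' : World M'} (u u' : ℝ)
    (W₀ : World (M.res I.f)) (N : ML M lam) (N' : ML M' lam) (w : X.M → Matrix lam lam ℂ)
    (Λ : Lns W N) (Λ' : Lns W' N') (h : LId N N' I univ w) : ∃ Λ₀ : Lns W₀ (N.res I.f),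
      CId Λ₀ Λ (M.resId I.f) univ N.p 0 u ∧ CId Λ₀ Λ' I.res univ w 1 u' ∧
      ∀ s t x, Λ₀.a0 (s, t) x = (1 - Real.smoothTransition s) • Λ₀.a0 (0, t) x +
        Real.smoothTransition s • Λ₀.a0 (1, t) x := by
  obtain ⟨Λ₁, h1⟩ := exists_pull (I := M.resId I.f) ⟨rfl, rfl⟩ surjective_id (LId.res N I.f) Λ W₀
  obtain ⟨Λ₂, h2⟩ := exists_pull (I := I.res) hI surjective_id h.toRes Λ' W₀
  have e0 : ∀ t, (mix Λ₁ Λ₂ Real.smoothTransition.contDiff u u').a0 (0, t) = Λ₁.a0 (u, t) :=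
    fun t => by simp [mix]
  have e1 : ∀ t, (mix Λ₁ Λ₂ Real.smoothTransition.contDiff u u').a0 (1, t) = Λ₂.a0 (u', t) :=
    fun t => by simp [mix]
  exact ⟨mix Λ₁ Λ₂ Real.smoothTransition.contDiff u u', fun t t' k => e0 t ▸ h1 u t t' k,
    fun t t' k => e1 t ▸ h2 u' t t' k, fun s t x => by rw [e0, e1]; rfl⟩

/-- the metric half of IND -/
def IndMet : Prop := ∀ (X X' : Mf 4) (A A' A₀ κ : Type) [Fintype A] [Fintype A'] [Fintype A₀]
  [Fintype κ] (M : Mark X A κ) (M' : Mark X' A' κ) (I : MId M M' A₀)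
  (W : World M) (W' : World M') (u u' : ℝ), I.Glob →
    ∃ W₀ : World (M.res I.f), WId W₀ W (M.resId I.f) univ 0 u ∧ WId W₀ W' I.res univ 1 u' ∧
      ∀ s t x α β, cm (W₀.k (s, t) x) α β = (1 - Real.smoothTransition s) * cm (W₀.k (0, t) x) α β +
        Real.smoothTransition s * cm (W₀.k (1, t) x) α β

theorem indStmt_of (h : IndMet) : IndStmt := fun X X' A A' A₀ κ _ _ _ _ _ _ M M' I W W' u u' hI =>
  let ⟨W₀, h1, h2, h3⟩ := h X X' A A' A₀ κ M M' I W W' u u' hI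
  ⟨W₀, h1, h2, h3, ind_lns I hI u u' W₀⟩

end Crest.Agent.X212.Cyl58
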