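import Crest.Agent.X212.Cyl58.Rec

/-!
# X212/Cyl58/Loc: local maps out of capped regions, closed and compact parts
-/

set_option autoImplicit false
set_option linter.unusedSectionVars false
noncomputable section
open Set Filter Topology Function Metric TopologicalSpace
open scoped ContDiff Manifold

namespace Crest.Agent.X212.Cyl58

open Glue52

section PD

variable {EA HA EB HB : Type*} [NormedAddCommGroup EA] [NormedSpace ℝ EA] [TopologicalSpace HA]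
  [NormedAddCommGroup EB] [NormedSpace ℝ EB] [TopologicalSpace HB] {IA : ModelWithCorners ℝ EA HA}
  {IB : ModelWithCorners ℝ EB HB} {A B : Type*} [TopologicalSpace A] [ChartedSpace HA A]
  [TopologicalSpace B] [ChartedSpace HB B]

theorem isOpen_image_ld {f : A → B} {s : Set A} (hs : IsOpen s)
    (hf : ∀ x ∈ s, IsLocalDiffeomorphAt IA IB ∞ f x) : IsOpen (f '' s) := by
  refine isOpen_iff_mem_nhds.2 ?_
  rintro _ ⟨x, hx, rfl⟩
  obtain ⟨Φ, h1, h2⟩ := hf x hx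
  refine mem_of_superset ((Φ.toOpenPartialHomeomorph.isOpen_image_of_subset_source
    (hs.inter Φ.open_source) inter_subset_right).mem_nhds ⟨x, ⟨hx, h1⟩, (h2 h1).symm⟩) ?_
  rintro _ ⟨y, hy, rfl⟩
  exact ⟨y, hy.1, h2 hy.2⟩

/-- an injective local diffeomorphism on an open set -/
def pdS [Nonempty A] {f : A → B} {s : Set A} (hs : IsOpen s)
    (hf : ∀ x ∈ s, IsLocalDiffeomorphAt IA IB ∞ f x) (hi : InjOn f s) :
    PartialDiffeomorph IA IB A B ∞ where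
  toFun := f
  invFun := invFunOn f s
  source := s
  target := f '' s
  map_source' _ hx := mem_image_of_mem f hx
  map_target' _ hy := invFunOn_mem hy
  left_inv' _ hx := hi.leftInvOn_invFunOn hx
  right_inv' _ hy := invFunOn_eq hy
  open_source := hs
  open_target := isOpen_image_ld hs hf
  contMDiffOn_toFun x hx := (hf x hx).contMDiffAt.contMDiffWithinAt
  contMDiffOn_invFun := by
    rintro _ ⟨x, hx, rfl⟩
    refine (contMDiffAt_of_comp (hf x hx) (contMDiffAt_id.congr_of_eventuallyEq ?_)).contMDiffWithinAt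
    filter_upwards [hs.mem_nhds hx] with z hz using hi.leftInvOn_invFunOn hz

end PD

variable {V V' W : Type} [NormedAddCommGroup V] [NormedSpace ℝ V]
  [NormedAddCommGroup V'] [NormedSpace ℝ V'] [NormedAddCommGroup W] [NormedSpace ℝ W]
  {EN HN : Type*} [NormedAddCommGroup EN] [NormedSpace ℝ EN] [TopologicalSpace HN]
  {IN : ModelWithCorners ℝ EN HN} {N : Type*} [TopologicalSpace N] [ChartedSpace HN N]

/-- the points of a cap of height less than `T` -/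
def Cap.lt {Y : Pc W} (C : Cap V Y) (T : ℝ) : Set C.P.M := (C.c '' (univ ×ˢ Ici T))ᶜ

theorem Cap.isOpen_lt {Y : Pc W} [CompactSpace Y.M] (C : Cap V Y) (T : ℝ) : IsOpen (C.lt T) :=
  (C.isEnd.isClosed T).isOpen_compl

theorem Cap.c_mem_lt {Y : Pc W} (C : Cap V Y) {T : ℝ} {p : Y.M × ℝ} : C.c p ∈ C.lt T ↔ p.2 < T := by
  rw [Cap.lt, mem_compl_iff, C.isEnd.oe.inj.mem_set_image]
  simp

theorem Cap.mem_lt {Y : Pc W} (C : Cap V Y) (T : ℝ) {z : C.P.M} (h : z ∉ range C.c) : z ∈ C.lt T :=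
  fun e => h (image_subset_range _ _ e)

theorem Cap.low_eq {Y : Pc W} (C : Cap V Y) (T : ℝ) : C.low T = (C.c '' (univ ×ˢ Ioi T))ᶜ := by
  ext z
  refine ⟨fun h ⟨p, hp, e⟩ => (h p e).not_gt hp.2, fun h p e => not_lt.1 fun k => h ⟨p, ⟨trivial, k⟩, e⟩⟩

theorem Cap.isCompact_low {Y : Pc W} [CompactSpace Y.M] (C : Cap V Y) (T : ℝ) : IsCompact (C.low T) := by
  refine (C.cpt.union (C.isEnd.oe.isCompact_slab 0 T)).of_isClosed_subset
    (C.low_eq T ▸ (C.isEnd.oe.isOpen_image (isOpen_univ.prod isOpen_Ioi)).isClosed_compl) fun z hz => ?_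
  refine or_iff_not_imp_left.2 fun k => ?_
  obtain ⟨p, hp, rfl⟩ := notMem_compl_iff.1 k
  exact ⟨p, ⟨trivial, le_of_lt hp.2, C.c_mem_low.1 hz⟩, rfl⟩

namespace Capd

variable {X : Pc V} {β : Type} {H : HB W X β} {C : ∀ a, Cap V (H.Y a)} {Z : Pc V'} (D : Capd H C Z)

theorem isOpen_image {s : Set X.M} (hs : IsOpen s) (hU : s ⊆ H.U) : IsOpen (D.φ '' s) :=
  isOpen_image_ld hs fun _ hx => D.ld (hU hx)

theorem cap_lt {a : β} {ε : ℝ} (hε : 0 < ε) {z : (C a).P.M} (hz : z ∈ (C a).lt (Real.log ε)) :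
    z ∉ range (C a).c ∨ ∃ y r, 0 < r ∧ r < ε ∧ (C a).c (y, Real.log r) = z ∧
      D.φ (H.n a (y, sg (H.b a) * r)) = D.cap a z := by
  refine or_iff_not_imp_left.2 fun k => ?_
  obtain ⟨p, rfl⟩ := not_not.1 k
  exact ⟨p.1, _, Real.exp_pos p.2, (Real.lt_log_iff_exp_lt hε).1 ((C a).c_mem_lt.1 hz),
    by rw [Real.log_exp], (D.eq' a p).symm⟩

/-- `V` together with the centres of the caps in `J` -/
def ext (V : Set X.M) (J : Set β) : Set Z.M := D.φ '' V ∪ ⋃ a ∈ J, D.cap a '' (range (C a).c)ᶜ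

theorem φ_mem_ext {V : Set X.M} (hU : V ⊆ H.U) {J : Set β} {x : X.M} (hx : x ∈ H.U) :
    D.φ x ∈ D.ext V J ↔ x ∈ V := by
  refine ⟨?_, fun h => .inl ⟨x, h, rfl⟩⟩
  rintro (⟨y, hy, e⟩ | k)
  · exact D.inj (hU hy) hx e ▸ hy
  · obtain ⟨a, -, z, hz, e⟩ := mem_iUnion₂.1 k
    exact (D.ne_cap hx hz e.symm).elim

theorem cap_mem_ext {V : Set X.M} (hU : V ⊆ H.U) {J : Set β} {a : β} {z : (C a).P.M}
    (hz : z ∉ range (C a).c) : D.cap a z ∈ D.ext V J ↔ a ∈ J := by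
  refine ⟨?_, fun h => .inr (mem_iUnion₂.2 ⟨a, h, z, hz, rfl⟩)⟩
  rintro (⟨y, hy, e⟩ | k)
  · exact (D.ne_cap (hU hy) hz e).elim
  · obtain ⟨a', h, w, -, e⟩ := mem_iUnion₂.1 k
    exact D.disj _ _ _ _ e ▸ h

theorem isOpen_ext {V : Set X.M} (hV : IsOpen V) (hU : V ⊆ H.U) {J : Set β}
    (hJ : ∀ a ∈ J, ∃ ε > 0, H.half a (Ioo 0 ε) ⊆ V) : IsOpen (D.ext V J) := by
  refine isOpen_iff_mem_nhds.2 ?_
  rintro z (k | k)
  · exact mem_of_superset ((D.isOpen_image hV hU).mem_nhds k) subset_union_left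
  obtain ⟨a, ha, w, hw, rfl⟩ := mem_iUnion₂.1 k
  obtain ⟨ε, h0, h⟩ := hJ a ha
  refine mem_of_superset (((D.oe a).isOpen_image ((C a).isOpen_lt (Real.log ε))).mem_nhds
    ⟨w, (C a).mem_lt _ hw, rfl⟩) ?_
  rintro _ ⟨z, hz, rfl⟩
  rcases D.cap_lt h0 hz with e | ⟨y, r, h1, h2, -, e⟩
  · exact .inr (mem_iUnion₂.2 ⟨a, ha, z, e, rfl⟩)
  · exact .inl ⟨_, h (H.mem_half.2 ⟨y, r, ⟨h1, h2⟩, rfl⟩), e⟩

theorem compl_ext {V : Set X.M} (hU : V ⊆ H.U) (J : Set β) : (D.ext V J)ᶜ = D.ext (H.U \ V) Jᶜ := by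
  ext z
  rcases D.surj z with ⟨x, hx, rfl⟩ | ⟨a, w, hw, rfl⟩
  · rw [mem_compl_iff, D.φ_mem_ext hU hx, D.φ_mem_ext sdiff_subset hx]
    exact ⟨fun h => ⟨hx, h⟩, fun h => h.2⟩
  · rw [mem_compl_iff, D.cap_mem_ext hU hw, D.cap_mem_ext sdiff_subset hw, mem_compl_iff]

/-- closed sets that stay away from the other centres -/
theorem isClosed_ext {K : Set X.M} (hK : IsClosed K) {J : Set β}
    (hJ : ∀ a ∉ J, ∃ ε > 0, Disjoint (H.half a (Ioo 0 ε)) K) : IsClosed (D.ext (H.U ∩ K) J) := by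
  rw [← isOpen_compl_iff, D.compl_ext inter_subset_left, sdiff_self_inter]
  refine D.isOpen_ext (H.U.2.sdiff hK) sdiff_subset fun a ha => ?_
  obtain ⟨ε, h0, h⟩ := hJ a ha
  refine ⟨ε, h0, fun x hx => ⟨?_, disjoint_left.1 h hx⟩⟩
  obtain ⟨y, r, hr, rfl⟩ := H.mem_half.1 hx
  exact H.mem a y r hr.1

theorem isCompact_image {K : Set X.M} (hK : IsCompact K) (hU : K ⊆ H.U) : IsCompact (D.φ '' K) :=
  hK.image_of_continuousOn (D.φ.contMDiffOn.continuousOn.mono fun _ hx => D.mem_src (hU hx))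

/-- closed sets with compact part off the thin halves are compact -/
theorem isCompact_of [Finite β] {S : Set Z.M} (hS : IsClosed S) {K : Set X.M} (hK : IsCompact K)
    (hU : K ⊆ H.U) (h : ∀ x ∈ H.U, D.φ x ∈ S → (∀ a, x ∉ H.half a (Ioo 0 1)) → x ∈ K) :
    IsCompact S := by
  refine ((D.isCompact_image hK hU).union (isCompact_iUnion fun a =>
    ((C a).isCompact_low 0).image (D.oe a).continuous)).of_isClosed_subset hS fun z hz => ?_
  rcases D.surj z with ⟨x, hx, rfl⟩ | ⟨a, w, hw, rfl⟩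
  · by_cases k : ∃ a, x ∈ H.half a (Ioo 0 1)
    · obtain ⟨a, ha⟩ := k
      obtain ⟨y, r, hr, rfl⟩ := H.mem_half.1 ha
      exact .inr (mem_iUnion.2 ⟨a, _, (C a).c_mem_low.2 (Real.log_neg hr.1 hr.2).le,
        (D.eq a y r hr.1).symm⟩)
    · exact .inl ⟨x, h x hx hz fun a e => k ⟨a, e⟩, rfl⟩
  · exact .inr (mem_iUnion.2 ⟨a, w, (C a).mem_low _ hw, rfl⟩)

theorem ext_eq_part [∀ a, Nonempty (H.Y a).M] {O : Set X.M}
    (hh : ∀ a, H.half a (Ioi 0) ⊆ O ∨ Disjoint (H.half a (Ioi 0)) O) :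
    D.part O = D.ext (H.U ∩ O) {a | H.half a (Ioi 0) ⊆ O} := by
  ext z
  rcases D.surj z with ⟨x, hx, rfl⟩ | ⟨a, w, hw, rfl⟩
  · rw [D.φ_mem_part hx, D.φ_mem_ext inter_subset_left hx]
    exact ⟨fun h => ⟨hx, h⟩, fun h => h.2⟩
  · rw [D.cap_mem_ext inter_subset_left hw]
    exact ⟨fun h => (hh a).resolve_right fun k => D.cap_not_mem_part k w h, fun h => D.cap_mem_part h w⟩

/-- connected sets with their caps -/
theorem isPreconnected_part [∀ a, Nonempty (H.Y a).M] [∀ a, PreconnectedSpace (C a).P.M] {O : Set X.M}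
    (hO : IsPreconnected ((H.U : Set X.M) ∩ O)) : IsPreconnected (D.part O) := by
  have h0 : IsPreconnected (D.φ '' (H.U ∩ O)) :=
    hO.image _ (D.φ.contMDiffOn.continuousOn.mono fun x hx => D.mem_src hx.1)
  rcases eq_empty_or_nonempty {a | H.half a (Ioi 0) ⊆ O} with e | ⟨a, ha⟩
  · simpa [part, e] using h0
  have key : ∀ a, H.half a (Ioi 0) ⊆ O → ∃ z ∈ D.φ '' (H.U ∩ O), z ∈ range (D.cap a) := fun a ha =>
    ⟨_, ⟨_, ⟨H.mem a _ _ one_pos, ha (H.mem_half.2 ⟨_, _, mem_Ioi.2 one_pos, rfl⟩)⟩,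
      D.eq a (Classical.arbitrary _) 1 one_pos⟩, _, rfl⟩
  obtain ⟨z₀, hz₀, -⟩ := key a ha
  refine isPreconnected_of_forall z₀ ?_
  rintro z (k | k)
  · exact ⟨_, subset_union_left, hz₀, k, h0⟩
  · obtain ⟨a', ha', k⟩ := mem_iUnion₂.1 k
    obtain ⟨z₁, k1, k2⟩ := key a' ha'
    exact ⟨_, union_subset_union_right _ (subset_biUnion_of_mem (u := fun a => range (D.cap a)) ha'),
      .inl hz₀, .inr k, h0.union z₁ k1 k2 (isPreconnected_range (D.oe a').continuous)⟩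

/-- LOCAL maps out of a capped region -/
theorem exists_pd [Nonempty X.M] {V : Set X.M} (hV : IsOpen V) (hU : V ⊆ H.U) {J : Set β}
    (hJ : ∀ a ∈ J, ∃ ε > 0, H.half a (Ioo 0 ε) ⊆ V) {g0 : X.M → N} {g : ∀ a, (C a).P.M → N}
    (l0 : ∀ x ∈ V, IsLocalDiffeomorphAt X.I IN ∞ g0 x) (i0 : InjOn g0 V)
    (l1 : ∀ a ∈ J, ∀ z ∉ range (C a).c, IsLocalDiffeomorphAt (C a).P.I IN ∞ (g a) z)
    (i1 : ∀ a ∈ J, InjOn (g a) (range (C a).c)ᶜ)
    (hc : ∀ a ∈ J, ∀ y r, 0 < r → H.n a (y, sg (H.b a) * r) ∈ V →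
      g a ((C a).c (y, Real.log r)) = g0 (H.n a (y, sg (H.b a) * r)))
    (h1 : ∀ a ∈ J, ∀ z ∉ range (C a).c, ∀ x ∈ V, g0 x ≠ g a z)
    (h2 : ∀ a ∈ J, ∀ a' ∈ J, ∀ z ∉ range (C a).c, ∀ w ∉ range (C a').c, g a z = g a' w → a = a') :
    ∃ Ψ : PartialDiffeomorph Z.I IN Z.M N ∞, Ψ.source = D.ext V J ∧
      Ψ.target = g0 '' V ∪ ⋃ a ∈ J, g a '' (range (C a).c)ᶜ ∧ (∀ x ∈ V, Ψ (D.φ x) = g0 x) ∧
      ∀ a ∈ J, ∀ z, D.cap a z ∈ D.ext V J → Ψ (D.cap a z) = g a z := by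
  classical
  have : Nonempty Z.M := ⟨D.φ (Classical.arbitrary _)⟩
  let F : Z.M → N := fun z => if z ∈ D.φ.target then g0 (D.φ.symm z) else D.lift g0 g z
  have F0 : ∀ x ∈ H.U, F (D.φ x) = g0 x := fun x hx => by
    simp only [F, if_pos (D.φ.map_source (D.mem_src hx)), D.symm_φ hx]
  have F1 : ∀ a, ∀ z ∉ range (C a).c, F (D.cap a z) = g a z := fun a z hz =>
    (if_neg fun k => by
      obtain ⟨x, hx, e⟩ := D.mem_tgt.1 k
      exact D.ne_cap hx hz e).trans (D.lift_cap g0 g a z)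
  have F2 : ∀ a ∈ J, ∀ z, D.cap a z ∈ D.ext V J → F (D.cap a z) = g a z := fun a ha z hz => by
    by_cases e : z ∈ range (C a).c
    · obtain ⟨p, rfl⟩ := e
      have k := H.mem a p.1 _ (Real.exp_pos p.2)
      rw [D.eq'] at hz ⊢
      rw [F0 _ k, ← hc a ha _ _ (Real.exp_pos _) ((D.φ_mem_ext hU k).1 hz), Real.log_exp]
    · exact F1 a z e
  have ho := D.isOpen_ext hV hU hJ
  refine ⟨pdS (f := F) ho ?_ ?_, rfl, Subset.antisymm ?_ ?_, fun x hx => F0 x (hU hx), F2⟩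
  · rintro z (⟨x, hx, rfl⟩ | k)
    · refine ld_of_comp (D.ld (hU hx)) (ld_congr (l0 x hx) ?_)
      filter_upwards [H.U.2.mem_nhds (hU hx)] with y hy using F0 y hy
    · obtain ⟨a, ha, w, hw, rfl⟩ := mem_iUnion₂.1 k
      refine ld_of_comp ((D.oe a).loc w) (ld_congr (l1 a ha w hw) ?_)
      filter_upwards [(ho.preimage (D.oe a).continuous).mem_nhds (.inr k)] with y hy using F2 a ha y hy
  · rintro z (⟨x, hx, rfl⟩ | k) z' (⟨x', hx', rfl⟩ | k') e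
    · rw [F0 x (hU hx), F0 x' (hU hx')] at e
      rw [i0 hx hx' e]
    · obtain ⟨a, ha, w, hw, rfl⟩ := mem_iUnion₂.1 k'
      rw [F0 x (hU hx), F1 a w hw] at e
      exact (h1 a ha w hw x hx e).elim
    · obtain ⟨a, ha, w, hw, rfl⟩ := mem_iUnion₂.1 k
      rw [F0 x' (hU hx'), F1 a w hw] at e
      exact (h1 a ha w hw x' hx' e.symm).elim
    · obtain ⟨a, ha, w, hw, rfl⟩ := mem_iUnion₂.1 k
      obtain ⟨a', ha', w', hw', rfl⟩ := mem_iUnion₂.1 k'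
      rw [F1 a w hw, F1 a' w' hw'] at e
      obtain rfl := h2 a ha a' ha' w hw w' hw' e
      rw [i1 a ha hw hw' e]
  · rintro _ ⟨z, ⟨x, hx, rfl⟩ | k, rfl⟩
    · exact .inl ⟨x, hx, (F0 x (hU hx)).symm⟩
    · obtain ⟨a, ha, w, hw, rfl⟩ := mem_iUnion₂.1 k
      exact .inr (mem_iUnion₂.2 ⟨a, ha, w, hw, (F1 a w hw).symm⟩)
  · rintro _ (⟨x, hx, rfl⟩ | k)
    · exact ⟨_, .inl ⟨x, hx, rfl⟩, F0 x (hU hx)⟩
    · obtain ⟨a, ha, w, hw, rfl⟩ := mem_iUnion₂.1 k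
      exact ⟨_, .inr (mem_iUnion₂.2 ⟨a, ha, w, hw, rfl⟩), F1 a w hw⟩

end Capd

end Crest.Agent.X212.Cyl58
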