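import Crest.Agent.X212.Cyl58.Gr

/-!
# X212/Cyl58/ME: manifolds with product ends and junction graphs

* `IsEnd IY IM j` : `j : Y × ℝ → M` is an outgoing end (`t → +∞` leaves every compact set);
* `ME V W` : an open manifold with finitely many disjoint ends and compact core;
* `JG V W ι κ` : manifolds with ends and junctions `j (y, t) ∼ j' (f y, -t)`;
  `G.X` the glued manifold, `G.inc`, `G.neck e`, `G.me` (the unused ends), `G.compactSpace`.
-/

set_option autoImplicit false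
set_option linter.unusedSectionVars false
noncomputable section
open Set Filter Topology Function
open scoped ContDiff Manifold

namespace Crest.Agent.X212.Cyl58

open Glue52

section End

variable {EY HY EM HM EN HN : Type*}
  [NormedAddCommGroup EY] [NormedSpace ℝ EY] [TopologicalSpace HY]
  [NormedAddCommGroup EM] [NormedSpace ℝ EM] [TopologicalSpace HM]
  [NormedAddCommGroup EN] [NormedSpace ℝ EN] [TopologicalSpace HN]
  {IY : ModelWithCorners ℝ EY HY} {IM : ModelWithCorners ℝ EM HM} {IN : ModelWithCorners ℝ EN HN}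
  {Y M N : Type*} [TopologicalSpace Y] [ChartedSpace HY Y] [TopologicalSpace M]
  [ChartedSpace HM M] [TopologicalSpace N] [ChartedSpace HN N]

/-- the reflection of the line -/
def negD : ℝ ≃ₘ^∞⟮𝓘(ℝ, ℝ), 𝓘(ℝ, ℝ)⟯ ℝ where
  toEquiv := Equiv.neg ℝ
  contMDiff_toFun := contDiff_neg.contMDiff
  contMDiff_invFun := contDiff_neg.contMDiff

/-- translation of the line -/
def addD (c : ℝ) : ℝ ≃ₘ^∞⟮𝓘(ℝ, ℝ), 𝓘(ℝ, ℝ)⟯ ℝ where
  toEquiv := Equiv.addRight c
  contMDiff_toFun := (contDiff_id.add contDiff_const).contMDiff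
  contMDiff_invFun := (contDiff_id.add contDiff_const).contMDiff

theorem isOE_neg : IsOE 𝓘(ℝ, ℝ) 𝓘(ℝ, ℝ) (fun t : ℝ => -t) := IsOE.of_diffeo negD

theorem isOE_add (c : ℝ) : IsOE 𝓘(ℝ, ℝ) 𝓘(ℝ, ℝ) (fun t : ℝ => t + c) := IsOE.of_diffeo (addD c)

/-- `(y, t) ↦ (f y, -t)` -/
theorem isOE_flip (f : Y ≃ₘ^∞⟮IY, IN⟯ N) :
    IsOE (IY.prod 𝓘(ℝ, ℝ)) (IN.prod 𝓘(ℝ, ℝ)) (fun p : Y × ℝ => (f p.1, -p.2)) :=
  (IsOE.of_diffeo f).prodMap isOE_neg

variable (IY IM) in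
/-- an outgoing product end -/
structure IsEnd (j : Y × ℝ → M) : Prop where
  oe : IsOE (IY.prod 𝓘(ℝ, ℝ)) IM j
  cl : IsClosed (j '' (univ ×ˢ Ici 0))

/-- compact slabs of a neck -/
theorem IsOE.isCompact_slab [CompactSpace Y] {j : Y × ℝ → M} (h : IsOE (IY.prod 𝓘(ℝ, ℝ)) IM j)
    (a b : ℝ) : IsCompact (j '' (univ ×ˢ Icc a b)) :=
  (isCompact_univ.prod isCompact_Icc).image h.continuous

theorem IsEnd.isClosed_image {j : Y × ℝ → M} (h : IsEnd IY IM j) {s : Set (Y × ℝ)}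
    (hs : IsClosed s) (h0 : s ⊆ univ ×ˢ Ici 0) : IsClosed (j '' s) := by
  obtain ⟨u, hu, rfl⟩ := h.oe.isOpenEmbedding.isInducing.isClosed_iff.1 hs
  have : j '' (j ⁻¹' u) = u ∩ j '' (univ ×ˢ Ici 0) := by
    refine Subset.antisymm ?_ ?_
    · rintro _ ⟨p, hp, rfl⟩
      exact ⟨hp, p, h0 hp, rfl⟩
    · rintro _ ⟨hp, p, -, rfl⟩
      exact ⟨p, hp, rfl⟩
  rw [this]
  exact hu.inter h.cl

theorem IsEnd.isClosed [CompactSpace Y] [T2Space M] {j : Y × ℝ → M} (h : IsEnd IY IM j) (T : ℝ) :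
    IsClosed (j '' (univ ×ˢ Ici T)) := by
  have h1 : (univ ×ˢ Ici T : Set (Y × ℝ)) = univ ×ˢ Icc T 0 ∪ univ ×ˢ Ici (max T 0) := by
    ext p
    simp only [mem_prod, mem_univ, mem_Ici, true_and, mem_union, mem_Icc, max_le_iff]
    constructor
    · intro hp
      rcases le_total p.2 0 with h | h
      exacts [.inl ⟨hp, h⟩, .inr ⟨hp, h⟩]
    · rintro (h | h)
      exacts [h.1, h.1]
  rw [h1, image_union]
  exact (h.oe.isCompact_slab T 0).isClosed.union (h.isClosed_image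
    (isClosed_univ.prod isClosed_Ici) (prod_mono Subset.rfl (Ici_subset_Ici.2 (le_max_right _ _))))

/-- an end is still an end after a diffeomorphism of the cross-section -/
theorem IsEnd.reparam {j : Y × ℝ → M} (h : IsEnd IY IM j) (f : N ≃ₘ^∞⟮IN, IY⟯ Y) :
    IsEnd IN IM (fun p : N × ℝ => j (f p.1, p.2)) := by
  refine ⟨h.oe.comp ((IsOE.of_diffeo f).prodMap IsOE.id), ?_⟩
  convert h.cl using 1
  ext x
  constructor
  · rintro ⟨p, hp, rfl⟩
    exact ⟨_, ⟨mem_univ _, hp.2⟩, rfl⟩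
  · rintro ⟨p, hp, rfl⟩
    exact ⟨(f.symm p.1, p.2), ⟨mem_univ _, hp.2⟩, by simp⟩

/-- an end is still an end after a translation -/
theorem IsEnd.shift [CompactSpace Y] [T2Space M] {j : Y × ℝ → M} (h : IsEnd IY IM j) (c : ℝ) :
    IsEnd IY IM (fun p : Y × ℝ => j (p.1, p.2 + c)) := by
  refine ⟨h.oe.comp (IsOE.id.prodMap (isOE_add c)), ?_⟩
  convert h.isClosed c using 1
  ext x
  constructor
  · rintro ⟨p, hp, rfl⟩
    exact ⟨(p.1, p.2 + c), ⟨mem_univ _, show c ≤ p.2 + c from le_add_of_nonneg_left hp.2⟩, rfl⟩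
  · rintro ⟨p, hp, rfl⟩
    exact ⟨(p.1, p.2 - c), ⟨mem_univ _, show 0 ≤ p.2 - c from sub_nonneg.2 hp.2⟩, by simp⟩

end End

variable {V W : Type} [NormedAddCommGroup V] [NormedSpace ℝ V] [NormedAddCommGroup W]
  [NormedSpace ℝ W]

/-- the cylinder over a piece -/
abbrev cyl (Y : Pc W) : Pc (W × ℝ) :=
  Pc.of (Y.I.prod 𝓘(ℝ, ℝ)) (Y.M × ℝ) (Y.L.prodCongr (ContinuousLinearEquiv.refl ℝ ℝ))

variable (V W) in
/-- a manifold with finitely many outgoing product ends and compact core -/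
structure ME : Type 1 where
  P : Pc V
  [t2 : T2Space P.M]
  [sc : SecondCountableTopology P.M]
  α : Type
  [fin : Finite α]
  Y : α → Pc W
  [cY : ∀ a, CompactSpace (Y a).M]
  j : ∀ a, (Y a).M × ℝ → P.M
  isEnd : ∀ a, IsEnd (Y a).I P.I (j a)
  disj : ∀ a b p q, j a p = j b q → a = b
  cpt : IsCompact (⋃ a, j a '' (univ ×ˢ Ioi 0))ᶜ

attribute [instance] ME.t2 ME.sc ME.fin ME.cY

namespace ME

variable (M : ME V W)

theorem oe (a : M.α) : IsOE ((M.Y a).I.prod 𝓘(ℝ, ℝ)) M.P.I (M.j a) := (M.isEnd a).oe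

theorem isEmbedding_slice (a : M.α) (t : ℝ) : IsEmbedding fun y : (M.Y a).M => M.j a (y, t) :=
  (M.oe a).isOpenEmbedding.isEmbedding.comp (isEmbedding_prodMkLeft t)

instance (a : M.α) : T2Space (M.Y a).M := (M.isEmbedding_slice a 0).t2Space

instance (a : M.α) : SecondCountableTopology (M.Y a).M :=
  (M.isEmbedding_slice a 0).secondCountableTopology

/-- the part of `M` below height `T` -/
def core (T : ℝ) : Set M.P.M := (⋃ a, M.j a '' (univ ×ˢ Ioi T))ᶜ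

theorem mem_core {T : ℝ} {x : M.P.M} : x ∈ M.core T ↔ ∀ a p, M.j a p = x → p.2 ≤ T := by
  simp only [core, mem_compl_iff, mem_iUnion, not_exists]
  refine forall_congr' fun a => ⟨fun h p hp => not_lt.1 fun h' => h ⟨p, ⟨mem_univ _, h'⟩, hp⟩, ?_⟩
  rintro h ⟨p, hp, e⟩
  exact (h p e).not_gt hp.2

theorem j_mem_core {T : ℝ} {a : M.α} {p : (M.Y a).M × ℝ} : M.j a p ∈ M.core T ↔ p.2 ≤ T := by
  refine M.mem_core.trans ⟨fun h => h a p rfl, fun h b q e => ?_⟩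
  obtain rfl := M.disj _ _ _ _ e
  rwa [(M.oe b).inj e]

theorem not_mem_core {T : ℝ} {x : M.P.M} (h : x ∉ M.core T) : ∃ a p, T < p.2 ∧ M.j a p = x := by
  rw [M.mem_core] at h
  push Not at h
  obtain ⟨a, p, e, hp⟩ := h
  exact ⟨a, p, hp, e⟩

theorem isClosed_core (T : ℝ) : IsClosed (M.core T) :=
  (isOpen_iUnion fun a => (M.oe a).isOpen_image (isOpen_univ.prod isOpen_Ioi)).isClosed_compl

theorem core_mono {S T : ℝ} (h : S ≤ T) : M.core S ⊆ M.core T := fun _ hx =>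
  M.mem_core.2 fun a p e => (M.mem_core.1 hx a p e).trans h

theorem isCompact_core (T : ℝ) : IsCompact (M.core T) := by
  refine (M.cpt.union (isCompact_iUnion fun a => (M.oe a).isCompact_slab 0 T)).of_isClosed_subset
    (M.isClosed_core T) fun x hx => ?_
  by_cases h : x ∈ M.core 0
  · exact .inl h
  · obtain ⟨a, p, hp, rfl⟩ := M.not_mem_core h
    exact .inr (mem_iUnion.2 ⟨a, p, ⟨mem_univ _, hp.le, M.j_mem_core.1 hx⟩, rfl⟩)

/-- without ends the manifold is closed -/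
theorem compactSpace [IsEmpty M.α] : CompactSpace M.P.M :=
  ⟨by simpa using M.cpt⟩

end ME

variable (V W) in
/-- a junction graph: the end `s e` is glued to the end `t e` by `j (y, t) ∼ j' (f y, -t)` -/
structure JG (ι κ : Type) : Type 1 where
  M : ι → ME V W
  s : κ → Σ i, (M i).α
  t : κ → Σ i, (M i).α
  s_inj : Injective s
  t_inj : Injective t
  s_ne_t : ∀ e e', s e ≠ t e'
  f : ∀ e, ((M (s e).1).Y (s e).2).M ≃ₘ^∞⟮((M (s e).1).Y (s e).2).I, ((M (t e).1).Y (t e).2).I⟯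
    ((M (t e).1).Y (t e).2).M

namespace JG

variable {ι κ : Type} (G : JG V W ι κ)

/-- all ends of all pieces -/
abbrev En : Type := Σ i, (G.M i).α

/-- the cross-section of an end -/
abbrev Y (a : G.En) : Pc W := (G.M a.1).Y a.2

/-- the end itself -/
abbrev j (a : G.En) : (G.Y a).M × ℝ → (G.M a.1).P.M := (G.M a.1).j a.2

theorem en_eq {a b : G.En} {p : (G.Y a).M × ℝ} {q : (G.Y b).M × ℝ}
    (h : (⟨a.1, G.j a p⟩ : Σ i, (G.M i).P.M) = ⟨b.1, G.j b q⟩) : a = b := by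
  obtain ⟨i, a⟩ := a
  obtain ⟨k, b⟩ := b
  obtain rfl : i = k := congrArg Sigma.fst h
  rw [(G.M i).disj a b p q (sigma_mk_injective (β := fun i => (G.M i).P.M) h)]

/-- the underlying graph of manifolds -/
def gr : Gr V (W × ℝ) ι κ where
  P i := (G.M i).P
  A e := cyl (G.Y (G.s e))
  s e := (G.s e).1
  t e := (G.t e).1
  j0 e := G.j (G.s e)
  j1 e p := G.j (G.t e) (G.f e p.1, -p.2)
  o0 e := (G.M _).oe _
  o1 e := ((G.M _).oe _).comp (isOE_flip (G.f e))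
  d00 _ _ _ _ h := G.s_inj (G.en_eq h)
  d11 _ _ _ _ h := G.t_inj (G.en_eq h)
  d01 _ _ _ _ h := G.s_ne_t _ _ (G.en_eq h)
  cl e := by
    refine isClosed_graph ((G.M _).oe _).isOpenEmbedding.isEmbedding
      (((G.M _).oe _).comp (isOE_flip (G.f e))).isOpenEmbedding.isEmbedding
      (s := univ ×ˢ Ici 0) (t := univ ×ˢ Iic 0) ?_ ((G.M _).isEnd _).cl ?_
    · rw [← prod_union, union_comm, Iic_union_Ici, univ_prod_univ]
    · convert ((G.M (G.t e).1).isEnd (G.t e).2).cl using 1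
      ext x
      constructor
      · rintro ⟨p, hp, rfl⟩
        exact ⟨(G.f e p.1, -p.2), ⟨mem_univ _, show 0 ≤ -p.2 from neg_nonneg.2 hp.2⟩, rfl⟩
      · rintro ⟨p, hp, rfl⟩
        exact ⟨((G.f e).symm p.1, -p.2), ⟨mem_univ _, show -p.2 ≤ 0 from neg_nonpos.2 hp.2⟩,
          by simp⟩
  fin i := by
    have h : {a : G.En | a.1 = i}.Finite :=
      (finite_range (Sigma.mk (β := fun i => (G.M i).α) i)).subset (by
        rintro ⟨k, a⟩ rfl
        exact ⟨a, rfl⟩)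
    exact (h.preimage G.s_inj.injOn).union (h.preimage G.t_inj.injOn)

/-- the glued manifold -/
abbrev X : Type := G.gr.M

instance : T2Space G.X :=
  have : ∀ i, T2Space (G.gr.P i).M := fun i => (G.M i).t2
  inferInstance

instance [Countable ι] : SecondCountableTopology G.X :=
  have : ∀ i, SecondCountableTopology (G.gr.P i).M := fun i => (G.M i).sc
  inferInstance

/-- the map of the `i`-th piece -/
def inc (i : ι) (p : (G.M i).P.M) : G.X := G.gr.inc i p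

/-- the neck of a junction -/
def neck (e : κ) (p : (G.Y (G.s e)).M × ℝ) : G.X := G.gr.neck e p

theorem surj (x : G.X) : ∃ i p, G.inc i p = x := G.gr.surj x

theorem ld (i : ι) : IsLocalDiffeomorph (G.M i).P.I 𝓘(ℝ, V) ∞ (G.inc i) := G.gr.ld i

theorem continuous_inc (i : ι) : Continuous (G.inc i) := G.gr.continuous_inc i

theorem isOE_inc {i : ι} (h : ∀ e, (G.s e).1 = i → (G.t e).1 ≠ i) :
    IsOE (G.M i).P.I 𝓘(ℝ, V) (G.inc i) := G.gr.isOE_inc h

theorem isOE_neck (e : κ) : IsOE ((G.Y (G.s e)).I.prod 𝓘(ℝ, ℝ)) 𝓘(ℝ, V) (G.neck e) :=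
  G.gr.isOE_neck e

theorem disjoint_neck {e e' : κ} (h : e ≠ e') : Disjoint (range (G.neck e)) (range (G.neck e')) :=
  G.gr.disjoint_neck h

theorem inc_s (e : κ) (p : (G.Y (G.s e)).M × ℝ) : G.inc _ (G.j (G.s e) p) = G.neck e p := rfl

theorem inc_t (e : κ) (p : (G.Y (G.s e)).M × ℝ) :
    G.inc _ (G.j (G.t e) (G.f e p.1, -p.2)) = G.neck e p := G.gr.inc_j1 e p

theorem inc_t' (e : κ) (q : (G.Y (G.t e)).M × ℝ) :
    G.inc _ (G.j (G.t e) q) = G.neck e ((G.f e).symm q.1, -q.2) := by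
  rw [← G.inc_t]; simp

theorem inc_eq_neck {i : ι} {p : (G.M i).P.M} {e : κ} {a : (G.Y (G.s e)).M × ℝ} :
    G.inc i p = G.neck e a ↔ (⟨i, p⟩ : Σ i, (G.M i).P.M) = ⟨_, G.j (G.s e) a⟩ ∨
      (⟨i, p⟩ : Σ i, (G.M i).P.M) = ⟨_, G.j (G.t e) (G.f e a.1, -a.2)⟩ := G.gr.inc_eq_neck

theorem eq_of_inc_eq {i k : ι} {p : (G.M i).P.M} {q : (G.M k).P.M} (h : G.inc i p = G.inc k q)
    (hp : ∀ e a, G.inc i p ≠ G.neck e a) : (⟨i, p⟩ : Σ i, (G.M i).P.M) = ⟨k, q⟩ :=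
  G.gr.eq_of_inc_eq h hp

/-- an end that is not used by a junction -/
def Free (a : G.En) : Prop := (∀ e, G.s e ≠ a) ∧ ∀ e, G.t e ≠ a

theorem free_ne_neck {a : G.En} (ha : G.Free a) (p : (G.Y a).M × ℝ) (e : κ)
    (q : (G.Y (G.s e)).M × ℝ) : G.inc _ (G.j a p) ≠ G.neck e q := fun h => by
  rcases G.inc_eq_neck.1 h with h | h
  exacts [ha.1 e (G.en_eq h).symm, ha.2 e (G.en_eq h).symm]

theorem isEnd_free {a : G.En} (ha : G.Free a) :
    IsEnd (G.Y a).I 𝓘(ℝ, V) (fun p => G.inc _ (G.j a p)) := by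
  refine ⟨⟨fun p q h => ?_, fun p => ld_comp (g := G.inc _) (G.ld _ _) (((G.M _).oe _).loc p)⟩, ?_⟩
  · exact ((G.M _).oe _).inj (sigma_mk_injective (β := fun i => (G.M i).P.M)
      (G.eq_of_inc_eq h (G.free_ne_neck ha p)))
  · rw [show (fun p => G.inc _ (G.j a p)) = G.inc _ ∘ G.j a from rfl, image_comp]
    refine G.gr.isClosed_image ((G.M _).isEnd _).cl ?_
    rintro _ ⟨p, -, rfl⟩
    exact G.free_ne_neck ha p

/-- every point lies in the core of a piece or on a free end -/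
theorem core_or_free (x : G.X) : (∃ i, ∃ p ∈ (G.M i).core 0, G.inc i p = x) ∨
    ∃ a p, G.Free a ∧ 0 < p.2 ∧ G.inc _ (G.j a p) = x := by
  obtain ⟨i, p, rfl⟩ := G.surj x
  by_cases h : p ∈ (G.M i).core 0
  · exact .inl ⟨i, p, h, rfl⟩
  obtain ⟨a, q, hq, rfl⟩ := (G.M i).not_mem_core h
  by_cases hf : G.Free ⟨i, a⟩
  · exact .inr ⟨⟨i, a⟩, q, hf, hq, rfl⟩
  left
  have key : ∀ (b : G.En) (q : (G.Y b).M × ℝ), 0 < q.2 → ¬ G.Free b →
      ∃ i, ∃ p ∈ (G.M i).core 0, G.inc i p = G.inc _ (G.j b q) := by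
    intro b q hq hf
    simp only [Free, not_and_or, not_forall, not_not] at hf
    rcases hf with ⟨e, rfl⟩ | ⟨e, rfl⟩
    · exact ⟨_, _, (G.M _).j_mem_core.2 (neg_nonpos.2 hq.le), G.inc_t e q⟩
    · exact ⟨_, _, (G.M _).j_mem_core.2 (neg_nonpos.2 hq.le), (G.inc_t' e q).symm⟩
  exact key ⟨i, a⟩ q hq hf

/-- the glued manifold with its unused ends -/
def me [Finite ι] : ME V W where
  P := Pc.of 𝓘(ℝ, V) G.X (ContinuousLinearEquiv.refl ℝ V)
  α := {a : G.En // G.Free a}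
  Y a := G.Y a.1
  j a p := G.inc _ (G.j a.1 p)
  isEnd a := G.isEnd_free a.2
  disj a b p _ h := Subtype.ext (G.en_eq (G.eq_of_inc_eq h (G.free_ne_neck a.2 p)))
  cpt := by
    refine (isCompact_iUnion fun i => ((G.M i).isCompact_core 0).image
      (G.continuous_inc i)).of_isClosed_subset (isOpen_iUnion fun a =>
        (G.isEnd_free a.2).oe.isOpen_image (isOpen_univ.prod isOpen_Ioi)).isClosed_compl
      fun x hx => ?_
    rcases G.core_or_free x with ⟨i, p, hp, rfl⟩ | ⟨a, p, ha, hp, rfl⟩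
    · exact mem_iUnion.2 ⟨i, p, hp, rfl⟩
    · exact (hx (mem_iUnion.2 ⟨⟨a, ha⟩, p, ⟨mem_univ _, hp⟩, rfl⟩)).elim

/-- when all ends are used the glued manifold is closed -/
theorem compactSpace [Finite ι] (h : ∀ a, ¬ G.Free a) : CompactSpace G.X :=
  have : IsEmpty G.me.α := ⟨fun a => h a.1 a.2⟩
  G.me.compactSpace

/-- maps out of the glued manifold -/
def lift {Z : Sort*} (g : ∀ i, (G.M i).P.M → Z)
    (h : ∀ e p, g _ (G.j (G.s e) p) = g _ (G.j (G.t e) (G.f e p.1, -p.2))) : G.X → Z :=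
  G.gr.lift g h

@[simp] theorem lift_inc {Z : Sort*} (g : ∀ i, (G.M i).P.M → Z)
    (h : ∀ e p, g _ (G.j (G.s e) p) = g _ (G.j (G.t e) (G.f e p.1, -p.2))) (i : ι)
    (p : (G.M i).P.M) : G.lift g h (G.inc i p) = g i p := rfl

@[simp] theorem lift_neck {Z : Sort*} (g : ∀ i, (G.M i).P.M → Z)
    (h : ∀ e p, g _ (G.j (G.s e) p) = g _ (G.j (G.t e) (G.f e p.1, -p.2))) (e : κ)
    (p : (G.Y (G.s e)).M × ℝ) : G.lift g h (G.neck e p) = g _ (G.j (G.s e) p) := rfl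

section Out

variable {E' : Type*} [NormedAddCommGroup E'] [NormedSpace ℝ E'] {H' : Type*} [TopologicalSpace H']
  {J : ModelWithCorners ℝ E' H'} {N : Type*} [TopologicalSpace N] [ChartedSpace H' N]

theorem contMDiff_iff {g : G.X → N} :
    ContMDiff 𝓘(ℝ, V) J ∞ g ↔ ∀ i, ContMDiff (G.M i).P.I J ∞ (g ∘ G.inc i) := G.gr.contMDiff_iff

theorem ld_iff {g : G.X → N} :
    IsLocalDiffeomorph 𝓘(ℝ, V) J ∞ g ↔ ∀ i, IsLocalDiffeomorph (G.M i).P.I J ∞ (g ∘ G.inc i) :=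
  G.gr.ld_iff

theorem contMDiff_lift {g : ∀ i, (G.M i).P.M → N}
    (h : ∀ e p, g _ (G.j (G.s e) p) = g _ (G.j (G.t e) (G.f e p.1, -p.2)))
    (hg : ∀ i, ContMDiff (G.M i).P.I J ∞ (g i)) : ContMDiff 𝓘(ℝ, V) J ∞ (G.lift g h) :=
  G.contMDiff_iff.2 hg

theorem isOE_lift {g : ∀ i, (G.M i).P.M → N}
    (h : ∀ e p, g _ (G.j (G.s e) p) = g _ (G.j (G.t e) (G.f e p.1, -p.2)))
    (hg : ∀ i, IsLocalDiffeomorph (G.M i).P.I J ∞ (g i))
    (hi : ∀ i k p q, g i p = g k q → G.inc i p = G.inc k q) : IsOE 𝓘(ℝ, V) J (G.lift g h) :=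
  G.gr.isOE_lift h hg hi

theorem range_lift {Z : Type*} {g : ∀ i, (G.M i).P.M → Z}
    (h : ∀ e p, g _ (G.j (G.s e) p) = g _ (G.j (G.t e) (G.f e p.1, -p.2))) :
    range (G.lift g h) = ⋃ i, range (g i) := G.gr.range_lift h

end Out

end JG

end Crest.Agent.X212.Cyl58
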