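import Crest.Agent.X212.Rod53.Bnd
import Crest.Agent.X212.Orx52.Rod
import Crest.Agent.X212.Cyl58.Int

/-!
# X212/Cyl58/Mov: toric moves of the rod manifold

`HM` : a move `(x, y) ↦ (μ, ν y)` of the half plane that is a time reparametrisation `σ` far from the axis;
`m.mv h : X T v ≃ₘ X T v'` if the move carries `v` to `v'` and is a translation near the vertices;
formulas in all charts, base map, orientation.
-/

set_option autoImplicit false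
set_option linter.unusedSectionVars false
noncomputable section
open Set Filter Topology Function Metric TopologicalSpace
open scoped ContDiff Manifold

namespace Crest.Agent.X212.Cyl58

open Glue52 Rod53

/-- the rotation invariant map of `ℂ × ℝ` over the map `(x, y) ↦ (μ, ν y)` of the half plane -/
def rinv (μ ν : ℝ × ℝ → ℝ) (p : ℂ × ℝ) : ℂ × ℝ := ((ν (p.2, ‖p.1‖) : ℂ) * p.1, μ (p.2, ‖p.1‖))

/-- a map of `ℂ × ℝ` acting on the rod chart -/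
def asc (D : ℂ × ℝ → ℂ × ℝ) (w : (Circle × ℂ) × ℝ) : (Circle × ℂ) × ℝ :=
  ((w.1.1, (D (w.1.2, w.2)).1), (D (w.1.2, w.2)).2)

theorem contMDiff_asc {D : ℂ × ℝ → ℂ × ℝ} (h : ContMDiff 𝓘(ℝ, ℂ × ℝ) 𝓘(ℝ, ℂ × ℝ) ∞ D) :
    ContMDiff IR IR ∞ (asc D) :=
  have k : ContMDiff IR 𝓘(ℝ, ℂ × ℝ) ∞ fun w : (Circle × ℂ) × ℝ => D (w.1.2, w.2) :=
    h.comp ((contMDiff_snd.comp contMDiff_fst).prodMk_space contMDiff_snd)
  ((contMDiff_fst.comp contMDiff_fst).prodMk (contDiff_fst.contMDiff.comp k)).prodMk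
    (contDiff_snd.contMDiff.comp k)

open Orx52 in
theorem pos_up {f : ℝ → ℝ} {s : Set ℝ} (h : Up f s) : Pos 𝓘(ℝ, ℝ) 𝓘(ℝ, ℝ) f s oR oR :=
  pos_of_eq (oriOn ori_oR s) (fun x hx => (h x hx).2) fun x hx => by
    rw [pm_oR (h.hasDerivAt hx).differentiableAt.mdifferentiableAt, oR_eq, ← map_smul, Dr59.df]
    refine congrArg _ (LinearMap.ext_ring ?_)
    simp [Dr59.mf]

/-- a move of the half plane -/
structure HM where
  μ : ℝ × ℝ → ℝ
  ν : ℝ × ℝ → ℝ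
  σ : ℝ → ℝ
  R : ℝ
  pos : ∀ p, 0 < ν p
  oe : IsOE 𝓘(ℝ, ℂ × ℝ) 𝓘(ℝ, ℂ × ℝ) (rinv μ ν)
  surj : Surjective (rinv μ ν)
  up : Up σ univ
  sσ : Surjective σ
  far : ∀ x y, R ≤ y → ν (x, y) = 1 ∧ μ (x, y) = σ x

namespace HM

variable (m : HM)

/-- the move of the axis -/
def α (x : ℝ) : ℝ := m.μ (x, 0)

/-- the move of the half plane -/
def bs (p : ℝ × ℝ) : ℝ × ℝ := (m.μ p, m.ν p * p.2)

/-- the move in a rod chart -/
def r : (Circle × ℂ) × ℝ → (Circle × ℂ) × ℝ := asc (rinv m.μ m.ν)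

theorem r_apply (w : (Circle × ℂ) × ℝ) :
    m.r w = ((w.1.1, (m.ν (w.2, ‖w.1.2‖) : ℂ) * w.1.2), m.μ (w.2, ‖w.1.2‖)) := rfl

theorem isOE_r : IsOE IR IR m.r ∧ Surjective m.r :=
  let D := m.oe.diffeo m.surj
  let E := diffeoOf (asc D) (asc D.symm) (contMDiff_asc D.contMDiff) (contMDiff_asc D.symm.contMDiff)
    (fun w => by simp [asc]) fun w => by simp [asc]
  ⟨IsOE.of_diffeo E, E.surjective⟩

theorem r_ne {w : (Circle × ℂ) × ℝ} : (m.r w).1.2 = 0 ↔ w.1.2 = 0 :=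
  mul_eq_zero.trans (or_iff_right (Complex.ofReal_ne_zero.2 (m.pos _).ne'))

theorem norm_r (w : (Circle × ℂ) × ℝ) : ‖(m.r w).1.2‖ = m.ν (w.2, ‖w.1.2‖) * ‖w.1.2‖ := by
  rw [r_apply, norm_mul, Complex.norm_real, Real.norm_of_nonneg (m.pos _).le]

theorem r_zero (u : Circle) (x : ℝ) : m.r ((u, 0), x) = ((u, 0), m.α x) := by simp [r_apply, α]

theorem r_far {w : (Circle × ℂ) × ℝ} (h : m.R ≤ ‖w.1.2‖) : m.r w = (w.1, m.σ w.2) := by
  simp [r_apply, m.far _ _ h]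

theorem r_gl (a b : Z2) (w : (Circle × ℂ) × ℝ) : m.r (gl a b w.1, w.2) = (gl a b (m.r w).1, (m.r w).2) := by
  rw [r_apply, norm_gl]
  simp only [gl, norm_r]
  simp only [r_apply, dir_pos_mul (m.pos _), Complex.ofReal_mul, mul_assoc]

theorem α_inj : Injective m.α := fun x y e => congrArg Prod.snd (m.isOE_r.1.inj
  (a₁ := ((1, 0), x)) (a₂ := ((1, 0), y)) (by rw [r_zero, r_zero, e]))

theorem α_surj : Surjective m.α := fun x => by
  obtain ⟨⟨⟨u, ζ⟩, y⟩, e⟩ := m.isOE_r.2 ((1, 0), x)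
  obtain rfl : ζ = 0 := m.r_ne.1 (congrArg (·.1.2) e)
  exact ⟨y, congrArg Prod.snd ((m.r_zero u y).symm.trans e)⟩

theorem continuous_α : Continuous m.α :=
  (continuous_snd.comp (m.isOE_r.1.continuous.comp (Continuous.prodMk_right (1, 0)))).congr
    fun x => congrArg Prod.snd (m.r_zero 1 x)

theorem isOpenMap_α : IsOpenMap m.α := fun U hU => by
  have : m.α '' U = (fun x => (((1 : Circle), (0 : ℂ)), x)) ⁻¹' (m.r '' (univ ×ˢ U)) := by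
    ext x
    refine ⟨fun ⟨y, hy, e⟩ => ⟨((1, 0), y), ⟨trivial, hy⟩, by rw [r_zero, e]⟩, ?_⟩
    rintro ⟨⟨⟨u, ζ⟩, y⟩, hy, e⟩
    obtain rfl : ζ = 0 := m.r_ne.1 (congrArg (·.1.2) e)
    exact ⟨y, hy.2, congrArg Prod.snd ((m.r_zero u y).symm.trans e)⟩
  exact this ▸ (m.isOE_r.1.isOpen_image (isOpen_univ.prod hU)).preimage (Continuous.prodMk_right _)

theorem r_hR {c c' s : ℝ} {z : ℂ × ℂ} (hs : 0 < s) (h1 : m.ν (tm c z, 2 * ‖z.1‖ * ‖z.2‖) = s ^ 2)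
    (h2 : m.μ (tm c z, 2 * ‖z.1‖ * ‖z.2‖) = c' + s ^ 2 * (tm c z - c)) : m.r (hR c z) = hR c' (s • z) := by
  rw [r_apply, show ‖(hR c z).1.2‖ = _ from norm_hyp z, show (hR c z).2 = tm c z from rfl, h1, h2]
  refine Prod.ext (Prod.ext (dir_pos_mul hs z.1).symm ?_) ?_
  · simp only [hR, hyp, Prod.smul_fst, Prod.smul_snd, norm_smul, Real.norm_of_nonneg hs.le]
    rw [Complex.real_smul]
    push_cast
    ring
  · simp only [hR, tm, Prod.smul_fst, Prod.smul_snd, norm_smul, Real.norm_of_nonneg hs.le]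
    ring

theorem r_hL {c c' s : ℝ} {z : ℂ × ℂ} (hs : 0 < s) (h1 : m.ν (tm c z, 2 * ‖z.1‖ * ‖z.2‖) = s ^ 2)
    (h2 : m.μ (tm c z, 2 * ‖z.1‖ * ‖z.2‖) = c' + s ^ 2 * (tm c z - c)) : m.r (hL c z) = hL c' (s • z) := by
  rw [r_apply, show ‖(hL c z).1.2‖ = _ from (norm_hyp z.swap).trans (mul_right_comm 2 ‖z.2‖ ‖z.1‖),
    show (hL c z).2 = tm c z from rfl, h1, h2]
  refine Prod.ext (Prod.ext (dir_pos_mul hs z.2).symm ?_) ?_
  · simp only [hL, hyp, Prod.fst_swap, Prod.snd_swap, Prod.smul_fst, Prod.smul_snd, norm_smul,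
      Real.norm_of_nonneg hs.le]
    rw [Complex.real_smul]
    push_cast
    ring
  · simp only [hL, tm, Prod.smul_fst, Prod.smul_snd, norm_smul, Real.norm_of_nonneg hs.le]
    ring

/-- the move carries `v` to `v'` and is a translation near the vertices -/
structure Rel (v v' : ℝ → Z2) : Prop where
  ax : ∀ x, v' (m.α x) = v x
  vx : ∀ c, v c = 0 → ∃ d, ∀ᶠ p in 𝓝 ((c, 0) : ℝ × ℝ), 0 ≤ p.2 → m.ν p = 1 ∧ m.μ p = p.1 + d

variable {m} {v v' : ℝ → Z2} {a b : Z2} {c x : ℝ}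

theorem Rel.jr (h : m.Rel v v') : m.α x ∈ Jr v' a ↔ x ∈ Jr v a := by
  rw [mem_Jr, mem_Jr, ← m.isOpenMap_α.map_nhds_eq m.continuous_α.continuousAt, eventually_map]
  simp only [h.ax]

theorem Rel.α_eq (h : m.Rel v v') (hc : v c = 0) : ∀ᶠ x in 𝓝 c, m.α x = x + (m.α c - c) := by
  obtain ⟨d, hd⟩ := h.vx c hc
  have k := ((Continuous.prodMk_left (0 : ℝ)).tendsto c).eventually hd
  filter_upwards [k] with x hx
  rw [α, α, (hx le_rfl).2, (k.self_of_nhds le_rfl).2, add_sub_cancel_left]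

theorem Rel.jv (h : m.Rel v v') : m.α c ∈ Jv v' a b (m.α c) ↔ c ∈ Jv v a b c := by
  have k : v c = 0 → (m.α c ∈ Jv v' a b (m.α c) ↔ c ∈ Jv v a b c) := fun hc => by
    rw [mem_Jv, mem_Jv, ← m.isOpenMap_α.map_nhds_eq m.continuous_α.continuousAt, eventually_map]
    refine eventually_congr ((h.α_eq hc).mono fun x hx => ?_)
    rw [h.ax, hx]
    exact and_congr (imp_congr_left ⟨fun _ => by linarith, fun _ => by linarith⟩)
      (and_congr (imp_congr_left ⟨fun _ => by linarith, fun _ => by linarith⟩)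
        (imp_congr_left ⟨fun _ => by linarith, fun _ => by linarith⟩))
  exact ⟨fun e => (k ((h.ax c).symm.trans (Jv.zero e))).1 e, fun e => (k (Jv.zero e)).2 e⟩

theorem Rel.ur (h : m.Rel v v') {w : (Circle × ℂ) × ℝ} : m.r w ∈ Ur v' a ↔ w ∈ Ur v a := by
  obtain ⟨⟨u, ζ⟩, x⟩ := w
  by_cases e : ζ = 0
  · subst e
    rw [r_zero]
    exact or_congr_right h.jr
  · exact iff_of_true (.inl (mt m.r_ne.1 e)) (.inl e)

theorem Rel.loc (h : m.Rel v v') (hv : Loc v) : Loc v' := fun x => by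
  obtain ⟨x, rfl⟩ := m.α_surj x
  obtain ⟨a, b, c, hu, k⟩ := hv x
  rcases lt_trichotomy x c with e | rfl | e
  exacts [loc_of_Jr hu (h.jr.2 (Jv.left k e)), ⟨a, b, _, hu, h.jv.2 k⟩,
    loc_of_Jr hu.symm (h.jr.2 (Jv.right k e))]

variable {EN HN : Type} [NormedAddCommGroup EN] [NormedSpace ℝ EN] [FiniteDimensional ℝ EN]
  [TopologicalSpace HN] {IN : ModelWithCorners ℝ EN HN} [IN.Boundaryless]
  {N : Type} [TopologicalSpace N] [ChartedSpace HN N] [IsManifold IN ∞ N] [T2Space N] (T : Tb IN N)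

variable (m)

theorem isOE_τ : IsOE IR (IN.prod 𝓘(ℝ, ℝ)) (Prod.map T.τ (id : ℝ → ℝ)) := IsOE.prodMap ⟨T.inj, T.ld⟩ IsOE.id

/-- the move in the exterior chart -/
def n : N × ℝ → N × ℝ := extend (Prod.map T.τ id) (Prod.map T.τ id ∘ m.r) (Prod.map id m.σ)

theorem n_τ (w : (Circle × ℂ) × ℝ) : m.n T (T.τ w.1, w.2) = (T.τ (m.r w).1, (m.r w).2) :=
  (isOE_τ T).inj.extend_apply _ _ w

theorem n_not {q : N × ℝ} (h : q.1 ∉ range T.τ) : m.n T q = (q.1, m.σ q.2) :=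
  extend_apply' _ _ _ fun ⟨w, e⟩ => h ⟨w.1, congrArg Prod.fst e⟩

theorem n_far {q : N × ℝ} (h : q.1 ∉ T.τ '' (univ ×ˢ closedBall 0 m.R)) : m.n T q = (q.1, m.σ q.2) := by
  obtain ⟨q, x⟩ := q
  by_cases k : q ∈ range T.τ
  · obtain ⟨w, rfl⟩ := k
    rw [m.n_τ T (w, x), m.r_far (le_of_not_ge fun e => h ⟨w, ⟨trivial, mem_closedBall_zero_iff.2 e⟩, rfl⟩)]
  · exact m.n_not T k

theorem n_ev {q : N × ℝ} (h : q.1 ∉ T.τ '' (univ ×ˢ closedBall 0 m.R)) : m.n T =ᶠ[𝓝 q] Prod.map id m.σ := by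
  filter_upwards [((T.isCompact_tube m.R).isClosed.isOpen_compl.preimage continuous_fst).mem_nhds h]
    with z hz using m.n_far T hz

theorem n_range {q : N × ℝ} : (m.n T q).1 ∈ range T.τ ↔ q.1 ∈ range T.τ := by
  obtain ⟨q, x⟩ := q
  by_cases k : q ∈ range T.τ
  · obtain ⟨w, rfl⟩ := k
    exact iff_of_true (m.n_τ T (w, x) ▸ ⟨_, rfl⟩) ⟨_, rfl⟩
  · rw [m.n_not T k]

theorem n_Ex {q : N × ℝ} : (m.n T q).1 ∈ T.Ex ↔ q.1 ∈ T.Ex := by
  obtain ⟨q, x⟩ := q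
  by_cases k : q ∈ range T.τ
  · obtain ⟨w, rfl⟩ := k
    rw [m.n_τ T (w, x), T.τ_mem, T.τ_mem]
    exact m.r_ne.not
  · rw [m.n_not T k]

theorem isOE_n : IsOE (IN.prod 𝓘(ℝ, ℝ)) (IN.prod 𝓘(ℝ, ℝ)) (m.n T) := by
  refine ⟨fun ⟨q, x⟩ ⟨q', x'⟩ e => ?_, fun ⟨q, x⟩ => ?_⟩
  · have k : q ∈ range T.τ ↔ q' ∈ range T.τ :=
      (m.n_range T (q := (q, x))).symm.trans (e ▸ m.n_range T (q := (q', x')))
    by_cases h : q ∈ range T.τ
    · obtain ⟨w', rfl⟩ := k.1 h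
      obtain ⟨w, rfl⟩ := h
      rw [m.n_τ T (w, x), m.n_τ T (w', x')] at e
      exact congrArg (Prod.map T.τ id) (m.isOE_r.1.inj ((isOE_τ T).inj e))
    · rw [m.n_not T h, m.n_not T (mt k.2 h)] at e
      exact (injective_id.prodMap m.up.strictMono.injective) e
  · by_cases h : q ∈ range T.τ
    · obtain ⟨w, rfl⟩ := h
      exact ld_of_comp (x := (w, x)) ((isOE_τ T).loc (w, x)) (ld_congr (((isOE_τ T).comp m.isOE_r.1).loc _)
        (Eventually.of_forall (m.n_τ T)))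
    · exact ld_congr ((IsOE.id.prodMap m.up.isOE).loc _) (m.n_ev T fun k => h (image_subset_range _ _ k))

theorem n_surj : Surjective (m.n T) := fun ⟨q, x⟩ => by
  by_cases h : q ∈ range T.τ
  · obtain ⟨w, rfl⟩ := h
    obtain ⟨w', e⟩ := m.isOE_r.2 (w, x)
    exact ⟨_, by rw [m.n_τ T w', e]⟩
  · obtain ⟨y, rfl⟩ := m.sσ x
    exact ⟨(q, y), m.n_not T h⟩

/-- the move on normal forms -/
def s : (N × ℝ) ⊕ (ℝ × Circle) → (N × ℝ) ⊕ (ℝ × Circle) := Sum.map (m.n T) (Prod.map m.α id)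

/-- the move as a map -/
def f (v v' : ℝ → Z2) (p : X T v) : X T v' := invFun (T.nf v') (m.s T (T.nf v p))

theorem f_of {p : X T v} {q : X T v'} (e : m.s T (T.nf v p) = T.nf v' q) : m.f T v v' p = q := by
  rw [f, e]
  exact leftInverse_invFun (T.nf_injective v') q

theorem f_ext {q : N × ℝ} (hq : q.1 ∈ T.Ex) : m.f T v v' (T.ext v q) = T.ext v' (m.n T q) :=
  m.f_of T (by rw [T.nf_ext hq, T.nf_ext ((m.n_Ex T).2 hq)]; rfl)

variable {m}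

namespace Rel

variable (h : m.Rel v v')
include h

theorem s_Φr (w : (Circle × ℂ) × ℝ) : m.s T (T.Φr v a b w) = T.Φr v' a b (m.r w) := by
  obtain ⟨⟨u, ζ⟩, x⟩ := w
  by_cases e : ζ = 0
  · subst e
    rw [r_zero, T.Φr_zero rfl, T.Φr_zero rfl, h.ax]
    rfl
  · rw [T.Φr_ne e, T.Φr_ne (mt m.r_ne.1 e)]
    exact congrArg Sum.inl ((m.n_τ T (gl a b (u, ζ), x)).trans (by rw [m.r_gl a b ((u, ζ), x)]))

theorem s_Φv {c' s : ℝ} {z : ℂ × ℂ} (hs : 0 < s) (h1 : m.ν (tm c z, 2 * ‖z.1‖ * ‖z.2‖) = s ^ 2)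
    (h2 : m.μ (tm c z, 2 * ‖z.1‖ * ‖z.2‖) = c' + s ^ 2 * (tm c z - c)) :
    m.s T (T.Φv v a b c z) = T.Φv v' a b c' (s • z) := by
  have k : (s • z).1 = 0 ↔ z.1 = 0 := smul_eq_zero.trans (or_iff_right hs.ne')
  by_cases e : z.1 = 0
  · rw [Tb.Φv, Tb.Φv, if_pos e, if_pos (k.2 e), h.s_Φr, m.r_hL hs h1 h2]
  · rw [T.Φv_R e, T.Φv_R (mt k.1 e), h.s_Φr, m.r_hR hs h1 h2]

theorem f_rod (hu : Uni a b) {w : (Circle × ℂ) × ℝ} (hw : w ∈ Ur v a) :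
    m.f T v v' (T.rod v hu w) = T.rod v' hu (m.r w) :=
  m.f_of T (by rw [T.nf_rod hu hw, T.nf_rod hu (h.ur.2 hw), h.s_Φr])

theorem f_vtx (hu : Uni a b) {c' s : ℝ} {z : ℂ × ℂ} (hz : z ∈ Uv v a b c) (hz' : s • z ∈ Uv v' a b c')
    (hs : 0 < s) (h1 : m.ν (tm c z, 2 * ‖z.1‖ * ‖z.2‖) = s ^ 2)
    (h2 : m.μ (tm c z, 2 * ‖z.1‖ * ‖z.2‖) = c' + s ^ 2 * (tm c z - c)) :
    m.f T v v' (T.vtx v hu c z) = T.vtx v' hu c' (s • z) :=
  m.f_of T (by rw [T.nf_vtx hu hz, T.nf_vtx hu hz', h.s_Φv T hs h1 h2])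

omit h in
theorem nf_vn (k : LH a b) {z : ℂ × ℂ} (hz : z ∈ Uv v a b c) (h0 : z ≠ 0) :
    T.nf v (T.vn v a b c z) = T.Φv v a b c z := by
  have key : ∀ {a b : Z2}, LH a b → ∀ w ∈ Ur v a, ∃ p, T.nf v p = T.Φr v a b w := fun k w hw => by
    obtain ⟨a', n, l, hu, -, rfl⟩ := Tb.exists_cv k
    exact ⟨_, (T.nf_rod hu (Tb.cv_mem hw)).trans (T.Φr_cv n l hw).symm⟩
  refine invFun_eq ?_
  rcases Tb.ne_or h0 with e | e
  · exact T.Φv_R e ▸ key k.symm _ (hR_mem hz e)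
  · exact T.Φv_L e ▸ key k _ (hL_mem hz e)

theorem f_vn (k : LH a b) {c' s : ℝ} {z : ℂ × ℂ} (hz : z ∈ Uv v a b c) (h0 : z ≠ 0)
    (hs : 0 < s) (h1 : m.ν (tm c z, 2 * ‖z.1‖ * ‖z.2‖) = s ^ 2)
    (h2 : m.μ (tm c z, 2 * ‖z.1‖ * ‖z.2‖) = c' + s ^ 2 * (tm c z - c)) :
    m.f T v v' (T.vn v a b c z) = T.vn v' a b c' (s • z) := by
  rw [f, nf_vn T k hz h0, h.s_Φv T hs h1 h2, Tb.vn]

theorem f_vtx_ev (hu : Uni a b) (hc : c ∈ Jv v a b c) :
    ∀ᶠ z in 𝓝 (0 : ℂ × ℂ), m.f T v v' (T.vtx v hu c z) = T.vtx v' hu (m.α c) z := by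
  obtain ⟨d, hd⟩ := h.vx c (Jv.zero hc)
  have k : Tendsto (fun z : ℂ × ℂ => (tm c z, 2 * ‖z.1‖ * ‖z.2‖)) (𝓝 0) (𝓝 (c, 0)) :=
    ((continuous_tm c).prodMk (by fun_prop)).tendsto' _ _ (by simp [tm])
  filter_upwards [k.eventually hd, isOpen_Uv.mem_nhds (Tb.zero_mem_Uv hc),
    isOpen_Uv.mem_nhds (Tb.zero_mem_Uv (h.jv.2 hc))] with z h1 h2 h3
  have h4 := h1 (by positivity)
  rw [h.f_vtx T hu h2 (s := 1) (c' := m.α c) (by rwa [one_smul]) one_pos (by rw [h4.1, one_pow])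
    (by rw [h4.2, α, (hd.self_of_nhds le_rfl).2]; ring), one_smul]

theorem nf_f (p : X T v) : T.nf v' (m.f T v v' p) = m.s T (T.nf v p) := by
  induction p using T.ind with
  | h1 q x hq => rw [m.f_ext T hq, T.nf_ext ((m.n_Ex T).2 hq), T.nf_ext hq]; rfl
  | h2 a b hu u x hx =>
    rw [h.f_rod T hu (.inr hx), T.nf_rod hu (h.ur.2 (.inr hx)), T.nf_rod hu (.inr hx), h.s_Φr]
  | h3 a b hu c hc =>
    rw [(h.f_vtx_ev T hu hc).self_of_nhds, T.nf_vtx hu (Tb.zero_mem_Uv hc),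
      T.nf_vtx hu (Tb.zero_mem_Uv (h.jv.2 hc)), T.Φv_zero, T.Φv_zero]
    rfl

theorem isOE_f : IsOE (𝓡 4) (𝓡 4) (m.f T v v') := by
  refine ⟨fun p q e => T.nf_injective v (((m.isOE_n T).inj.sumMap (m.α_inj.prodMap injective_id))
    ((h.nf_f T p).symm.trans (e ▸ h.nf_f T q))), fun p => ?_⟩
  induction p using T.ind with
  | h1 q x hq =>
    refine ld_of_comp (ld_pd (T.ext v) (mk_mem_prod hq (mem_univ x))) (ld_congr (ld_comp
      (ld_pd (T.ext v') ⟨(m.n_Ex T).2 hq, mem_univ _⟩) ((m.isOE_n T).loc _)) ?_)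
    filter_upwards [(T.isOpen_Ex.preimage continuous_fst).mem_nhds hq] with z hz using m.f_ext T hz
  | h2 a b hu u x hx =>
    refine ld_of_comp (ld_pd (T.rod v hu) (.inr hx)) (ld_congr (ld_comp
      (ld_pd (T.rod v' hu) (h.ur.2 (.inr hx))) (m.isOE_r.1.loc _)) ?_)
    filter_upwards [isOpen_Ur.mem_nhds (.inr hx)] with z hz using h.f_rod T hu hz
  | h3 a b hu c hc =>
    exact ld_of_comp (ld_pd (T.vtx v hu c) (Tb.zero_mem_Uv hc)) (ld_congr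
      (ld_pd (T.vtx v' hu _) (Tb.zero_mem_Uv (h.jv.2 hc))) (h.f_vtx_ev T hu hc))

theorem f_surj : Surjective (m.f T v v') := fun p => by
  induction p using T.ind with
  | h1 q x hq =>
    obtain ⟨z, e⟩ := m.n_surj T (q, x)
    exact ⟨_, e ▸ m.f_ext T ((m.n_Ex T).1 (by rw [e]; exact hq))⟩
  | h2 a b hu u x hx =>
    obtain ⟨x, rfl⟩ := m.α_surj x
    exact ⟨_, m.r_zero u x ▸ h.f_rod T hu (.inr (h.jr.1 hx))⟩
  | h3 a b hu c hc =>
    obtain ⟨c, rfl⟩ := m.α_surj c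
    exact ⟨_, (h.f_vtx_ev T hu (h.jv.1 hc)).self_of_nhds⟩

/-- MOVE -/
def mv : X T v ≃ₘ^∞⟮𝓡 4, 𝓡 4⟯ X T v' := (h.isOE_f T).diffeo (h.f_surj T)

@[simp] theorem coe_mv : ⇑(h.mv T) = m.f T v v' := rfl

theorem spec (p : X T v) : (m.f T v v' p ∈ T.tor v' ↔ p ∈ T.tor v) ∧
    (p ∈ T.tor v → T.bs v' (m.f T v v' p) = m.bs (T.bs v p)) ∧
    (p ∉ T.tor v → T.time v' (m.f T v v' p) = m.σ (T.time v p)) := by
  have k : ∀ a b (hu : Uni a b), ∀ w ∈ Ur v a,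
      (m.f T v v' (T.rod v hu w) ∈ T.tor v' ↔ T.rod v hu w ∈ T.tor v) ∧
      (T.rod v hu w ∈ T.tor v → T.bs v' (m.f T v v' (T.rod v hu w)) = m.bs (T.bs v (T.rod v hu w))) ∧
      (T.rod v hu w ∉ T.tor v → T.time v' (m.f T v v' (T.rod v hu w)) = m.σ (T.time v (T.rod v hu w))) :=
    fun a b hu w hw => by
      have e := h.ur.2 hw
      rw [h.f_rod T hu hw]
      refine ⟨iff_of_true (T.rod_mem_tor hu e) (T.rod_mem_tor hu hw), fun _ => ?_,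
        fun k => absurd (T.rod_mem_tor hu hw) k⟩
      rw [Tb.bs, Tb.bs, T.time_rod hu e, T.time_rod hu hw, T.yy_rod hu e, T.yy_rod hu hw, norm_r]
      rfl
  induction p using T.ind with
  | h1 q x hq =>
    by_cases e : q ∈ range T.τ
    · obtain ⟨w, rfl⟩ := e
      have := k _ _ uni_std (w, x) (.inl (T.τ_mem.1 hq))
      rwa [T.rod_eq_ext _ (T.τ_mem.1 hq), gl_id] at this
    · have e' := (m.n_Ex T (q := (q, x))).2 hq
      rw [m.f_ext T hq, T.ext_mem_tor e', T.ext_mem_tor hq, T.time_ext e', T.time_ext hq, m.n_not T e]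
      exact ⟨Iff.rfl, fun k => absurd k e, fun _ => rfl⟩
  | h2 a b hu u x hx => exact k a b hu _ (.inr hx)
  | h3 a b hu c hc =>
    have e := Tb.zero_mem_Uv hc
    have e' := Tb.zero_mem_Uv (h.jv.2 hc)
    rw [(h.f_vtx_ev T hu hc).self_of_nhds]
    refine ⟨iff_of_true (T.vtx_mem_tor hu e') (T.vtx_mem_tor hu e), fun _ => ?_,
      fun k => absurd (T.vtx_mem_tor hu e) k⟩
    rw [Tb.bs, Tb.bs, T.time_vtx hu e, T.time_vtx hu e', T.yy_vtx hu e, T.yy_vtx hu e']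
    simp [tm, bs, α]

theorem f_mem_tor {p : X T v} : m.f T v v' p ∈ T.tor v' ↔ p ∈ T.tor v := (h.spec T p).1

theorem bs_f {p : X T v} (hp : p ∈ T.tor v) : T.bs v' (m.f T v v' p) = m.bs (T.bs v p) := (h.spec T p).2.1 hp

theorem time_f {p : X T v} (hp : p ∉ T.tor v) : T.time v' (m.f T v v' p) = m.σ (T.time v p) :=
  (h.spec T p).2.2 hp

theorem f_mem_ov {O : Set (ℝ × ℝ)} {p : X T v} : m.f T v v' p ∈ T.ov v' O ↔ p ∈ T.ov v (m.bs ⁻¹' O) :=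
  (and_congr_left' (h.f_mem_tor T)).trans (and_congr_right fun hp => by
    rw [mem_preimage, h.bs_f T hp]; rfl)

/-- where the move fixes the base point it is the change of the rod structure -/
theorem nf_f_eq {p : X T v} (h1 : p ∈ T.tor v → m.ν (T.bs v p) = 1 ∧ m.μ (T.bs v p) = T.time v p)
    (h2 : p ∉ T.tor v → m.σ (T.time v p) = T.time v p) : T.nf v' (m.f T v v' p) = T.nf v p := by
  rw [h.nf_f]
  rcases T.ext_or_axis p with ⟨⟨q, x⟩, hq, rfl⟩ | ⟨k1, k2, k3, -⟩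
  · rw [T.nf_ext hq]
    refine congrArg Sum.inl ?_
    rw [T.ext_mem_tor hq, Tb.bs, T.time_ext hq] at h1
    rw [T.ext_mem_tor hq, T.time_ext hq] at h2
    by_cases e : q ∈ range T.τ
    · obtain ⟨w, rfl⟩ := e
      have := h1 ⟨w, rfl⟩
      rw [T.yy_ext (T.τ_mem.1 hq)] at this
      rw [m.n_τ T (w, x), r_apply, this.1, this.2]
      simp
    · rw [m.n_not T e, h2 e]
  · have := (h1 k1).2
    rw [Tb.bs, k2, Tb.time] at this
    rw [Tb.eta, Tb.hf] at k3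
    rcases e : T.nf v p with q | s <;> rw [e] at this k3
    · by_cases k : q.1 ∈ T.Ex
      · exact absurd k3 (T.rf_lt k).ne
      · exfalso
        induction p using T.ind with
        | h1 q' x hq => rw [T.nf_ext hq] at e; exact k (Sum.inl_injective e ▸ hq)
        | h2 a b hu u x hx => rw [T.nf_rod hu (.inr hx), T.Φr_zero rfl] at e; cases e
        | h3 a b hu c hc => rw [T.nf_vtx hu (Tb.zero_mem_Uv hc), T.Φv_zero] at e; cases e
    · exact congrArg Sum.inr (Prod.ext this rfl)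

theorem f_eq_fn {p : X T v} (h1 : p ∈ T.tor v → m.ν (T.bs v p) = 1 ∧ m.μ (T.bs v p) = T.time v p)
    (h2 : p ∉ T.tor v → m.σ (T.time v p) = T.time v p) : m.f T v v' p = fn T T id v v' p :=
  (TE.fn_of (by rw [h.nf_f_eq T h1 h2, Prod.map_id, Sum.map_id_id, id])).symm

open Orx52 in
/-- moves preserve the orientation -/
theorem pos {o : N → R208.F.Ext EN} {O : X T v → R208.F.Ext E4} {O' : X T v' → R208.F.Ext E4}
    (k : OX T v o O) (k' : OX T v' o O') : Pos (𝓡 4) (𝓡 4) (m.f T v v') univ O O' := by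
  have o1 : OriOn (IN.prod 𝓘(ℝ, ℝ)) (T.Ex ×ˢ univ) (pr o oR) := k.ex.pr (oriOn ori_oR univ)
  have p1 : Pos (IN.prod 𝓘(ℝ, ℝ)) (IN.prod 𝓘(ℝ, ℝ)) (m.n T)
      ((T.Ex \ T.τ '' (univ ×ˢ closedBall 0 m.R)) ×ˢ univ) (pr o oR) (pr o oR) :=
    (((pos_id.2 k.ex.same).mono sdiff_subset).prodMap (pos_up m.up) (fun y _ => Cyl58.ld_id y)
      fun z _ => m.up.isOE.loc z).congr' fun z hz => m.n_ev T hz.1.2
  have h0 : ((|m.R| + 1 : ℝ) : ℂ) ≠ 0 := Complex.ofReal_ne_zero.2 (by positivity)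
  have p2 : Pos (IN.prod 𝓘(ℝ, ℝ)) (IN.prod 𝓘(ℝ, ℝ)) (m.n T) ((T.τ '' (univ ×ˢ {0}ᶜ)) ×ˢ univ)
      (pr o oR) (pr o oR) := by
    have s1 : T.τ '' (univ ×ˢ {0}ᶜ) ⊆ T.Ex := by rintro _ ⟨w, hw, rfl⟩; exact T.τ_mem.2 hw.2
    refine pos_of_pt (((isPreconnected_univ.prod conn_ne).image _
      T.ld.contMDiff.continuous.continuousOn).prod isPreconnected_univ) (o1.mono (prod_mono s1 subset_rfl)) o1
      (fun z _ => (m.isOE_n T).loc z) (fun z hz => ⟨(m.n_Ex T).2 (s1 hz.1), trivial⟩)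
      (y := (T.τ (1, (|m.R| + 1 : ℝ)), 0)) ⟨mem_image_of_mem _ ⟨trivial, h0⟩, trivial⟩
      (p1.mono (singleton_subset_iff.2 ⟨⟨T.τ_mem.2 h0, fun e => ?_⟩, trivial⟩))
    have := mem_closedBall_zero_iff.1 (T.inj.mem_set_image.1 e).2
    rw [Complex.norm_real, Real.norm_of_nonneg (by positivity)] at this
    linarith [le_abs_self m.R]
  refine k.pos_of isOpen_univ (fun p _ => (h.isOE_f T).loc p) k'.ori (Pos.mono ?_ inter_subset_left)
  refine (k'.ext.comp ((p1.union p2).mono fun z hz => ?_) (fun _ => ldp (T.ext v'))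
    (fun z _ => (m.isOE_n T).loc z) fun z hz => ⟨(m.n_Ex T).2 hz.1, trivial⟩).congr
    (T.isOpen_Ex.prod isOpen_univ) fun z hz => m.f_ext T hz.1
  by_cases e : z.1 ∈ T.τ '' (univ ×ˢ closedBall 0 m.R)
  · obtain ⟨w, -, e⟩ := e
    exact .inr ⟨⟨w, ⟨trivial, T.τ_mem.1 (e ▸ hz.1)⟩, e⟩, trivial⟩
  · exact .inl ⟨⟨hz.1, e⟩, trivial⟩

end Rel

end HM

end Crest.Agent.X212.Cyl58
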