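import Crest.Agent.X212.End23.Cor
import Crest.Agent.X212.Dns43.Op
import Crest.Agent.X212.Ucp64.Log
import Crest.Agent.X212.Sm10.Dg1
import Crest.Agent.X212.Win39.Lv
import Crest.Agent.X212.Dl42.Main
import Crest.Agent.X212.Cyl58.PsB
import Crest.Agent.X212.Sw88.C0

/-! # Row 212, EC-POS and EC-ASY (helper58): slices of necks -/

set_option autoImplicit false
set_option linter.unusedSectionVars false
noncomputable section
open scoped Manifold ContDiff Topology InnerProductSpace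
open MeasureTheory Set Function Filter

namespace Crest.Agent.X212.Pos58
open An An.Pre Sob92 Sw Sw.En3 Cyf70 End23
open Dl42 hiding dl
open Cyl58 (sT nrm0_le)
open Win39 (Jt jt jE)
open M (Mf pm)

variable {κ lam ν : Type} [Fintype κ] [Fintype lam] [Fintype ν] [DecidableEq ν] {e : En3 κ lam ν}

/-- unique continuation from a slice -/
theorem ucp_sl (he : e.OK) {c : e.ZC} (hc : e.cyl.Adm c) {a b B : ℝ}
    (hD : ∀ s ∈ Ioo a b, ∀ y, ‖e.cyl.eD c (y, s)‖ ≤ B * ‖c.Φ (y, s)‖) {t₀ : ℝ} (h0 : t₀ ∈ Icc a b)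
    (hz : nm (sl c t₀) = 0) : ∀ t ∈ Icc a b, nm (sl c t) = 0 := by
  have F := fy_sl hc
  have G := fam_D0 he F.Φ
  have s1 := fun s => F.Φ.sm.sl s
  have s2 := fun s => G.sm.sl s
  have s3 := fun s => (F.ay' s).sΦ
  let R : e.Y.M × ℝ → En ν := fun x => ∑ k, c.a (some k) x • (e.m.J * τ e k x.1) - c.a none x • e.m.J
  have cR : Continuous R := (continuous_finsetSum _ fun k _ => (hc.sa _).continuous.smul
    (continuous_const.mul ((ContMDiff.continuous ((sy he).sm k)).comp continuous_fst))).sub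
      ((hc.sa _).continuous.smul continuous_const)
  obtain ⟨C, hC⟩ := (isCompact_univ.prod (isCompact_Icc (a := a) (b := b))).exists_bound_of_continuousOn
    cR.continuousOn
  obtain ⟨C', hC'⟩ := isCompact_univ.exists_bound_of_continuousOn
    (sm_slice_fst (he.cyl.cc.sρ none) 0).continuous.continuousOn
  have n : ∀ s, ⟪e.D.F.toH 0 _ (sT (s1 s)), e.D.F.toH 0 _ (sT (s1 s))⟫_ℝ = nm (sl c s) := fun s => by
    rw [inner_toH]; simp only [Pre.ip, ← real_inner_self_eq_norm_sq, nm]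
  have d : ∀ s, e.D.F.toH 0 _ (sT (s3 s) + sT (s2 s)) - e.D.F.toH 0 _ (sT (s2 s)) =
      e.D.F.toH 0 _ (sT (s3 s)) := fun s => by rw [map_add, add_sub_cancel_right]
  have K0 : 0 ≤ |C'| * |B| + |C| := by positivity
  simp only [← n] at hz ⊢
  refine Ucp64.zero_of_form K0 (fun _ => innerₗ _) (fun _ _ _ => real_inner_comm _ _)
    (fun _ _ => real_inner_self_nonneg) (z := fun s => e.D.F.toH 0 _ (sT (s1 s)))
    (w := fun s => e.D.F.toH 0 _ (sT (s2 s))) (f := fun s => e.D.F.toH 0 _ (sT (s3 s) + sT (s2 s)))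
    (r0 := 0) (r := 0) (fun t _ => ?_) (fun t _ => ?_) (fun t _ => ?_) (fun t ht => ?_)
    (fun t _ => by simpa using mul_nonneg K0 (sq_nonneg _))
    (fun t _ => by
      simp only [innerₗ_apply_apply, real_inner_self_eq_norm_sq, Pi.zero_apply]
      rw [sq (0 : ℝ), zero_mul]; positivity) h0 hz
  · simp only [innerₗ_apply_apply, n]
    exact (F.nm.int e.D.F.toPre t).continuousAt.continuousWithinAt
  · simp only [innerₗ_apply_apply, n, d, Pi.zero_apply, add_zero]
    exact (F.nm.int e.D.F.toPre t).congr_deriv (by rw [inner_toH, integral_const_mul]; rfl)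
  · simp only [innerₗ_apply_apply, d, Pi.zero_apply, add_zero, inner_toH, Pre.ip]
    refine ((F.Φ.inner G).int e.D.F.toPre t).congr_deriv ?_
    rw [← integral_const_mul]
    refine (nul_D0 he (s3 t) (s1 t) (fun y => p_of he.cyl ((F.ay' t).pΦ y))
      fun y => p_of he.cyl ((F.ay t).pΦ y)).eq ((e.D.F.integrable_inner (s2 t).continuous
        (.of_compactSpace _) (s3 t).continuous).const_mul 2) fun y => ?_
    rw [real_inner_comm (D0 e _ y), real_inner_comm (D0 e _ y)]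
    ring
  · simp only [innerₗ_apply_apply, real_inner_self_eq_norm_sq, ← mul_pow, norm_toH]
    refine pow_le_pow_left₀ (nrm_nonneg _ _) (nrm0_le _ (s1 t).continuous K0 fun y => ?_) 2
    have h := eD_split he hc y t
    rw [show (sT (s3 t) + sT (s2 t)).1 y = -e.m.ρ none y (e.cyl.eD c (y, t)) + R (y, t) (c.Φ (y, t)) by
      rw [h]; simp [R, GP, sl]; abel, add_mul, mul_assoc]
    refine (norm_add_le _ _).trans (add_le_add ?_ (ContinuousLinearMap.le_of_opNorm_le _
      ((hC _ ⟨trivial, Ioo_subset_Icc_self ht⟩).trans (le_abs_self C)) _))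
    rw [norm_neg]
    exact (ContinuousLinearMap.le_of_opNorm_le _ ((hC' y trivial).trans (le_abs_self _)) _).trans
      (mul_le_mul_of_nonneg_left ((hD t ht y).trans (mul_le_mul_of_nonneg_right (le_abs_self B)
        (norm_nonneg _))) (abs_nonneg _))

variable (κ lam ν)

/-- **EC-POS** -/
theorem posStmt : PosStmt κ lam ν := by
  intro X nc N _ e P hP c hc hD h0 i K hK t ht
  have he := hP.en i
  have oJ : IsOpen K.J := Nd18.isOpen_Jv
  refine (Sw88.nm_nonneg _).lt_of_ne' fun hz => ?_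
  obtain ⟨r, hr, h1⟩ := Metric.nhds_basis_closedBall.mem_iff.1 (oJ.mem_nhds ht)
  let φ : ContDiffBump t := ⟨r / 2, r, half_pos hr, half_lt_self hr⟩
  have hA := Sw88.adm_cut (φ := fun x => φ x.2) (isOpen_univ.prod oJ) (Pb50.admOn_pb K hc)
    (sm_snd φ.contDiff) fun x hx =>
      ⟨trivial, h1 (φ.tsupport_eq ▸ tsupport_comp_subset_preimage _ continuous_snd hx)⟩
  have b1 : ∀ s ∈ Ioo (t - r / 2) (t + r / 2), s ∈ Metric.ball t (r / 2) := fun s hs => by
    rwa [Real.ball_eq_Ioo]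
  have b2 : ∀ s ∈ Ioo (t - r / 2) (t + r / 2), s ∈ K.J := fun s hs =>
    h1 (Metric.ball_subset_closedBall.trans (Metric.closedBall_subset_closedBall (half_le_self hr.le))
      (b1 s hs))
  have h2 : ∀ s ∈ Ioo (t - r / 2) (t + r / 2), ∀ y : (e i).Y.M, ∀ᶠ x in 𝓝 (y, s), φ x.2 = 1 :=
    fun s hs y => (continuous_snd.tendsto (y, s)).eventually (φ.eventuallyEq_one_of_mem_ball (b1 s hs))
  have e1 : ∀ s ∈ Ioo (t - r / 2) (t + r / 2),
      sl (Sw88.cut (fun x => φ x.2) (K.pb c)) s = sl (K.pb c) s := fun s hs => by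
    simp only [sl, Sw88.cut, φ.one_of_mem_closedBall (Metric.ball_subset_closedBall (b1 s hs)), one_smul]
  obtain ⟨B, hB⟩ := Sw88.b_le he
  obtain ⟨C', hC'⟩ := isCompact_univ.exists_bound_of_continuousOn
    (sm_slice_fst (he.cyl.cc.sρ none) 0).continuous.continuousOn
  have m : t ∈ Ioo (t - r / 2) (t + r / 2) := ⟨by linarith, by linarith⟩
  have k := ucp_sl he hA (B := |B| * |C'|) (fun s hs y => ?_) (Ioo_subset_Icc_self m)
    ((congrArg _ (e1 t m)).trans hz)
  · obtain ⟨x, ⟨z, hz, rfl⟩, hx⟩ := (Dns43.dense_ne hP hc hD h0).inter_open_nonempty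
      (K.ψ '' univ ×ˢ Ioo (t - r / 2) (t + r / 2)) (K.ψ.isOpen_image_of_subset_source
        (isOpen_univ.prod isOpen_Ioo) fun x hx => Pb50.src K (b2 _ hx.2) _)
      ⟨_, (Classical.arbitrary _, t), ⟨trivial, m⟩, rfl⟩
    have := openPos (e i).D.F.toPre
    have q := (ay_of (Win39.adm_sl oJ (Pb50.admOn_pb K hc) (b2 _ hz.2))).sΦ.continuous.norm.fun_pow 2
    have := k _ (Ioo_subset_Icc_self hz.2)
    rw [e1 _ hz.2] at this
    exact hx (norm_eq_zero.1 (pow_eq_zero_iff two_ne_zero |>.1 (congrFun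
      ((q.ae_eq_iff_eq (e i).D.F.μ continuous_zero).1 ((integral_eq_zero_iff_of_nonneg
        (fun _ => sq_nonneg _) (q.integrable_of_hasCompactSupport (.of_compactSpace _))).1 this)) z.1)))
  · have hs' := Pb50.src K (b2 s hs) y
    rw [Sw88.eD_congr (Sw88.cut_a (h2 s hs y)) (Sw88.cut_Φ (h2 s hs y)),
      (Sw88.cut_Φ (h2 s hs y)).self_of_nhds, ← Pb50.eD_ψ K hs', hD,
      show P.p0.D c _ = _ from Pb50.sum_nk hP hK (K.ψ.map_source hs') (fun _ K' => K'.rad c (K.ψ (y, s)))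
        fun j K' h => by rw [Nk.rad, K'.χ_zero h, zero_mul, zero_smul],
      Nk.rad, K.hρ _ _ hs', mul_smul, mul_assoc]
    refine (Sw88.norm_χ_smul K _ _).trans ((norm_smul _ _).trans_le (mul_le_mul ?_
      (ContinuousLinearMap.le_of_opNorm_le _ ((hC' y trivial).trans (le_abs_self _)) _)
      (norm_nonneg _) (abs_nonneg _)))
    rw [Real.norm_of_nonneg (he.b0 _)]
    exact (hB _ (Sw88.nm_nonneg _)).trans (le_abs_self B)

/-- **EC-ASY** -/
theorem asyStmt : AsyStmt κ lam ν := by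
  intro X nc e b K s v c he hs hc hv h
  obtain ⟨T, -, hT⟩ := Pb50.nd_basis.eventually_iff.1 (Pb50.ev_J K hs)
  have pp : ∀ t, pm s * (pm s * t) = t := fun t => by cases s <;> simp [pm]
  have oJ : IsOpen K.J := Nd18.isOpen_Jv
  have hA := Pb50.admOn_pb K hc
  have J : ∀ᶠ t in atTop, pm s * t ∈ K.J := (eventually_gt_atTop T).mono fun t ht =>
    hT (x := (Classical.arbitrary _, pm s * t)) (by simpa only [mem_ofPred_eq, pp] using ht)
  have a := J.mono fun t ht => ay_of (Win39.adm_sl oJ hA ht)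
  have a0 := ay_of hv
  have key : ∀ G : (e.Y.M → Jt κ ν) → ℝ, Continuous (fun p : C(e.Y.M, Jt κ ν) => G p) →
      Tendsto (fun t => G (jt (sl (K.pb c) (pm s * t)))) atTop (𝓝 (G (jt v))) := fun G hG =>
    Metric.tendsto_nhds.2 fun ε hε => by
      obtain ⟨δ, hδ, k⟩ := Metric.continuousAt_iff.1
        (hG.continuousAt (x := ⟨jt v, Win39.cont_jt a0.sa a0.sΦ⟩)) ε hε
      obtain ⟨r, hr⟩ := (Sm10.Dg.decay K he hs hc hv h 1 _ (half_pos hδ)).exists
      filter_upwards [J, a, eventually_gt_atTop r] with t h1 h2 h3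
      exact k (x := ⟨_, Win39.cont_jt h2.sa h2.sΦ⟩) (((ContinuousMap.dist_le (half_pos hδ).le).2
        fun y => (dist_eq_norm _ _).trans_le (Win39.jt_cl (oJ.inter (isOpen_lt continuous_const
          (by fun_prop))) ⟨fun i => (hA.sa i).mono fun _ k => ⟨trivial, k.2.1⟩,
          hA.sΦ.mono fun _ k => ⟨trivial, k.2.1⟩, fun i x k => hA.pa i x ⟨trivial, k.2.1⟩,
          fun x k => hA.pΦ x ⟨trivial, k.2.1⟩⟩ hv hr ⟨h1, h3.trans_eq (pp t).symm⟩ y)).trans_lt
        (half_lt_self hδ))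
  have hj : Continuous fun p : C(e.Y.M, Jt κ ν) × e.Y.M => p.1 p.2 := continuous_eval
  refine ⟨key (fun j => nm (Win39.vJ j)) (Win39.cf_vJ hj).nm, fun β => ?_⟩
  have f : ∀ {v : e.YC}, Ay v → fq β v = ∫ y, ‖-e.m.ρ none y (jE e y (jt v y)) - β • (jt v y).2.2.1‖ ^ 2
      ∂e.D.F.μ := fun h => by simp only [fq, dr, Win39.eD_jt h.sΦ]; rfl
  rw [f a0]
  exact (key (fun j => ∫ y, ‖-e.m.ρ none y (jE e y (j y)) - β • (j y).2.2.1‖ ^ 2 ∂e.D.F.μ)
    (Win39.cont_int ((((Win39.cont_ρ he continuous_snd none).clm_apply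
      (Win39.cont_jE he continuous_snd hj)).neg.sub (hj.snd.snd.fst.const_smul β)).norm.pow 2))).congr'
    (a.mono fun t ht => (f ht).symm)

end Crest.Agent.X212.Pos58
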