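import Crest.Agent.X212.Cyl58.PsJ
import Crest.Agent.X212.Cyl58.PsA

/-! # Row 212, SW-PSY (helper58): Coulomb gauge on the cross-section -/

set_option autoImplicit false
set_option linter.unusedSectionVars false
noncomputable section
open scoped Manifold ContDiff Topology InnerProductSpace
open MeasureTheory Set Function Filter Module

namespace Crest.Agent.X212.Cyl58
open An An.Pre Sob92 Ell97 Rdc90 Sw Sw.En3 Sep15.S
open Wz78 (SA nab_zero)
open Map77 (P2 f2 s2 i1 i2 tp)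

section gen
variable {E : Type} [NormedAddCommGroup E] [NormedSpace ℝ E] [FiniteDimensional ℝ E]
  [MeasurableSpace E] [BorelSpace E]
  {HM : Type} [TopologicalSpace HM] {I : ModelWithCorners ℝ E HM} [I.Boundaryless]
  {M : Type} [TopologicalSpace M] [ChartedSpace HM M] [IsManifold I ∞ M]
  [MeasurableSpace M] {ι : Type} [Fintype ι]
  {V W : Type} [NormedAddCommGroup V] [InnerProductSpace ℝ V] [FiniteDimensional ℝ V]
  [NormedAddCommGroup W] [InnerProductSpace ℝ W] [FiniteDimensional ℝ W]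
  [T2Space M] [BorelSpace M] [SecondCountableTopology M] [CompactSpace M]
  {F : Fr I M ι} {C C' : ℕ → ℝ}

theorem nrm_clm (F : Pre I M ι) (k : ℕ) (L : V →L[ℝ] W) {u : M → V} (hu : Sm I u) :
    F.nrm k (fun x => L (u x)) ≤ ‖L‖ * F.nrm k u :=
  nrm_le_of_sq (mul_nonneg (norm_nonneg _) (nrm_nonneg _ _)) <| by
    rw [mul_pow, nrm_sq]; exact n2_clm_le F.sm L k hu (FL_of_hcs k hu hcs)

theorem nrm_pj (F : Pre I M ι) (k : ℕ) {α : Type} [Fintype α] {u : M → Fm α V} (hu : Sm I u)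
    (a : α) : F.nrm k (fun x => u x a) ≤ F.nrm k u :=
  (nrm_clm F k (Map77.pj V a) hu).trans (mul_le_of_le_one_left (nrm_nonneg _ _)
    (ContinuousLinearMap.opNorm_le_bound _ zero_le_one fun v => by
      simpa using PiLp.norm_apply_le v a))

theorem sm_tp {α N : Type} [Fintype α] [NormedAddCommGroup N] [NormedSpace ℝ N]
    {f : α → M → N →L[ℝ] V} (h : ∀ a, Sm I (f a)) : Sm I fun y => tp fun a => f a y := fun x => by
  simp only [Map77.tp_eq]
  exact SA.sum _ fun a _ => contMDiffAt_const.clm_comp (h a x)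

/-- smooth Hodge decomposition -/
theorem hodge_sm {A : Op M ι V W} (hF : F.Tame C) (hA : A.Good F C') (hc : A.CliffL F)
    (w : Sec I A.q) : ∃ x : Sec I A.p, (A.adj F).app F (w - LS hA x).1 = 0 := by
  obtain ⟨C'', hA'⟩ := good_adj hF hA
  choose x hx using fun k => hodge hF hA hc k (F.toH _ _ w)
  obtain ⟨u, hu⟩ := sec_of_all hF (x := x 0) fun j hj => by
    obtain ⟨j, rfl⟩ : ∃ i, j = i + 2 := ⟨j - 2, by omega⟩
    have a : Hs F A 0 (F.incl (j + 1) 1 A.q (F.toH _ _ w - A.H F (j + 1) (x j))) = 0 :=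
      (incl_OpH hA' j.zero_le _).symm.trans ((congrArg _ (hx j)).trans (map_zero _))
    rw [map_sub (F.incl ..), incl_toH (by omega), incl_OpH hA (by omega), ← hx 0, ← sub_eq_zero,
      ← map_sub, sub_sub_sub_cancel_left, ← map_sub] at a
    have h1 : (hlf hF hA hc).LL 0 (x 0 - F.incl (j + 2) 2 _ (x j)) = 0 := a
    obtain ⟨h, e1, -⟩ := sec_of_eq hF hA hc (k := 1) (w := 0)
      (((hlf hF hA hc).LL_eq_zero.1 h1).trans (map_zero _).symm)
    exact ⟨x j + F.toH _ _ h, by rw [map_add, incl_toH (by omega), e1]; abel⟩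
  have := hx 0
  rw [← hu, H_toH hA, ← map_sub] at this
  exact ⟨u, congrArg Subtype.val (toH_inj F 0 _
    (((H_toH hA' 0 _).symm.trans this).trans (map_zero _).symm))⟩

theorem gardS {A : Op M ι V W} (hF : F.Tame C) (hA : A.Good F C') (hc : A.CliffL F) (k : ℕ) :
    ∃ K, 0 ≤ K ∧ ∀ a : Sec I A.p, F.nrm (k + 1) a.1 ≤ K * (F.nrm k (A.app F a.1) + F.nrm 0 a.1) := by
  obtain ⟨K, h⟩ := gard hF hA hc k
  refine ⟨|K|, abs_nonneg K, fun a => ?_⟩
  have := h (F.toH _ _ a)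
  rw [H_toH hA, incl_toH (Nat.zero_le _), norm_toH, norm_toH, norm_toH] at this
  exact this.trans (mul_le_mul_of_nonneg_right (le_abs_self K)
    (add_nonneg (nrm_nonneg _ _) (nrm_nonneg _ _)))

variable (F)

/-- real one-forms -/
abbrev P1 (x : M) : Fm ι ℝ →L[ℝ] Fm ι ℝ := idx (fun a b => F.P a b x) (ContinuousLinearMap.id ℝ ℝ)

/-- divergence and exterior derivative -/
abbrev A1 : Op M ι (Fm ι ℝ) (P2 ℝ (Fm (ι × ι) ℝ)) :=
  ⟨P1 F, triv M _, (d1 F (fun _ _ => 0) (P1 F)).σ, (d1 F (fun _ _ => 0) (P1 F)).B⟩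

theorem hq : Hq F (fun _ _ => 0) (triv M ℝ) (P1 F) :=
  ⟨fun _ => contMDiff_const, fun _ _ _ _ => by simp, contMDiff_const, sm_tp fun _ x =>
    SA.sum _ fun _ _ => SA.smul (F.P_sm _ _ x) contMDiffAt_const, ⟨fun _ _ => rfl, fun _ _ _ => rfl⟩,
    fun _ => rfl⟩

theorem cliff1 : (A1 F).CliffL F := (hq F).cliff1

theorem good1 (hF : F.Tame C) : ∃ C', (A1 F).Good F C' := (hq F).good1 hF

/-- a one-form from its components -/
def sec1 {a : ι → M → ℝ} (s : ∀ k, Sm I (a k)) (h : ∀ k x, ∑ j, F.P k j x * a j x = a k x) :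
    Sec I (P1 F) :=
  ⟨fun x => WithLp.toLp 2 fun k => a k x, fun x => sa_lp fun k => s k x, hcs,
    fun x => PiLp.ext fun k => (idx_ap ..).trans (h k x)⟩

/-- the differential -/
def dS {χ : M → ℝ} (h : Sm I χ) : Sec I (P1 F) := sec1 F (F.sm_D h) (P_D' χ)

/-- the forms of gauge transformations -/
def GG : AddSubgroup (Sec I (P1 F)) where
  carrier := {w | ∃ u, Gau I u ∧ ∀ k x, w.1 x k = om F u k x}
  add_mem' := fun ⟨_, hu, h⟩ ⟨_, hv, k⟩ => ⟨_, (gau_mul F hu hv).1, fun i x => by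
    rw [(gau_mul F hu hv).2, ← h, ← k]; rfl⟩
  zero_mem' := ⟨fun _ => 1, ⟨contMDiff_const, fun _ => norm_one⟩, fun k x => by
    simp [om, D_def, dv_const]⟩
  neg_mem' := fun ⟨_, hu, h⟩ => ⟨_, (gau_star F hu).1, fun i x => by
    rw [(gau_star F hu).2, ← h]; rfl⟩

theorem dS_mem {χ : M → ℝ} (h : Sm I χ) (r : ℝ) : r • dS F h ∈ GG F :=
  have s : Sm I (r • χ) := (contMDiff_const (I' := 𝓘(ℝ, ℝ)) (c := r)).smul h
  ⟨_, (gau_exp F s).1, fun k x => by rw [(gau_exp F s).2, F.D_smul h]; rfl⟩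

/-- the divergence -/
abbrev dvS (a : M → Fm ι ℝ) (x : M) : ℝ := ∑ i, (F.D i (fun y => a y i) x + F.dv i x * a x i)

theorem app1 (a : Sec I (P1 F)) (x : M) : (A1 F).app F a.1 x = i1 _ _ (dvS F a.1 x) +
    i2 _ _ ((√2)⁻¹ • WithLp.toLp 2 fun s : ι × ι =>
      Wz78.d1 I F.e F.c (fun b y => a.1 y b) s.1 s.2 x) := by
  refine ((hq F).app1 a x).trans ?_
  simp only [dv1, ed, nab_zero]; rfl

variable {F}

theorem coul0 (hF : F.Tame C) (a : Sec I (P1 F)) :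
    ∃ (χ : M → ℝ) (h : Sm I χ), ∀ x, dvS F (a - dS F h).1 x = 0 := by
  obtain ⟨C', hA⟩ := (hq F).good0 hF
  obtain ⟨χ, h⟩ := hodge_sm hF hA (hq F).cliff0 a
  have e : LS hA χ = dS F χ.2.1 := Subtype.ext (funext fun x =>
    ((hq F).app0 χ.2.1 (fun _ => rfl) x).trans (by
      simp only [nab_zero]; exact (dS F χ.2.1).2.2.2 x))
  refine ⟨_, χ.2.1, fun x => ?_⟩
  have := ((hq F).adj0 hF (fun _ _ _ _ _ => rfl) (a - dS F χ.2.1) x).symm.trans
    (congrFun (e ▸ h) x)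
  simp only [dv1, nab_zero, Pi.zero_apply, neg_eq_zero] at this
  exact this

theorem wl_abs (hF : F.Tame C) {n : ℕ} {u : Fin n → M → ℂ} (hu : ∀ i, Gau I (u i))
    (sp : ∀ h : Sec I (P1 F), (∀ i j x, Wz78.d1 I F.e F.c (fun b y => h.1 y b) i j x = 0) →
      ∃ (χ : M → ℝ) (r : Fin n → ℝ), Sm I χ ∧
        ∀ k y, h.1 y k = F.D k χ y + ∑ i, r i * om F (u i) k y) :
    ∃ K : ℕ → ℝ, (∀ k, 0 ≤ K k) ∧ ∀ a : Sec I (P1 F), ∃ w ∈ GG F, (∀ x, dvS F (a - w).1 x = 0) ∧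
      ∀ k, F.nrm (k + 1) (a - w).1 ≤ K k * (1 + F.nrm k ((A1 F).app F (a - w).1)) := by
  obtain ⟨C', hA⟩ := good1 F hF
  obtain ⟨K₀, p0, h0⟩ := hod hF hA (cliff1 F) 0
  choose K p hK using gardS hF hA (cliff1 F)
  let o : Fin n → Sec I (P1 F) := fun i => sec1 F (sm_om F (hu i)) (om_P F (hu i))
  have ho : ∀ i, o i ∈ GG F := fun i => ⟨_, hu i, fun _ _ => rfl⟩
  choose χ s hχ using coul0 hF
  have d1 : ∀ a, dS F (s a) ∈ GG F := fun a => one_smul ℝ (dS F (s a)) ▸ dS_mem F _ 1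
  have k1 : ∀ i, o i - dS F (s (o i)) ∈ kerS F (A1 F) := fun i => funext fun x => by
    obtain ⟨v, hv, e⟩ := sub_mem (ho i) (d1 (o i))
    rw [app1, hχ, show (fun b y => (o i - dS F (s (o i))).1 y b) = om F v from
      funext fun b => funext (e b)]
    simp only [d1_om F hv, map_zero, zero_add]
    exact (congrArg _ (smul_zero _)).trans (map_zero _)
  let S := ∑ i, F.nrm 1 (o i - dS F (s (o i))).1
  have pS : 0 ≤ S := Finset.sum_nonneg fun _ _ => nrm_nonneg _ _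
  refine ⟨fun k => K k * (1 + K₀ + S), fun k => by have := p k; positivity, fun a => ?_⟩
  obtain ⟨h, e1, e2⟩ := h0 (a - dS F (s a))
  obtain ⟨χ', r, s', e3⟩ := sp h fun i j x => by
    have := congrArg (fun z => s2 ℝ (Fm (ι × ι) ℝ) z (i, j)) ((app1 F h x).symm.trans (congrFun e1 x))
    simpa using this
  let η : Sec I (P1 F) := h - ∑ i, Int.fract (r i) • (o i - dS F (s (o i)))
  have k2 : η ∈ kerS F (A1 F) :=
    sub_mem e1 (Submodule.sum_mem _ fun i _ => Submodule.smul_mem _ _ (k1 i))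
  have g2 : η ∈ GG F := by
    have e : h = dS F s' + ∑ i, r i • o i := Subtype.ext (funext fun x => PiLp.ext fun k => by
      simpa [dS, sec1, o] using e3 k x)
    have e' : η = (1 : ℝ) • dS F s' + ∑ i, (⌊r i⌋ • o i + Int.fract (r i) • dS F (s (o i))) := by
      simp only [η, e, one_smul, add_sub_assoc, ← Finset.sum_sub_distrib, smul_sub,
        ← Int.cast_smul_eq_zsmul ℝ, Int.fract]
      exact congrArg _ (Finset.sum_congr rfl fun _ _ => by module)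
    exact e' ▸ add_mem (dS_mem F _ _) (sum_mem fun i _ =>
      add_mem (AddSubgroup.zsmul_mem _ (ho i) _) (dS_mem F _ _))
  have e4 : (A1 F).app F (a - (dS F (s a) + η)).1 = (A1 F).app F (a - dS F (s a)).1 :=
    funext fun x => by
      have := app_add (F := F) (A := A1 F) (a - (dS F (s a) + η)).2.1 η.2.1 x
      rw [show (A1 F).app F η.1 = 0 from k2, Pi.zero_apply, add_zero, ← Submodule.coe_add] at this
      rw [← this, sub_add_eq_sub_sub, sub_add_cancel]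
  refine ⟨_, add_mem (d1 a) g2, fun x => ?_, fun k => (hK k _).trans ?_⟩
  · have := congrArg (f2 _ _) (congrFun e4 x)
    rwa [app1, app1, hχ, map_add, map_add, Map77.f2_i2, Map77.f2_i2, add_left_inj] at this
  have n1 : F.nrm 1 (a - (dS F (s a) + η)).1 ≤ F.nrm 1 (a - dS F (s a) - h).1 + S := by
    rw [show a - (dS F (s a) + η) = a - dS F (s a) - h +
      ∑ i, Int.fract (r i) • (o i - dS F (s (o i))) by simp only [η]; abel, ← norm_toH, map_add,
      ← norm_toH, map_sum]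
    refine (norm_add_le _ _).trans (add_le_add le_rfl ((norm_sum_le _ _).trans
      (Finset.sum_le_sum fun i _ => ?_)))
    rw [map_smul, norm_smul, norm_toH, Real.norm_of_nonneg (Int.fract_nonneg _)]
    exact mul_le_of_le_one_left (nrm_nonneg _ _) (Int.fract_lt_one _).le
  rw [← e4] at e2
  have n2 := nrm_mono (F := F.toPre) zero_le_one (a - (dS F (s a) + η)).1
  have n3 := mul_le_mul_of_nonneg_left (nrm_mono (F := F.toPre) k.zero_le
    ((A1 F).app F (a - (dS F (s a) + η)).1)) p0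
  have n4 := nrm_nonneg (F := F.toPre) k ((A1 F).app F (a - (dS F (s a) + η)).1)
  rw [mul_assoc]
  exact mul_le_mul_of_nonneg_left (by nlinarith [mul_nonneg pS n4]) (p k)

end gen

variable {κ lam ν : Type} [Fintype κ] [Fintype lam] [Fintype ν] [DecidableEq ν]
  {e : En3 κ lam ν} {v : e.YC}

variable (e) in
theorem tame3 : ∃ C, e.D.F.Tame C := Cht98.exists_tame _ (by rw [e.Y.dim]; norm_num)

/-- the one-form of a configuration -/
def sa (hv : e.cyl.Adm (fz v)) : Sec e.Y.I (P1 e.D.F) := sec1 e.D.F (sm_a hv) (a_P hv)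

variable (H : e.OK)
include H

theorem wl0 : ∃ K : ℕ → ℝ, (∀ k, 0 ≤ K k) ∧ ∀ v : e.YC, ∀ hv : e.cyl.Adm (fz v), ∃ v',
    ∃ h : Eqv v v', (∀ y, dvS e.D.F (sa (eqv_adm H hv h)).1 y = 0) ∧
      ∀ k, e.D.F.nrm (k + 1) (sa (eqv_adm H hv h)).1 ≤
        K k * (1 + e.D.F.nrm k ((A1 e.D.F).app e.D.F (sa (eqv_adm H hv h)).1)) := by
  obtain ⟨C, hF⟩ := tame3 e
  obtain ⟨n, u, hu, sp⟩ := H.sp
  obtain ⟨K, p, hK⟩ := wl_abs hF hu fun h hh => sp _ ⟨sm_comp h.2.1, fun k y =>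
    (idx_ap ..).symm.trans (congrArg (· k) (h.2.2.2 y)), fun i j y => sub_eq_zero.1 (hh i j y)⟩
  refine ⟨K, p, fun v hv => ?_⟩
  obtain ⟨w, ⟨g, hg, e1⟩, e2⟩ := hK (sa hv)
  refine ⟨_, eqv_act3 hg v, ?_⟩
  rwa [show sa (eqv_adm H hv (eqv_act3 hg v)) = sa hv - w from
    Subtype.ext (funext fun x => PiLp.ext fun k => congrArg (_ - ·) (e1 k x).symm)]

/-- Coulomb gauge, one gauge for all orders -/
theorem wlD : ∃ C : ℕ → ℝ, ∀ v : e.YC, e.cyl.Adm (fz v) → ∃ v', Eqv v v' ∧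
    (∀ y, ∑ i, (e.D.F.D i (v'.a i) y + e.D.F.dv i y * v'.a i y) = 0) ∧ ∀ k i,
      e.D.F.nrm (k + 1) (v'.a i) ≤ C k * (1 + e.D.F.nrm k fun y => e.cyl.fc (fz v) (y, 0)) := by
  obtain ⟨K, p, hK⟩ := wl0 H
  let L : F2 κ →L[ℝ] P2 ℝ (Fm (κ × κ) ℝ) :=
    i2 _ _ ∘L ((√2)⁻¹ • tp fun s => Map77.pj ℝ (some s.1, some s.2))
  refine ⟨fun k => K k * (1 + ‖L‖ + ‖-L‖ * e.D.F.nrm k (fc0 e)), fun v hv => ?_⟩
  obtain ⟨v', h, e1, e2⟩ := hK v hv
  refine ⟨v', h, e1, fun k i => (nrm_pj _ _ (sa (eqv_adm H hv h)).2.1 i).trans ((e2 k).trans ?_)⟩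
  have s : Sm e.Y.I fun y => e.cyl.fc (fz v) (y, 0) :=
    Cyf70.sm_slice_fst (fun x => sa_fc H.cyl fun i => hv.sa i x) 0
  rw [show (A1 e.D.F).app e.D.F (sa (eqv_adm H hv h)).1 =
    fun y => L (e.cyl.fc (fz v) (y, 0)) + (-L) (fc0 e y) from funext fun y => by
      rw [app1, e1, ← eqv_fc H hv h, fc_fz H (eqv_adm H hv h), map_add, map_zero, zero_add,
        neg_apply, add_neg_cancel_comm]
      rfl, mul_assoc]
  have a := nadd (F := e.D.F.toPre) (k := k) (L.contMDiff.comp s) ((-L).contMDiff.comp (sm_fc0 H))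
  have b := nrm_nonneg (F := e.D.F.toPre) k fun y => e.cyl.fc (fz v) (y, 0)
  have c := mul_nonneg (norm_nonneg (-L)) (nrm_nonneg (F := e.D.F.toPre) k (fc0 e))
  refine mul_le_mul_of_nonneg_left ((add_le_add le_rfl (a.trans (add_le_add (nrm_clm _ k L s)
    (nrm_clm _ k (-L) (sm_fc0 H))))).trans ?_) (p k)
  nlinarith [mul_nonneg b c, norm_nonneg L]

theorem wlU : ∃ C : ℕ → ℝ, ∀ v : e.YC, e.cyl.Adm (fz v) → ∃ v', Eqv v v' ∧ ∀ k i,
    e.D.F.nrm (k + 1) (v'.a i) ≤ C k * (1 + e.D.F.nrm k fun y => e.cyl.fc (fz v) (y, 0)) :=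
  let ⟨C, h⟩ := wlD H
  ⟨C, fun v hv => let ⟨v', a, _, b⟩ := h v hv; ⟨v', a, b⟩⟩

end Crest.Agent.X212.Cyl58
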