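import Crest.Agent.X212.Cyl58.HB
import Crest.Agent.X212.Cyl58.Int

/-!
# X212/Cyl58/Rec: maps out of capped regions, recognition of capped regions

`Capd.lift` (universal property), `Capd.part` (clopen pieces), `Capd.exists_isOE_piece` (capping in two
steps), `Chs.exists_capd` (a manifold given by an outer chart and partial cap charts is a capped region).
-/

set_option autoImplicit false
set_option linter.unusedSectionVars false
noncomputable section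
open Set Filter Topology Function Metric TopologicalSpace
open scoped ContDiff Manifold

namespace Crest.Agent.X212.Cyl58

open Glue52

variable {V V' V'' V₃ W W' W'' : Type} [NormedAddCommGroup V] [NormedSpace ℝ V]
  [NormedAddCommGroup V'] [NormedSpace ℝ V'] [NormedAddCommGroup V''] [NormedSpace ℝ V'']
  [NormedAddCommGroup V₃] [NormedSpace ℝ V₃] [NormedAddCommGroup W] [NormedSpace ℝ W]
  [NormedAddCommGroup W'] [NormedSpace ℝ W'] [NormedAddCommGroup W''] [NormedSpace ℝ W'']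
  {EN HN : Type*} [NormedAddCommGroup EN] [NormedSpace ℝ EN] [TopologicalSpace HN]
  {IN : ModelWithCorners ℝ EN HN} {N : Type*} [TopologicalSpace N] [ChartedSpace HN N]

namespace Capd

variable {X : Pc V} {β : Type} {H : HB W X β} {C : ∀ a, Cap V (H.Y a)} {Z : Pc V'} (D : Capd H C Z)

theorem inj {x y : X.M} (hx : x ∈ H.U) (hy : y ∈ H.U) (e : D.φ x = D.φ y) : x = y :=
  D.φ.injOn (D.mem_src hx) (D.mem_src hy) e

theorem ld {x : X.M} (hx : x ∈ H.U) : IsLocalDiffeomorphAt X.I Z.I ∞ D.φ x :=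
  D.φ.isLocalDiffeomorphAt _ _ _ (D.mem_src hx)

theorem symm_φ {x : X.M} (hx : x ∈ H.U) : D.φ.symm (D.φ x) = x := D.φ.left_inv (D.mem_src hx)

theorem mem_tgt {z : Z.M} : z ∈ D.φ.target ↔ ∃ x ∈ H.U, D.φ x = z :=
  ⟨fun h => ⟨_, D.src.subset (D.φ.map_target h), D.φ.right_inv h⟩,
    fun ⟨_, hx, e⟩ => e ▸ D.φ.map_source (D.mem_src hx)⟩

/-- the map given on `U` and on the caps -/
def lift {N : Type*} (g0 : X.M → N) (g : ∀ a, (C a).P.M → N) : Z.M → N :=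
  extF D.cap g (g0 ∘ D.φ.symm)

theorem lift_cap {N : Type*} (g0 : X.M → N) (g : ∀ a, (C a).P.M → N) (a : β) (z : (C a).P.M) :
    D.lift g0 g (D.cap a z) = g a z := extF_apply (fun a => (D.oe a).inj) D.disj _ _ a z

theorem lift_φ' {N : Type*} {g0 : X.M → N} {g : ∀ a, (C a).P.M → N} {x : X.M} (hx : x ∈ H.U)
    (h : ∀ a y r, 0 < r → H.n a (y, sg (H.b a) * r) = x → g a ((C a).c (y, Real.log r)) = g0 x) :
    D.lift g0 g (D.φ x) = g0 x := by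
  by_cases e : ∃ a z, D.cap a z = D.φ x
  · obtain ⟨a, z, e⟩ := e
    obtain ⟨p, rfl, e'⟩ := (D.φ_eq_cap hx).1 e.symm
    rw [← e, lift_cap, ← h a p.1 _ (Real.exp_pos _) e', Real.log_exp]
  · rw [lift, extF_of_notMem _ _ fun a z k => e ⟨a, z, k⟩, comp_apply, D.symm_φ hx]

/-- the compatibility of a map on `U` with maps on the caps -/
def Cpt {N : Type*} (C : ∀ a, Cap V (H.Y a)) (g0 : X.M → N) (g : ∀ a, (C a).P.M → N) : Prop :=
  ∀ a y r, 0 < r → g a ((C a).c (y, Real.log r)) = g0 (H.n a (y, sg (H.b a) * r))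

theorem lift_φ {N : Type*} {g0 : X.M → N} {g : ∀ a, (C a).P.M → N} (h : Cpt C g0 g) {x : X.M}
    (hx : x ∈ H.U) : D.lift g0 g (D.φ x) = g0 x :=
  D.lift_φ' hx fun a y r hr e => e ▸ h a y r hr

theorem lift_comp {N : Type*} {g0 : X.M → N} {g : ∀ a, (C a).P.M → N} (h : Cpt C g0 g) {x : X.M}
    (hx : x ∈ H.U) : D.lift g0 g ∘ D.φ =ᶠ[𝓝 x] g0 := by
  filter_upwards [H.U.2.mem_nhds hx] with y hy using D.lift_φ h hy

theorem range_lift {N : Type*} {g0 : X.M → N} {g : ∀ a, (C a).P.M → N} (h : Cpt C g0 g) :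
    range (D.lift g0 g) = g0 '' H.U ∪ ⋃ a, range (g a) := by
  refine Subset.antisymm ?_ ?_
  · rintro _ ⟨z, rfl⟩
    rcases D.surj z with ⟨x, hx, rfl⟩ | ⟨a, w, -, rfl⟩
    · exact .inl ⟨x, hx, (D.lift_φ h hx).symm⟩
    · exact .inr (mem_iUnion.2 ⟨a, w, (D.lift_cap _ _ a w).symm⟩)
  · rintro _ (⟨x, hx, rfl⟩ | k)
    · exact ⟨_, D.lift_φ h hx⟩
    · obtain ⟨a, w, rfl⟩ := mem_iUnion.1 k
      exact ⟨_, D.lift_cap _ _ a w⟩

variable {g0 : X.M → N} {g : ∀ a, (C a).P.M → N}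

theorem ld_lift_φ (h : Cpt C g0 g) {x : X.M} (hx : x ∈ H.U) (hl : IsLocalDiffeomorphAt X.I IN ∞ g0 x) :
    IsLocalDiffeomorphAt Z.I IN ∞ (D.lift g0 g) (D.φ x) :=
  ld_of_comp (D.ld hx) (ld_congr hl (D.lift_comp h hx))

theorem ld_lift_cap {a : β} {z : (C a).P.M} (hl : IsLocalDiffeomorphAt (C a).P.I IN ∞ (g a) z) :
    IsLocalDiffeomorphAt Z.I IN ∞ (D.lift g0 g) (D.cap a z) :=
  ld_of_comp ((D.oe a).loc z) (ld_congr hl (Eventually.of_forall (D.lift_cap g0 g a)))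

theorem contMDiff_lift (h : Cpt C g0 g) (h0 : ∀ x ∈ H.U, ContMDiffAt X.I IN ∞ g0 x)
    (hg : ∀ a, ∀ z ∉ range (C a).c, ContMDiffAt (C a).P.I IN ∞ (g a) z) :
    ContMDiff Z.I IN ∞ (D.lift g0 g) :=
  D.contMDiff_of (fun x hx => (h0 x hx).congr_of_eventuallyEq (D.lift_comp h hx)) fun a z hz =>
    (hg a z hz).congr_of_eventuallyEq (Eventually.of_forall (D.lift_cap g0 g a))

/-- EMBEDDINGS of a capped region -/
theorem isOE_lift (h : Cpt C g0 g) (l0 : ∀ x ∈ H.U, IsLocalDiffeomorphAt X.I IN ∞ g0 x)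
    (i0 : InjOn g0 H.U) (hg : ∀ a, IsOE (C a).P.I IN (g a))
    (h1 : ∀ a, ∀ z ∉ range (C a).c, ∀ x ∈ H.U, g0 x ≠ g a z)
    (h2 : ∀ a a', ∀ z ∉ range (C a).c, ∀ w ∉ range (C a').c, g a z = g a' w → a = a') :
    IsOE Z.I IN (D.lift g0 g) := by
  refine ⟨fun z z' e => ?_, fun z => ?_⟩
  · rcases D.surj z with ⟨x, hx, rfl⟩ | ⟨a, w, hw, rfl⟩ <;>
      rcases D.surj z' with ⟨x', hx', rfl⟩ | ⟨a', w', hw', rfl⟩
    · rw [D.lift_φ h hx, D.lift_φ h hx'] at e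
      rw [i0 hx hx' e]
    · rw [D.lift_φ h hx, D.lift_cap] at e
      exact (h1 a' w' hw' x hx e).elim
    · rw [D.lift_φ h hx', D.lift_cap] at e
      exact (h1 a w hw x' hx' e.symm).elim
    · rw [D.lift_cap, D.lift_cap] at e
      obtain rfl := h2 a a' w hw w' hw' e
      rw [(hg a).inj e]
  · rcases D.surj z with ⟨x, hx, rfl⟩ | ⟨a, w, -, rfl⟩
    exacts [D.ld_lift_φ h hx (l0 x hx), D.ld_lift_cap ((hg a).loc w)]

/-! ### clopen pieces -/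

/-- the part over `O`, with the caps attached to it -/
def part (O : Set X.M) : Set Z.M :=
  D.φ '' (H.U ∩ O) ∪ ⋃ a ∈ {a | H.half a (Ioi 0) ⊆ O}, range (D.cap a)

theorem isOpen_part {O : Set X.M} (hO : IsOpen O) : IsOpen (D.part O) :=
  (D.φ.toOpenPartialHomeomorph.isOpen_image_of_subset_source (H.U.2.inter hO)
    fun _ hx => D.mem_src hx.1).union (isOpen_biUnion fun a _ => (D.oe a).isOpen_range)

theorem φ_mem_part {O : Set X.M} {x : X.M} (hx : x ∈ H.U) : D.φ x ∈ D.part O ↔ x ∈ O := by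
  refine ⟨?_, fun h => .inl ⟨x, ⟨hx, h⟩, rfl⟩⟩
  rintro (⟨y, hy, e⟩ | k)
  · exact D.inj hy.1 hx e ▸ hy.2
  · obtain ⟨a, ha, z, e⟩ := mem_iUnion₂.1 k
    obtain ⟨p, -, rfl⟩ := (D.φ_eq_cap hx).1 e.symm
    exact ha (H.mem_half.2 ⟨_, _, Real.exp_pos _, rfl⟩)

theorem cap_mem_part {O : Set X.M} {a : β} (h : H.half a (Ioi 0) ⊆ O) (z : (C a).P.M) :
    D.cap a z ∈ D.part O := .inr (mem_iUnion₂.2 ⟨a, h, z, rfl⟩)

theorem cap_not_mem_part {O : Set X.M} {a : β} [Nonempty (H.Y a).M] (h : Disjoint (H.half a (Ioi 0)) O)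
    (z : (C a).P.M) : D.cap a z ∉ D.part O := by
  rintro (⟨y, hy, e⟩ | k)
  · obtain ⟨p, -, rfl⟩ := (D.φ_eq_cap hy.1).1 e
    exact disjoint_left.1 h (H.mem_half.2 ⟨_, _, Real.exp_pos _, rfl⟩) hy.2
  · obtain ⟨a', ha, w, e⟩ := mem_iUnion₂.1 k
    obtain rfl := D.disj _ _ _ _ e
    have k : H.n a' (Classical.arbitrary _, sg (H.b a') * 1) ∈ H.half a' (Ioi 0) :=
      H.mem_half.2 ⟨_, _, mem_Ioi.2 one_pos, rfl⟩
    exact disjoint_left.1 h k (ha k)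

theorem compl_part [∀ a, Nonempty (H.Y a).M] {O O' : Set X.M} (hd : Disjoint O O')
    (hU : (H.U : Set X.M) ⊆ O ∪ O') (hh : ∀ a, H.half a (Ioi 0) ⊆ O ∨ H.half a (Ioi 0) ⊆ O') :
    (D.part O)ᶜ = D.part O' := by
  ext z
  rcases D.surj z with ⟨x, hx, rfl⟩ | ⟨a, w, -, rfl⟩
  · rw [mem_compl_iff, D.φ_mem_part hx, D.φ_mem_part hx]
    exact ⟨(hU hx).resolve_left, fun h h' => disjoint_left.1 hd h' h⟩
  · rcases hh a with h | h
    · exact iff_of_false (fun k => k (D.cap_mem_part h w)) (D.cap_not_mem_part (hd.mono_left h) w)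
    · exact iff_of_true (D.cap_not_mem_part (hd.symm.mono_left h) w) (D.cap_mem_part h w)

theorem isClopen_part [∀ a, Nonempty (H.Y a).M] {O O' : Set X.M} (hO : IsOpen O) (hO' : IsOpen O')
    (hd : Disjoint O O') (hU : (H.U : Set X.M) ⊆ O ∪ O')
    (hh : ∀ a, H.half a (Ioi 0) ⊆ O ∨ H.half a (Ioi 0) ⊆ O') : IsClopen (D.part O) :=
  ⟨isOpen_compl_iff.1 (D.compl_part hd hU hh ▸ D.isOpen_part hO'), D.isOpen_part hO⟩

/-! ### capping in two steps -/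

/-- `X'` is a capped region of `X`, `Z'` one of `X'`: then `Z'` embeds in the capped region `Z` of `X` -/
theorem exists_isOE_piece {β₁ β' : Type} {H₁ : HB W' X β₁} {C₁ : ∀ a, Cap V (H₁.Y a)} {X' : Pc V''}
    (D₁ : Capd H₁ C₁ X') {H' : HB W'' X' β'} {C' : ∀ a, Cap V'' (H'.Y a)} {Z' : Pc V₃}
    (D' : Capd H' C' Z') {u₁ : β₁ → β} {u' : β' → β} (i₁ : Injective u₁) (i' : Injective u')
    (hu : ∀ a a', u₁ a ≠ u' a') {e₁ : ∀ a, (C₁ a).P.M → (C (u₁ a)).P.M}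
    {e' : ∀ a, (C' a).P.M → (C (u' a)).P.M} (o₁ : ∀ a, IsOE (C₁ a).P.I (C (u₁ a)).P.I (e₁ a))
    (o' : ∀ a, IsOE (C' a).P.I (C (u' a)).P.I (e' a))
    (r₁ : ∀ a, ∀ z ∉ range (C₁ a).c, e₁ a z ∉ range (C (u₁ a)).c)
    (r' : ∀ a, ∀ z ∉ range (C' a).c, e' a z ∉ range (C (u' a)).c)
    (hU : ∀ x ∈ H₁.U, D₁.φ x ∈ H'.U → x ∈ H.U)
    (c₁ : ∀ a y r, 0 < r →
      D.cap (u₁ a) (e₁ a ((C₁ a).c (y, Real.log r))) = D.φ (H₁.n a (y, sg (H₁.b a) * r)))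
    (c' : ∀ a y r, 0 < r → ∃ x ∈ H₁.U, D₁.φ x = H'.n a (y, sg (H'.b a) * r) ∧
      D.cap (u' a) (e' a ((C' a).c (y, Real.log r))) = D.φ x) :
    ∃ Ψ : Z'.M → Z.M, IsOE Z'.I Z.I Ψ ∧
      (∀ x ∈ H₁.U, D₁.φ x ∈ H'.U → Ψ (D'.φ (D₁.φ x)) = D.φ x) ∧
      (∀ a z, D₁.cap a z ∈ H'.U → Ψ (D'.φ (D₁.cap a z)) = D.cap (u₁ a) (e₁ a z)) ∧
      ∀ a z, Ψ (D'.cap a z) = D.cap (u' a) (e' a z) := by
  let G : X'.M → Z.M := D₁.lift D.φ fun a => D.cap (u₁ a) ∘ e₁ a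
  have hG : Cpt C₁ D.φ fun a => D.cap (u₁ a) ∘ e₁ a := c₁
  have G0 : ∀ x ∈ H₁.U, G (D₁.φ x) = D.φ x := fun x hx => D₁.lift_φ hG hx
  have G1 : ∀ a z, G (D₁.cap a z) = D.cap (u₁ a) (e₁ a z) := fun a z => D₁.lift_cap _ _ a z
  have hG' : Cpt C' G fun a => D.cap (u' a) ∘ e' a := fun a y r hr => by
    obtain ⟨x, hx, k1, k2⟩ := c' a y r hr
    rw [← k1, G0 x hx]
    exact k2
  refine ⟨D'.lift G fun a => D.cap (u' a) ∘ e' a, D'.isOE_lift hG' (fun x hx => ?_)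
    (fun x hx x' hx' e => ?_) (fun a => (D.oe _).comp (o' a)) (fun a z hz x hx e => ?_)
    (fun a a' z _ w _ e => i' (D.disj _ _ _ _ e)),
    fun x hx h => (D'.lift_φ hG' h).trans (G0 x hx), fun a z h => (D'.lift_φ hG' h).trans (G1 a z),
    fun a z => D'.lift_cap _ _ a z⟩
  · rcases D₁.surj x with ⟨x, k, rfl⟩ | ⟨a, w, -, rfl⟩
    · exact D₁.ld_lift_φ hG k (D.ld (hU x k hx))
    · exact D₁.ld_lift_cap (((D.oe _).comp (o₁ a)).loc w)
  · rcases D₁.surj x with ⟨x, k, rfl⟩ | ⟨a, w, hw, rfl⟩ <;>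
      rcases D₁.surj x' with ⟨x', k', rfl⟩ | ⟨a', w', hw', rfl⟩
    · rw [G0 x k, G0 x' k'] at e
      rw [D.inj (hU x k hx) (hU x' k' hx') e]
    · rw [G0 x k, G1] at e
      exact (D.ne_cap (hU x k hx) (r₁ a' w' hw') e).elim
    · rw [G0 x' k', G1] at e
      exact (D.ne_cap (hU x' k' hx') (r₁ a w hw) e.symm).elim
    · rw [G1, G1] at e
      obtain rfl := i₁ (D.disj _ _ _ _ e)
      rw [(o₁ a).inj ((D.oe _).inj e)]
  · rcases D₁.surj x with ⟨x, k, rfl⟩ | ⟨a', w, -, rfl⟩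
    · exact D.ne_cap (hU x k hx) (r' a z hz) ((G0 x k).symm.trans e)
    · exact hu a' a (D.disj _ _ _ _ ((G1 a' w).symm.trans e))

end Capd

/-! ### recognition -/

/-- the points of a cap of height at most `T` -/
def Cap.low {Y : Pc W} (C : Cap V Y) (T : ℝ) : Set C.P.M := {z | ∀ p, C.c p = z → p.2 ≤ T}

theorem Cap.c_mem_low {Y : Pc W} (C : Cap V Y) {T : ℝ} {p : Y.M × ℝ} : C.c p ∈ C.low T ↔ p.2 ≤ T :=
  ⟨fun h => h p rfl, fun h _ e => C.isEnd.oe.inj e ▸ h⟩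

theorem Cap.mem_low {Y : Pc W} (C : Cap V Y) (T : ℝ) {z : C.P.M} (h : z ∉ range C.c) : z ∈ C.low T :=
  fun p e => (h ⟨p, e⟩).elim

/-- the part of `U` off the half bands `r ≤ R` -/
def HB.ext {X : Pc V} {β : Type} (H : HB W X β) (R : ℝ) : Set X.M :=
  {x | x ∈ H.U ∧ ∀ a y r, 0 < r → H.n a (y, sg (H.b a) * r) = x → R < r}

theorem HB.n_mem_ext {X : Pc V} {β : Type} (H : HB W X β) {R r : ℝ} (hr : 0 < r) (a : β)
    (y : (H.Y a).M) : H.n a (y, sg (H.b a) * r) ∈ H.ext R ↔ R < r := by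
  refine ⟨fun h => h.2 a y r hr rfl, fun h => ⟨H.mem a y r hr, fun a' y' r' hr' e => ?_⟩⟩
  obtain rfl := H.disj _ _ _ _ _ _ hr' hr e
  rwa [mul_left_cancel₀ (sg_ne _) (congrArg Prod.snd ((H.oe a').inj e) :)]

theorem HB.ext_mono {X : Pc V} {β : Type} (H : HB W X β) {R R' : ℝ} (h : R ≤ R') :
    H.ext R' ⊆ H.ext R := fun _ hx => ⟨hx.1, fun a y r hr e => h.trans_lt (hx.2 a y r hr e)⟩

/-- `Z` is the union of the outer chart `h0` (on `r > R`) and the charts `b0 a` of the low parts of the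
caps; the height in the cap is `κ a r` -/
structure Chs {X : Pc V} {β : Type} (H : HB W X β) (C : ∀ a, Cap V (H.Y a)) (Z : Pc V') (R : ℝ)
    (κ : β → ℝ → ℝ) (h0 : X.M → Z.M) (b0 : ∀ a, (C a).P.M → Z.M) : Prop where
  pos : 0 < R
  up : ∀ a, Up (κ a) (Ici R)
  l0 : ∀ x ∈ H.ext R, IsLocalDiffeomorphAt X.I Z.I ∞ h0 x
  i0 : InjOn h0 (H.ext R)
  l1 : ∀ a, ∀ z ∈ (C a).low (κ a R), IsLocalDiffeomorphAt (C a).P.I Z.I ∞ (b0 a) z
  i1 : ∀ a, InjOn (b0 a) ((C a).low (κ a R))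
  rel : ∀ a y r, R < r → b0 a ((C a).c (y, κ a r)) = h0 (H.n a (y, sg (H.b a) * r))
  d0 : ∀ a, ∀ z ∈ (C a).low (κ a R), ∀ x ∈ H.ext R, h0 x ≠ b0 a z
  d1 : ∀ a a', ∀ z ∈ (C a).low (κ a R), ∀ w ∈ (C a').low (κ a' R), b0 a z = b0 a' w → a = a'
  cov : ∀ z, (∃ x ∈ H.ext R, h0 x = z) ∨ ∃ a, ∃ w ∈ (C a).low (κ a R), b0 a w = z

namespace Chs

variable {X : Pc V} {β : Type} {H : HB W X β} {C : ∀ a, Cap V (H.Y a)} {Z : Pc V'} {R : ℝ}
  {κ : β → ℝ → ℝ} {h0 : X.M → Z.M} {b0 : ∀ a, (C a).P.M → Z.M} (h : Chs H C Z R κ h0 b0)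
include h

theorem mono (a : β) : StrictMonoOn (κ a) (Ici R) := (h.up a).strictMonoOn ordConnected_Ici

theorem cases {a : β} {r : ℝ} (hr : R ≤ r) {z : (C a).P.M} (hz : z ∈ (C a).low (κ a r)) :
    z ∈ (C a).low (κ a R) ∨ ∃ y s, R < s ∧ s ≤ r ∧ (C a).c (y, κ a s) = z := by
  refine or_iff_not_imp_left.2 fun k => ?_
  simp only [Cap.low, mem_ofPred_eq, not_forall, not_le] at k
  obtain ⟨⟨y, t⟩, rfl, k⟩ := k
  obtain ⟨s, hs, rfl⟩ : t ∈ κ a '' Icc R r := by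
    rw [(h.up a).image_Icc hr Icc_subset_Ici_self]
    exact ⟨k.le, (C a).c_mem_low.1 hz⟩
  exact ⟨y, s, hs.1.lt_of_ne fun e => by simp [← e] at k, hs.2, rfl⟩

theorem n_mem {a : β} (y : (H.Y a).M) {s : ℝ} (hs : R < s) : H.n a (y, sg (H.b a) * s) ∈ H.ext R :=
  (H.n_mem_ext (h.pos.trans hs) a y).2 hs

theorem ld {a : β} {r : ℝ} (hr : R ≤ r) {z : (C a).P.M} (hz : z ∈ (C a).low (κ a r)) :
    IsLocalDiffeomorphAt (C a).P.I Z.I ∞ (b0 a) z := by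
  rcases h.cases hr hz with k | ⟨y, s, hs, -, rfl⟩
  · exact h.l1 a z k
  have k1 := ld_comp (f := Prod.map id (κ a)) (x := (y, s)) ((C a).isEnd.oe.loc _)
    (ld_prodMap (IA := (H.Y a).I) (ld_id y) (((h.up a).mono Ioi_subset_Ici_self).ld isOpen_Ioi hs))
  have k2 := ld_comp (g := h0) (f := H.n a ∘ Prod.map id fun t => sg (H.b a) * t) (x := (y, s))
    (h.l0 _ (h.n_mem y hs))
    (((H.oe a).comp (IsOE.id.prodMap (isOE_sg (H.b a)))).loc (y, s))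
  refine ld_of_comp (g := b0 a) (x := (y, s)) (f := (C a).c ∘ Prod.map id (κ a)) k1 (ld_congr k2 ?_)
  filter_upwards [(isOpen_Ioi.preimage continuous_snd).mem_nhds (show (y, s) ∈ Prod.snd ⁻¹' Ioi R from hs)]
    with p hp using h.rel a p.1 p.2 hp

theorem of_eq {a : β} {r : ℝ} (hr : R ≤ r) {z : (C a).P.M} (hz : z ∈ (C a).low (κ a r)) {x : X.M}
    (hx : x ∈ H.ext R) (e : h0 x = b0 a z) :
    ∃ y s, R < s ∧ s ≤ r ∧ (C a).c (y, κ a s) = z ∧ H.n a (y, sg (H.b a) * s) = x := by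
  rcases h.cases hr hz with k | ⟨y, s, hs, hs', rfl⟩
  · exact (h.d0 a z k x hx e).elim
  · exact ⟨y, s, hs, hs', rfl, h.i0 (h.n_mem y hs) hx ((h.rel a y s hs).symm.trans e.symm)⟩

theorem inj {a a' : β} {r r' : ℝ} (hr : R ≤ r) (hr' : R ≤ r') {z : (C a).P.M} {w : (C a').P.M}
    (hz : z ∈ (C a).low (κ a r)) (hw : w ∈ (C a').low (κ a' r')) (e : b0 a z = b0 a' w) :
    (⟨a, z⟩ : Σ a, (C a).P.M) = ⟨a', w⟩ := by
  rcases h.cases hr hz with k | ⟨y, s, hs, -, rfl⟩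
  · rcases h.cases hr' hw with k' | ⟨y', s', hs', -, rfl⟩
    · obtain rfl := h.d1 a a' z k w k' e
      rw [h.i1 a k k' e]
    · exact (h.d0 a z k _ (h.n_mem y' hs') ((h.rel a' y' s' hs').symm.trans e.symm)).elim
  · obtain ⟨y', s', hs', -, rfl, k⟩ := h.of_eq hr' hw (h.n_mem y hs) ((h.rel a y s hs).symm.trans e)
    obtain rfl := H.disj _ _ _ _ _ _ (h.pos.trans hs') (h.pos.trans hs) k
    obtain ⟨rfl, k'⟩ := Prod.mk.inj ((H.oe a').inj k)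
    rw [mul_left_cancel₀ (sg_ne _) k']

/-- RECOGNITION of a capped region; `φ = h0` on `r ≥ R'`, `cap = b0` on the low parts -/
theorem exists_capd [Finite β] [T2Space X.M] [Nonempty H.U] {R' : ℝ} (hR : R < R') {T : β → ℝ}
    (hT : ∀ a, T a < Real.log R') (hT' : ∀ a, T a < κ a R') :
    ∃ D : Capd H C Z, (∀ x ∈ H.U, (∀ a, x ∉ H.half a (Ioo 0 R')) → D.φ x = h0 x) ∧
      (∀ a, ∀ z ∈ (C a).low (T a), D.cap a z = b0 a z) ∧
      (∀ a, D.cap a '' (C a).low (Real.log R') = b0 a '' (C a).low (κ a R')) ∧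
      ∀ a z, ∃ r, R' ≤ r ∧ ∃ w ∈ (C a).low (κ a r), D.cap a z = b0 a w := by
  have h0' : 0 < R' := h.pos.trans hR
  have ex : ∀ a, ∃ l : ℝ → ℝ, Up l univ ∧ (∀ t ≤ T a, l t = t) ∧
      (∀ t, Real.log R' ≤ t → l t = κ a (Real.exp t)) ∧ Iic (κ a R') ⊆ l '' Iic (Real.log R') := by
    intro a
    obtain ⟨l, k1, k2, k3, k4⟩ := exists_up_univ (hT a) (Up.id univ) univ_mem (subset_univ _)
      (((h.up a).mono Ioi_subset_Ici_self).comp (Up.exp (Real.exp ⁻¹' Ioi R)) fun _ hx => hx)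
      (Real.continuous_exp.continuousAt.preimage_mem_nhds (Ioi_mem_nhds (by rwa [Real.exp_log h0'])))
      (fun t ht => hR.trans ((Real.log_lt_iff_lt_exp h0').1 ht)) (by simpa [Real.exp_log h0'] using hT' a)
    refine ⟨l, k1, k2, k3, fun t ht => ?_⟩
    obtain ⟨s, rfl⟩ : t ∈ range l := by
      rw [k4]
      refine .inl ((lt_or_ge t (T a)).imp (fun e => ⟨t, e, rfl⟩) fun e => ⟨e, ?_⟩)
      simpa [Real.exp_log h0'] using ht
    exact ⟨s, k1.strictMono.le_iff_le.1 (by rwa [k3 _ le_rfl, comp_apply, Real.exp_log h0']), rfl⟩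
  choose l l1 l2 l3 l4 using ex
  have l5 : ∀ a t, l a t ≤ κ a (max R' (Real.exp t)) := fun a t => by
    rcases le_total t (Real.log R') with e | e
    · rw [max_eq_left ((Real.le_log_iff_exp_le h0').1 e), ← Real.exp_log h0', ← l3 a _ le_rfl]
      exact (l1 a).strictMono.monotone e
    · rw [max_eq_right ((Real.log_le_iff_le_exp h0').1 e), l3 a t e]
  let ψ : ∀ a, (C a).P.M → (C a).P.M := fun a => push (C a).c (Prod.map id (l a))
  have ψc : ∀ a y t, ψ a ((C a).c (y, t)) = (C a).c (y, l a t) := fun a y t =>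
    push_apply (C a).isEnd.oe.inj _ _
  have ψn : ∀ a, ∀ z ∉ range (C a).c, ψ a z = z := fun a z e => push_of_notMem _ e
  have ψo : ∀ a, IsOE (C a).P.I (C a).P.I (ψ a) := fun a =>
    (C a).isEnd.oe.push ((C a).isEnd.isClosed (T a)) (fun p hp => Prod.ext rfl
      (l2 a _ (not_le.1 fun e => hp ⟨trivial, e⟩).le)) (IsOE.id.prodMap (l1 a).isOE)
  have ψl : ∀ a z, ∃ r, R' ≤ r ∧ ψ a z ∈ (C a).low (κ a r) := fun a z => by
    by_cases e : z ∈ range (C a).c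
    · obtain ⟨⟨y, t⟩, rfl⟩ := e
      exact ⟨_, le_max_left _ _, ψc a y t ▸ (C a).c_mem_low.2 (l5 a t)⟩
    · exact ⟨R', le_rfl, (ψn a z e).symm ▸ (C a).mem_low _ e⟩
  let cap : ∀ a, (C a).P.M → Z.M := fun a => b0 a ∘ ψ a
  have cd : ∀ a a' z w, cap a z = cap a' w → (⟨a, ψ a z⟩ : Σ a, (C a).P.M) = ⟨a', ψ a' w⟩ :=
    fun a a' z w e => by
      obtain ⟨r, k1, k2⟩ := ψl a z
      obtain ⟨r', k1', k2'⟩ := ψl a' w
      exact h.inj (hR.le.trans k1) (hR.le.trans k1') k2 k2' e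
  have co : ∀ a, IsOE (C a).P.I Z.I (cap a) := fun a =>
    ⟨fun z w e => (ψo a).inj (eq_of_heq (Sigma.mk.inj (cd a a z w e)).2), fun z => by
      obtain ⟨r, k1, k2⟩ := ψl a z
      exact ld_comp (h.ld (hR.le.trans k1) k2) ((ψo a).loc z)⟩
  have cc : ∀ a y r, R' ≤ r → cap a ((C a).c (y, Real.log r)) = h0 (H.n a (y, sg (H.b a) * r)) :=
    fun a y r hr => by
      rw [← h.rel a y r (hR.trans_le hr)]
      exact congrArg (b0 a) ((ψc a y _).trans (by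
        rw [l3 a _ (Real.log_le_log h0' hr), Real.exp_log (h0'.trans_le hr)]))
  have jd : ∀ a a' p q, H.j a p = H.j a' q → a = a' := fun a a' p q e =>
    H.disj a a' _ _ _ _ (Real.exp_pos _) (Real.exp_pos _) (congrArg Subtype.val e)
  have jn : ∀ x : H.U, x ∉ ⋃ a, H.j a '' (univ ×ˢ Ici (-Real.log R')) → x.1 ∈ H.ext R' := fun x hx =>
    ⟨x.2, fun a y r hr e => not_le.1 fun k => hx (mem_iUnion.2 ⟨a, (y, -Real.log r),
      ⟨trivial, neg_le_neg (Real.log_le_log hr k)⟩, Subtype.ext ((H.j_log a y hr).trans e)⟩)⟩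
  let Φ : H.U → Z.M := extF H.j (fun a p => cap a ((C a).c (p.1, -p.2))) (h0 ∘ Subtype.val)
  have Φj : ∀ a p, Φ (H.j a p) = cap a ((C a).c (p.1, -p.2)) := fun a p =>
    extF_apply (fun a => (H.isOE_j a).inj) jd _ _ a p
  have Φn : ∀ x : H.U, (∀ a p, H.j a p ≠ x) → Φ x = h0 x ∧ x.1 ∈ H.ext R := fun x hx =>
    ⟨extF_of_notMem _ _ hx, H.ext_mono hR.le (jn x fun k => by
      obtain ⟨a, p, -, e⟩ := mem_iUnion.1 k
      exact hx a p e)⟩
  have Φe : ∀ x : H.U, (∀ a, x.1 ∉ H.half a (Ioo 0 R')) → Φ x = h0 x := fun x hx => by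
    by_cases e : ∃ a p, H.j a p = x
    · obtain ⟨a, p, rfl⟩ := e
      rw [Φj, ← Real.log_exp (-p.2)]
      exact cc a p.1 _ (not_lt.1 fun k => hx a (H.mem_half.2 ⟨p.1, _, ⟨Real.exp_pos _, k⟩, rfl⟩))
    · exact (Φn x fun a p k => e ⟨a, p, k⟩).1
  have Φo : IsOE X.I Z.I Φ := by
    refine isOE_extF H.isOE_j jd (fun a => (H.isEnd_j a).isClosed (-Real.log R')) (fun a p hp => ?_)
      (fun a => (co a).comp ((C a).isEnd.oe.comp (IsOE.id.prodMap isOE_neg)))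
      (fun x hx => ld_comp (h.l0 _ (Φn x hx).2) ((isOE_val H.U).loc x))
      (fun x hx y hy e => Subtype.ext (h.i0 (H.ext_mono hR.le (jn x hx)) (H.ext_mono hR.le (jn y hy)) e))
      (fun a p hp x hx e => ?_) fun a a' p _ q _ e => congrArg Sigma.fst (cd _ _ _ _ e)
    · rw [← Real.log_exp (-p.2)]
      exact cc a p.1 _ ((Real.log_le_iff_le_exp h0').1
        (le_neg.1 (not_le.1 fun e => hp ⟨trivial, e⟩).le))
    · have k1 : ψ a ((C a).c (p.1, -p.2)) ∈ (C a).low (κ a R') := by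
        rw [ψc, (C a).c_mem_low, ← Real.exp_log h0', ← l3 a _ le_rfl]
        exact (l1 a).strictMono.monotone (neg_le.1 hp.2)
      obtain ⟨y, s, k2, k3, -, k4⟩ := h.of_eq hR.le k1 (H.ext_mono hR.le (jn x hx)) e.symm
      exact ((jn x hx).2 a y s (h.pos.trans k2) k4).not_ge k3
  have Φl : ∀ a y, ∀ t ≤ κ a R', b0 a ((C a).c (y, t)) ∈ range Φ := fun a y t ht => by
    obtain ⟨s, -, rfl⟩ := l4 a ht
    exact ⟨H.j a (y, -s), (Φj a _).trans (congrArg (b0 a) ((ψc a y _).trans (by rw [neg_neg])))⟩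
  refine ⟨⟨(isOE_val H.U).span Φo, cap, co, (IsOE.span_source _ _).trans Subtype.range_coe,
    (IsOE.span_target _ _).trans (Subset.antisymm ?_ fun z hz => ?_), fun a y r hr => ?_,
    fun a a' z w e => congrArg Sigma.fst (cd _ _ _ _ e)⟩, fun x hx k => ?_, fun a z hz => ?_,
    fun a => Subset.antisymm ?_ ?_, fun a z => ?_⟩
  · rintro _ ⟨x, rfl⟩ k
    obtain ⟨a, w, hw, e⟩ := mem_iUnion.1 k
    by_cases e' : ∃ a p, H.j a p = x
    · obtain ⟨a', p, rfl⟩ := e'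
      rw [Φj] at e
      obtain rfl : a = a' := congrArg Sigma.fst (cd _ _ _ _ e)
      exact hw ⟨_, ((co a).inj e).symm⟩
    · obtain ⟨k1, k2⟩ := Φn x fun a p k => e' ⟨a, p, k⟩
      exact h.d0 a w ((C a).mem_low _ hw) x k2
        (k1.symm.trans (e.symm.trans (congrArg (b0 a) (push_of_notMem _ hw))))
  · rcases h.cov z with ⟨x, hx, rfl⟩ | ⟨a, w, hw, rfl⟩
    · by_cases e : ∃ a, x ∈ H.half a (Ioo 0 R')
      · obtain ⟨a, e⟩ := e
        obtain ⟨y, r, hr, rfl⟩ := H.mem_half.1 e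
        have k := hx.2 a y r hr.1 rfl
        rw [← h.rel a y r k]
        exact Φl a y _ ((h.mono a).monotoneOn k.le hR.le hr.2.le)
      · exact ⟨⟨x, hx.1⟩, Φe _ fun a k => e ⟨a, k⟩⟩
    · by_cases e : w ∈ range (C a).c
      · obtain ⟨⟨y, t⟩, rfl⟩ := e
        exact Φl a y t (((C a).c_mem_low.1 hw).trans ((h.mono a).monotoneOn self_mem_Ici hR.le hR.le))
      · exact (hz (mem_iUnion.2 ⟨a, w, e, congrArg (b0 a) (push_of_notMem _ e)⟩)).elim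
  · rw [← H.j_log a y hr, IsOE.span_apply, Φj, neg_neg]
  · exact ((isOE_val H.U).span_apply Φo ⟨x, hx⟩).trans (Φe ⟨x, hx⟩ k)
  · by_cases e : z ∈ range (C a).c
    · obtain ⟨⟨y, t⟩, rfl⟩ := e
      exact congrArg (b0 a) ((ψc a y t).trans (by rw [l2 a t ((C a).c_mem_low.1 hz)]))
    · exact congrArg (b0 a) (push_of_notMem _ e)
  · rintro _ ⟨z, hz, rfl⟩
    refine ⟨ψ a z, ?_, rfl⟩
    by_cases e : z ∈ range (C a).c
    · obtain ⟨⟨y, t⟩, rfl⟩ := e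
      rw [ψc, (C a).c_mem_low, ← Real.exp_log h0', ← l3 a _ le_rfl]
      exact (l1 a).strictMono.monotone ((C a).c_mem_low.1 hz)
    · exact (ψn a z e).symm ▸ (C a).mem_low _ e
  · rintro _ ⟨z, hz, rfl⟩
    by_cases e : z ∈ range (C a).c
    · obtain ⟨⟨y, t⟩, rfl⟩ := e
      obtain ⟨s, hs, rfl⟩ := l4 a ((C a).c_mem_low.1 hz)
      exact ⟨(C a).c (y, s), (C a).c_mem_low.2 hs, congrArg (b0 a) (ψc a y s)⟩
    · exact ⟨z, (C a).mem_low _ e, congrArg (b0 a) (push_of_notMem _ e)⟩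
  · obtain ⟨r, k1, k2⟩ := ψl a z
    exact ⟨r, k1, _, k2, rfl⟩

end Chs

end Crest.Agent.X212.Cyl58
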