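import Crest.Agent.X212.End23.Crt
import Crest.Agent.X212.Map77.IxS

/-! # Row 212, ES-SF (helper58): the base operator -/

set_option autoImplicit false
noncomputable section

namespace Crest.Agent.X212.Ah58
open An Sw Cyf70 End23 Map77.S

variable (κ lam ν : Type) [Fintype κ] [Fintype lam] [Fintype ν] [DecidableEq ν]

/-- **ES-SF** -/
theorem sfStmt : SfStmt κ lam ν := fun e he =>
  have h := cyO_A0 he
  let ⟨C, g⟩ := h.good_sop
  have t : ∀ u : Sec e.Y.I (pV e), e.D.F.op (sop e.A0).σ (sop e.A0).B u.1 = hs0 e u.1 :=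
    fun u => sop_hs0 he u.2
  ⟨⟨_, _, C, g, h.cliffL, h.sym, t⟩,
    Ms1.isSF e.Y.dim.le g h.cliffL h.sym t exists_stp.choose_spec.choose_spec⟩

end Crest.Agent.X212.Ah58
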