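import Crest.Agent.X212.Cyl58.Mov

/-!
# X212/Cyl58/Shr: moves that keep the height

`HM.shear`; `exists_time` (reparametrisation of time); `exists_chart`, `exists_chart_sb` (a half disc that
contains one vertex is a ball that is conical near its boundary).
-/

set_option autoImplicit false
set_option linter.unusedSectionVars false
noncomputable section
open Set Filter Topology Function Metric TopologicalSpace
open scoped ContDiff Manifold

namespace Crest.Agent.X212.Cyl58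

open Glue52 Rod53

/-- fibrewise increasing maps -/
theorem isOE_fib {E : Type} [NormedAddCommGroup E] [NormedSpace ℝ E] [FiniteDimensional ℝ E] {g : E × ℝ → ℝ}
    (hg : ContDiff ℝ ∞ g) (h : ∀ w, Up (fun x => g (w, x)) univ) :
    IsOE 𝓘(ℝ, E × ℝ) 𝓘(ℝ, E × ℝ) fun p => (p.1, g p) := by
  refine ⟨fun ⟨w, x⟩ ⟨w', x'⟩ e => ?_, fun p => ld_of_injective_mfderiv rfl isOpen_univ (mem_univ p)
    (contDiff_fst.prodMk hg).contMDiff.contMDiffOn ?_⟩
  · obtain rfl : w = w' := congrArg Prod.fst e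
    rw [(h w).strictMono.injective (congrArg Prod.snd e :)]
  · have d := (hg.differentiable (by simp) p).hasFDerivAt
    have d1 : HasDerivAt (fun x => g (p.1, x)) (fderiv ℝ g p (0, 1)) p.2 :=
      d.comp_hasDerivAt p.2 ((hasDerivAt_const _ _).prodMk (hasDerivAt_id _))
    have d2 := d1.deriv ▸ (h p.1 p.2 trivial).2
    rw [mfderiv_eq_fderiv, (hasFDerivAt_fst.prodMk d).fderiv]
    refine (injective_iff_map_eq_zero _).2 fun ⟨w, t⟩ e => ?_
    obtain rfl : w = 0 := congrArg Prod.fst e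
    have e2 : fderiv ℝ g p (t • (0, 1)) = 0 := by
      rw [Prod.smul_mk, smul_zero, smul_eq_mul, mul_one]
      exact congrArg Prod.snd e
    rw [map_smul, smul_eq_zero] at e2
    rw [e2.resolve_right d2.ne']
    rfl

/-- convex combination -/
def cvx (t : ℝ) (f g : ℝ → ℝ) (x : ℝ) : ℝ := (1 - t) * f x + t * g x

theorem up_cvx {t : ℝ} (h0 : 0 ≤ t) (h1 : t ≤ 1) {f g : ℝ → ℝ} {s : Set ℝ} (hf : Up f s) (hg : Up g s) :
    Up (cvx t f g) s :=
  Up.of_hasDerivAt (fun x hx => (contDiffAt_const.mul (hf x hx).1).add (contDiffAt_const.mul (hg x hx).1))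
    (fun _ hx => ((hf.hasDerivAt hx).const_mul _).add ((hg.hasDerivAt hx).const_mul _)) fun x hx =>
    convex_Ioi (0 : ℝ) (hf x hx).2 (hg x hx).2 (sub_nonneg.2 h1) h0 (sub_add_cancel _ _)

theorem surj_cvx {t : ℝ} (h0 : 0 ≤ t) (h1 : t ≤ 1) {f g : ℝ → ℝ} (hf : Up f univ) (sf : Surjective f)
    (hg : Up g univ) (sg : Surjective g) : Surjective (cvx t f g) := fun y => by
  obtain ⟨a, ha⟩ := sf y
  obtain ⟨b, hb⟩ := sg y
  exact mem_range_of_exists_le_of_exists_ge (up_cvx h0 h1 hf hg).continuous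
    ⟨min a b, convex_Iic y (ha ▸ hf.strictMono.monotone (min_le_left a b))
      (hb ▸ hg.strictMono.monotone (min_le_right a b)) (sub_nonneg.2 h1) h0 (sub_add_cancel _ _)⟩
    ⟨max a b, convex_Ici y (ha ▸ hf.strictMono.monotone (le_max_left a b))
      (hb ▸ hg.strictMono.monotone (le_max_right a b)) (sub_nonneg.2 h1) h0 (sub_add_cancel _ _)⟩

namespace HM

variable {v v' : ℝ → Z2}

/-- the move that is `σ₀` for heights `≤ a` and `σ₁` for heights `≥ b` -/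
def shear {σ₀ σ₁ : ℝ → ℝ} (u₀ : Up σ₀ univ) (s₀ : Surjective σ₀) (u₁ : Up σ₁ univ) (s₁ : Surjective σ₁)
    {a b : ℝ} (ha : 0 < a) (hab : a < b) : HM :=
  have k : ∀ y : ℝ, Up (fun x => cvx (stp (a ^ 2) (b ^ 2) (y ^ 2)) σ₀ σ₁ x) univ := fun _ =>
    up_cvx (stp_nonneg ..) (stp_le_one ..) u₀ u₁
  have e : rinv (fun p => cvx (stp (a ^ 2) (b ^ 2) (p.2 ^ 2)) σ₀ σ₁ p.1) (fun _ => 1) =
      fun p => (p.1, cvx (stp (a ^ 2) (b ^ 2) (‖p.1‖ ^ 2)) σ₀ σ₁ p.2) := funext fun p => by simp [rinv]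
  { μ p := cvx (stp (a ^ 2) (b ^ 2) (p.2 ^ 2)) σ₀ σ₁ p.1
    ν _ := 1
    σ := σ₁
    R := b
    pos _ := one_pos
    oe := by
      have c : ContDiff ℝ ∞ fun p : ℂ × ℝ => stp (a ^ 2) (b ^ 2) (‖p.1‖ ^ 2) :=
        (contDiff_stp _ _).comp (contDiff_fst.norm_sq ℝ)
      exact e ▸ isOE_fib (((contDiff_const.sub c).mul (u₀.contDiff.comp contDiff_snd)).add
        (c.mul (u₁.contDiff.comp contDiff_snd))) fun w => k ‖w‖
    surj := e ▸ fun p => by
      obtain ⟨x, hx⟩ := surj_cvx (stp_nonneg (a ^ 2) (b ^ 2) (‖p.1‖ ^ 2)) (stp_le_one ..) u₀ s₀ u₁ s₁ p.2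
      exact ⟨(p.1, x), Prod.ext rfl hx⟩
    up := u₁
    sσ := s₁
    far x y hy := ⟨rfl, by simp [cvx, stp_one (a := a ^ 2) (b := b ^ 2) (x := y ^ 2) (by gcongr)
      (by have := ha.trans hab; gcongr)]⟩ }

section Shear

variable {σ₀ σ₁ : ℝ → ℝ} {u₀ : Up σ₀ univ} {s₀ : Surjective σ₀} {u₁ : Up σ₁ univ} {s₁ : Surjective σ₁}
  {a b : ℝ} {ha : 0 < a} {hab : a < b}

theorem shear_low {p : ℝ × ℝ} (h : |p.2| ≤ a) : (shear u₀ s₀ u₁ s₁ ha hab).μ p = σ₀ p.1 := by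
  simp [shear, cvx, stp_zero (a := a ^ 2) (b := b ^ 2) (x := p.2 ^ 2) (by gcongr)
    (sq_le_sq.2 (h.trans (le_abs_self a)))]

theorem shear_α (x : ℝ) : (shear u₀ s₀ u₁ s₁ ha hab).α x = σ₀ x := shear_low (abs_zero.trans_le ha.le)

theorem shear_mem {p : ℝ × ℝ} {S : Set ℝ} (hS : Convex ℝ S) (h0 : σ₀ p.1 ∈ S) (h1 : σ₁ p.1 ∈ S) :
    (shear u₀ s₀ u₁ s₁ ha hab).μ p ∈ S :=
  hS h0 h1 (sub_nonneg.2 (stp_le_one ..)) (stp_nonneg ..) (sub_add_cancel _ _)

theorem shear_eq {p : ℝ × ℝ} (h : σ₀ p.1 = σ₁ p.1) : (shear u₀ s₀ u₁ s₁ ha hab).μ p = σ₁ p.1 :=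
  shear_mem (convex_singleton _) h rfl

theorem shear_rel (h : ∀ x, v' (σ₀ x) = v x) (hv : ∀ c, v c = 0 → ∃ d, ∀ᶠ x in 𝓝 c, σ₀ x = x + d) :
    (shear u₀ s₀ u₁ s₁ ha hab).Rel v v' :=
  ⟨fun x => by rw [shear_α, h], fun c hc => (hv c hc).imp fun _ hd => by
    filter_upwards [(continuous_fst.tendsto (c, (0 : ℝ))).eventually hd,
      (continuous_snd.tendsto (c, (0 : ℝ))).eventually (Iio_mem_nhds ha)] with p h1 h2 h3
    exact ⟨rfl, (shear_low ((abs_of_nonneg h3).trans_le (le_of_lt h2))).trans h1⟩⟩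

end Shear

end HM

variable {EN HN : Type} [NormedAddCommGroup EN] [NormedSpace ℝ EN] [FiniteDimensional ℝ EN]
  [TopologicalSpace HN] {IN : ModelWithCorners ℝ EN HN} [IN.Boundaryless]
  {N : Type} [TopologicalSpace N] [ChartedSpace HN N] [IsManifold IN ∞ N] [T2Space N] (T : Tb IN N)
  {v v' : ℝ → Z2} {a b : Z2}

/-- TIME: a reparametrisation of time that is a translation near the vertices -/
theorem exists_time {σ : ℝ → ℝ} (u : Up σ univ) (s : Surjective σ) (h : ∀ x, v' (σ x) = v x)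
    (hv : ∀ c, v c = 0 → ∃ d, ∀ᶠ x in 𝓝 c, σ x = x + d) : ∃ Φ : X T v ≃ₘ^∞⟮𝓡 4, 𝓡 4⟯ X T v',
      (∀ p, T.nf v' (Φ p) = Sum.map (Prod.map id σ) (Prod.map σ id) (T.nf v p)) ∧
      (∀ p, T.time v' (Φ p) = σ (T.time v p)) ∧
      ∀ o O O', Orx52.OX T v o O → Orx52.OX T v' o O' → Orx52.Pos (𝓡 4) (𝓡 4) Φ univ O O' := by
  let m := HM.shear u s u s one_pos one_lt_two
  have k : m.Rel v v' := HM.shear_rel h hv
  have e1 : m.n T = Prod.map id σ := funext fun ⟨q, x⟩ => by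
    by_cases e : q ∈ range T.τ
    · obtain ⟨w, rfl⟩ := e
      rw [m.n_τ T (w, x), HM.r_apply, show m.μ _ = _ from HM.shear_eq rfl]
      simp [m, HM.shear]
    · exact m.n_not T e
  have e2 : ∀ p, T.nf v' (k.mv T p) = Sum.map (Prod.map id σ) (Prod.map σ id) (T.nf v p) := fun p => by
    rw [HM.Rel.coe_mv, k.nf_f, HM.s, e1, show m.α = σ from funext HM.shear_α]
  refine ⟨k.mv T, e2, fun p => ?_, fun _ _ _ => k.pos T⟩
  rw [Tb.time, Tb.time, e2]
  cases T.nf v p <;> rfl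

/-- a diffeomorphism of the line that moves `c` by `d` and is supported in `[c - r, c + r]` -/
theorem exists_slide (c : ℝ) {d r : ℝ} (h : |d| < r) : ∃ σ : ℝ → ℝ, Up σ univ ∧ Surjective σ ∧
    (∀ᶠ x in 𝓝 c, σ x = x + d) ∧ ∀ x, r ≤ |x - c| → σ x = x := by
  obtain ⟨h1, h2⟩ := abs_lt.1 h
  have h3 := abs_nonneg d
  have h4 := le_abs_self d
  have h5 := neg_abs_le d
  obtain ⟨l, l1, l2, l3⟩ := exists_diffeo_shift (a := c - r) (b := c - (r - |d|) / 2) (c := 0) (d := d)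
    (by linarith) (by linarith)
  obtain ⟨k, k1, k2, k3⟩ := exists_diffeo_shift (a := c + d + (r - |d|) / 2) (b := c + r + d) (c := 0) (d := -d)
    (by linarith) (by linarith)
  refine ⟨k ∘ l, k1.comp l1 (mapsTo_univ _ _), k.surjective.comp l.surjective, ?_, fun x hx => ?_⟩
  · filter_upwards [Icc_mem_nhds (a := c - (r - |d|) / 2) (b := c + (r - |d|) / 2) (by linarith) (by linarith)]
      with x hx
    rw [comp_apply, l3 x hx.1, k2 _ (by linarith [hx.2]), add_zero]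
  · rcases le_abs'.1 hx with e | e
    · rw [comp_apply, l2 x (by linarith), add_zero, k2 x (by linarith), add_zero]
    · rw [comp_apply, l3 x (by linarith), k3 _ (by linarith), add_neg_cancel_right]

/-- BALL CHART: a half disc about `c` that contains one vertex `c'` is a ball, conical outside the radius `r` -/
theorem exists_chart (hu : Uni a b) {c c' r R : ℝ} (hr : |c' - c| < r) (hR : r < R)
    (hv : ∀ x, |x - c| < R → x ∈ Jv v a b c') : ∃ e : E4 → X T v,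
      (∀ z ∈ ball (0 : E4) √R, IsLocalDiffeomorphAt 𝓘(ℝ, E4) (𝓡 4) ∞ e z) ∧ InjOn e (ball 0 √R) ∧
      e 0 = T.vtx v hu c' 0 ∧ (∀ z, r ≤ ‖z‖ ^ 2 → ‖z‖ ^ 2 < R → e z = T.vtx v hu c (L4 z)) ∧
      ∀ s, r ≤ s → s < R → e '' closedBall 0 √s = T.disc v c (Iic s) := by
  obtain ⟨r₁, h1, h2⟩ := exists_between hr
  have h0 : 0 < r₁ := (abs_nonneg _).trans_lt h1
  obtain ⟨σ, u, s, σ1, σ2⟩ := exists_slide c h1
  have σ3 : σ c = c' := σ1.self_of_nhds.trans (add_sub_cancel _ _)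
  have σ4 : ∀ x t, r₁ ≤ t → |x - c| < t → |σ x - c| < t := fun x t ht hx => by
    have e1 := σ2 (c - t) (by rw [sub_sub_cancel_left, abs_neg]; exact ht.trans (le_abs_self t))
    have e2 := σ2 (c + t) (by rw [add_sub_cancel_left]; exact ht.trans (le_abs_self t))
    obtain ⟨k1, k2⟩ := abs_lt.1 hx
    exact abs_lt.2 ⟨by linarith [u.strictMono (show c - t < x by linarith)],
      by linarith [u.strictMono (show x < c + t by linarith)]⟩
  let m := HM.shear u s (Up.id univ) surjective_id (half_pos (sub_pos.2 h2)) (half_lt_self (sub_pos.2 h2))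
  have j1 : ∀ x, |x - c| < R → x ∈ Jv (v ∘ σ) a b c := fun x hx =>
    mem_Jv.2 (((u.continuous.tendsto x).eventually (mem_Jv.1 (hv _ (σ4 x R (by linarith) hx)))).mono fun y hy =>
      ⟨fun e => hy.1 (σ3 ▸ u.strictMono e), fun e => hy.2.1 (e ▸ σ3), fun e => hy.2.2 (σ3 ▸ u.strictMono e)⟩)
  have k : m.Rel (v ∘ σ) v := HM.shear_rel (fun _ => rfl) fun x hx => by
    rcases lt_or_ge r₁ |x - c| with e | e
    · exact ⟨0, mem_of_superset ((isOpen_out c r₁).mem_nhds e) fun y hy => (σ2 y (le_of_lt hy)).trans (add_zero y).symm⟩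
    · have j := j1 x (by linarith)
      rcases lt_trichotomy x c with l | rfl | l
      exacts [absurd hx ((Jr.pm (Jv.left j l)).ne_zero hu), ⟨_, σ1⟩,
        absurd hx ((Jr.pm (Jv.right j l)).ne_zero hu.symm)]
  have fx : ∀ p : ℝ × ℝ, 0 ≤ p.2 → m.μ p = p.1 ∨ (|p.1 - c| < r₁ ∧ p.2 < r - r₁) := fun p hp => by
    rcases le_or_gt r₁ |p.1 - c| with e | e
    · exact .inl (HM.shear_eq (σ2 _ e))
    · exact (le_or_gt (r - r₁) p.2).imp (fun l => (m.far _ _ l).2) fun l => ⟨e, l⟩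
  have bx : ∀ x y : ℝ, 0 ≤ y → |x - c| < r₁ → y < r - r₁ → √((x - c) ^ 2 + y ^ 2) < r := fun x y e1 e2 e3 =>
    (Real.sqrt_lt' (h0.trans h2)).2 (by nlinarith [sq_abs (x - c), abs_nonneg (x - c)])
  have n1 : ∀ z : E4, z ∈ ball (0 : E4) √R ↔ ‖z‖ ^ 2 < R := fun z => by
    rw [mem_ball_zero_iff, Real.lt_sqrt (norm_nonneg z)]
  have t1 : ∀ z : E4, |tm c (L4 z) - c| ≤ ‖z‖ ^ 2 := fun z => by
    rw [tm, add_sub_cancel_left, ← norm_L4, abs_le]
    constructor <;> nlinarith [sq_nonneg ‖(L4 z).1‖, sq_nonneg ‖(L4 z).2‖]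
  have m1 : ∀ z : E4, ‖z‖ ^ 2 < R → L4 z ∈ Uv (v ∘ σ) a b c := fun z hz => .inr (j1 _ ((t1 z).trans_lt hz))
  have d1 : ∀ t, r ≤ t → ∀ p, m.f T (v ∘ σ) v p ∈ T.disc v c (Iic t) ↔ p ∈ T.disc (v ∘ σ) c (Iic t) :=
    fun t ht p => (k.f_mem_ov T).trans (and_congr_right fun hp => by
      have y0 : 0 ≤ T.yy _ p := (T.eta_of_tor hp).1
      change √((m.μ (T.bs _ p) - c) ^ 2 + (1 * T.yy _ p) ^ 2) ≤ t ↔ √((T.time _ p - c) ^ 2 + T.yy _ p ^ 2) ≤ t
      rw [one_mul]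
      rcases fx (T.bs _ p) y0 with e | e
      · rw [e]; rfl
      · refine iff_of_true ((bx _ _ y0 ?_ e.2).le.trans ht) ((bx _ _ y0 e.1 e.2).le.trans ht)
        exact mem_ball_iff_norm.1 (HM.shear_mem (convex_ball c r₁) (mem_ball_iff_norm.2 (σ4 _ _ le_rfl e.1))
          (mem_ball_iff_norm.2 e.1)))
  refine ⟨m.f T (v ∘ σ) v ∘ T.vtx (v ∘ σ) hu c ∘ L4, fun z hz => ld_comp ((k.isOE_f T).loc _)
    (ld_comp (ld_pd _ (m1 z ((n1 z).1 hz))) (ld_clm L4 z)), fun z hz w hw e => L4.injective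
      ((T.vtx _ hu c).injOn (m1 z ((n1 z).1 hz)) (m1 w ((n1 w).1 hw)) ((k.isOE_f T).inj e)), ?_,
    fun z e1 e2 => ?_, fun t e1 e2 => ?_⟩
  · rw [comp_apply, comp_apply, map_zero, (k.f_vtx_ev T hu (j1 c (by simp; linarith))).self_of_nhds,
      HM.shear_α, σ3]
  · obtain ⟨k1, k2⟩ := abs_lt.1 hr
    have e3 : 0 < ‖z‖ ^ 2 := by linarith
    have m2 : L4 z ∈ Uv v a b c := Tb.mem_Uv_of e3 (norm_L4 z)
      (Jv.left (hv _ (by rwa [sub_sub_cancel_left, abs_neg, abs_of_pos e3])) (by linarith))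
      (Jv.right (hv _ (by rwa [add_sub_cancel_left, abs_of_pos e3])) (by linarith))
    refine (k.f_vtx T hu (m1 z e2) (s := 1) (by rwa [one_smul]) one_pos (one_pow 2).symm ?_).trans
      (by rw [one_smul])
    rw [one_pow, one_mul, add_sub_cancel]
    refine (fx (tm c (L4 z), _) (by positivity)).resolve_right fun e => (bx _ _ (by positivity) e.1 e.2).not_ge ?_
    rwa [← T.time_vtx hu m2, ← T.yy_vtx hu m2, ← Tb.rr, T.rr_vtx hu m2, norm_L4]
  · have e3 : 0 ≤ t := by linarith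
    have d2 : T.disc (v ∘ σ) c (Iic t) = T.vtx _ hu c '' (L4 '' closedBall 0 √t) := by
      rw [show T.disc (v ∘ σ) c (Iic t) = T.disc _ c (Icc 0 t) from Set.ext fun p =>
        and_congr_right fun _ => (and_iff_right (T.rr_nonneg c p)).symm, (T.disc_eq_vtx hu fun x hx =>
          ⟨j1 _ (by rw [sub_sub_cancel_left, abs_neg, abs_of_nonneg hx.1]; linarith [hx.2]),
            j1 _ (by rw [add_sub_cancel_left, abs_of_nonneg hx.1]; linarith [hx.2])⟩).1]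
      refine congrArg _ (Set.ext fun z => ?_)
      obtain ⟨z, rfl⟩ := L4.surjective z
      rw [L4.injective.mem_set_image, mem_closedBall_zero_iff, Real.le_sqrt (norm_nonneg z) e3, mem_ofPred_eq,
        norm_L4]
      exact and_iff_right (sq_nonneg _)
    rw [image_comp, image_comp, ← d2]
    ext q
    obtain ⟨p, rfl⟩ := k.f_surj T q
    rw [(k.isOE_f T).inj.mem_set_image, d1 t e1]

/-- BALL CHART of an `S³` neck round one vertex, in the format of `BC` -/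
theorem exists_chart_sb (hu : Uni a b) {c c' r R : ℝ} {ρ : ℝ → ℝ} (A : Tb.Arc v a b c ρ) (hm : StrictMono ρ)
    (hρ : ∀ s, ρ s ∈ Ioo r R) (hr : |c' - c| < r) (hv : ∀ x, |x - c| < R → x ∈ Jv v a b c') :
    ∃ e : E4 → X T v, Up (fun s => √(ρ s)) univ ∧ (∀ s, 0 < √(ρ s) ∧ √(ρ s) < √R) ∧
      (∀ z ∈ ball (0 : E4) √R, IsLocalDiffeomorphAt 𝓘(ℝ, E4) (𝓡 4) ∞ e z) ∧ InjOn e (ball 0 √R) ∧
      e 0 = T.vtx v hu c' 0 ∧ (∀ (y : sphere (0 : E4) 1) s, e (√(ρ s) • (y : E4)) = T.sb v hu c ρ (y, s)) ∧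
      (∀ s, e '' closedBall 0 √(ρ s) = T.disc v c (Iic (ρ s))) ∧ e '' ball 0 √R ⊆ T.disc v c (Iio R) := by
  obtain ⟨e, e1, e2, e3, e4, e5⟩ := exists_chart T hu hr ((hρ 0).1.trans (hρ 0).2) hv
  refine ⟨e, Up.of_isOE (isOE_sqrt A.oe A.pos) fun s t h => Real.sqrt_le_sqrt (hm.monotone h),
    fun s => ⟨Real.sqrt_pos.2 (A.pos s), Real.sqrt_lt_sqrt (A.pos s).le (hρ s).2⟩, e1, e2, e3,
    fun y s => ?_, fun s => e5 _ (hρ s).1.le (hρ s).2, ?_⟩
  · have k := (norm_L4 _).symm.trans (A.nsq (y, s))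
    exact e4 _ ((hρ s).1.le.trans_eq k.symm) (k.trans_lt (hρ s).2)
  · rintro _ ⟨z, hz, rfl⟩
    have h1 : max r (‖z‖ ^ 2) < R := max_lt ((hρ 0).1.trans (hρ 0).2)
      ((Real.lt_sqrt (norm_nonneg z)).1 (mem_ball_zero_iff.1 hz))
    have := (e5 _ (le_max_left _ _) h1).subset ⟨z, mem_closedBall_zero_iff.2
      (Real.le_sqrt_of_sq_le (le_max_right _ _)), rfl⟩
    exact ⟨this.1, lt_of_le_of_lt (T.mem_disc.1 this).2 h1⟩

end Crest.Agent.X212.Cyl58
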