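import Crest.Agent.X212.Mon62.Hyp
import Crest.Agent.X212.Mon62.NkE
import Crest.Agent.X212.Lin97.Emb

/-! # Row 212, CRIT-SMS (helper58): the model on `Y` in the calculus of `Mon62` -/

set_option autoImplicit false
set_option linter.unusedSectionVars false
noncomputable section
open scoped Manifold ContDiff Topology InnerProductSpace
open MeasureTheory Set Function Filter

namespace Crest.Agent.X212.Cyl58
open An Sob92 Mon62 Dgr80 Cyf70 Nd18 Crt72 Mon62.Dm
open Lin97 (Hy)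

variable {E3 : Type} [NormedAddCommGroup E3] [NormedSpace ℝ E3] [FiniteDimensional ℝ E3]
  [MeasurableSpace E3] [BorelSpace E3]
  {H3 : Type} [TopologicalSpace H3] {I3 : ModelWithCorners ℝ E3 H3} [I3.Boundaryless]
  {Y : Type} [TopologicalSpace Y] [ChartedSpace H3 Y] [IsManifold I3 ∞ Y] [T2Space Y]
  [MeasurableSpace Y] [BorelSpace Y] [SecondCountableTopology Y] [CompactSpace Y]
  {κ : Type} [Fintype κ] {lam : Type} [Fintype lam] {D : YD I3 Y κ lam} {β : YC Y κ lam}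
  {N : Type} [NormedAddCommGroup N] [NormedSpace ℝ N]
  {V : Type} [NormedAddCommGroup V] [InnerProductSpace ℝ V]

theorem cn_cf (y : SP D β) (a : κ) (x : Y) : cn (cf y) a x = cn β a x + opL (y.1.1 x a) := rfl

theorem Φ_cf (y : SP D β) (x : Y) : (cf y).Φ x = β.Φ x + y.2.1 x := rfl

variable (h : Hy D β) (j : ℕ)

/-- the model at `β` -/
def dmY : Dm I3 Y κ (fun _ : Unit => CC D β j) fun _ => SP D β where
  U _ := univ
  B _ := {0}
  op _ := isOpen_univ
  sub _ := subset_univ _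
  F _ := D.F
  C := h.tame.choose
  tame _ := h.tame.choose_spec
  pt _ := pt D β j
  y₀ _ := 0
  mem _ _ := trivial
  dns _ := (Lin97.dense_pt (j := j)).closure_range.ge
  base _ := map_zero _

variable {j} {ε : Prop}

theorem ub_dm {f : Y → N} (hf : Sm I3 f) : Ell97.UB (dmY h j).P fun _ => f :=
  ub_of_finite fun _ => Cb_of_compact hf

theorem sz_dm {w : SP D β → Y → N} (hw : ∀ y, Sm I3 (w y)) : (dmY h j).Sz fun _ => w :=
  ⟨fun _ y => Cb_of_compact (hw y), ub_dm h (hw _)⟩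

theorem uc_dm {f : CC D β j → N} (hf : ContDiff ℝ ∞ f) : UC (dmY h j).toRg fun _ => f :=
  UC.of_compact (fun _ => isCompact_singleton) fun _ => hf.contDiffOn

theorem a0_α (hj : 4 ≤ j) : (dmY h j).A0 ε j fun _ y => y.1.1 :=
  A0.of_coord hj (p := fun _ => pc D β) (δ := fun _ v => v.1) (uc_dm h contDiff_fst)
    (sz_dm h fun y => y.1.2.1) fun _ y => (val_toH h.sup hj y.1).symm

theorem a0_φ (hj : 4 ≤ j) : (dmY h j).A0 ε j fun _ y => y.2.1 :=
  A0.of_coord hj (p := fun _ => pv D β) (δ := fun _ v => v.2) (uc_dm h contDiff_snd)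
    (sz_dm h fun y => y.2.2.1) fun _ y => (val_toH h.sup hj y.2).symm

theorem a0_Φ (hj : 4 ≤ j) : (dmY h j).A0 False j (V := β.m.V) fun _ y => (cf y).Φ :=
  (A0.fixed (ub_dm h h.sm_Φ)).add (a0_φ h hj)

theorem ff_dm : (dmY h j).FF fun _ _ => D.F :=
  ff_fixed (F' := fun _ => D.F) (fun _ => rfl) (fun a => ub_dm h (D.F.dv_sm a))
    (fun a b k => ub_dm h (D.F.c_sm a b k)) (fun _ => Mp86.bumps_of_compact)
    (ρ := fun _ _ => 1) (ub_dm h contMDiff_const) fun _ _ => by simp only [one_smul]; rfl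

theorem rb_dm [FiniteDimensional ℝ V] : (dmY h j).RB V fun _ _ => D.F :=
  rb_of_dr fun _ _ _ => dr_refl _

theorem re_dm [FiniteDimensional ℝ V] : (dmY h j).RE V fun _ _ => D.F :=
  re_compact (ff_dm h) fun _ _ => h.tame

theorem mul_cn (hj : 7 ≤ j) (a : κ) :
    (dmY h j).Mul j (V := β.m.V) (W := β.m.V) fun _ y => cn (cf y) a :=
  (Mul.fixed (ub_dm h (h.sm_cn a))).add
    ((a0_α h (ε := True) (by omega)).toMul (opL ∘L Map77.pj _ a) hj)

theorem eng_cn (hj : 8 ≤ j) :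
    (dmY h j).Eng (V := β.m.V) (fun _ _ => D.F) j fun _ y => cn (cf y) :=
  Eng.of hj (ff_dm h) (rb_dm h) (re_dm h) (mul_cn h (by omega)) fun _ y a x =>
    (h.cf y).hC.sk (some a) (x, 0)

/-- output: the gradient -/
theorem rpT_of {u : YF Y κ lam} (hj : 4 ≤ j)
    (hA : (dmY h j).A0 False j (V := Fm κ β.m.A) fun _ y => u.gA (cf y))
    (hP : (dmY h j).A0 False j (V := β.m.V) fun _ y => u.gP (cf y)) : ∃ T, RpT D β u j j T := by
  obtain ⟨f, f1, f2⟩ := A0.out hj (ub_dm h h.cb_pc.choose_spec.1) (fun _ => Lin97.prj_pc.idem)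
    (hA.pure_compact hj)
  obtain ⟨g, g1, g2⟩ := A0.out hj (ub_dm h h.sm_pv) (fun _ => h.prj_pv.idem) (hP.pure_compact hj)
  exact ⟨fun v => (f () v, g () v), (contDiffOn_univ.1 (f1.sm ())).prodMk
    (contDiffOn_univ.1 (g1.sm ())), fun y x => ⟨f2 () y x, g2 () y x⟩⟩

/-- output: the functional -/
theorem rpf_of {u : YF Y κ lam} (hj : 4 ≤ j) {w : SP D β → Y → ℝ}
    (hw : (dmY h j).A0 False j fun _ => w) (e : ∀ y, u.f (cf y) = ∫ x, w y x ∂D.F.μ) :
    ∃ f, Rpf D β u j f := by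
  obtain ⟨γ, g1, g2⟩ := hw.integral (ContinuousLinearMap.mul ℝ ℝ) hj (s := fun _ _ => 1)
    (fun _ => continuous_const) (fun _ => .of_compactSpace _) ⟨∫ _, ‖(1 : ℝ)‖ ∂D.F.μ, fun _ => le_rfl⟩
  refine ⟨γ (), (contDiffOn_univ.1 (g1.sm ())).continuous, fun y => ?_⟩
  rw [e]
  exact (g2 () y).symm.trans (by simp; rfl)

/-! ### spinor words -/

include h in
theorem sm_ρ (a : Option κ) : Sm I3 (β.m.ρ a) := sm_slice_fst (h.hm.sρ a) 0

include h in
/-- the letters are smooth -/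
theorem ylt_cases {t : YL Y} (ht : t.OK I3) :
    (∃ T, Sm I3 T ∧ ylt D.F β t = .op T) ∨ ylt D.F β t = .G := by
  rcases t with f | (_ | g) | _ | _
  exacts [.inl ⟨_, ContMDiff.smul ht contMDiff_const, rfl⟩, .inl ⟨_, sm_ρ h _, rfl⟩,
    .inl ⟨_, contMDiff_finsetSum fun a _ => (D.F.sm_D (ht g rfl) a).smul (sm_ρ h _), rfl⟩,
    .inl ⟨_, contMDiff_const, rfl⟩, .inr rfl]

theorem ylt_cf (y : SP D β) (t : YL Y) : ylt D.F (cf y) t = ylt D.F β t := by
  rcases t with f | (_ | g) | _ | _ <;> rfl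

theorem map_cf (y : SP D β) (u : List (YL Y)) : u.map (ylt D.F β) = u.map (ylt D.F (cf y)) :=
  congrArg (u.map ·) (funext (ylt_cf y)).symm

theorem pk_cf (y : SP D β) (T : Pk Y lam) : pk (cf y) T = pk β T := by cases T <;> rfl

theorem fa_ylt (hj : 4 ≤ j) {u : List (YL Y)} (hu : ∀ t ∈ u, t.OK I3) :
    Fa ((dmY h j).SLk (V := β.m.V) j) fun _ y => u.map (ylt D.F (cf y)) := by
  refine cast (congrArg _ (funext₂ fun _ (y : SP D β) => map_cf y u))
    (Fa.list (L := fun t _ _ => ylt D.F β t) fun t ht => ?_)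
  rcases ylt_cases h (hu t ht) with ⟨T, h1, e⟩ | e <;> rw [e]
  exacts [SLk.fixed hj (ub_dm h h1), .inr rfl]

section sw
variable (hj : 8 ≤ j) {T : Pk Y lam} {u v : List (YL Y)} (hT : Sm I3 (pk β T))
  (hu : ∀ t ∈ u, t.OK I3) (hv : ∀ t ∈ v, t.OK I3)
include hj hu

theorem a0_yw : (dmY h j).A0 False j (V := β.m.V) fun _ y => yw D.F (cf y) u :=
  (eng_cn h hj).wd (fa_ylt h (by omega) hu) ((a0_Φ h (by omega)).nrm hj)

include hT

theorem a0_pk :
    (dmY h j).A0 False j (V := β.m.V) fun _ y x => pk (cf y) T x (yw D.F (cf y) u x) := by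
  simp only [pk_cf]
  exact (a0_yw h hj hu).app (by omega) (ub_dm h hT)

include hv

theorem a0_ywA : (dmY h j).A0 False j (V := Fm κ β.m.A) fun _ y =>
    ywA D.F (cf y) u fun x => pk (cf y) T x (yw D.F (cf y) v x) :=
  (eng_cn h hj).gc opL ((a0_Φ h (by omega)).nrm hj) (fa_ylt h (by omega) hu) (a0_pk h hj hT hv)

theorem a0_ywP : (dmY h j).A0 False j (V := β.m.V) fun _ y =>
    ywP D.F (cf y) u fun x => pk (cf y) T x (yw D.F (cf y) v x) :=
  have h0 := a0_Φ h (show 4 ≤ j by omega)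
  have h1 := h0.isq hj
  have hl := (eng_cn h hj).bk (fa_ylt h (by omega) hu) (a0_pk h hj hT hv)
  have L : Lev j j j := Lev.self (by omega)
  (A0.smul L (by omega) h1 hl).aff.sub (by omega) (A0.smul L (by omega)
    ((h1.comp hj (contDiff_id.pow 3)).mul (by omega) (h0.inner (by omega) hl)) h0).aff

include h

theorem rpT_sw : ∃ t, RpT D β (YF.sw D.F T u v) j j t :=
  rpT_of h (by omega) ((a0_ywA h hj hT hu hv).add (a0_ywA h hj hT hv hu))
    ((a0_ywP h hj hT hu hv).add (a0_ywP h hj hT hv hu))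

theorem rpf_sw : ∃ f, Rpf D β (YF.sw D.F T u v) j f :=
  rpf_of h (by omega) ((a0_pk h hj hT hu).inner (by omega) (a0_yw h hj hv)).aff fun _ => rfl

end sw

end Crest.Agent.X212.Cyl58
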