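import Crest.Agent.X212.Nk89.Dic
import Crest.Agent.X212.Mod61.Rig

/-! Row 212, TAd (helper58): index zero and no kernel over a clopen set give a surjection. -/

set_option autoImplicit false
set_option linter.unusedSectionVars false
noncomputable section
open scoped Manifold ContDiff Topology
open MeasureTheory Set Function Filter

namespace Crest.Agent.X212.Cyl58.Tad
open An An.Pre Sob92 Ell97 Prm93 Fred93 Mod61 Map77 Nk89 Cyf70

variable {E : Type} [NormedAddCommGroup E] [NormedSpace ℝ E] [FiniteDimensional ℝ E]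
  [MeasurableSpace E] [BorelSpace E]
  {HM : Type} [TopologicalSpace HM] {I : ModelWithCorners ℝ E HM} [I.Boundaryless]
  {M : Type} [TopologicalSpace M] [ChartedSpace HM M] [IsManifold I ∞ M]
  [MeasurableSpace M] [T2Space M] [BorelSpace M] [SecondCountableTopology M]
  {ι : Type} [Fintype ι] {lam : Type} [Fintype lam]
  {T : Type} [NormedAddCommGroup T] [NormedSpace ℝ T] {r n m k : ℕ} {Ω : Set M}

theorem op_zero {V W : Type} [NormedAddCommGroup V] [InnerProductSpace ℝ V] [NormedAddCommGroup W]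
    [InnerProductSpace ℝ W] (G : Pre I M ι) (σ : ι → M → V →L[ℝ] W) (B : M → V →L[ℝ] W) {u : M → V}
    (hΩ : IsClopen Ω) (h : ∀ z ∉ Ω, u z = 0) {x : M} (hx : x ∉ Ω) : G.op σ B u x = 0 := by
  have e : u =ᶠ[𝓝 x] fun _ => 0 := (hΩ.1.isOpen_compl.eventually_mem hx).mono h
  simp only [Pre.op, Pre.D_def, dv_congr e, dv_const, h x hx, Pi.zero_apply, map_zero,
    Finset.sum_const_zero, add_zero]

variable {𝔉 : Fam I M ι lam T} {o : Ref 𝔉} {d : Bd M ι (Fin o.m.N)}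

variable (Ω d) in
/-- `d` is the bundle datum of `o` cut down to `Ω` -/
structure Ct (t : T) : Prop where
  h : 𝔉.OK
  ht : t ∈ 𝔉.Q
  cl : IsClopen Ω
  hy : d.Hy 𝔉.F0 (Fs 𝔉 t)
  br : BRel d (bd o) (.ofSet Ω cl.2)
  off : ∀ x ∉ Ω, ∀ v, d.pC x v = v → v = 0

variable (d k) in
/-- extension by zero -/
def xC : 𝔉.F0.H (k + 1) d.pC →L[ℝ] 𝔉.F0.H (k + 1) (bd o).pC :=
  𝔉.F0.mulH _ _ _ fun _ => .id ℝ _

variable (Ω d k) in
/-- restriction -/
def rF : 𝔉.F0.H k (ps o.Pg (bd o).pE) →L[ℝ] 𝔉.F0.H k (ps d.g d.pE) :=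
  𝔉.F0.mulH _ _ _ (Ω.indicator fun _ => .id ℝ _)

theorem val_sY (h : 𝔉.OK) (hk : 4 ≤ k) (w : o.Y n m k) (z : M) :
    𝔉.F0.val k _ (sY o n m k w) z = i1 _ _ (𝔉.F0.val k _ w.1 z) + i2 _ _ (𝔉.F0.val k _ w.2.1 z) := by
  rw [sY_apply, val_add, Pi.add_apply, val_iH1 h.sup hk, val_iH2 h.sup hk]

namespace Ct
variable {t : T} (C : Ct Ω d t)
include C

theorem mC : Maps d.pC (bd o).pC fun _ => .id ℝ _ := fun x v hv => by
  by_cases hx : x ∈ Ω
  · exact (DFunLike.congr_fun (C.br.pC x hx) v).symm.trans hv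
  · rw [C.off x hx v hv, map_zero, map_zero]

theorem mF : Maps (ps o.Pg (bd o).pE) (ps d.g d.pE) (Ω.indicator fun _ => .id ℝ _) :=
  fun x v hv => by
    by_cases hx : x ∈ Ω
    · rw [indicator_of_mem hx]; exact (DFunLike.congr_fun (C.br.pF x hx) v).trans hv
    · rw [indicator_of_notMem hx, _root_.zero_apply, map_zero]

theorem val_xC (hk : 3 ≤ k) (u : 𝔉.F0.H (k + 1) d.pC) :
    𝔉.F0.val _ _ (xC k d u) = 𝔉.F0.val _ _ u :=
  funext (val_mulH C.h.sup (by omega) (Cb_const _) C.mC u)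

theorem val_rF (hk : 4 ≤ k) (w) {z : M} (hz : z ∈ Ω) :
    𝔉.F0.val _ _ (rF k Ω d w) z = 𝔉.F0.val _ _ w z :=
  (val_mulH C.h.sup hk (Eqv71.Cb_ind C.cl (Cb_const _)) C.mF w z).trans (by
    rw [indicator_of_mem hz]; rfl)

theorem val_off (hk : 4 ≤ k) (u : 𝔉.F0.H k d.pC) : ∀ z ∉ Ω, 𝔉.F0.val _ _ u z = 0 :=
  fun z hz => C.off z hz _ (val_proj C.h.sup hk u z)

/-- the operators agree over `Ω` -/
theorem key {u u' : M → Cf ι (Fin o.m.N)} (cu : 𝔉.F0.Cb u) (cu' : 𝔉.F0.Cb u')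
    (e : ∀ z ∈ Ω, u' z = u z) : rF k Ω d ∘L (bd o).FF 𝔉.F0.toPre (Fs 𝔉 t) k u ∘L xC k d =
      d.FF 𝔉.F0.toPre (Fs 𝔉 t) k u' := by
  have H0 := (adj_rem C.h).hy o C.ht
  refine RepT_eq (RepT_comp (rep_mulH (Eqv71.Cb_ind C.cl (Cb_const _)) C.mF) (RepT_comp
    (H0.toTw.rep (H0.nc_full cu) k) (rep_mulH (k := k + 1) (Cb_const _) C.mC)))
    (C.hy.toTw.rep (C.hy.nc_full cu') k) fun w => funext fun x => ?_
  by_cases hx : x ∈ Ω
  · have pw : ∀ x, (bd o).pC x (w.1 x) = w.1 x := fun x => C.mC x _ (w.2.2.2 x)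
    rw [indicator_of_mem hx]
    refine (op_pair _ _ _ _ x).trans (Eq.trans ?_ (op_pair _ _ _ _ x).symm)
    refine congrArg₂ (fun a b => i1 _ _ a + i2 _ _ b) (C.br.row (G := Fs 𝔉 t) (G' := Fs 𝔉 t)
      ⟨contMDiffOn_id, contMDiffOn_id, fun a x _ => ?_, Measure.map_id⟩ hx (e x hx)
      (.of_forall fun _ => rfl)).symm ?_
    · exact DFunLike.congr_fun mfderiv_id _
    refine (op_cut _ (Cb.sm H0.cC) w.2.1 pw x).trans
      (Eq.trans ?_ (op_cut _ (Cb.sm C.hy.cC) w.2.1 w.2.2.2 x).symm)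
    simp only [Pre.op, Bd.σ, Bd.β, e x hx, C.br.pE x hx, C.br.P x hx, C.br.ρ x hx]
    rfl
  · rw [indicator_of_notMem hx]
    exact (op_zero _ _ _ C.cl (fun z hz => C.off z hz _ (w.2.2.2 z)) hx).symm

theorem val_v (hk : 3 ≤ k) (u : 𝔉.F0.H (k + 1) d.pC) (z : M) (hz : z ∉ Ω) :
    𝔉.F0.val _ _ (sC' o r k t (xC k d u)).1 z = 0 ∧
      𝔉.F0.val _ _ (sC' o r k t (xC k d u)).2.1 z = 0 := by
  have S := C.h.sup
  have e : 𝔉.F0.val _ _ (SH (k + 1) o (𝔉.Si t) (xC k d u)) z = 0 :=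
    (val_mulH S (by omega) ((sb_SC o C.h.sSi).cb _ C.ht) (maps_SC o C.h (C.h.PSi _ C.ht)) _ z).trans
      (by rw [C.val_xC hk, C.val_off (by omega) u z hz, map_zero])
  exact ⟨(val_mulH S (by omega) (Cb_const _) maps_f2 _ z).trans ((congrArg _ e).trans (map_zero _)),
    (val_mulH S (by omega) (Cb_const _) maps_s2 _ z).trans ((congrArg _ e).trans (map_zero _))⟩

/-- what vanishes on smooth fields over `Ω` vanishes on all fields over `Ω` -/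
theorem van (hk : 3 ≤ k) {Z : Type} [NormedAddCommGroup Z] [NormedSpace ℝ Z] (L : o.C r k →L[ℝ] Z)
    (ha : ∀ a ∈ Mod61.Hs 𝔉.F0.toPre o.P1, (∀ z ∉ Ω, a z = 0) → L (ofV _ _ _ a, 0, 0) = 0)
    (hφ : ∀ φ ∈ Mod61.Hs 𝔉.F0.toPre o.Pp, (∀ z ∉ Ω, φ z = 0) → L (0, ofV _ _ _ φ, 0) = 0)
    (u : 𝔉.F0.H (k + 1) d.pC) : L (sC' o r k t (xC k d u)) = 0 := by
  induction u using H_ind with
  | hP => exact isClosed_eq (by fun_prop) continuous_const
  | h w =>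
    have S := C.h.sup
    have r0 := RepT_comp (rep_SH' (k := k + 1) o C.h C.ht) (rep_mulH (k := k + 1) (Cb_const _) C.mC)
    obtain ⟨a, -, e1⟩ := RepT_comp (rep_fH (k := k + 1)) r0 w
    obtain ⟨φ, -, e2⟩ := RepT_comp (rep_sH (k := k + 1)) r0 w
    have e : sC' o r k t (xC k d (𝔉.F0.toH _ _ w)) = (ofV _ _ _ a.1, 0, 0) + (0, ofV _ _ _ φ.1, 0) := by
      rw [ofV_sec S (by omega), ofV_sec S (by omega), Prod.mk_add_mk, Prod.mk_add_mk, add_zero, zero_add,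
        add_zero]
      exact Prod.ext e1 (Prod.ext e2 rfl)
    have v := C.val_v (r := r) hk (𝔉.F0.toH _ _ w)
    rw [e] at v ⊢
    simp only [Prod.mk_add_mk, add_zero, zero_add, val_ofV (sec_hs S _) (by omega : 4 ≤ k + 1)] at v
    rw [map_add, ha _ (sec_hs S a) fun z hz => (v z hz).1, hφ _ (sec_hs S φ) fun z hz => (v z hz).2,
      add_zero]

end Ct

variable (Ω) in
/-- the rows of `w` vanish off `Ω` -/
def Yin (w : o.Y n m k) : Prop := (∀ z ∉ Ω, 𝔉.F0.val k o.Pm w.1 z = 0) ∧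
  (∀ z ∉ Ω, 𝔉.F0.val k o.P2 w.2.1 z = 0) ∧ w.2.2 = 0

/-- **index zero and no kernel over `Ω`** -/
theorem onto {e : T → PtX M ι lam r n m} {f : o.C r k → o.Y n m k} {y : Pnt o r} (C : Ct Ω d y.t)
    (hk : 7 ≤ k) (he : Aff o (Fs 𝔉) r n m e) (hf : RepF e f) {u u' : M → Cf ι (Fin o.m.N)}
    (cu : 𝔉.F0.Cb u) (cu' : 𝔉.F0.Cb u') (eu : ∀ z ∈ Ω, u' z = u z)
    (cq : Cq (TT k f y) ((bd o).FF 𝔉.F0.toPre (Fs 𝔉 y.t) k u))
    (fr : Fr (d.FF 𝔉.F0.toPre (Fs 𝔉 y.t) k u') 0)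
    (la : ∀ a ∈ Mod61.Hs 𝔉.F0.toPre o.P1, (∀ z ∉ Ω, a z = 0) →
      Yin Ω (fderiv ℝ f (y.pt k) (ofV _ _ _ a, 0, 0)) ∧ (fderiv ℝ f (y.pt k) (ofV _ _ _ a, 0, 0)).1 = 0)
    (lf : ∀ φ ∈ Mod61.Hs 𝔉.F0.toPre o.Pp, (∀ z ∉ Ω, φ z = 0) →
      Yin Ω (fderiv ℝ f (y.pt k) (0, ofV _ _ _ φ, 0)))
    (kd : ∀ φ ∈ Mod61.Hs 𝔉.F0.toPre o.Pp, (∀ z ∉ Ω, φ z = 0) →
      (fderiv ℝ f (y.pt k) (0, ofV _ _ _ φ, 0)).1 = 0 → φ = 0)
    (kc : ∀ a ∈ Mod61.Hs 𝔉.F0.toPre o.P1, (∀ z ∉ Ω, a z = 0) →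
      (fderiv ℝ f (y.pt k) (ofV _ _ _ a, 0, 0)).2.1 = 0 → row k y (ofV _ _ _ a, 0) = 0 → a = 0)
    (w : o.Y n m k) (hw : Yin Ω w) :
    ∃ x, fderiv ℝ f (y.pt k) (sC' o r k y.t (xC k d x)) = w := by
  have h := C.h
  have S := h.sup
  have A := adj_rem h
  have H0 := A.hy o y.ht
  have k4 : 4 ≤ k := by omega
  have main : ∀ x w, Yin Ω w → rF k Ω d (TT k f y (xC k d x)) = rF k Ω d (iH2 _ k o.Pg _ (sY o n m k w)) →
      (bd o).RR 𝔉.F0.toPre (Fs 𝔉 y.t) k (uy y) (xC k d x) = 0 ∧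
        fderiv ℝ f (y.pt k) (sC' o r k y.t (xC k d x)) = w := fun x w hw e => by
    have e1 := fun z (hz : z ∈ Ω) => (C.val_rF k4 _ hz).symm.trans
      ((congrArg (𝔉.F0.val _ _ · z) e).trans (C.val_rF k4 _ hz))
    simp only [TG, _root_.add_apply, ContinuousLinearMap.comp_apply, val_add, Pi.add_apply,
      val_iH1 S k4, val_iH2 S k4, val_sY h k4] at e1
    refine ⟨val_injective S k4 ((funext fun z => ?_).trans val_zero.symm),
      Y_ext h k4 (funext fun z => ?_) (funext fun z => ?_) ((C.van (by omega)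
        (.snd ℝ _ _ ∘L .snd ℝ _ _ ∘L fderiv ℝ f (y.pt k)) (fun a h1 h2 => (la a h1 h2).1.2.2)
        (fun a h1 h2 => (lf a h1 h2).2.2) x).trans hw.2.2.symm)⟩ <;> by_cases hz : z ∈ Ω
    · simpa using congrArg (f2 _ _) (e1 z hz)
    · exact (congrFun (H0.toTw.val (H0.nc_row (cb_uy h y)) k4 _) z).trans (op_zero _ _ _ C.cl
        (fun z hz => (congrFun (C.val_xC (by omega) x) z).trans (C.val_off (by omega) x z hz)) hz)
    · simpa using congrArg (fun v => f2 _ _ (s2 _ _ v)) (e1 z hz)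
    · exact (C.van (by omega) (𝔉.F0.ev k o.Pm z ∘L .fst ℝ _ _ ∘L fderiv ℝ f (y.pt k))
        (fun a h1 h2 => (la a h1 h2).1.1 z hz) (fun a h1 h2 => (lf a h1 h2).1 z hz) x).trans
        (hw.1 z hz).symm
    · simpa using congrArg (fun v => s2 _ _ (s2 _ _ v)) (e1 z hz)
    · exact (C.van (by omega) (𝔉.F0.ev k o.P2 z ∘L .fst ℝ _ _ ∘L .snd ℝ _ _ ∘L fderiv ℝ f (y.pt k))
        (fun a h1 h2 => (la a h1 h2).1.2.1 z hz) (fun a h1 h2 => (lf a h1 h2).2.1 z hz) x).trans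
        (hw.2.1 z hz).symm
  have F : Fr (rF k Ω d ∘L TT k f y ∘L xC k d) 0 :=
    ((cq.right _).left _).fr ((C.key cu cu' eu).symm ▸ fr)
  refine (F.surj_of_inj ((injective_iff_map_eq_zero _).2 fun x hx => ?_)
    (rF k Ω d (iH2 _ k o.Pg _ (sY o n m k w)))).imp fun x hx => (main x w hw hx).2
  obtain ⟨e1, e2⟩ := main x 0 ⟨fun z _ => congrFun val_zero z, fun z _ => congrFun val_zero z, rfl⟩
    (hx.trans (by simp only [map_zero]))
  have v0 := C.val_v (r := r) (by omega) x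
  have e3 := sC_sC' (r := r) h y.ht (xC k d x)
  have z0 := sC'_z (r := r) y.t (xC k d x)
  generalize sC' o r k y.t (xC k d x) = v at *
  have b := fun j hj => lin_boot A he hk y hf (j := j) (congrArg Prod.snd z0) e2
    ((sig_apply y v).trans ((congrArg _ e3).trans e1)) hj
  have h1 : ∀ j, k + 1 ≤ j → ∃ i, k ≤ i ∧ j = i + 1 := fun j hj => ⟨j - 1, by omega, by omega⟩
  have ha := Hs_of_all S (h := v.1) (by omega) fun j hj => by
    obtain ⟨i, hi, rfl⟩ := h1 j hj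
    exact (b i hi).elim fun g hg => ⟨g.1, congrArg Prod.fst hg⟩
  have hφ := Hs_of_all S (h := v.2.1) (by omega) fun j hj => by
    obtain ⟨i, hi, rfl⟩ := h1 j hj
    exact (b i hi).elim fun g hg => ⟨g.2.1, congrArg (·.2.1) hg⟩
  obtain ⟨a, φ, _⟩ := v
  obtain rfl : _ = 0 := z0
  have l1 := la _ ha fun z hz => (v0 z hz).1
  have k1 := kd _ hφ fun z hz => (v0 z hz).2
  have k2 := kc _ ha fun z hz => (v0 z hz).1
  rw [ofV_eq S (by omega) rfl] at l1 k1 k2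
  have e4 : ((a, φ, 0) : o.C r k) = (a, 0, 0) + (0, φ, 0) := by simp
  obtain rfl : φ = 0 := val_injective S (by omega) ((k1 (by
    rw [e4, map_add] at e2
    simpa only [Prod.fst_add, l1.2, zero_add, Prod.fst_zero] using congrArg Prod.fst e2)).trans val_zero.symm)
  obtain rfl : a = 0 := val_injective S (by omega) ((k2 (congrArg (·.2.1) e2)
    ((congrArg _ e3).trans e1)).trans val_zero.symm)
  refine val_injective S (by omega) ((C.val_xC (by omega) x).symm.trans ?_)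
  rw [← e3]
  exact (congrArg _ (map_zero _)).trans (val_zero.trans val_zero.symm)

end Crest.Agent.X212.Cyl58.Tad
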