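import Crest.Agent.X212.Cyl58.TdL
import Crest.Agent.X212.Cyl58.Oud
import Crest.Agent.X212.Num57.Nti
import Crest.Agent.X212.Dfl49.Df

/-! Row 212, TAd (helper58): the inner rows are onto on the side `S¹ × D³`, from the kernels. -/

set_option autoImplicit false
set_option linter.unusedSectionVars false
noncomputable section
open scoped Manifold ContDiff Topology
open MeasureTheory Set Function Filter

namespace Crest.Agent.X212.Cyl58.Tad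
open An M Nd18 Mod61 Nk89 Cht98 Rf65 Rdc90 Pte3 Eqv71 Wrd81 Spl54 Nt66 Sob92
open An.Job (isClopen_un)

section job
variable {Wi : Type} {X : Mf 4} {A κ lam : Type} [Fintype A] [Fintype κ] [Fintype lam]
  [DecidableEq lam] {M : Mark X A κ} {W : World M} {N : ML M lam} {Λ : Lns W N}
  {A' h : Type} [Fintype A'] [DecidableEq A'] [Fintype h] {r n : ℕ}
  {J : Job Wi Λ A' h r n} {c : M.Cl} {σ : Cel A'} {p : Prt A A' h} {U : Type} [Fintype U] {δ δ₀ : ℝ}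
  {b : Bp J c} {E : EC b p U δ} {q : Wi →₀ ℝ} {y : J.Obc c} {x : Pnt E.o r} {ψ : E.K}
  {μ : Ed c → Option U} {P : Set (Reg A)}

variable (E q x) in
/-- the linearised Dirac and curvature equations have no kernel over `Ω` -/
def Ker (Ω : Set (W.Z c).M) : Prop := ∀ g : E.o.C r 8 → E.o.Y n (min r 1) 8,
  RepF (EC.tot b p U δ q) g →
  (∀ φ ∈ Mod61.Hs (b.F p U δ).F0.toPre E.o.Pp, (∀ z ∉ Ω, φ z = 0) →
    (fderiv ℝ g (x.pt 8) (0, ofV _ 9 _ φ, 0)).1 = 0 → φ = 0) ∧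
  ∀ α ∈ Mod61.Hs (b.F p U δ).F0.toPre E.o.P1, (∀ z ∉ Ω, α z = 0) →
    (fderiv ℝ g (x.pt 8) (ofV _ 9 _ α, 0, 0)).2.1 = 0 → Nk89.row 8 x (ofV _ 9 _ α, 0) = 0 → α = 0

variable (H : CS σ E) (hy : J.Ov σ c y.s) (ch : E.Ch δ₀ σ μ y x ψ) (hP : PJ J c)
  (hF : ∀ a ∈ cylW c, ∀ β f, Bs (J.xs a).D β → Fz κ (lam ⊕ lam) 8 (Add46.jX J a) f β δ)
include H hy ch hP hF

theorem cq_ch (hδ : δ ≤ 1 / 16) : Map77.Aff E.o (Fs (b.F p U δ)) r n (min r 1) (EC.tot b p U δ q) ∧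
    ∀ g : E.o.C r 8 → E.o.Y n (min r 1) 8, RepF (EC.tot b p U δ q) g → Cyf70.Cq (TT 8 g x)
      ((Map77.bd E.o).FF (b.F p U δ).F0.toPre (Fs (b.F p U δ) x.t) 8 (Map77.uy (x0 x))) := by
  have eo := ch.ok
  let Y := H.toPG.ends U b eo.d0 eo.d1
  have hl : Y.Lit E.o E.R := ⟨eo.R5, eo.lit⟩
  have hf := fun i hi t ht => flt_ch H.toPG hy ch hP (i := i) hi (t := t) ht
  have A0 := Add46.aff_eq0 (r := 0) (n := 0) (m := 0) Y hl ch.z fun i k => hf i ((H.act_iff _ _).1 k)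
  have hs := Mon62.smU H.toPG hP ch.ov eo hδ ch.z hf
  have A1 := hs.aff.tot Y.ok hs.sm q
  obtain ⟨f0, h0⟩ := (Map77.adj_rem Y.ok).rp A0 8 (by norm_num)
  obtain ⟨C, c1, c2⟩ := tot_cpt (U := U) (δ := δ) H.toPG hP ch.ov q x.ht
  refine ⟨A1, fun g h1 => ((Ends.cq_two (X := Y) (by norm_num) hl A0 A1 h0 h1 (y := x0 x) (y' := x)
    rfl fun i hi k k0 => ?_).symm.trans (.of_eq (Nat27.TT_eq Y.ok (by norm_num) h0 _)) :)⟩
  have hi' := (H.act_iff _ _).1 hi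
  have l := fun r n m => Add46.loc_eq0 (r := r) (n := n) (m := m) (k := 8) Y hl hi
    (hP.nil _ i.1.2).1 k k0
  have bs := bs_sl Y hl ch.z (a := i) x.ht (hf i hi' _ x.ht)
  exact ⟨_, cyl_fz (Y := Add46.jX J i.1) bs (fun f => hF _ i.1.2 _ f bs) _ k k0, l _ _ _,
    loc_cpt Y (a := i) c1 c2 (l _ _ _)⟩

omit hy ch hP hF in
theorem ct (h3 : P ⊆ p.P') : Ct (o := E.o) (W.un c P) (Map77.bd (rf E x.t P P ∅)) x.t := by
  have h1 := h3.trans H.pok.sub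
  have k := (Nti57.pg_sp H.toPG h1 Subset.rfl).fam (b := b) (U := U) H.eo.d0 H.eo.d1
  have g : ∀ z ∈ W.un c P, (rf E x.t P P ∅).Pg z = E.o.Pg z := fun z hz => (indicator_of_mem hz _).trans
    (indicator_of_mem (biUnion_subset_biUnion_left h1 hz) _).symm
  exact ⟨H.F, x.ht, isClopen_un fun ρ k => H.pok.pc ρ (h1 k), (Map77.adj_rem k).hy _ x.ht,
    ⟨fun _ _ => rfl, fun _ _ _ => rfl, g, fun z hz => congrArg (idx _) (g z hz),
      fun z hz => congrArg (idx _) (g z hz), fun _ hz => (indicator_of_mem hz _).trans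
        (indicator_of_mem (biUnion_subset_biUnion_left h3 hz) _).symm, fun _ hz =>
      (indicator_of_mem hz _).trans (indicator_of_mem (biUnion_subset_biUnion_left h3 hz) _).symm⟩,
    fun z hz v e => e.symm.trans (DFunLike.congr_fun (off_pC (o := rf E x.t P P ∅) k.sub hz) v)⟩

theorem fr_res (h3 : P ⊆ p.P') (hd : Ix δ y P P 0) (z0 : ∀ z ∈ W.un c P, (E.o.Φ0 + x.φ) z = 0) :
    ∃ u, (b.F p U δ).F0.Cb u ∧ (∀ z ∈ W.un c P, u z = Map77.uy (x0 x) z) ∧ Fred93.Fr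
      ((Map77.bd (rf E x.t P P ∅)).FF (b.F p U δ).F0.toPre (Fs (b.F p U δ) x.t) 8 u) 0 := by
  have h1 := h3.trans H.pok.sub
  have k := (Nti57.pg_sp H.toPG h1 Subset.rfl).fam (b := b) (U := U) H.eo.d0 H.eo.d1
  refine ⟨_, Map77.cb_uy k (rx H x h1 h3 ∅), fun z hz => ?_,
    Nat27.idx_ff k (by norm_num) (Nti57.idx_res H hy ch hP hF h1 Subset.rfl h3 hd 0)⟩
  have k1 : ∀ a, (rx H x h1 h3 ∅).cfg.W a z = (x0 x).cfg.W a z := fun a => by
    refine congrArg₂ (· + ·) ?_ (congrArg (fun v => opL (idx _ _ v a)) (indicator_of_mem hz _))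
    rw [(rf E x.t P P ∅).A_eq]
    rfl
  have e : x.φ z = 0 := ((congrArg (· + x.φ z) (congrFun ch.z z)).trans (zero_add _)).symm.trans
    (z0 z hz)
  exact congrArg₂ (fun (w : Option κ → _) (v : E.o.m.V) => Map77.base (fun a _ => w a) (fun _ => v) z)
    (funext k1) (((zero_add _).trans ((indicator_of_mem hz _).trans e)).trans
      ((add_zero _).trans (congrFun ch.z z)).symm)

omit hy ch hP hF in
theorem rep_g {f : E.C → E.Y} (hf : E.Map q f) : (∃ g, RepF (EC.tot b p U δ q) g ∧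
    ∀ v, fderiv ℝ g (x.pt 8) v = (fderiv ℝ f (x.pt 8, ψ) (v, 0)).1) ∧ ∀ v,
    fderiv ℝ (fun v => (f (v, ψ)).2) (x.pt 8) v = (fderiv ℝ f (x.pt 8, ψ) (v, 0)).2 :=
  have d := HasFDerivAt.comp (g := f) (x.pt 8) ((hf.sm.contDiffAt ((open_C H.F).mem_nhds
    ⟨x.mem_U, trivial⟩)).differentiableAt (by simp)).hasFDerivAt (hasFDerivAt_prodMk_left (x.pt 8) ψ)
  ⟨⟨fun v => (f (v, ψ)).1, ⟨(hf.sm.comp (contDiffOn_id.prodMk contDiffOn_const)
    fun _ k => ⟨k, trivial⟩).fst, fun x => hf.e x ψ⟩, DFunLike.congr_fun d.fst.fderiv⟩,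
    DFunLike.congr_fun d.snd.fderiv⟩

/-- **the inner rows are onto** -/
theorem in_job (hδ : δ ≤ 1 / 16) (h3 : P ⊆ p.P') (hd : Ix δ y P P 0)
    (h0 : ∀ z ∈ W.un c P, y.x.Φ z = 0) (hc : ∀ i : p.H, (J.cut c i).supp ⊆ (W.un c P)ᶜ)
    (K : Ker E q x (W.un c P)) : Oud.In E (W.un c P) q x ψ := fun f hf e e1 e2 e3 e4 => by
  have C := ct (x := x) H h3
  have z0 : ∀ z ∈ W.un c P, (E.o.Φ0 + x.φ) z = 0 := fun z hz => by
    obtain ⟨u, ζ, k, -⟩ := ch.rep.e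
    exact (k.Φ z (biUnion_subset_biUnion_left (h3.trans H.pok.sub) hz)).trans
      ((congrArg _ ((congrArg _ (h0 z hz)).trans (map_zero _))).trans (cs_zero _ _))
  obtain ⟨⟨g, hg, d⟩, hL⟩ := rep_g (x := x) (ψ := ψ) H hf
  have la := fun α hα o => loc_a H hf ψ C.cl hc z0 (α := α) hα o
  have lf := fun φ hφ o => loc_f H hf ψ C.cl hc z0 (φ := φ) hφ o
  obtain ⟨a1, a2⟩ := cq_ch (q := q) H hy ch hP hF hδ
  obtain ⟨u', u1, u2, u3⟩ := fr_res H hy ch hP hF h3 hd z0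
  obtain ⟨u, hu⟩ := onto C (by norm_num) a1 hg (Map77.cb_uy H.F (x0 x)) u1 u2 (a2 g hg) u3
    (fun α hα o => by rw [d]; exact (la α hα o).1) (fun φ hφ o => by rw [d]; exact (lf φ hφ o).1)
    (K g hg).1 (K g hg).2 e.1 ⟨e1, e2, e3⟩
  have k := C.van (r := r) (k := 8) (by norm_num) (fderiv ℝ (fun v => (f (v, ψ)).2) (x.pt 8))
    (fun α hα o => (hL _).trans (la α hα o).2) (fun φ hφ o => (hL _).trans (lf φ hφ o).2) u
  exact ⟨(_, 0), Prod.ext ((d _).symm.trans hu) (((hL _).symm.trans k).trans e4.symm)⟩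

end job

section scene
open G75 Ins26 Dfl49
variable {κ lam : Type} [Fintype κ] [Fintype lam] [DecidableEq lam] (Lm : LM κ lam)

/-- **LEAF KER** (helper49) -/
def KerStmt : Prop := ∀ (S : Scene Lm) (D : S.Dat) i Wi r n
  (J : Job Wi (D.Λ i) (S.A ⊕ Unit) S.ls r n) c R j n₀ T Fn h₁, HD J c R j n₀ T → Pf Fn h₁ →
  PsAt R D Fn → Sml fun Adm => ∀ σ ∈ J.𝒦, ∀ δ q y, Adm q → FS J c R σ q y →
    ∀ b (E : EC b (pW J c (shX S {R}) σ R) _ δ) x ψ, CS σ E →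
      E.Ch δ σ (muF J c {hp R true, hp R false}) y x ψ → 8 * δ ≤ mu0 Fn →
      Ker E q x (D.W.pc c (hp R false))

/-- `TAd` -/
def TAd : Rf65.TP Lm := fun J c δ sh σ q y x => Oud.Ind J c δ sh σ q y x

variable {Lm}

/-- **D-TA** -/
theorem dta (K : KerStmt Lm) : DtaStmt Lm (TAd Lm) := fun S D i Wi r n J c R j n₀ T Fn h₁ h p ps => by
  obtain ⟨δ₀, d0, hF⟩ := exists_fz J c h.jr.gx.ok h.pj
  refine ⟨min δ₀ (min dl0 (mu0 Fn / 8)), lt_min d0 (lt_min dl0_pos (by linarith [mu0_pos Fn])),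
    fun δ hδ => (K S D i Wi r n J c R j n₀ T Fn h₁ h p ps).mono fun Adm k σ H q y a s f _ => ?_⟩
  have nb := Cqn41.Pd.nb_out h
  have pc := Cqn41.Pd.pc_one (M := S.M) h.c1 false
  have hR := Cqn41.Pd.HD.mem h
  obtain ⟨-, f1, f2⟩ := hF δ ⟨hδ.1, hδ.2.trans (min_le_left _ _)⟩
  refine ⟨fun l hl => ?_, fun b E x ψ g => ?_⟩
  · have hz := (H.ok.nb l).2.sub ⟨(0, 0), rfl⟩
    have k1 := nb l hz
    rw [biUnion_singleton, Oud.U_sd] at k1
    exact disjoint_left.1 (S.M.sys.w R).dj k1 (Oud.U_sd (M := S.M) false ▸ hl hz)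
  have cs : CS σ E := ⟨⟨H.ok, H.mem, H.loc.pok σ H.mem c _ _ _ (Oud.pc_two h.c1) Subset.rfl⟩,
    g.ch.ok, g.ch.ov, g.sm⟩
  have go := go_mono g.ch.go (Q := {hp R false}) fun _ k => .inr k
  have z := dixAt p ps i Wi _ _ r n J c δ y _ H.ok h.ds hR (pc _ rfl) (Cqn41.Pd.hp_self R false)
    (only_gx h.jr.gx h.ds hR H.mem s.sol.cell s.sol.inf) ⟨hδ.1, hδ.2.trans (min_le_right _ _)⟩ H.spl go s.fl
  have ix := H.spl.ex y _ _ pc Subset.rfl go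
  simp only [Rf65.ix, finsum_mem_singleton, z.1, z.2, add_zero] at ix
  rw [← Cqn41.Pd.un_one]
  refine in_job cs s.sol.ov g.ch h.pj f2 f1 (fun _ k => .inr k) ix
    (fun z hz => Job.Obc.zero s.ntf (Cqn41.Pd.un_one (W := D.W) _ ▸ hz)) (fun l => ?_) ?_
  · rw [Cqn41.Pd.un_one, ← Cqn41.Pd.pc_compl h.c1, ← Cqn41.Pd.un_one]
    exact H.ok.cut_sub (nb l)
  · rw [Cqn41.Pd.un_one]
    exact k σ H.mem δ q y a s b E x ψ cs g.ch
      (by linarith [hδ.2.trans ((min_le_right _ _).trans (min_le_right _ _))])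

end scene
end Crest.Agent.X212.Cyl58.Tad
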