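import Crest.Agent.X212.Cyl58.TdF
import Crest.Agent.X212.Nt66.Ln
import Crest.Agent.X212.Mp86.OuA

/-! Row 212, TAd (helper58): variations over a clopen set without spinor do not move the rows outside. -/

set_option autoImplicit false
set_option linter.unusedSectionVars false
noncomputable section
open scoped Manifold ContDiff Topology
open MeasureTheory Set Function Filter

namespace Crest.Agent.X212.Cyl58.Tad
open An M Nd18 Mod61 Nk89 Cht98 Rf65 Pte3 Eqv71 Nt66 Sob92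
open Cnt93 (Rh)

section sg
variable {M N : Type} [AddCommGroup N] {Ω : Set M} {u : M → N} {x : M}

open Classical in
/-- the sign `-1` on `Ω` -/
def sg (Ω : Set M) (u : M → N) : M → N := Ω.piecewise (-u) u

theorem sg_in (hx : x ∈ Ω) : sg Ω u x = -u x := if_pos hx
theorem sg_out (hx : x ∉ Ω) : sg Ω u x = u x := if_neg hx

theorem sg_ev [TopologicalSpace M] (hΩ : IsClopen Ω) (u : M → N) (x : M) :
    (x ∈ Ω ∧ sg Ω u =ᶠ[𝓝 x] -u) ∨ (x ∉ Ω ∧ sg Ω u =ᶠ[𝓝 x] u) :=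
  (em _).imp (fun k => ⟨k, (hΩ.2.eventually_mem k).mono fun _ => sg_in⟩)
    fun k => ⟨k, (hΩ.1.isOpen_compl.eventually_mem k).mono fun _ => sg_out⟩

theorem ind_sg {O : Set M} {v : M → N} (h1 : x ∈ Ω → u x = -v x) (h2 : x ∉ Ω → u x = v x) :
    O.indicator u x = sg Ω (O.indicator v) x := by
  by_cases j : x ∈ O <;> by_cases k : x ∈ Ω <;> simp [j, k, sg_in, sg_out, h1, h2]

end sg

section gen
variable {E : Type} [NormedAddCommGroup E] [NormedSpace ℝ E] [FiniteDimensional ℝ E]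
  [MeasurableSpace E] [BorelSpace E]
  {HM : Type} [TopologicalSpace HM] {I : ModelWithCorners ℝ E HM} [I.Boundaryless]
  {M : Type} [TopologicalSpace M] [ChartedSpace HM M] [IsManifold I ∞ M]
  [MeasurableSpace M] [BorelSpace M] [T2Space M] [SecondCountableTopology M]
  {ι : Type} [Fintype ι] {lam : Type} [Fintype lam] {B : Base M ι lam} {G : Geo I M ι lam}
  {O Ω : Set M} {r : ℕ}

theorem ceq_sg (hB : B.OK I) (hG : G.OK B) (hO : IsOpen O) (hΩ : IsClopen Ω) {m : Md M ι lam}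
    {W W' : m.Cn} {Φ Φ' : M → m.V} {z : EuclideanSpace ℂ (Fin r)} (a : Ad0 ⟨m, W, Φ, z⟩ B G)
    (hW : ∀ x ∈ O, ∀ a, W' a x = W a x) (hΦ : ∀ x ∈ O, Φ' x = sg Ω Φ x) :
    CEq G.F ⟨m, W, Φ, z⟩ ⟨m, W', Φ', z⟩ O id (fun x b a => B.P b a x) B.l (sg Ω m.p) 1 := by
  have k := ceq_refl hB hG a hO
  refine ⟨⟨fun x hx => ?_, fun x hx => ?_, fun x hx => ?_, fun x hx => ?_, fun x hx b => ?_,
    fun x hx s => ?_⟩, fun x hx b => ?_, fun x hx => ?_, k.z⟩ <;>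
    rcases sg_ev hΩ m.p x with ⟨h, e⟩ | ⟨h, e⟩
  · exact (k.m.su x hx).neg.congr_of_eventuallyEq (e.filter_mono nhdsWithin_le_nhds) e.self_of_nhds
  · exact (k.m.su x hx).congr_of_eventuallyEq (e.filter_mono nhdsWithin_le_nhds) e.self_of_nhds
  · simpa [sg_in h] using k.m.uu x hx
  · simpa [sg_out h] using k.m.uu x hx
  · simpa [sg_in h] using k.m.uu' x hx
  · simpa [sg_out h] using k.m.uu' x hx
  · simpa [sg_in h] using k.m.J x hx
  · simpa [sg_out h] using k.m.J x hx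
  · simpa [sg_in h] using k.m.ρ x hx b
  · simpa [sg_out h] using k.m.ρ x hx b
  · simpa [sg_in h] using k.m.j x hx s
  · simpa [sg_out h] using k.m.j x hx s
  · have := congrArg Neg.neg (k.W x hx b)
    simp only [id, hW x hx, sg_in h, Pre.D_def, dv_congr e, dv_neg, ContinuousLinearMap.comp_neg,
      ContinuousLinearMap.neg_comp] at this ⊢
    rw [← neg_zero, ← this]
    abel
  · simpa only [id, hW x hx, sg_out h, Pre.D_def, dv_congr e] using k.W x hx b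
  · refine (hΦ x hx).trans ((sg_in h).trans ((congrArg Neg.neg (k.Φ x hx)).trans ?_))
    simp [sg_in h]
  · exact (hΦ x hx).trans ((sg_out h).trans ((k.Φ x hx).trans (by rw [sg_out h])))

end gen

/-- the derivative at `0` -/
def Der {Y : Type} [NormedAddCommGroup Y] [NormedSpace ℝ Y] (f : ℝ → Y) (a : Y) : Prop :=
  HasDerivAt f a 0

theorem der_ev {Y Z : Type} [NormedAddCommGroup Y] [NormedSpace ℝ Y] [NormedAddCommGroup Z]
    [NormedSpace ℝ Z] {f : ℝ → Y} {a : Y} (h : Der f a) (L : Y →L[ℝ] Z)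
    (e : ∀ s, L (f (-s)) = L (f s)) : L a = 0 := der_even (L.hasFDerivAt.comp_hasDerivAt 0 h) e

variable {Wi : Type} {X : Mf 4} {A κ lam : Type} [Fintype A] [Fintype κ] [Fintype lam]
  [DecidableEq lam] {M : Mark X A κ} {W : World M} {N : ML M lam} {Λ : Lns W N}
  {A' h : Type} [Fintype A'] [DecidableEq A'] [Fintype h] {r n : ℕ}
  {J : Job Wi Λ A' h r n} {c : M.Cl} {σ : Cel A'} {p : Prt A A' h} {U : Type} [Fintype U] {δ : ℝ}
  {b : Bp J c} {E : EC b p U δ} {q : Wi →₀ ℝ} {O Ω : Set (W.Z c).M} (H : CS σ E)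
  {f : E.C → E.Y} (hf : E.Map q f) (ψ : E.K)

theorem row_eq (hJ : J.OK) (hσ : σ ∈ J.𝒦) {s : A' → ℝ} (v : J.Ov σ c s) (hO : IsClopen O) {i : h}
    (u : i ∈ J.unc c) (hi : (J.cut c i).supp ⊆ O) {m : Md (W.Z c).M (Option κ) (lam ⊕ lam)}
    {V V' : m.Cn} {Φ Φ' : (W.Z c).M → m.V} {z : EuclideanSpace ℂ (Fin r)} {w : (W.Z c).M → CL m.V m.V}
    (k1 : CR0 (J.B c) (J.G c s) (J.B c) (J.G c s) O O id (fun x b a => (J.B c).P b a x) (J.B c).l
      ⟨m, V, Φ, z⟩ ⟨m, V', Φ', z⟩ w 1) (e : w (J.cut c i).x0 = m.p (J.cut c i).x0)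
    (a : (J.cut c i).H (J.B c) m) :
    (J.cut c i).T (J.B c) (J.G c s).F m V' a - J.σc c q s i ⟨m, V', Φ', z⟩ a =
      (J.cut c i).T (J.B c) (J.G c s).F m V a - J.σc c q s i ⟨m, V, Φ, z⟩ a := by
  have hB := Λ.B_ok J.m c
  have hG := hJ.G_ok hσ v
  have g := lg_refl hB hG hO.2
  have k0 := cr0_refl hB hG hO.2 k1.adm k1.off
  have ρ := Cnt93.rel_refl hB hi
  have k' := hJ.ct σ hσ s v.1 c v.2 i u
  obtain ⟨a, rfl⟩ := Mp86.Ou.sur_Rh (g.of_ceq k1.adm k1.adm k0.e) hO.2 hi 1 a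
  have s0 := congrArg₂ (· - ·) (Cnt93.T_nat (g.of_ceq k1.adm k1.adm k0.e) ρ 1 k' k' a)
    (hJ.σc_nat hσ v hO u hi q k0 1 a)
  have s1 := congrArg₂ (· - ·) (Cnt93.T_nat (g.of_ceq k1.adm k1.adm' k1.e) ρ 1 k' k' a)
    (hJ.σc_nat hσ v hO u hi q k1 1 a)
  simp only [Rh, e] at s0 s1 ⊢
  exact s1.trans s0.symm

include H hf

/-- the rows at two points that differ by the sign `-1` on `Ω` over `O` -/
theorem rows (hO : IsClopen O) (hΩ : IsClopen Ω) {x x' : Pnt E.o r} (ht : x'.t = x.t)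
    (hz : x'.z = x.z) (o : ∀ z ∉ O, (E.o.Φ0 + x.φ) z = 0) (o' : ∀ z ∉ O, (E.o.Φ0 + x'.φ) z = 0)
    (hW : ∀ z ∈ O, x'.α z = x.α z) (hΦ : ∀ z ∈ O, (E.o.Φ0 + x'.φ) z = sg Ω (E.o.Φ0 + x.φ) z) :
    (∀ z ∈ O, (b.F p U δ).F0.val 8 E.o.Pm (f (x'.pt 8, ψ)).1.1 z =
      sg Ω ((b.F p U δ).F0.val 8 E.o.Pm (f (x.pt 8, ψ)).1.1) z) ∧
    (∀ z ∈ O, z ∉ Ω → (b.F p U δ).F0.val 8 E.o.P2 (f (x'.pt 8, ψ)).1.2.1 z =
      (b.F p U δ).F0.val 8 E.o.P2 (f (x.pt 8, ψ)).1.2.1 z) ∧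
    (f (x'.pt 8, ψ)).1.2.2 = (f (x.pt 8, ψ)).1.2.2 ∧
    ((∀ i : p.H, (J.cut c i).supp ⊆ O \ Ω) → (f (x'.pt 8, ψ)).2 = (f (x.pt 8, ψ)).2) := by
  have a0 : Ad0 x.cfg (J.B c) (J.G c (b.θ p U x.t)) := x.ad0 H.F
  have a1 : Ad0 x'.cfg (J.B c) (J.G c (b.θ p U x.t)) := ht ▸ x'.ad0 H.F
  have R := hf.e x ψ
  have R' := hf.e x' ψ
  have r1 := hf.row x' ψ
  have r2 := fun i => (hf.nrm x' ψ i).trans (hf.nrm x ψ i).symm
  generalize f (x'.pt 8, ψ) = e' at *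
  obtain ⟨α, φ, z', t, hα, hφ, ht'⟩ := x'
  obtain rfl : t = x.t := ht
  obtain rfl : z' = x.z := hz
  have v := H.ovx x
  have hB := Λ.B_ok J.m c
  have hG := H.ok.G_ok H.mem v
  have g := lg_refl hB hG hO.2
  have t := H.ok.τ_nat H.mem v hO q
  have k0 := cr0_refl hB hG hO.2 a0 o
  have k1 : CR0 _ _ _ _ O O id _ _ x.cfg _ _ 1 := ⟨a0, a1, o, o', ceq_sg hB hG hO.2 hΩ a0
    (fun z hz a => congrArg (fun v => _ + opL (idx _ _ v a)) (hW z hz)) hΦ⟩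
  obtain ⟨d1, d2, d3, d4⟩ := tot_ev (b := b) (U := U) (δ := δ) (t := x.t) (q := q) x.cfg
  obtain ⟨e1, e2, e3, e4⟩ := tot_ev (b := b) (U := U) (δ := δ) (t := x.t) (q := q)
    (⟨α, φ, x.z, x.t, hα, hφ, ht'⟩ : Pnt E.o r).cfg
  refine ⟨fun z hz => ?_, fun z hz k => (congrFun R'.C z).trans (Eq.trans ?_ (congrFun R.C z).symm),
    Prod.ext (R'.S.trans ((funext fun i => (e3 i).trans ((congrArg Neg.neg
      ((t.S k1 i).trans (t.S k0 i).symm)).trans (d3 i).symm)).trans R.S.symm))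
      (R'.R.trans ((e4.trans d4.symm).trans R.R.symm)), fun hc => Prod.ext (funext fun i => ?_) (funext r2)⟩
  · have k2 := (e1 z).trans (t.eD g k1 hz)
    have k3 := (d1 z).trans (t.eD g k0 hz)
    rw [Circle.coe_one, Eqv71.cs_one] at k2 k3
    refine (congrFun R'.D z).trans ((ind_sg (fun k => ?_) fun k => ?_).trans
      (congrArg (sg Ω · z) R.D.symm))
    · rw [sg_in k] at k2
      exact k2.trans (congrArg Neg.neg k3.symm)
    · rw [sg_out k] at k2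
      exact k2.trans k3.symm
  · have k2 := (e2 z).trans (t.eC g k1 hz)
    rw [sg_out k] at k2
    exact (ind_sg (fun j => (k j).elim) fun _ => k2.trans ((d2 z).trans (t.eC g k0 hz)).symm).trans
      (sg_out k)
  exact (r1 i).trans ((row_eq H.ok H.mem v hO (Job.unc_of H.pok.pc (H.pok.nb i i.2))
    ((hc i).trans sdiff_subset) k1 (sg_out (hc i ⟨(0, 0), rfl⟩).2) _).trans (hf.row x ψ i).symm)

omit H hf in
theorem der_out {F : ℝ → E.Y} {a : E.Y} (d : Der F a)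
    (k : ∀ s, (∀ z ∉ Ω, (b.F p U δ).F0.val 8 E.o.Pm (F (-s)).1.1 z = (b.F p U δ).F0.val 8 _ (F s).1.1 z) ∧
      (∀ z ∉ Ω, (b.F p U δ).F0.val 8 E.o.P2 (F (-s)).1.2.1 z = (b.F p U δ).F0.val 8 _ (F s).1.2.1 z) ∧
      (F (-s)).1.2.2 = (F s).1.2.2 ∧ (F (-s)).2 = (F s).2) : Yin Ω a.1 ∧ a.2 = 0 :=
  ⟨⟨fun z hz => der_ev d ((b.F p U δ).F0.ev 8 E.o.Pm z ∘L .fst ℝ _ _ ∘L .fst ℝ _ _) fun s => (k s).1 z hz,
    fun z hz => der_ev d ((b.F p U δ).F0.ev 8 E.o.P2 z ∘L .fst ℝ _ _ ∘L .snd ℝ _ _ ∘L .fst ℝ _ _)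
      fun s => (k s).2.1 z hz, der_ev d (.snd ℝ _ _ ∘L .snd ℝ _ _ ∘L .fst ℝ _ _) fun s => (k s).2.2.1⟩,
    der_ev d (.snd ℝ _ _) fun s => (k s).2.2.2⟩

variable (hΩ : IsClopen Ω) (hc : ∀ i : p.H, (J.cut c i).supp ⊆ Ωᶜ) {x : Pnt E.o r}
  (h0 : ∀ z ∈ Ω, (E.o.Φ0 + x.φ) z = 0)
include hΩ hc h0

/-- variations of the connection over `Ω` -/
theorem loc_a {α} (hα : α ∈ Mod61.Hs (b.F p U δ).F0.toPre E.o.P1) (o : ∀ z ∉ Ω, α z = 0) :
    (Yin Ω (fderiv ℝ f (x.pt 8, ψ) ((ofV _ 9 _ α, 0, 0), 0)).1 ∧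
      (fderiv ℝ f (x.pt 8, ψ) ((ofV _ 9 _ α, 0, 0), 0)).1.1 = 0) ∧
      (fderiv ℝ f (x.pt 8, ψ) ((ofV _ 9 _ α, 0, 0), 0)).2 = 0 := by
  have d := der_ln0 H.F x hα (zero_mem _) hf.sm ψ
  rw [ofV_zero H.F.sup (by norm_num)] at d
  have e : ∀ s, (ln x hα (zero_mem _) s).φ = x.φ := fun s =>
    (congrArg (x.φ + ·) (smul_zero s)).trans (add_zero _)
  have e' : ∀ s, ∀ z ∉ Ω, (ln x hα (zero_mem _) s).α z = x.α z := fun s z k =>
    (congrArg (fun v => x.α z + s • v) (o z k)).trans ((congrArg _ (smul_zero s)).trans (add_zero _))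
  have k := der_out (Ω := Ω) d fun s => by
    obtain ⟨k1, k2, k3, k4⟩ := rows H hf ψ hΩ.compl isClopen_empty (x := ln x hα (zero_mem _) s)
      (x' := ln x hα (zero_mem _) (-s)) rfl rfl (fun z k => by rw [e]; exact h0 z (not_not.1 k))
      (fun z k => by rw [e]; exact h0 z (not_not.1 k)) (fun z k => (e' _ z k).trans (e' _ z k).symm)
      fun z _ => by rw [e, e, sg_out (notMem_empty z)]
    exact ⟨fun z k => (k1 z k).trans (sg_out (notMem_empty z)), fun z k => k2 z k (notMem_empty z),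
      k3, k4 fun i => sdiff_empty.symm ▸ hc i⟩
  refine ⟨⟨k.1, val_injective H.F.sup (by norm_num) ((funext fun z => ?_).trans val_zero.symm)⟩, k.2⟩
  by_cases hz : z ∈ Ω
  swap
  · exact k.1.1 z hz
  have k : ∀ s, (b.F p U δ).F0.val 8 E.o.Pm (f ((ln x hα (zero_mem _) s).pt 8, ψ)).1.1 z = 0 := fun s => by
    have := ((rows H hf ψ isClopen_univ hΩ (x := ln x hα (zero_mem _) s) rfl rfl
      (fun z k => (k trivial).elim) (fun z k => (k trivial).elim) (fun _ _ => rfl) fun z _ => by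
        by_cases k : z ∈ Ω
        · rw [sg_in k, e, h0 z k, neg_zero]
        · exact (sg_out k).symm).1 z trivial).trans (sg_in hz)
    rwa [eq_neg_iff_add_eq_zero, ← two_smul ℝ, smul_eq_zero_iff_right two_ne_zero] at this
  exact der_ev d ((b.F p U δ).F0.ev 8 E.o.Pm z ∘L .fst ℝ _ _ ∘L .fst ℝ _ _)
    fun s => (k _).trans (k s).symm

/-- variations of the spinor over `Ω` -/
theorem loc_f {φ} (hφ : φ ∈ Mod61.Hs (b.F p U δ).F0.toPre E.o.Pp) (o : ∀ z ∉ Ω, φ z = 0) :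
    Yin Ω (fderiv ℝ f (x.pt 8, ψ) ((0, ofV _ 9 _ φ, 0), 0)).1 ∧
      (fderiv ℝ f (x.pt 8, ψ) ((0, ofV _ 9 _ φ, 0), 0)).2 = 0 := by
  have d := der_ln0 H.F x (zero_mem _) hφ hf.sm ψ
  rw [ofV_zero H.F.sup (by norm_num)] at d
  have e : ∀ s z, (E.o.Φ0 + (ln x (zero_mem _) hφ s).φ) z = (E.o.Φ0 + x.φ) z + s • φ z := fun s z =>
    (add_assoc _ _ _).symm
  have e' : ∀ s, (ln x (zero_mem _) hφ s).α = x.α := fun s =>
    (congrArg (x.α + ·) (smul_zero s)).trans (add_zero _)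
  refine der_out d fun s => ?_
  obtain ⟨k1, k2, k3, k4⟩ := rows H hf ψ isClopen_univ hΩ (x := ln x (zero_mem _) hφ s)
    (x' := ln x (zero_mem _) hφ (-s)) rfl rfl (fun z k => (k trivial).elim)
    (fun z k => (k trivial).elim) (fun z k => by rw [e', e']) fun z _ => by
      by_cases k : z ∈ Ω
      · rw [sg_in k, e, e, h0 z k, zero_add, zero_add, neg_smul]
      · rw [sg_out k, e, e, o z k, smul_zero, smul_zero]
  exact ⟨fun z k => (k1 z trivial).trans (sg_out k), fun z k => k2 z trivial k,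
    k3, k4 fun i z k => ⟨trivial, hc i k⟩⟩

end Crest.Agent.X212.Cyl58.Tad
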